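import Claimed.Agent.R286.Cav.Defs
import Claimed.Agent.R286.Prof.Defs
import Claimed.Agent.R286.Sc.LinkClk
import Claimed.Agent.R286.Sc.Contract
import Claimed.Agent.R286.Exit.ClkLim
import Claimed.Agent.R286.Exit.ClkStat
import Claimed.Agent.R286.Exit.ClkLip
import Claimed.Agent.R286.Fd.Contract

/-!
# Row 286 (S0533), PE Section 4, Cav/Gam : `Γ(K)` ON THE PATH CLOCK      (owner + prover helper266; prefix `cvg_`, defs `cvgPi`, `CvgCh`, `cvgAl`)

**`cvg_main`**: for bounded monotone clocks `b, h`, every valid position `p` (also inside a jump) and every horizon `τ ≥ K(1,1)`: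
the limit along the chains which defines `cvGamC n b h p` EXISTS and `cvGamC n b h p = pfGh n b h τ (pfKp n b h p)` (scalar library, variance time, mass profile `α_K`).
Route (variance time only):   on a chain `F` the scalar site has the profile `cvgPi` with the values `K_F = h + b S_F`;   `cvGam = scaGam (α_F) τ (K_F(p))` (`slk_nu_ov`, `sc_ann_Gam`, `slc_Gam_step` of 102);
sandwich `α_K(r - η) ≤ α_F(r) ≤ α_K(r + η) + 2^{-k}`, `η = b(1) sup |S_F - S|` (`exit_clk_lim_stat`), so `∫ |α_F - α_K| ≤ 2 η + τ 2^{-k}`;   `slc_Gam_stab` + continuity in time (`sc_x_cont`).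
-/

set_option autoImplicit false

namespace Claimed.Agent.R286

open MeasureTheory ProbabilityTheory Filter Topology Set Function

/-! ## 1. the profile of a chain with arbitrary values -/

/-- the profile of the chain `ps` with the values `V` (`c` = already revealed), then an annealed step up to the horizon `τ` -/
noncomputable def cvgPi (τ : ℝ) (V : GhPos → ℝ) : ℝ → List GhPos → List (ℝ × ℝ)
  | c, [] => [(1, τ - c)]
  | c, p :: ps => (p.u, V p - c) :: cvgPi τ V (V p) ps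

/-- admissible chain of values above the level `c` -/
def CvgCh (τ : ℝ) (V : GhPos → ℝ) (c : ℝ) (ps : List GhPos) : Prop :=
  ps.Pairwise (· ≤ ·) ∧ (∀ x ∈ ps, x.Ok 1) ∧ ps.Pairwise (fun x y => V x ≤ V y) ∧ (∀ x ∈ ps, c ≤ V x ∧ V x ≤ τ) ∧ c ≤ τ

/-- the mass profile of the completed chain, as a coefficient on `[0,τ]` -/
noncomputable def cvgAl (τ : ℝ) (V : GhPos → ℝ) (ps : List GhPos) (r : ℝ) : ℝ := if r < τ then scAl (cvgPi τ V 0 ps) r else 1

theorem cvg_eqns_cite : True := by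
  have := @cvgPi.eq_1
  have := @cvgPi.eq_2
  have := @cvgPi.eq_def
  have := @cvgPi.induct
  have := @CvgCh.eq_1
  have := @cvgAl.eq_1
  trivial

theorem CvgCh.tail {τ : ℝ} {V : GhPos → ℝ} {c : ℝ} {p : GhPos} {ps : List GhPos} (h : CvgCh τ V c (p :: ps)) : CvgCh τ V (V p) ps := by
  obtain ⟨h1, h2, h3, h4, -⟩ := h
  rw [List.pairwise_cons] at h1 h3
  exact ⟨h1.2, fun x hx => h2 x (List.mem_cons_of_mem _ hx), h3.2,
    fun x hx => ⟨h3.1 x hx, (h4 x (List.mem_cons_of_mem _ hx)).2⟩, (h4 p List.mem_cons_self).2⟩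

theorem cvg_len (τ : ℝ) (V : GhPos → ℝ) : ∀ (ps : List GhPos) (c : ℝ), scLen (cvgPi τ V c ps) = τ - c
  | [], c => by simp [cvgPi, scLen]
  | p :: ps, c => by
      simp only [cvgPi, scLen, cvg_len τ V ps]
      ring

theorem cvg_mem (τ : ℝ) (V : GhPos → ℝ) : ∀ (ps : List GhPos) (c : ℝ), ∀ q ∈ cvgPi τ V c ps, q.1 = 1 ∨ ∃ x ∈ ps, q.1 = x.u
  | [], c, q, hq => by
      simp only [cvgPi, List.mem_singleton] at hq
      left; rw [hq]
  | p :: ps, c, q, hq => by
      simp only [cvgPi, List.mem_cons] at hq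
      rcases hq with rfl | hq
      · exact Or.inr ⟨p, List.mem_cons_self, rfl⟩
      · rcases cvg_mem τ V ps _ q hq with h | ⟨x, hx, h⟩
        · exact Or.inl h
        · exact Or.inr ⟨x, List.mem_cons_of_mem _ hx, h⟩

theorem cvg_adm {τ : ℝ} {V : GhPos → ℝ} : ∀ (ps : List GhPos) (c : ℝ), CvgCh τ V c ps → ScAdm 1 (cvgPi τ V c ps)
  | [], c, h => by
      intro q hq
      simp only [cvgPi, List.mem_singleton] at hq
      rw [hq]
      exact ⟨zero_le_one, le_rfl, sub_nonneg.2 h.2.2.2.2⟩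
  | p :: ps, c, h => by
      intro q hq
      simp only [cvgPi, List.mem_cons] at hq
      rcases hq with rfl | hq
      · exact ⟨(h.2.1 p List.mem_cons_self).1, (h.2.1 p List.mem_cons_self).2.1, sub_nonneg.2 (h.2.2.2.1 p List.mem_cons_self).1⟩
      · exact cvg_adm ps _ h.tail q hq

theorem cvg_inc {τ : ℝ} {V : GhPos → ℝ} : ∀ (ps : List GhPos) (c : ℝ), CvgCh τ V c ps → ScInc (cvgPi τ V c ps)
  | [], c, _ => by simp [cvgPi, ScInc]
  | p :: ps, c, h => by
      unfold ScInc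
      simp only [cvgPi]
      rw [List.pairwise_cons]
      refine ⟨fun q hq => ?_, cvg_inc ps _ h.tail⟩
      rcases cvg_mem τ V ps _ q hq with e | ⟨x, hx, e⟩
      · rw [e]; exact (h.2.1 p List.mem_cons_self).2.1
      · rw [e]
        show p.u ≤ x.u
        exact slc_u_le ((List.pairwise_cons.1 h.1).1 x hx)

theorem cvg_al_cons (τ : ℝ) (V : GhPos → ℝ) (p : GhPos) (ps : List GhPos) (c r : ℝ) :
    scAl (cvgPi τ V c (p :: ps)) (r - c) = if V p ≤ r then scAl (cvgPi τ V (V p) ps) (r - V p) else p.u := by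
  simp only [cvgPi, scAl, sub_le_sub_iff_right, sub_sub_sub_cancel_right]

/-- lower bound: `L` is below the mass of every position whose value has passed `r` -/
theorem cvg_al_ge {τ : ℝ} (V : GhPos → ℝ) {r L : ℝ} (hr : r < τ) (hL : L ≤ 1) :
    ∀ (ps : List GhPos) (c : ℝ), (∀ x ∈ ps, r < V x → L ≤ x.u) → L ≤ scAl (cvgPi τ V c ps) (r - c)
  | [], c, _ => by
      simp only [cvgPi, scAl, sub_le_sub_iff_right, if_neg (not_le.2 hr)]
      exact hL
  | p :: ps, c, h => by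
      rw [cvg_al_cons]
      split_ifs with h1
      · exact cvg_al_ge V hr hL ps _ fun x hx => h x (List.mem_cons_of_mem _ hx)
      · exact h p List.mem_cons_self (not_le.1 h1)

theorem cvg_al_le (τ : ℝ) (V : GhPos → ℝ) (r : ℝ) :
    ∀ (ps : List GhPos) (c : ℝ), ps.Pairwise (· ≤ ·) → ∀ q ∈ ps, r < V q → scAl (cvgPi τ V c ps) (r - c) ≤ q.u
  | [], _, _, q, hq, _ => absurd hq List.not_mem_nil
  | p :: ps, c, h, q, hq, hr => by
      rw [cvg_al_cons]
      rw [List.pairwise_cons] at h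
      split_ifs with h1
      · rcases List.mem_cons.1 hq with rfl | hq'
        · exact absurd h1 (not_le.2 hr)
        · exact cvg_al_le τ V r ps _ h.2 q hq' hr
      · rcases List.mem_cons.1 hq with rfl | hq'
        · exact le_rfl
        · exact slc_u_le (h.1 q hq')

theorem cvg_al_coef {τ : ℝ} {V : GhPos → ℝ} {ps : List GhPos} (h : CvgCh τ V 0 ps) : ScCoef 1 τ (cvgAl τ V ps) := by
  have hadm := cvg_adm ps 0 h
  have hlen : scLen (cvgPi τ V 0 ps) = τ := by rw [cvg_len, sub_zero]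
  refine ⟨fun x _ y _ hxy => ?_, fun t _ => ?_⟩
  · unfold cvgAl
    by_cases hy : y < τ
    · rw [if_pos hy, if_pos (lt_of_le_of_lt hxy hy)]
      exact sc_Al_mono hadm.pos (cvg_inc ps 0 h) (by rw [hlen]; exact lt_of_le_of_lt hxy hy) (by rw [hlen]; exact hy) hxy
    · rw [if_neg hy]
      split_ifs
      · exact (sc_Al_mem zero_le_one hadm x).2
      · exact le_rfl
  · unfold cvgAl
    split_ifs
    · exact sc_Al_mem zero_le_one hadm t
    · exact ⟨zero_le_one, le_rfl⟩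

/-! ## 2. the scalar site of a step path -/

theorem cvg_sc_ok (P : SkStp) (K lam : ℕ → ℝ) : SlkOk (cvSc P K lam) := by
  intro e he
  simp only [cvSc, List.mem_map] at he
  obtain ⟨j, -, rfl⟩ := he
  rfl

theorem cvg_sc_dh (P : SkStp) {K : ℕ → ℝ} (hK : Monotone K) : ∀ e ∈ cvSc P K (fun _ => 1), 0 ≤ e.dh := by
  intro e he
  simp only [cvSc, List.mem_map] at he
  obtain ⟨j, -, rfl⟩ := he
  have := hK (Nat.le_succ j)
  simp only [one_mul]
  exact sub_nonneg.2 this

theorem cvg_sc_length (P : SkStp) (K lam : ℕ → ℝ) : (cvSc P K lam).length = P.length := by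
  simp [cvSc]

theorem cvg_sc_pi (P : SkStp) (K : ℕ → ℝ) :
    slkPi (cvSc P K fun _ => 1) = (List.range P.length).map fun j => (skMs 1 P j, K (j + 1) - K j) := by
  simp only [slkPi, cvSc, List.map_map]
  refine List.map_congr_left fun j _ => ?_
  simp

theorem cvg_len_range (m K : ℕ → ℝ) (t : ℕ) : scLen ((List.range t).map fun j => (m j, K (j + 1) - K j)) = K t - K 0 := by
  induction t with
  | zero => simp [scLen]
  | succ t ih =>
    rw [List.range_succ, List.map_append, sc_len_append, ih]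
    simp [scLen]

theorem cvg_sc_T (P : SkStp) (K : ℕ → ℝ) {t : ℕ} (ht : t ≤ P.length) : slkT (cvSc P K fun _ => 1) t = K t - K 0 := by
  unfold slkT
  rw [slk_Pi_take, cvg_sc_pi, ← List.map_take, List.take_range, min_eq_left ht, cvg_len_range]

theorem cvg_rep_lt {j t : ℕ} (ht : t < j) (b : Fin 2) : (obT2 j).rep t b = 0 := by
  unfold GhTree.rep
  apply le_antisymm _ (Fin.zero_le _)
  apply Finset.min'_le
  simp only [Finset.mem_filter, Finset.mem_univ, true_and]
  right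
  exact ht

theorem cvg_rep_ge {j t : ℕ} (ht : j ≤ t) (b : Fin 2) : (obT2 j).rep t b = b := by
  unfold GhTree.rep
  have : (Finset.univ.filter fun c : Fin 2 => c = b ∨ t < (obT2 j).sh b c) = {b} := by
    ext c
    simp only [Finset.mem_filter, Finset.mem_univ, true_and, Finset.mem_singleton]
    refine ⟨fun hc => hc.elim id fun h => ?_, Or.inl⟩
    have h' : t < j := h
    omega
  simp only [this, Finset.min'_singleton]

/-- **`Γ(K_j)` of a step path in the scalar step calculus** -/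
theorem cvg_gamK (P : SkStp) {K : ℕ → ℝ} (hK : Monotone K) (h0 : K 0 = 0) {j : ℕ} (hj : j ≤ P.length) :
    cvGamK P K j = scGam (scLC 1) (slkPi (cvSc P K fun _ => 1)) (K j) := by
  have e := slk_nu_ov (a := 1) one_ne_zero (cvg_sc_ok P K fun _ => 1) (cvg_sc_dh P hK) (rep := (obT2 j).rep) (k := j)
    (by rw [cvg_sc_length]; exact hj) (fun t ht b => cvg_rep_lt ht b) (fun t ht b => cvg_rep_ge ht b)
  rw [cvg_sc_T P K hj, h0, sub_zero] at e
  rw [← e]
  unfold cvGamK cvNuS GhTree.nu ghSp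
  congr 1
  funext _ σ
  simp [skOv]

/-! ## 3. the chain of two clocks: dictionary index / position -/

theorem cvg_idx_get : ∀ (l : List GhPos), l.Pairwise (· < ·) → ∀ (k : ℕ) (hk : k < l.length),
    ghIdx l ((l[k] : GhPos) : WithTop GhPos) = k + 1
  | [], _, k, hk => absurd hk (by simp)
  | x :: xs, h, 0, _ => by
      rw [List.pairwise_cons] at h
      rw [brg_t_idx_coe]
      simp only [List.getElem_cons_zero]
      rw [List.filter_cons_of_pos (by simp)]
      have hnil : (xs.filter fun y => decide (y ≤ x)) = [] := by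
        rw [List.filter_eq_nil_iff]
        intro y hy
        have := h.1 y hy
        simp only [decide_eq_true_eq, not_le]
        exact this
      rw [hnil]
      rfl
  | x :: xs, h, k + 1, hk => by
      rw [List.pairwise_cons] at h
      have hk' : k < xs.length := by simpa using hk
      have IH := cvg_idx_get xs h.2 k hk'
      rw [brg_t_idx_coe] at IH ⊢
      simp only [List.getElem_cons_succ]
      rw [List.filter_cons_of_pos (by simpa using (h.1 _ (List.getElem_mem hk')).le), List.length_cons, IH]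

theorem cvg_ms (a : ℝ) (b h : ℝ → ℝ) : ∀ (l : List GhPos) (b0 h0 : ℝ) (k : ℕ) (hk : k < l.length),
    skMs a (skCStp a b h b0 h0 l) k = l[k].u
  | [], _, _, k, hk => absurd hk (by simp)
  | x :: xs, b0, h0, 0, _ => by simp [skMs, skCStp]
  | x :: xs, b0, h0, k + 1, hk => by
      have hk' : k < xs.length := by simpa using hk
      have IH := cvg_ms a b h xs (ghAt a b x) (ghAt a h x) k hk'
      simp only [skMs, skCStp, List.map_cons, List.getD_cons_succ, List.getElem_cons_succ] at IH ⊢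
      exact IH

theorem cvg_cumH (a : ℝ) (b h : ℝ → ℝ) {l : List GhPos} (hl : l.Pairwise (· < ·)) {x : GhPos} (hx : x ∈ l) (b0 h0 : ℝ) :
    skCumH (skCStp a b h b0 h0 l) (ghIdx l (x : WithTop GhPos)) = ghAt a h x - h0 := by
  rw [← slk_T_eq]
  exact slc_T a b h x l b0 h0 hl hx

theorem cvg_swap (a : ℝ) (b h : ℝ → ℝ) : ∀ (l : List GhPos) (b0 h0 : ℝ),
    (skCStp a b h b0 h0 l).map SkInc.db = (skCStp a h b h0 b0 l).map SkInc.dh
  | [], _, _ => rfl
  | x :: xs, b0, h0 => by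
      simp only [skCStp, List.map_cons]
      rw [cvg_swap a b h xs]

theorem cvg_cumB (a : ℝ) (b h : ℝ → ℝ) {l : List GhPos} (hl : l.Pairwise (· < ·)) {x : GhPos} (hx : x ∈ l) (b0 h0 : ℝ) :
    skCumB (skCStp a b h b0 h0 l) (ghIdx l (x : WithTop GhPos)) = ghAt a b x - b0 := by
  rw [← cvg_cumH a h b hl hx h0 b0]
  unfold skCumB skCumH
  rw [List.map_take, List.map_take, cvg_swap]

theorem cvg_pi_range (τ : ℝ) (V : GhPos → ℝ) (m K : ℕ → ℝ) : ∀ (ps : List GhPos) (i : ℕ),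
    (∀ (j : ℕ) (hj : j < ps.length), V ps[j] = K (i + j + 1) ∧ m (i + j) = ps[j].u) →
    (List.range' i ps.length).map (fun j => (m j, K (j + 1) - K j)) ++ [(1, τ - K (i + ps.length))] = cvgPi τ V (K i) ps
  | [], i, _ => by simp [cvgPi]
  | p :: ps, i, h => by
      have h0 := h 0 (by simp)
      simp only [List.getElem_cons_zero, Nat.add_zero] at h0
      have IH := cvg_pi_range τ V m K ps (i + 1) fun j hj => by
        have := h (j + 1) (by simpa using hj)
        simp only [List.getElem_cons_succ] at this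
        have e1 : i + 1 + j + 1 = i + (j + 1) + 1 := by omega
        have e2 : i + 1 + j = i + (j + 1) := by omega
        rw [e1, e2]
        exact this
      simp only [List.length_cons, List.range'_succ, List.map_cons, List.cons_append, cvgPi]
      rw [h0.1, h0.2, ← IH]
      have e3 : i + 1 + ps.length = i + (ps.length + 1) := by omega
      rw [e3]

/-! ## 4. the scalar clock of a chain -/

theorem cvg_cum_mono (f : SkInc → ℝ) (P : SkStp) (hf : ∀ e ∈ P, 0 ≤ f e) : Monotone fun j => ((P.take j).map f).sum := by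
  refine monotone_nat_of_le_succ fun j => ?_
  rw [List.take_add_one, List.map_append, List.sum_append]
  have : 0 ≤ ((P[j]?.toList).map f).sum := by
    rcases hj : P[j]? with _ | e
    · simp
    · have he : e ∈ P := List.mem_of_getElem? hj
      simpa using hf e he
  linarith

theorem cvg_K_zero (n : ℕ) (P : SkStp) : cvK n P 0 = 0 := by
  simp [cvK, skCumH, skCumB]

theorem cvg_K_mono {n : ℕ} (hn : 0 < n) {P : SkStp} (hP : SkAdm 1 P) : Monotone (cvK n P) := by
  intro i j hij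
  unfold cvK cvS
  have h1 : skCumH P i ≤ skCumH P j := cvg_cum_mono SkInc.dh P (fun e he => (hP.2 e he).2.2.2) hij
  have h2 : skCumB P i ≤ skCumB P j := cvg_cum_mono SkInc.db P (fun e he => (hP.2 e he).2.2.1) hij
  have h3 : 0 ≤ skCumB P i := by
    have := cvg_cum_mono SkInc.db P (fun e he => (hP.2 e he).2.2.1) (Nat.zero_le i)
    simpa [skCumB] using this
  have h4 := fd_S_mono hn one_pos P hP 0 hij
  have h5 := (fd_S_range hn one_pos P hP 0 i).1
  have h6 : skCumB P i * obS n 1 P 0 i ≤ skCumB P j * obS n 1 P 0 j := mul_le_mul h2 h4 h5 (h3.trans h2)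
  linarith

section chain

variable {n : ℕ} {b h : ℝ → ℝ}

/-- the values of the scalar clock of the chain `l` at the positions -/
noncomputable def cvgV (n : ℕ) (b h : ℝ → ℝ) (l : List GhPos) (x : GhPos) : ℝ :=
  cvK n (skCStp 1 b h 0 0 l) (ghIdx l (x : WithTop GhPos))

theorem cvgV_eqns_cite : True := by
  have := @cvgV.eq_1
  trivial

theorem cvg_V_eq {l : List GhPos} (hl : l.Pairwise (· < ·)) {x : GhPos} (hx : x ∈ l) :
    cvgV n b h l x = ghAt 1 h x + ghAt 1 b x * obS n 1 (skCStp 1 b h 0 0 l) 0 (ghIdx l (x : WithTop GhPos)) := by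
  unfold cvgV cvK cvS
  rw [cvg_cumH 1 b h hl hx, cvg_cumB 1 b h hl hx, sub_zero, sub_zero]

theorem cvg_chain_adm (hb : GhClk1 1 b) (hh : GhClk1 1 h) {l : List GhPos} (hl : l.Pairwise (· < ·)) (hok : ∀ x ∈ l, x.Ok 1) :
    SkAdm 1 (skCStp 1 b h 0 0 l) :=
  sk_stp_chain_adm zero_le_one hb hh l 0 0 (hl.imp fun h => h.le) hok
    (fun p hp => gh_os_at_nonneg zero_le_one hb (hok p hp).2.2.1) (fun p hp => gh_os_at_nonneg zero_le_one hh (hok p hp).2.2.1)

theorem cvg_totH (hh : GhClk1 1 h) {l : List GhPos} (hl : l.Pairwise (· < ·)) (hok : ∀ x ∈ l, x.Ok 1) (b : ℝ → ℝ) :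
    skTotH (skCStp 1 b h 0 0 l) ≤ h 1 := by
  have h0 : 0 ≤ h 1 := hh.2.trans (hh.1 ⟨le_rfl, zero_le_one⟩ ⟨zero_le_one, le_rfl⟩ zero_le_one)
  have := slc_stp_len_le (τ := h 1) zero_le_one hh le_rfl b l 0 0
    ⟨hl.imp fun h => h.le, hok, fun x hx => gh_os_at_nonneg zero_le_one hh (hok x hx).2.2.1, h0⟩
  rwa [slk_len, sub_zero] at this

theorem cvg_totB (hb : GhClk1 1 b) {l : List GhPos} (hl : l.Pairwise (· < ·)) (hok : ∀ x ∈ l, x.Ok 1) (h : ℝ → ℝ) :
    skTotB (skCStp 1 b h 0 0 l) ≤ b 1 := by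
  have := cvg_totH hb hl hok h
  unfold skTotH at this
  unfold skTotB
  rwa [cvg_swap]

theorem cvg_K_top (hn : 0 < n) (hb : GhClk1 1 b) (hh : GhClk1 1 h) {l : List GhPos} (hl : l.Pairwise (· < ·)) (hok : ∀ x ∈ l, x.Ok 1) :
    cvK n (skCStp 1 b h 0 0 l) l.length ≤ h 1 + b 1 := by
  have hP := cvg_chain_adm hb hh hl hok
  have hN : (skCStp 1 b h 0 0 l).length = l.length := slc_stp_length 1 b h l 0 0
  unfold cvK cvS
  have e1 : skCumH (skCStp 1 b h 0 0 l) l.length = skTotH (skCStp 1 b h 0 0 l) := by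
    unfold skCumH skTotH; rw [← hN, List.take_length]
  have e2 : skCumB (skCStp 1 b h 0 0 l) l.length = skTotB (skCStp 1 b h 0 0 l) := by
    unfold skCumB skTotB; rw [← hN, List.take_length]
  rw [e1, e2]
  have h1 := cvg_totH hh hl hok b
  have h2 := cvg_totB hb hl hok h
  have h3 := fd_S_range hn one_pos _ hP 0 l.length
  have h4 : 0 ≤ skTotB (skCStp 1 b h 0 0 l) := by
    unfold skTotB
    exact List.sum_nonneg fun x hx => by
      obtain ⟨e, he, rfl⟩ := List.mem_map.1 hx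
      exact (hP.2 e he).2.2.1
  nlinarith

theorem cvg_ch (hn : 0 < n) (hb : GhClk1 1 b) (hh : GhClk1 1 h) {τ : ℝ} (hτ : h 1 + b 1 ≤ τ) {l : List GhPos}
    (hl : l.Pairwise (· < ·)) (hok : ∀ x ∈ l, x.Ok 1) : CvgCh τ (cvgV n b h l) 0 l := by
  have hP := cvg_chain_adm hb hh hl hok
  have hK := cvg_K_mono hn hP
  have htop := cvg_K_top hn hb hh hl hok
  have h00 : 0 ≤ cvK n (skCStp 1 b h 0 0 l) l.length := by
    have := hK (Nat.zero_le l.length)
    rwa [cvg_K_zero] at this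
  refine ⟨hl.imp fun h => h.le, hok, hl.imp fun {x y} hxy => ?_, fun x _ => ⟨?_, ?_⟩, by linarith⟩
  · exact hK (brg_t_idx_mono l (WithTop.coe_le_coe.2 hxy.le))
  · have := hK (Nat.zero_le (ghIdx l (x : WithTop GhPos)))
    rwa [cvg_K_zero] at this
  · exact (hK (brg_t_idx_coe_le l x)).trans (htop.trans hτ)

/-- **the scalar number of a chain in variance time** -/
theorem cvg_chain (hn : 0 < n) (hb : GhClk1 1 b) (hh : GhClk1 1 h) {τ : ℝ} (hτ : h 1 + b 1 ≤ τ) {l : List GhPos}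
    (hl : l.Pairwise (· < ·)) (hok : ∀ x ∈ l, x.Ok 1) (p : GhPos) :
    cvGam n (skCStp 1 b h 0 0 l) (ghIdx l (p : WithTop GhPos))
      = scaGam (scLC 1) (cvgAl τ (cvgV n b h l) l) τ (cvgV n b h l p) := by
  have hP := cvg_chain_adm hb hh hl hok
  have hK := cvg_K_mono hn hP
  have htop := cvg_K_top hn hb hh hl hok
  have hch := cvg_ch hn hb hh hτ hl hok
  have hN : (skCStp 1 b h 0 0 l).length = l.length := slc_stp_length 1 b h l 0 0
  have hlen : scLen (cvgPi τ (cvgV n b h l) 0 l) = τ := by rw [cvg_len, sub_zero]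
  have hidx : ghIdx l (p : WithTop GhPos) ≤ l.length := brg_t_idx_coe_le l p
  have h0 : 0 ≤ cvgV n b h l p := by
    have := hK (Nat.zero_le (ghIdx l (p : WithTop GhPos)))
    rwa [cvg_K_zero] at this
  have h1 : cvgV n b h l p ≤ cvK n (skCStp 1 b h 0 0 l) l.length := hK hidx
  have hpi : slkPi (cvSc (skCStp 1 b h 0 0 l) (cvK n (skCStp 1 b h 0 0 l)) fun _ => 1)
      ++ [(1, τ - cvK n (skCStp 1 b h 0 0 l) l.length)] = cvgPi τ (cvgV n b h l) 0 l := by
    have := cvg_pi_range τ (cvgV n b h l) (skMs 1 (skCStp 1 b h 0 0 l)) (cvK n (skCStp 1 b h 0 0 l)) l 0 fun j hj => by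
      refine ⟨?_, ?_⟩
      · unfold cvgV
        rw [cvg_idx_get l hl j hj]
        congr 1; omega
      · rw [Nat.zero_add]; exact cvg_ms 1 b h l 0 0 j hj
    rw [cvg_K_zero, Nat.zero_add, ← List.range_eq_range'] at this
    rw [cvg_sc_pi, hN]
    exact this
  unfold cvGam
  rw [cvg_gamK _ hK (cvg_K_zero n _) (by rw [hN]; exact hidx),
    slc_Gam_step (slk_LC_BI 1) hch.2.2.2.2 (cvg_al_coef hch) (cvg_adm l 0 hch) (cvg_inc l 0 hch) hlen
      (fun r hr => by unfold cvgAl; rw [if_pos hr.2]) h0 (h1.trans (htop.trans hτ)), ← hpi,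
    sc_ann_Gam one_ne_zero (by linarith) _ h0]
  · rfl
  · rw [cvg_sc_pi, hN, cvg_len_range, cvg_K_zero, sub_zero]
    exact h1

end chain

/-! ## 5. the scalar clock of the path and its mass profile -/

section path

variable {n : ℕ} {b h : ℝ → ℝ}

theorem cvg_S_le_one (hn : 0 < n) (hb : GhClk1 1 b) (hh : GhClk1 1 h) {p : GhPos} (hp : p.Ok 1) : skCS n 1 b h p ≤ 1 := by
  obtain ⟨h0, -, -, h1, h2⟩ := exit_clk_SB hn one_pos ⟨hb, hh⟩ hp hp le_rfl
  nlinarith

theorem cvg_Kp_mono (hn : 0 < n) (hb : GhClk1 1 b) (hh : GhClk1 1 h) {p p' : GhPos} (hp : p.Ok 1) (hp' : p'.Ok 1) (hpp : p ≤ p') :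
    pfKp n b h p ≤ pfKp n b h p' := by
  unfold pfKp
  obtain ⟨h0, h1, -⟩ := exit_clk_SB hn one_pos ⟨hb, hh⟩ hp hp' hpp
  have h2 := gh_os_at_mono zero_le_one hh hp.2.2.2 hp'.2.2.1 hpp
  have h3 := gh_os_at_mono zero_le_one hb hp.2.2.2 hp'.2.2.1 hpp
  have h4 := gh_os_at_nonneg zero_le_one hb hp.2.2.1
  have h5 : ghAt 1 b p * skCS n 1 b h p ≤ ghAt 1 b p' * skCS n 1 b h p' := mul_le_mul h3 h1 h0 (h4.trans h3)
  linarith

theorem cvg_Kp_nonneg (hn : 0 < n) (hb : GhClk1 1 b) (hh : GhClk1 1 h) {p : GhPos} (hp : p.Ok 1) : 0 ≤ pfKp n b h p := by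
  unfold pfKp
  have h0 := (exit_clk_SB hn one_pos ⟨hb, hh⟩ hp hp le_rfl).1
  have h2 := gh_os_at_nonneg zero_le_one hh hp.2.2.1
  have h4 := gh_os_at_nonneg zero_le_one hb hp.2.2.1
  positivity

theorem cvg_at_le (hb : GhClk1 1 b) {p : GhPos} (hp : p.Ok 1) : ghAt 1 b p ≤ b 1 := by
  have := gh_os_at_le_top zero_le_one hb hp
  rwa [gh_os_at_top 1 b zero_le_one] at this

theorem cvg_Kp_le (hn : 0 < n) (hb : GhClk1 1 b) (hh : GhClk1 1 h) {p : GhPos} (hp : p.Ok 1) : pfKp n b h p ≤ h 1 + b 1 := by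
  unfold pfKp
  have h0 := (exit_clk_SB hn one_pos ⟨hb, hh⟩ hp hp le_rfl).1
  have h1 := cvg_S_le_one hn hb hh hp
  have h2 := cvg_at_le hh hp
  have h3 := cvg_at_le hb hp
  have h4 := gh_os_at_nonneg zero_le_one hb hp.2.2.1
  nlinarith

theorem cvg_posA_le {u v : ℝ} (h : u ≤ v) : ghPosA u ≤ ghPosA v := by
  rw [gh_os_pos_le_iff]
  rcases h.lt_or_eq with h | h
  · exact Or.inl (by simpa [slc_posA_u] using h)
  · exact Or.inr ⟨by simpa [slc_posA_u] using h, le_rfl⟩

/-- the scalar clock has passed `r` at the position `x`: the mass profile at the time `r` is at most the mass of `x` -/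
theorem cvg_alK_le (hn : 0 < n) (hb : GhClk1 1 b) (hh : GhClk1 1 h) {x : GhPos} (hx : x.Ok 1) {r : ℝ} (hr : r < pfKp n b h x) :
    pfAl n b h r ≤ x.u := by
  have hsub : {v : ℝ | v ∈ Ioo 0 1 ∧ pfKu n b h v ≤ r} ⊆ Ioc 0 x.u := by
    intro v hv
    refine ⟨hv.1.1, ?_⟩
    by_contra hlt
    push Not at hlt
    have hle : x ≤ ghPosA v := by
      rw [gh_os_pos_le_iff]
      left
      rwa [slc_posA_u]
    have h1 := cvg_Kp_mono hn hb hh hx (gh_os_posA_ok hv.1.1.le hv.1.2.le) hle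
    have h3 : pfKp n b h (ghPosA v) ≤ r := hv.2
    linarith
  have h2 := ENNReal.toReal_mono (b := volume (Ioc 0 x.u)) (by simp) (measure_mono hsub)
  rw [Real.volume_Ioc, sub_zero, ENNReal.toReal_ofReal hx.1] at h2
  exact h2

/-- the scalar clock has not passed `r` after the mass `g`: the mass profile at the time `r` is at least `g` -/
theorem cvg_alK_ge (hn : 0 < n) (hb : GhClk1 1 b) (hh : GhClk1 1 h) {g : ℝ} (h0 : 0 ≤ g) (h1 : g ≤ 1) {r : ℝ}
    (hr : pfKu n b h g ≤ r) : g ≤ pfAl n b h r := by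
  have hsub : Ioo 0 g ⊆ {v : ℝ | v ∈ Ioo 0 1 ∧ pfKu n b h v ≤ r} := by
    intro v hv
    refine ⟨⟨hv.1, hv.2.trans_le h1⟩, ?_⟩
    exact (cvg_Kp_mono hn hb hh (gh_os_posA_ok hv.1.le (hv.2.le.trans h1)) (gh_os_posA_ok h0 h1) (cvg_posA_le hv.2.le)).trans hr
  have h2 := ENNReal.toReal_mono (slc_vol_ne_top 1 (pfKu n b h) r) (measure_mono hsub)
  rw [Real.volume_Ioo, sub_zero, ENNReal.toReal_ofReal h0] at h2
  exact h2

/-! ## 6. the sandwich -/

theorem cvg_lower (hn : 0 < n) (hb : GhClk1 1 b) (hh : GhClk1 1 h) {τ η : ℝ} {V : GhPos → ℝ} {l : List GhPos}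
    (hok : ∀ x ∈ l, x.Ok 1) (hV : ∀ x ∈ l, |V x - pfKp n b h x| ≤ η) {r : ℝ} (hr : r < τ) :
    pfAl n b h (r - η) ≤ scAl (cvgPi τ V 0 l) r := by
  have := cvg_al_ge V hr (slc_alK_le zero_le_one (pfKu n b h) (r - η)) l 0 fun x hx hrx =>
    cvg_alK_le hn hb hh (hok x hx) (by have := (abs_le.1 (hV x hx)).2; linarith)
  rwa [sub_zero] at this

theorem cvg_upper (hn : 0 < n) (hb : GhClk1 1 b) (hh : GhClk1 1 h) {τ η : ℝ} {V : GhPos → ℝ} {l : List GhPos} {k : ℕ}
    {F0 : Finset GhPos} (hl : SlcFine 1 k F0 l) (hch : CvgCh τ V 0 l) (hV : ∀ x ∈ l, |V x - pfKp n b h x| ≤ η) (r : ℝ) :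
    scAl (cvgPi τ V 0 l) r ≤ pfAl n b h (r + η) + 1 / 2 ^ k := by
  have h2 := fun q hq => cvg_al_le τ V r l 0 hl.le q hq
  rw [sub_zero] at h2
  have hδ : (0 : ℝ) ≤ 1 / 2 ^ k := by positivity
  have h3 : scAl (cvgPi τ V 0 l) r ≤ 1 := (sc_Al_mem zero_le_one (cvg_adm l 0 hch) r).2
  have hpass : ∀ i : ℕ, i ≤ 2 ^ k → ¬ pfKu n b h (1 * i / 2 ^ k) ≤ r + η → scAl (cvgPi τ V 0 l) r ≤ 1 * i / 2 ^ k := by
    intro i hi hc
    have hq := hl.2.2.1 i hi
    have h4 := (abs_le.1 (hV _ hq)).1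
    have h5 : r + η < pfKp n b h (ghPosA (1 * i / 2 ^ k)) := not_le.1 hc
    have := h2 _ hq (by linarith)
    rwa [slc_posA_u] at this
  have key : ∀ i : ℕ, i ≤ 2 ^ k → pfKu n b h (1 * i / 2 ^ k) ≤ r + η ∨ scAl (cvgPi τ V 0 l) r ≤ pfAl n b h (r + η) + 1 / 2 ^ k := by
    intro i
    induction i with
    | zero =>
      intro hi
      by_cases hc : pfKu n b h (1 * (0 : ℕ) / 2 ^ k) ≤ r + η
      · exact Or.inl hc
      · right
        have := hpass 0 hi hc
        have h0 := slc_alK_nonneg 1 (pfKu n b h) (r + η)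
        simp only [Nat.cast_zero, mul_zero, zero_div] at this
        unfold pfAl
        linarith
    | succ i ih =>
      intro hi
      rcases ih (by omega) with hle | hle
      · by_cases hc : pfKu n b h (1 * ((i + 1 : ℕ) : ℝ) / 2 ^ k) ≤ r + η
        · exact Or.inl hc
        · right
          have := hpass (i + 1) hi hc
          have hi' : (i : ℝ) ≤ 2 ^ k := by
            have : ((i : ℕ) : ℝ) ≤ ((2 ^ k : ℕ) : ℝ) := Nat.cast_le.2 (by omega)
            simpa using this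
          have hg := cvg_alK_ge hn hb hh (g := 1 * i / 2 ^ k) (by positivity)
            (by rw [div_le_iff₀ (by positivity)]; linarith) hle
          have e : 1 * ((i + 1 : ℕ) : ℝ) / 2 ^ k = 1 * i / 2 ^ k + 1 / 2 ^ k := by
            push_cast; ring
          rw [e] at this
          linarith
      · exact Or.inr hle
  rcases key (2 ^ k) le_rfl with hle | hle
  · have e : 1 * ((2 ^ k : ℕ) : ℝ) / 2 ^ k = 1 := by
      push_cast; field_simp
    rw [e] at hle
    have := cvg_alK_ge hn hb hh zero_le_one le_rfl hle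
    linarith
  · exact hle

/-- shift of a bounded monotone function costs `2 η` in `L¹` -/
theorem cvg_shift {A : ℝ → ℝ} (hA : Monotone A) (h0 : ∀ r, 0 ≤ A r) (h1 : ∀ r, A r ≤ 1) {τ η : ℝ} (hη : 0 ≤ η) :
    ∫ r in (0 : ℝ)..τ, (A (r + η) - A (r - η)) ≤ 2 * η := by
  have hi : ∀ x y : ℝ, IntervalIntegrable A volume x y := fun x y => hA.intervalIntegrable
  have hi1 : IntervalIntegrable (fun r => A (r + η)) volume 0 τ :=
    (hA.comp (monotone_id.add_const η)).intervalIntegrable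
  have hi2 : IntervalIntegrable (fun r => A (r - η)) volume 0 τ :=
    (Monotone.intervalIntegrable (fun x y hxy => hA (by linarith)))
  rw [intervalIntegral.integral_sub hi1 hi2, intervalIntegral.integral_comp_add_right, intervalIntegral.integral_comp_sub_right,
    intervalIntegral.integral_interval_sub_interval_comm (hi _ _) (hi _ _) (hi _ _)]
  have e1 : ∫ x in (0 + η)..(0 - η), A x = - ∫ x in (0 - η)..(0 + η), A x := intervalIntegral.integral_symm _ _
  have e2 : ∫ x in (τ + η)..(τ - η), A x = - ∫ x in (τ - η)..(τ + η), A x := intervalIntegral.integral_symm _ _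
  have b1 : 0 ≤ ∫ x in (0 - η)..(0 + η), A x := intervalIntegral.integral_nonneg (by linarith) fun x _ => h0 x
  have b2 : ∫ x in (τ - η)..(τ + η), A x ≤ ∫ _x in (τ - η)..(τ + η), (1 : ℝ) :=
    intervalIntegral.integral_mono_on (by linarith) (hi _ _) intervalIntegrable_const fun x _ => h1 x
  rw [intervalIntegral.integral_const, smul_eq_mul, mul_one] at b2
  rw [e1, e2]
  linarith

/-- **`L¹` distance of the coefficient of a fine chain to the mass profile of the scalar clock of the path** -/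
theorem cvg_l1 (hn : 0 < n) (hb : GhClk1 1 b) (hh : GhClk1 1 h) {τ η : ℝ} (hτ0 : 0 ≤ τ) (hτ : pfKu n b h 1 ≤ τ) (hη : 0 ≤ η)
    {V : GhPos → ℝ} {l : List GhPos} {k : ℕ} {F0 : Finset GhPos} (hl : SlcFine 1 k F0 l) (hch : CvgCh τ V 0 l)
    (hV : ∀ x ∈ l, |V x - pfKp n b h x| ≤ η) :
    ∫ r in (0 : ℝ)..τ, |cvgAl τ V l r - pfAl n b h r| ≤ 2 * η + τ / 2 ^ k := by
  have hA : Monotone (pfAl n b h) := slc_alK_mono 1 (pfKu n b h)
  have hA0 : ∀ r, 0 ≤ pfAl n b h r := slc_alK_nonneg 1 (pfKu n b h)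
  have hA1 : ∀ r, pfAl n b h r ≤ 1 := slc_alK_le zero_le_one (pfKu n b h)
  have hcoef := cvg_al_coef hch
  have hi0 : IntervalIntegrable (cvgAl τ V l) volume 0 τ :=
    MonotoneOn.intervalIntegrable (by rw [uIcc_of_le hτ0]; exact hcoef.1)
  have hi1 : IntervalIntegrable (fun r => pfAl n b h (r + η) - pfAl n b h (r - η)) volume 0 τ :=
    ((hA.comp (monotone_id.add_const η)).intervalIntegrable).sub
      (Monotone.intervalIntegrable (fun x y hxy => hA (by linarith)))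
  have hpt : ∀ r ∈ Icc (0 : ℝ) τ, |cvgAl τ V l r - pfAl n b h r| ≤ (pfAl n b h (r + η) - pfAl n b h (r - η)) + 1 / 2 ^ k := by
    intro r hr
    have hδ : (0 : ℝ) ≤ 1 / 2 ^ k := by positivity
    have m1 : pfAl n b h (r - η) ≤ pfAl n b h r := hA (by linarith)
    have m2 : pfAl n b h r ≤ pfAl n b h (r + η) := hA (by linarith)
    unfold cvgAl
    by_cases hrτ : r < τ
    · rw [if_pos hrτ]
      have l1 := cvg_lower hn hb hh hl.2.1 hV hrτ
      have l2 := cvg_upper hn hb hh hl hch hV r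
      rw [abs_le]
      constructor <;> linarith
    · have e : r = τ := le_antisymm hr.2 (not_lt.1 hrτ)
      have t1 : 1 ≤ pfAl n b h r := cvg_alK_ge hn hb hh zero_le_one le_rfl (by rw [e]; exact hτ)
      rw [if_neg hrτ, le_antisymm (hA1 r) t1, sub_self, abs_zero]
      linarith
  calc ∫ r in (0 : ℝ)..τ, |cvgAl τ V l r - pfAl n b h r|
      ≤ ∫ r in (0 : ℝ)..τ, ((pfAl n b h (r + η) - pfAl n b h (r - η)) + 1 / 2 ^ k) :=
        intervalIntegral.integral_mono_on hτ0 (hi0.sub hA.intervalIntegrable).abs (hi1.add intervalIntegrable_const) hpt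
    _ = (∫ r in (0 : ℝ)..τ, (pfAl n b h (r + η) - pfAl n b h (r - η))) + τ / 2 ^ k := by
        rw [intervalIntegral.integral_add hi1 intervalIntegrable_const, intervalIntegral.integral_const, sub_zero, smul_eq_mul]
        ring
    _ ≤ 2 * η + τ / 2 ^ k := by
        have := cvg_shift hA hA0 hA1 (τ := τ) hη
        linarith

/-! ## 7. the limit along the chains -/

/-- **the limit**, horizon `τ ≥ h(1) + b(1)` -/
theorem cvg_tendsto (hn : 0 < n) (hb : GhClk1 1 b) (hh : GhClk1 1 h) {τ : ℝ} (hτ0 : 0 < τ) (hτ : h 1 + b 1 ≤ τ) {p : GhPos}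
    (hp : p.Ok 1) :
    Tendsto (fun F : Finset GhPos => cvGam n (skCStp 1 b h 0 0 (ghPs 1 F)) (ghIdx (ghPs 1 F) (p : WithTop GhPos))) atTop
      (𝓝 (pfGh n b h τ (pfKp n b h p))) := by
  have hb1 : 0 ≤ b 1 := hb.2.trans (hb.1 ⟨le_rfl, zero_le_one⟩ ⟨zero_le_one, le_rfl⟩ zero_le_one)
  have hαK : ScCoef 1 τ (pfAl n b h) := slc_alK zero_le_one τ (pfKu n b h)
  have hcont := (sc_x_cont one_pos hτ0 hαK).1
  have ht0 : pfKp n b h p ∈ Icc 0 τ := ⟨cvg_Kp_nonneg hn hb hh hp, (cvg_Kp_le hn hb hh hp).trans hτ⟩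
  rw [Metric.tendsto_atTop]
  intro ε hε
  obtain ⟨δ, hδ, H⟩ := slc_Gam_stab (slk_LC_BI 1) zero_le_one hτ0.le (half_pos hε)
  obtain ⟨δ2, hδ2, H2⟩ := Metric.continuousOn_iff.1 hcont _ ht0 (ε / 2) (half_pos hε)
  set η : ℝ := min (δ / 4) (δ2 / 2) with hη
  have hη0 : 0 < η := lt_min (by positivity) (by positivity)
  obtain ⟨k, hk⟩ := slc_pow_small (C := τ) (half_pos hδ)
  obtain ⟨F0, hF0⟩ := exit_clk_lim_stat hn one_pos (b := b) (h := h) ⟨hb, hh⟩ (δ := η / (b 1 + 1)) (by positivity)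
  refine ⟨ghGrid 1 k ∪ (F0 ∪ {p}), fun F hF => ?_⟩
  have hfine := slc_fine_ps 1 zero_le_one k (F0 ∪ {p}) hF
  have hF0F : F0 ⊆ F := fun x hx => hF (Finset.mem_union_right _ (Finset.mem_union_left _ hx))
  have hpl : p ∈ ghPs 1 F := hfine.2.2.2 p (Finset.mem_union_right _ (Finset.mem_singleton_self p)) hp
  have hch := cvg_ch hn hb hh hτ hfine.1 hfine.2.1
  have hV : ∀ x ∈ ghPs 1 F, |cvgV n b h (ghPs 1 F) x - pfKp n b h x| ≤ η := by
    intro x hx
    have hxF := gh_os_ps_mem.1 hx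
    have h1 := (hF0 F hF0F x hxF.1 hxF.2).1
    rw [cvg_V_eq hfine.1 hx]
    unfold pfKp
    have e : ghAt 1 h x + ghAt 1 b x * obS n 1 (skCStp 1 b h 0 0 (ghPs 1 F)) 0 (ghIdx (ghPs 1 F) (x : WithTop GhPos))
        - (ghAt 1 h x + ghAt 1 b x * skCS n 1 b h x)
        = ghAt 1 b x * (obS n 1 (ckStp 1 b h (ghPs 1 F)) 0 (ghIdx (ghPs 1 F) (x : WithTop GhPos)) - skCS n 1 b h x) := by
      unfold ckStp; ring
    rw [e, abs_mul, abs_of_nonneg (gh_os_at_nonneg zero_le_one hb hxF.2.2.2.1)]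
    calc ghAt 1 b x * |obS n 1 (ckStp 1 b h (ghPs 1 F)) 0 (ghIdx (ghPs 1 F) (x : WithTop GhPos)) - skCS n 1 b h x|
        ≤ b 1 * (η / (b 1 + 1)) := mul_le_mul (cvg_at_le hb hxF.2) h1 (abs_nonneg _) hb1
      _ ≤ η := by
        rw [← mul_div_assoc, div_le_iff₀ (by linarith)]
        nlinarith
  have hl1 := cvg_l1 hn hb hh hτ0.le ((cvg_Kp_le hn hb hh (gh_os_posA_ok zero_le_one le_rfl)).trans hτ) hη0.le hfine hch hV
  have hl1' : ∫ r in (0 : ℝ)..τ, |cvgAl τ (cvgV n b h (ghPs 1 F)) (ghPs 1 F) r - pfAl n b h r| ≤ δ := by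
    have : η ≤ δ / 4 := min_le_left _ _
    linarith
  have htF : cvgV n b h (ghPs 1 F) p ∈ Icc 0 τ := hch.2.2.2.1 p hpl
  rw [cvg_chain hn hb hh hτ hfine.1 hfine.2.1 p, Real.dist_eq]
  have s1 := H _ _ hαK (cvg_al_coef hch) hl1' _ htF
  have s2 := H2 _ htF (by
    rw [Real.dist_eq]
    have : η ≤ δ2 / 2 := min_le_right _ _
    exact lt_of_le_of_lt (hV p hpl) (by linarith))
  rw [Real.dist_eq] at s2
  unfold pfGh
  calc |scaGam (scLC 1) (cvgAl τ (cvgV n b h (ghPs 1 F)) (ghPs 1 F)) τ (cvgV n b h (ghPs 1 F) p)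
        - scaGam (scLC 1) (pfAl n b h) τ (pfKp n b h p)|
      ≤ |scaGam (scLC 1) (cvgAl τ (cvgV n b h (ghPs 1 F)) (ghPs 1 F)) τ (cvgV n b h (ghPs 1 F) p)
          - scaGam (scLC 1) (pfAl n b h) τ (cvgV n b h (ghPs 1 F) p)|
        + |scaGam (scLC 1) (pfAl n b h) τ (cvgV n b h (ghPs 1 F) p) - scaGam (scLC 1) (pfAl n b h) τ (pfKp n b h p)| :=
        abs_sub_le _ _ _
    _ < ε := by linarith

/-! ## 8. any horizon -/

theorem cvg_Ku_clk (hn : 0 < n) (hb : GhClk1 1 b) (hh : GhClk1 1 h) : GhClk1 1 (pfKu n b h) :=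
  ⟨fun _ hu _ hv huv => cvg_Kp_mono hn hb hh (gh_os_posA_ok hu.1 hu.2) (gh_os_posA_ok hv.1 hv.2) (cvg_posA_le huv),
    cvg_Kp_nonneg hn hb hh (gh_os_posA_ok le_rfl zero_le_one)⟩

/-- every value of the scalar clock at a position is a value of the FILLED function clock `pfKu` at a position -/
theorem cvg_fill (hn : 0 < n) (hb : GhClk1 1 b) (hh : GhClk1 1 h) {p : GhPos} (hp : p.Ok 1) :
    ∃ p' : GhPos, p'.Ok 1 ∧ ghAt 1 (pfKu n b h) p' = pfKp n b h p := by
  have hK := cvg_Ku_clk hn hb hh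
  have hm := gh_os_clamp_mono zero_le_one hK
  set L := leftLim (ghClamp 1 (pfKu n b h)) p.u with hL
  set R := rightLim (ghClamp 1 (pfKu n b h)) p.u with hR
  have hple : p ≤ ghPosA p.u := by
    rw [gh_os_pos_le_iff]
    right
    refine ⟨by rw [slc_posA_u], ?_⟩
    have : (ghPosA p.u).lam = 1 := by simp [ghPosA, GhPos.lam]
    rw [this]; exact hp.2.2.2
  have h1 : pfKp n b h p ≤ R := by
    have e := hm.le_rightLim (le_refl p.u)
    rw [slc_clamp_eq _ hp.1 hp.2.1] at e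
    exact (cvg_Kp_mono hn hb hh hp (gh_os_posA_ok hp.1 hp.2.1) hple).trans e
  have h2 : L ≤ pfKp n b h p := by
    refine le_of_tendsto (hm.tendsto_leftLim p.u) ?_
    filter_upwards [self_mem_nhdsWithin] with v hv
    have hv' : v < p.u := hv
    by_cases hv0 : v < 0
    · unfold ghClamp
      rw [if_pos hv0]
      exact cvg_Kp_nonneg hn hb hh hp
    · push Not at hv0
      rw [slc_clamp_eq _ hv0 (hv'.le.trans hp.2.1)]
      refine cvg_Kp_mono hn hb hh (gh_os_posA_ok hv0 (hv'.le.trans hp.2.1)) hp ?_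
      rw [gh_os_pos_le_iff]
      left
      rwa [slc_posA_u]
  by_cases hLR : L < R
  · refine ⟨ghPosF p.u ((pfKp n b h p - L) / (R - L)), ⟨?_, ?_, ?_, ?_⟩, ?_⟩
    · simpa [ghPosF, GhPos.u] using hp.1
    · simpa [ghPosF, GhPos.u] using hp.2.1
    · have : 0 ≤ (pfKp n b h p - L) / (R - L) := div_nonneg (by linarith) (by linarith)
      simpa [ghPosF, GhPos.lam] using this
    · have : (pfKp n b h p - L) / (R - L) ≤ 1 := by
        rw [div_le_one (by linarith)]; linarith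
      simpa [ghPosF, GhPos.lam] using this
    · have hne : R - L ≠ 0 := by linarith
      have e1 : (ghPosF p.u ((pfKp n b h p - L) / (R - L))).u = p.u := by simp [ghPosF, GhPos.u]
      have e2 : (ghPosF p.u ((pfKp n b h p - L) / (R - L))).lam = (pfKp n b h p - L) / (R - L) := by simp [ghPosF, GhPos.lam]
      unfold ghAt
      rw [e1, e2, ← hL, ← hR]
      field_simp
      ring
  · refine ⟨ghPosA p.u, gh_os_posA_ok hp.1 hp.2.1, ?_⟩
    rw [gh_os_at_posA, ← hR]
    push Not at hLR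
    linarith

/-- `Γ` at the values of the scalar clock does not depend on the horizon -/
theorem cvg_horizon (hn : 0 < n) (hb : GhClk1 1 b) (hh : GhClk1 1 h) {τ τ' : ℝ} (hτ0 : 0 < τ) (hτ : pfKp n b h (ghPosA 1) ≤ τ)
    (hτ0' : 0 < τ') (hτ' : pfKp n b h (ghPosA 1) ≤ τ') {p : GhPos} (hp : p.Ok 1) :
    pfGh n b h τ (pfKp n b h p) = pfGh n b h τ' (pfKp n b h p) := by
  obtain ⟨p', hp', e⟩ := cvg_fill hn hb hh hp
  have hK := cvg_Ku_clk hn hb hh
  have h1 := (slc_S one_pos hτ0 hK hτ hp').2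
  have h2 := (slc_S one_pos hτ0' hK hτ' hp').2
  unfold pfGh pfAl
  rw [← e, ← h1, ← h2]

/-- **MAIN**: the limit which defines `cvGamC` exists at EVERY valid position, and it is `Γ` of the scalar library (variance time, mass profile
of the scalar clock `K = h + b S`) at the time `K(p)`.      TEX[PE:prop:cavity-closure] (definition of `Γ(K_i)`) -/
theorem cvg_main (hn : 0 < n) (hb : GhClk1 1 b) (hh : GhClk1 1 h) {τ : ℝ} (hτ0 : 0 < τ) (hτ : pfKp n b h (ghPosA 1) ≤ τ) {p : GhPos}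
    (hp : p.Ok 1) :
    GhLimEx 1 (fun l => cvGam n (skCStp 1 b h 0 0 l) (ghIdx l (p : WithTop GhPos))) ∧
      cvGamC n b h p = pfGh n b h τ (pfKp n b h p) := by
  have hb1 : 0 ≤ b 1 := hb.2.trans (hb.1 ⟨le_rfl, zero_le_one⟩ ⟨zero_le_one, le_rfl⟩ zero_le_one)
  have hh1 : 0 ≤ h 1 := hh.2.trans (hh.1 ⟨le_rfl, zero_le_one⟩ ⟨zero_le_one, le_rfl⟩ zero_le_one)
  have ht := cvg_tendsto hn hb hh (τ := h 1 + b 1 + 1) (by linarith) (by linarith) hp
  rw [cvg_horizon hn hb hh (τ := h 1 + b 1 + 1) (τ' := τ) (by linarith)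
    ((cvg_Kp_le hn hb hh (gh_os_posA_ok zero_le_one le_rfl)).trans (by linarith)) hτ0 hτ hp] at ht
  exact gh_nt_ex_of_tendsto ht

end path

/-! ## 8. the function clock `cvKf` and `exit_cav_gam` -/

/-- two monotone functions which interlace have the same one sided limits -/
theorem cvg_lim_eq {f g : ℝ → ℝ} (hf : Monotone f) (hg : Monotone g) (h1 : ∀ v, f v ≤ g v) (h2 : ∀ v v', v < v' → g v ≤ f v') (u : ℝ) :
    leftLim f u = leftLim g u ∧ rightLim f u = rightLim g u := by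
  constructor
  · refine le_antisymm (le_of_tendsto_of_tendsto (hf.tendsto_leftLim u) (hg.tendsto_leftLim u) (Eventually.of_forall h1)) ?_
    refine le_of_tendsto (hg.tendsto_leftLim u) ?_
    filter_upwards [self_mem_nhdsWithin] with v hv
    have hv' : v < u := hv
    exact (h2 v ((v + u) / 2) (by linarith)).trans (hf.le_leftLim (by linarith))
  · refine le_antisymm (le_of_tendsto_of_tendsto (hf.tendsto_rightLim u) (hg.tendsto_rightLim u) (Eventually.of_forall h1)) ?_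
    refine ge_of_tendsto (hf.tendsto_rightLim u) ?_
    filter_upwards [self_mem_nhdsWithin] with v hv
    have hv' : u < v := hv
    exact (hg.rightLim_le (show u < (u + v) / 2 by linarith)).trans (h2 _ v (by linarith))

/-- the chains see a clock only through its values at the positions -/
theorem cvg_stp_congr {a : ℝ} {K K' : ℝ → ℝ} (e : ghAt a K = ghAt a K') (b : ℝ → ℝ) :
    ∀ (l : List GhPos) (b0 h0 : ℝ), skCStp a b K b0 h0 l = skCStp a b K' b0 h0 l
  | [], _, _ => rfl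
  | p :: ps, b0, h0 => by
    simp only [skCStp]
    rw [e, cvg_stp_congr e b ps]

theorem cvg_S_congr {a : ℝ} {K K' : ℝ → ℝ} (e : ghAt a K = ghAt a K') (m : ℕ) (b : ℝ → ℝ) (p : GhPos) :
    skCS m a b K p = skCS m a b K' p := by
  unfold skCS skCNu
  simp only [cvg_stp_congr e b]

section path2

variable {n : ℕ} {b h : ℝ → ℝ}

theorem cvg_Kf_clk (hn : 0 < n) (hb : GhClk1 1 b) (hh : GhClk1 1 h) : GhClk1 1 (cvKf n b h) := by
  constructor
  · intro u hu v hv huv
    unfold cvKf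
    obtain ⟨h0, h1, -⟩ := exit_clk_SB hn one_pos ⟨hb, hh⟩ (gh_os_posA_ok hu.1 hu.2) (gh_os_posA_ok hv.1 hv.2) (cvg_posA_le huv)
    have h2 := hh.1 hu hv huv
    have h3 := hb.1 hu hv huv
    have h4 : 0 ≤ b u := hb.2.trans (hb.1 ⟨le_rfl, zero_le_one⟩ hu hu.1)
    have h5 : b u * skCS n 1 b h (ghPosA u) ≤ b v * skCS n 1 b h (ghPosA v) := mul_le_mul h3 h1 h0 (h4.trans h3)
    linarith
  · unfold cvKf
    have h0 := (exit_clk_SB hn one_pos ⟨hb, hh⟩ (gh_os_posA_ok le_rfl zero_le_one) (gh_os_posA_ok le_rfl zero_le_one) le_rfl).1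
    have := mul_nonneg hb.2 h0
    linarith [hh.2]

theorem cvg_le_atA (hb : GhClk1 1 b) {w : ℝ} (h0 : 0 ≤ w) (h1 : w ≤ 1) : b w ≤ ghAt 1 b (ghPosA w) := by
  rw [gh_os_at_posA]
  have e := (gh_os_clamp_mono zero_le_one hb).le_rightLim (le_refl w)
  rwa [slc_clamp_eq _ h0 h1] at e

theorem cvg_atA_le (hb : GhClk1 1 b) {w w' : ℝ} (h0 : 0 ≤ w) (hw : w < w') (h1 : w' ≤ 1) : ghAt 1 b (ghPosA w) ≤ b w' := by
  rw [gh_os_at_posA]
  have e := (gh_os_clamp_mono zero_le_one hb).rightLim_le hw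
  rwa [slc_clamp_eq _ (h0.trans hw.le) h1] at e

theorem cvg_Kf_le (hn : 0 < n) (hb : GhClk1 1 b) (hh : GhClk1 1 h) {w : ℝ} (h0 : 0 ≤ w) (h1 : w ≤ 1) : cvKf n b h w ≤ pfKu n b h w := by
  unfold cvKf pfKu pfKp
  have hS := (exit_clk_SB hn one_pos ⟨hb, hh⟩ (gh_os_posA_ok h0 h1) (gh_os_posA_ok h0 h1) le_rfl).1
  have := mul_le_mul_of_nonneg_right (cvg_le_atA hb h0 h1) hS
  linarith [cvg_le_atA hh h0 h1]

theorem cvg_Ku_le (hn : 0 < n) (hb : GhClk1 1 b) (hh : GhClk1 1 h) {w w' : ℝ} (h0 : 0 ≤ w) (hw : w < w') (h1 : w' ≤ 1) :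
    pfKu n b h w ≤ cvKf n b h w' := by
  unfold cvKf pfKu pfKp
  obtain ⟨hS, hS', -⟩ := exit_clk_SB hn one_pos ⟨hb, hh⟩ (gh_os_posA_ok h0 (hw.le.trans h1)) (gh_os_posA_ok (h0.trans hw.le) h1) (cvg_posA_le hw.le)
  have h4 : 0 ≤ b w' := hb.2.trans (hb.1 ⟨le_rfl, zero_le_one⟩ ⟨h0.trans hw.le, h1⟩ (h0.trans hw.le))
  have := mul_le_mul (cvg_atA_le hb h0 hw h1) hS' hS h4
  linarith [cvg_atA_le hh h0 hw h1]

theorem cvg_Ku_one (n : ℕ) (b h : ℝ → ℝ) : pfKu n b h 1 = cvKf n b h 1 := by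
  unfold cvKf pfKu pfKp
  rw [gh_os_at_top 1 h zero_le_one, gh_os_at_top 1 b zero_le_one]

/-- the function clock `cvKf` and the right continuous clock `pfKu` have the same values at ALL positions -/
theorem cvg_at_eq (hn : 0 < n) (hb : GhClk1 1 b) (hh : GhClk1 1 h) : ghAt 1 (cvKf n b h) = ghAt 1 (pfKu n b h) := by
  have hKf := cvg_Kf_clk hn hb hh
  have hKu := cvg_Ku_clk hn hb hh
  have key := cvg_lim_eq (gh_os_clamp_mono zero_le_one hKf) (gh_os_clamp_mono zero_le_one hKu) (fun v => ?_) (fun v v' hv => ?_)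
  · funext p
    unfold ghAt
    rw [(key p.u).1, (key p.u).2]
  · unfold ghClamp
    by_cases hv : v < 0
    · rw [if_pos hv, if_pos hv]
    · rw [if_neg hv, if_neg hv]
      push Not at hv
      exact cvg_Kf_le hn hb hh (le_min hv zero_le_one) (min_le_right _ _)
  · by_cases hv0 : v < 0
    · have e : ghClamp 1 (pfKu n b h) v = ghClamp 1 (cvKf n b h) v := by
        unfold ghClamp
        rw [if_pos hv0, if_pos hv0]
      rw [e]
      exact gh_os_clamp_mono zero_le_one hKf hv.le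
    · push Not at hv0
      by_cases hv1 : v < 1
      · rw [slc_clamp_eq _ hv0 hv1.le]
        have e : ghClamp 1 (cvKf n b h) v' = cvKf n b h (min v' 1) := by
          unfold ghClamp
          rw [if_neg (by linarith)]
        rw [e]
        exact cvg_Ku_le hn hb hh hv0 (lt_min hv hv1) (min_le_right _ _)
      · push Not at hv1
        unfold ghClamp
        rw [if_neg (by linarith), if_neg (by linarith), min_eq_right hv1, min_eq_right (by linarith), cvg_Ku_one]

/-- right continuity of `S` at the positions after the jumps -/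
theorem cvg_S_right (hn : 0 < n) (hb : GhClk1 1 b) (hh : GhClk1 1 h) {u : ℝ} (h0 : 0 ≤ u) (h1 : u < 1) :
    Tendsto (fun v => skCS n 1 b h (ghPosA v)) (𝓝[>] u) (𝓝 (skCS n 1 b h (ghPosA u))) := by
  obtain ⟨C, hC⟩ := exit_clk_stat_pos (n := n) hn one_pos
  have hmb := gh_os_clamp_mono zero_le_one hb
  have hmh := gh_os_clamp_mono zero_le_one hh
  have tb : Tendsto (rightLim (ghClamp 1 b)) (𝓝[>] u) (𝓝 (rightLim (ghClamp 1 b) u)) :=
    (continuousWithinAt_rightLim_Ici (hmb.tendsto_rightLim u)).tendsto.mono_left (nhdsWithin_mono _ Ioi_subset_Ici_self)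
  have th : Tendsto (rightLim (ghClamp 1 h)) (𝓝[>] u) (𝓝 (rightLim (ghClamp 1 h) u)) :=
    (continuousWithinAt_rightLim_Ici (hmh.tendsto_rightLim u)).tendsto.mono_left (nhdsWithin_mono _ Ioi_subset_Ici_self)
  have t0 : Tendsto (fun v => C * (|rightLim (ghClamp 1 b) v - rightLim (ghClamp 1 b) u| + |rightLim (ghClamp 1 h) v - rightLim (ghClamp 1 h) u|))
      (𝓝[>] u) (𝓝 0) := by
    have := (((tb.sub_const (rightLim (ghClamp 1 b) u)).abs).add ((th.sub_const (rightLim (ghClamp 1 h) u)).abs)).const_mul C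
    simpa using this
  rw [tendsto_iff_norm_sub_tendsto_zero]
  refine squeeze_zero' (Eventually.of_forall fun _ => norm_nonneg _) ?_ t0
  filter_upwards [Ioo_mem_nhdsGT h1] with v hv
  have := (hC b h ⟨hb, hh⟩ (ghPosA v) (ghPosA u) (gh_os_posA_ok (h0.trans hv.1.le) hv.2.le) (gh_os_posA_ok h0 h1.le) _ le_rfl).1
  rw [gh_os_at_posA, gh_os_at_posA, gh_os_at_posA, gh_os_at_posA] at this
  rwa [Real.norm_eq_abs]

/-- `pfKu` is right continuous -/
theorem cvg_Ku_right (hn : 0 < n) (hb : GhClk1 1 b) (hh : GhClk1 1 h) {u : ℝ} (h0 : 0 ≤ u) (h1 : u ≤ 1) :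
    ghAt 1 (pfKu n b h) (ghPosA u) = pfKu n b h u := by
  rcases h1.lt_or_eq with h1 | h1
  · rw [gh_os_at_posA]
    apply rightLim_eq_of_tendsto
    have hmb := gh_os_clamp_mono zero_le_one hb
    have hmh := gh_os_clamp_mono zero_le_one hh
    have tb : Tendsto (rightLim (ghClamp 1 b)) (𝓝[>] u) (𝓝 (rightLim (ghClamp 1 b) u)) :=
      (continuousWithinAt_rightLim_Ici (hmb.tendsto_rightLim u)).tendsto.mono_left (nhdsWithin_mono _ Ioi_subset_Ici_self)
    have th : Tendsto (rightLim (ghClamp 1 h)) (𝓝[>] u) (𝓝 (rightLim (ghClamp 1 h) u)) :=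
      (continuousWithinAt_rightLim_Ici (hmh.tendsto_rightLim u)).tendsto.mono_left (nhdsWithin_mono _ Ioi_subset_Ici_self)
    have t := th.add (tb.mul (cvg_S_right hn hb hh h0 h1))
    have e : pfKu n b h u = rightLim (ghClamp 1 h) u + rightLim (ghClamp 1 b) u * skCS n 1 b h (ghPosA u) := by
      unfold pfKu pfKp
      rw [gh_os_at_posA, gh_os_at_posA]
    rw [e]
    refine t.congr' ?_
    filter_upwards [Ioo_mem_nhdsGT h1] with v hv
    rw [slc_clamp_eq _ (h0.trans hv.1.le) hv.2.le]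
    unfold pfKu pfKp
    rw [gh_os_at_posA, gh_os_at_posA]
  · subst h1
    exact gh_os_at_top 1 _ zero_le_one

/-- **`exit_cav_gam`** -/
theorem cvg_exit (hn : 0 < n) (hb : GhClk1 1 b) (hh : GhClk1 1 h) :
    (∀ p : GhPos, p.Ok 1 → GhLimEx 1 fun l => cvGam n (skCStp 1 b h 0 0 l) (ghIdx l p)) ∧ GhClk1 1 (cvKf n b h) ∧
      ∀ u : ℝ, 0 ≤ u → u ≤ 1 → cvGamC n b h (ghPosA u) = cvGamP n b h u := by
  have hb1 : 0 ≤ b 1 := hb.2.trans (hb.1 ⟨le_rfl, zero_le_one⟩ ⟨zero_le_one, le_rfl⟩ zero_le_one)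
  have hh1 : 0 ≤ h 1 := hh.2.trans (hh.1 ⟨le_rfl, zero_le_one⟩ ⟨zero_le_one, le_rfl⟩ zero_le_one)
  have hτ0 : 0 < h 1 + b 1 + 1 := by linarith
  have hτ : pfKp n b h (ghPosA 1) ≤ h 1 + b 1 + 1 := (cvg_Kp_le hn hb hh (gh_os_posA_ok zero_le_one le_rfl)).trans (by linarith)
  refine ⟨fun p hp => (cvg_main hn hb hh hτ0 hτ hp).1, cvg_Kf_clk hn hb hh, fun u h0 h1 => ?_⟩
  rw [(cvg_main hn hb hh hτ0 hτ (gh_os_posA_ok h0 h1)).2]
  unfold cvGamP
  rw [cvg_S_congr (cvg_at_eq hn hb hh), (slc_S one_pos hτ0 (cvg_Ku_clk hn hb hh) hτ (gh_os_posA_ok h0 h1)).2, cvg_Ku_right hn hb hh h0 h1]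
  rfl

end path2

end Claimed.Agent.R286
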