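import Mathlib

/-!
# Row 286 (S0533), folder Cav (PE Section 4, the one-site comparison), file AbsL1 : ABSTRACT LAYER, second part (first part = Abs of 244)      (helper218, ADV of P09; prefix `sk_cv_`)

PE cavity.tex l.700-1222.   Lemmas 4.9, 4.10, equation (25) and the end of the proof of Proposition 4.1 are PURE ALGEBRA over three black boxes (row identity (24), projected replacements 4.8, Hoelder bound of a test).
This file contains that algebra: Mathlib only, no definition of the model.      Note: `origin/helper218:notes/R286/P09_adv_218.md`.      SORRY FREE.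
* `sk_cv_rec`       finite-depth recursion (Lemma 4.9): every generation replaces `L P` by an error and a signed finite sum of `L Q`, the children being controlled in TWO size functionals `p0` (natural scale), `p1` (Hoelder scale: every star factor has a saving)
* `sk_cv_two`       the two fresh roots (l.915-925)
* `sk_cv_id25`      (24) + replacements `⟹` (25)
* `sk_cv_gen`       (25) divided by `χ K_*`: one generation
* `sk_cv_left`      the left side of (25) divided by `χ K_*`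
* `sk_cv_calib`     susceptibility calibration (Lemma 4.10): `|J₀| ≤ C W²`
* `sk_cv_pow_le`, `sk_cv_int_pow`, `sk_cv_l1`, `sk_cv_l1_tendsto`      the normalized `L¹` claims (l.1205-1222)
-/

set_option autoImplicit false

namespace Claimed.Agent.R286

open MeasureTheory Filter Topology

/-- **finite-depth recursion** (PE Lemma 4.9).   `Adm j P`: the test `P` is admissible at the depth `j`. -/
theorem sk_cv_rec {Tst : Type*} (Adm : ℕ → Tst → Prop) (p0 p1 L : Tst → ℝ) (k : ℕ) (Cc Cs Ee τ : ℝ) (hCc : 0 ≤ Cc) (hCs : 0 ≤ Cs) (hEe : 0 ≤ Ee) (hτ : 0 ≤ τ)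
    (step : ∀ j < k, ∀ P, Adm j P → ∃ (ι : Type) (_ : Fintype ι) (w : ι → ℝ) (Q : ι → Tst) (e : ℝ),
      (∀ α, Adm (j + 1) (Q α)) ∧ L P = e + ∑ α, w α * L (Q α) ∧ ∑ α, |w α| * p0 (Q α) ≤ Cc * p0 P ∧ ∑ α, |w α| * p1 (Q α) ≤ Cs * p1 P ∧ |e| ≤ Ee * p0 P)
    (term : ∀ P, Adm k P → |L P| ≤ τ * p1 P) :
    ∀ d j, j + d = k → ∀ P, Adm j P → |L P| ≤ Ee * (∑ i ∈ Finset.range d, Cc ^ i) * p0 P + Cs ^ d * τ * p1 P := by
  intro d
  induction d with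
  | zero =>
    intro j hj P hP
    have : j = k := by omega
    subst this
    simpa using term P hP
  | succ d ih =>
    intro j hj P hP
    obtain ⟨ι, _, w, Q, e, hQ, hL, h0, h1, he⟩ := step j (by omega) P hP
    have hch : ∀ α, |L (Q α)| ≤ Ee * (∑ i ∈ Finset.range d, Cc ^ i) * p0 (Q α) + Cs ^ d * τ * p1 (Q α) :=
      fun α => ih (j + 1) (by omega) (Q α) (hQ α)
    have hS : 0 ≤ Ee * (∑ i ∈ Finset.range d, Cc ^ i) := mul_nonneg hEe (Finset.sum_nonneg fun i _ => pow_nonneg hCc i)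
    have hT : 0 ≤ Cs ^ d * τ := mul_nonneg (pow_nonneg hCs d) hτ
    have h2 : |∑ α, w α * L (Q α)| ≤ Ee * (∑ i ∈ Finset.range d, Cc ^ i) * (Cc * p0 P) + Cs ^ d * τ * (Cs * p1 P) := by
      calc |∑ α, w α * L (Q α)| ≤ ∑ α, |w α * L (Q α)| := Finset.abs_sum_le_sum_abs _ _
        _ ≤ ∑ α, (Ee * (∑ i ∈ Finset.range d, Cc ^ i) * (|w α| * p0 (Q α)) + Cs ^ d * τ * (|w α| * p1 (Q α))) := by
            refine Finset.sum_le_sum fun α _ => ?_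
            rw [abs_mul]
            calc |w α| * |L (Q α)| ≤ |w α| * (Ee * (∑ i ∈ Finset.range d, Cc ^ i) * p0 (Q α) + Cs ^ d * τ * p1 (Q α)) :=
                  mul_le_mul_of_nonneg_left (hch α) (abs_nonneg _)
              _ = _ := by ring
        _ = Ee * (∑ i ∈ Finset.range d, Cc ^ i) * (∑ α, |w α| * p0 (Q α)) + Cs ^ d * τ * (∑ α, |w α| * p1 (Q α)) := by
            rw [Finset.sum_add_distrib, ← Finset.mul_sum, ← Finset.mul_sum]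
        _ ≤ _ := add_le_add (mul_le_mul_of_nonneg_left h0 hS) (mul_le_mul_of_nonneg_left h1 hT)
    have h3 : ∑ i ∈ Finset.range (d + 1), Cc ^ i = 1 + (∑ i ∈ Finset.range d, Cc ^ i) * Cc := by
      rw [Finset.sum_range_succ', Finset.sum_mul, add_comm]
      simp [pow_succ]
    rw [hL]
    calc |e + ∑ α, w α * L (Q α)| ≤ |e| + |∑ α, w α * L (Q α)| := abs_add_le _ _
      _ ≤ Ee * p0 P + (Ee * (∑ i ∈ Finset.range d, Cc ^ i) * (Cc * p0 P) + Cs ^ d * τ * (Cs * p1 P)) := add_le_add he h2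
      _ = _ := by rw [h3, pow_succ]; ring

/-- the recursion from the root -/
theorem sk_cv_rec0 {Tst : Type*} (Adm : ℕ → Tst → Prop) (p0 p1 L : Tst → ℝ) (k : ℕ) (Cc Cs Ee τ : ℝ) (hCc : 0 ≤ Cc) (hCs : 0 ≤ Cs) (hEe : 0 ≤ Ee) (hτ : 0 ≤ τ)
    (step : ∀ j < k, ∀ P, Adm j P → ∃ (ι : Type) (_ : Fintype ι) (w : ι → ℝ) (Q : ι → Tst) (e : ℝ),
      (∀ α, Adm (j + 1) (Q α)) ∧ L P = e + ∑ α, w α * L (Q α) ∧ ∑ α, |w α| * p0 (Q α) ≤ Cc * p0 P ∧ ∑ α, |w α| * p1 (Q α) ≤ Cs * p1 P ∧ |e| ≤ Ee * p0 P)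
    (term : ∀ P, Adm k P → |L P| ≤ τ * p1 P) (P : Tst) (hP : Adm 0 P) :
    |L P| ≤ Ee * (∑ i ∈ Finset.range k, Cc ^ i) * p0 P + Cs ^ k * τ * p1 P :=
  sk_cv_rec Adm p0 p1 L k Cc Cs Ee τ hCc hCs hEe hτ step term k 0 (by omega) P hP

/-- **the two fresh roots** (l.915-925) -/
theorem sk_cv_two (La Lb Lu Lv e1 e2 C1 C2 : ℝ) (h1 : La + Lb = e1 - C1) (h2 : Lu + Lv = e2 - C2) (hu : Lu = Lb) (hv : Lv = Lb) :
    La = e1 - e2 / 2 - C1 + C2 / 2 := by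
  subst hu hv
  linarith

/-- **(24) and the projected replacements give (25).**   `yP = ν[Y_a P°]`, `s1 = ∑_c γ_ac ν[Y_c P°]`, `s2 = ∑_c ν[P° G_ac Y_c]`, `LY = 𝓛(P° Y_a, a)`, `Lsw = ∑_c γ_ac 𝓛(P° Δ_bc, b)` -/
theorem sk_cv_id25 (yP s1 s2 La Lb LY Lsw R b χ K e1 e2 eR Cb C0 : ℝ)
    (h24 : yP = b * χ * s1 + (χ * K * La + b * χ * s2) + (χ * K * Lb + b * Lsw) + R)
    (h1 : |s1 - χ * yP| ≤ e1) (h2 : |s2 - LY| ≤ e2) (hR : |R| ≤ eR) (hb : |b| ≤ Cb) (hχ : |χ| ≤ C0) :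
    |(1 - b * χ ^ 2) * yP - χ * K * (La + Lb) - b * (χ * LY + Lsw)| ≤ eR + Cb * C0 * (e1 + e2) := by
  have e : (1 - b * χ ^ 2) * yP - χ * K * (La + Lb) - b * (χ * LY + Lsw) = R + b * χ * ((s1 - χ * yP) + (s2 - LY)) := by
    linear_combination h24
  rw [e]
  have hbχ : |b * χ| ≤ Cb * C0 := by
    rw [abs_mul]
    exact mul_le_mul hb hχ (abs_nonneg _) ((abs_nonneg _).trans hb)
  have h3 : |(s1 - χ * yP) + (s2 - LY)| ≤ e1 + e2 := (abs_add_le _ _).trans (add_le_add h1 h2)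
  calc |R + b * χ * ((s1 - χ * yP) + (s2 - LY))| ≤ |R| + |b * χ * ((s1 - χ * yP) + (s2 - LY))| := abs_add_le _ _
    _ ≤ eR + Cb * C0 * (e1 + e2) := by
        refine add_le_add hR ?_
        rw [abs_mul]
        exact mul_le_mul hbχ h3 (abs_nonneg _) ((abs_nonneg _).trans hbχ)

/-- **one generation**: (25) divided by `χ K_*` -/
theorem sk_cv_gen (yP La Lb LY Lsw b χ K E lo : ℝ) (hlo : 0 < lo) (hχK : lo ≤ χ * K)
    (h25 : |(1 - b * χ ^ 2) * yP - χ * K * (La + Lb) - b * (χ * LY + Lsw)| ≤ E) :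
    ∃ ε : ℝ, La + Lb = ε - (b / K * LY + b / (χ * K) * Lsw) ∧ |ε| ≤ (|(1 - b * χ ^ 2) * yP| + E) / lo := by
  have hpos : 0 < χ * K := lt_of_lt_of_le hlo hχK
  have hχ : χ ≠ 0 := fun h => by simp [h] at hpos
  have hK : K ≠ 0 := fun h => by simp [h] at hpos
  refine ⟨La + Lb + (b / K * LY + b / (χ * K) * Lsw), by ring, ?_⟩
  have e : La + Lb + (b / K * LY + b / (χ * K) * Lsw)
      = ((1 - b * χ ^ 2) * yP - ((1 - b * χ ^ 2) * yP - χ * K * (La + Lb) - b * (χ * LY + Lsw))) / (χ * K) := by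
    field_simp
    ring
  rw [e, abs_div, abs_of_pos hpos]
  have hnum : |(1 - b * χ ^ 2) * yP - ((1 - b * χ ^ 2) * yP - χ * K * (La + Lb) - b * (χ * LY + Lsw))| ≤ |(1 - b * χ ^ 2) * yP| + E :=
    (abs_sub _ _).trans (add_le_add le_rfl h25)
  have hE : 0 ≤ |(1 - b * χ ^ 2) * yP| + E := (abs_nonneg _).trans hnum
  calc _ ≤ (|(1 - b * χ ^ 2) * yP| + E) / (χ * K) := div_le_div_of_nonneg_right hnum hpos.le
    _ ≤ _ := div_le_div_of_nonneg_left hE hlo hχK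

/-- **the left side of (25)** (l.885-895): `|1 - b_* χ²| ≤ |J₀| + C W²`, `|ν[Y_a P°]| ≤ sv x²/W · p`, `χ K_* ≥ c W` -/
theorem sk_cv_left (yP b χ T J0 W x sv p c Cb C0 : ℝ) (hW : 0 < W) (hc : 0 < c) (hJ : J0 = T * χ ^ 2 - 1) (hb : |b - T| ≤ Cb * W ^ 2) (hχ : |χ| ≤ C0)
    (hy : |yP| ≤ sv * (x ^ 2 / W) * p) (hsv : 0 ≤ sv) (hp : 0 ≤ p) (hCb : 0 ≤ Cb) :
    |(1 - b * χ ^ 2) * yP| / (c * W) ≤ (1 + Cb * C0 ^ 2) / c * (sv * x ^ 2 * p * (1 + |J0| / W ^ 2)) := by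
  have h1 : |1 - b * χ ^ 2| ≤ |J0| + Cb * C0 ^ 2 * W ^ 2 := by
    have e : 1 - b * χ ^ 2 = -J0 - (b - T) * χ ^ 2 := by rw [hJ]; ring
    rw [e]
    have h2 : |(b - T) * χ ^ 2| ≤ Cb * W ^ 2 * C0 ^ 2 := by
      rw [abs_mul, abs_pow]
      exact mul_le_mul hb (pow_le_pow_left₀ (abs_nonneg _) hχ 2) (by positivity) (by positivity)
    calc |-J0 - (b - T) * χ ^ 2| ≤ |-J0| + |(b - T) * χ ^ 2| := abs_sub _ _
      _ ≤ |J0| + Cb * C0 ^ 2 * W ^ 2 := by rw [abs_neg]; linarith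
  have hx : 0 ≤ x ^ 2 / W := by positivity
  have h3 : |(1 - b * χ ^ 2) * yP| ≤ (|J0| + Cb * C0 ^ 2 * W ^ 2) * (sv * (x ^ 2 / W) * p) := by
    rw [abs_mul]
    exact mul_le_mul h1 hy (abs_nonneg _) (by positivity)
  have hcW : 0 < c * W := mul_pos hc hW
  rw [div_le_iff₀ hcW]
  refine h3.trans ?_
  have hA : 0 ≤ |J0| := abs_nonneg _
  have e2 : (1 + Cb * C0 ^ 2) / c * (sv * x ^ 2 * p * (1 + |J0| / W ^ 2)) * (c * W)
      = (1 + Cb * C0 ^ 2) * (W ^ 2 + |J0|) * (sv * (x ^ 2 / W) * p) := by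
    field_simp
  rw [e2]
  refine mul_le_mul_of_nonneg_right ?_ (by positivity)
  have : 0 ≤ Cb * C0 ^ 2 := by positivity
  nlinarith [mul_nonneg this hA, sq_nonneg W]

/-- **susceptibility calibration** (PE Lemma 4.10) -/
theorem sk_cv_calib (S W x J0 T χ K Gam η c C0 C1 C2 : ℝ) (hW : 0 < W) (hx0 : 0 ≤ x) (hxW : x ≤ W) (hc : 0 < c) (hS : c * W ≤ S) (hJ : J0 = T * χ ^ 2 - 1)
    (hG : |Gam - χ ^ 2 * K| ≤ C1 * W ^ 3) (hK : |K - T * S| ≤ C2 * W ^ 3) (hχ : |χ| ≤ C0) (hη0 : 0 ≤ η) (hη : η ≤ c / 2)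
    (hSG : |S - Gam| ≤ η * (W * x ^ 2 * (1 + |J0| / W ^ 2))) :
    |J0| ≤ 2 * (η + C1 + C0 ^ 2 * C2) / c * W ^ 2 := by
  have hC2 : 0 ≤ C2 * W ^ 3 := (abs_nonneg _).trans hK
  have e : -J0 * S = (S - Gam) + (Gam - χ ^ 2 * K) + χ ^ 2 * (K - T * S) := by rw [hJ]; ring
  have hχ2 : χ ^ 2 ≤ C0 ^ 2 := by
    have := pow_le_pow_left₀ (abs_nonneg χ) hχ 2
    rwa [sq_abs] at this
  have h1 : |J0| * S ≤ η * (W * x ^ 2 * (1 + |J0| / W ^ 2)) + C1 * W ^ 3 + C0 ^ 2 * (C2 * W ^ 3) := by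
    have hS0 : 0 ≤ S := (mul_pos hc hW).le.trans hS
    have : |J0| * S = |-J0 * S| := by rw [abs_mul, abs_neg, abs_of_nonneg hS0]
    rw [this, e]
    have h3 : |χ ^ 2 * (K - T * S)| ≤ C0 ^ 2 * (C2 * W ^ 3) := by
      rw [abs_mul, abs_of_nonneg (sq_nonneg χ)]
      exact mul_le_mul hχ2 hK (abs_nonneg _) (sq_nonneg _)
    calc _ ≤ |S - Gam| + |Gam - χ ^ 2 * K| + |χ ^ 2 * (K - T * S)| := abs_add_three _ _ _
      _ ≤ _ := add_le_add (add_le_add hSG hG) h3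
  have hA : 0 ≤ |J0| := abs_nonneg _
  have h2 : |J0| * (c * W) ≤ |J0| * S := mul_le_mul_of_nonneg_left hS hA
  have hx2 : x ^ 2 ≤ W ^ 2 := pow_le_pow_left₀ hx0 hxW 2
  have h4 : W * x ^ 2 * (1 + |J0| / W ^ 2) ≤ W * (W ^ 2 + |J0|) := by
    have e4 : W * (W ^ 2 + |J0|) = W * W ^ 2 * (1 + |J0| / W ^ 2) := by
      field_simp
    rw [e4]
    refine mul_le_mul_of_nonneg_right (mul_le_mul_of_nonneg_left hx2 hW.le) (by positivity)
  have h5 : |J0| * (c * W) ≤ η * (W * (W ^ 2 + |J0|)) + C1 * W ^ 3 + C0 ^ 2 * (C2 * W ^ 3) :=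
    h2.trans (h1.trans (by linarith [mul_le_mul_of_nonneg_left h4 hη0]))
  have h6 : |J0| * c ≤ η * (W ^ 2 + |J0|) + C1 * W ^ 2 + C0 ^ 2 * C2 * W ^ 2 := by
    have e6 : |J0| * (c * W) = (|J0| * c) * W := by ring
    have e7 : η * (W * (W ^ 2 + |J0|)) + C1 * W ^ 3 + C0 ^ 2 * (C2 * W ^ 3) = (η * (W ^ 2 + |J0|) + C1 * W ^ 2 + C0 ^ 2 * C2 * W ^ 2) * W := by ring
    rw [e6, e7] at h5
    exact le_of_mul_le_mul_right h5 hW
  have h7 : |J0| * (c / 2) ≤ (η + C1 + C0 ^ 2 * C2) * W ^ 2 := by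
    have : η * |J0| ≤ c / 2 * |J0| := mul_le_mul_of_nonneg_right hη hA
    nlinarith
  have e8 : 2 * (η + C1 + C0 ^ 2 * C2) / c * W ^ 2 = ((η + C1 + C0 ^ 2 * C2) * W ^ 2) / (c / 2) := by
    field_simp
  rw [e8, le_div_iff₀ (by positivity)]
  exact h7

/-- `g^ϑ ≤ δ^ϑ + δ^(ϑ-2) g²` -/
theorem sk_cv_pow_le (g δ ϑ : ℝ) (hg : 0 ≤ g) (hδ : 0 < δ) (hϑ0 : 0 < ϑ) (hϑ2 : ϑ ≤ 2) : g ^ ϑ ≤ δ ^ ϑ + δ ^ (ϑ - 2) * g ^ 2 := by
  have h1 : 0 ≤ δ ^ ϑ := (Real.rpow_pos_of_pos hδ _).le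
  have h2 : 0 ≤ δ ^ (ϑ - 2) * g ^ 2 := mul_nonneg (Real.rpow_pos_of_pos hδ _).le (sq_nonneg g)
  rcases le_or_gt g δ with h | h
  · exact (Real.rpow_le_rpow hg h hϑ0.le).trans (by linarith)
  · have hg0 : 0 < g := hδ.trans h
    have e : g ^ ϑ = g ^ (ϑ - 2) * g ^ 2 := by
      rw [← Real.rpow_natCast g 2, ← Real.rpow_add hg0]
      congr 1
      push_cast
      ring
    rw [e]
    have h3 : g ^ (ϑ - 2) ≤ δ ^ (ϑ - 2) := Real.rpow_le_rpow_of_nonpos hδ h.le (by linarith)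
    exact (mul_le_mul_of_nonneg_right h3 (sq_nonneg g)).trans (by linarith)

/-- integrated form -/
theorem sk_cv_int_pow {Ω : Type*} [MeasurableSpace Ω] (μ : Measure Ω) [IsFiniteMeasure μ] (g : Ω → ℝ) (hg0 : ∀ ω, 0 ≤ g ω) (hi2 : Integrable (fun ω => g ω ^ 2) μ)
    (δ ϑ : ℝ) (hδ : 0 < δ) (hϑ0 : 0 < ϑ) (hϑ2 : ϑ ≤ 2) :
    ∫ ω, g ω ^ ϑ ∂μ ≤ δ ^ ϑ * μ.real Set.univ + δ ^ (ϑ - 2) * ∫ ω, g ω ^ 2 ∂μ := by
  have hint : Integrable (fun ω => δ ^ ϑ + δ ^ (ϑ - 2) * g ω ^ 2) μ := (integrable_const _).add (hi2.const_mul _)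
  calc ∫ ω, g ω ^ ϑ ∂μ ≤ ∫ ω, (δ ^ ϑ + δ ^ (ϑ - 2) * g ω ^ 2) ∂μ := by
        refine integral_mono_of_nonneg (Eventually.of_forall fun ω => Real.rpow_nonneg (hg0 ω) _) hint (Eventually.of_forall fun ω => ?_)
        exact sk_cv_pow_le (g ω) δ ϑ (hg0 ω) hδ hϑ0 hϑ2
    _ = _ := by
        rw [integral_add (integrable_const _) (hi2.const_mul _), integral_const, integral_const_mul, smul_eq_mul, mul_comm]

/-- **the normalized `L¹` bound** (l.1205-1222), one instance -/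
theorem sk_cv_l1 {Ω : Type*} [MeasurableSpace Ω] (μ : Measure Ω) [IsFiniteMeasure μ] (g err : Ω → ℝ) (hg0 : ∀ ω, 0 ≤ g ω) (hi2 : Integrable (fun ω => g ω ^ 2) μ)
    (C0 η δ ϑ : ℝ) (hC0 : 0 ≤ C0) (hδ : 0 < δ) (hϑ0 : 0 < ϑ) (hϑ2 : ϑ ≤ 2) (hiϑ : Integrable (fun ω => g ω ^ ϑ) μ)
    (he0 : ∀ ω, 0 ≤ err ω) (herr : ∀ ω, err ω ≤ C0 * (η + g ω ^ ϑ)) :
    ∫ ω, err ω ∂μ ≤ C0 * (η * μ.real Set.univ + δ ^ ϑ * μ.real Set.univ + δ ^ (ϑ - 2) * ∫ ω, g ω ^ 2 ∂μ) := by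
  have hint : Integrable (fun ω => C0 * (η + g ω ^ ϑ)) μ := ((integrable_const _).add hiϑ).const_mul _
  calc ∫ ω, err ω ∂μ ≤ ∫ ω, C0 * (η + g ω ^ ϑ) ∂μ :=
        integral_mono_of_nonneg (Eventually.of_forall he0) hint (Eventually.of_forall herr)
    _ = C0 * (η * μ.real Set.univ + ∫ ω, g ω ^ ϑ ∂μ) := by
        rw [integral_const_mul, integral_add (integrable_const _) hiϑ, integral_const, smul_eq_mul, mul_comm η]
    _ ≤ _ := by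
        refine mul_le_mul_of_nonneg_left ?_ hC0
        have := sk_cv_int_pow μ g hg0 hi2 δ ϑ hδ hϑ0 hϑ2
        linarith

/-- **the normalized `L¹` claim along a sequence**: numbers only.   `I n = ∫ err`, `m n` = total mass, `q n = ∫ (D/x)²` -/
theorem sk_cv_l1_tendsto (I m q η : ℕ → ℝ) (C0 Cm ϑ : ℝ) (hC0 : 0 ≤ C0) (hϑ0 : 0 < ϑ) (hI0 : ∀ n, 0 ≤ I n) (hm0 : ∀ n, 0 ≤ m n) (hm : ∀ n, m n ≤ Cm)
    (hη0 : ∀ n, 0 ≤ η n)
    (hI : ∀ n, ∀ δ : ℝ, 0 < δ → I n ≤ C0 * (η n * m n + δ ^ ϑ * m n + δ ^ (ϑ - 2) * q n))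
    (hη : Tendsto η atTop (𝓝 0)) (hq : Tendsto q atTop (𝓝 0)) : Tendsto I atTop (𝓝 0) := by
  have hCm : 0 ≤ Cm := (hm0 0).trans (hm 0)
  rw [Metric.tendsto_atTop]
  intro ε hε
  -- choose δ
  obtain ⟨δ, hδ, hδε⟩ : ∃ δ : ℝ, 0 < δ ∧ C0 * (δ ^ ϑ * Cm) < ε / 3 := by
    have hcont : Tendsto (fun δ : ℝ => C0 * (δ ^ ϑ * Cm)) (𝓝[>] 0) (𝓝 (C0 * ((0 : ℝ) ^ ϑ * Cm))) := by
      have h1 : ContinuousAt (fun δ : ℝ => C0 * (δ ^ ϑ * Cm)) 0 :=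
        ((Real.continuousAt_rpow_const 0 ϑ (Or.inr hϑ0.le)).mul continuousAt_const).const_mul C0
      exact h1.tendsto.mono_left nhdsWithin_le_nhds
    rw [Real.zero_rpow hϑ0.ne', zero_mul, mul_zero] at hcont
    have hev := hcont.eventually (gt_mem_nhds (show (0 : ℝ) < ε / 3 by positivity))
    obtain ⟨δ, h1, h2⟩ := (hev.and self_mem_nhdsWithin).exists
    exact ⟨δ, h2, h1⟩
  have hA : 0 < δ ^ (ϑ - 2) := Real.rpow_pos_of_pos hδ _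
  have t1 : Tendsto (fun n => C0 * (η n * Cm)) atTop (𝓝 0) := by
    simpa using (hη.mul_const Cm).const_mul C0
  have t2 : Tendsto (fun n => C0 * (δ ^ (ϑ - 2) * q n)) atTop (𝓝 0) := by
    simpa using (hq.const_mul (δ ^ (ϑ - 2))).const_mul C0
  obtain ⟨N1, hN1⟩ := (Metric.tendsto_atTop.1 t1) (ε / 3) (by positivity)
  obtain ⟨N2, hN2⟩ := (Metric.tendsto_atTop.1 t2) (ε / 3) (by positivity)
  refine ⟨max N1 N2, fun n hn => ?_⟩
  have a1 := hN1 n (le_trans (le_max_left _ _) hn)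
  have a2 := hN2 n (le_trans (le_max_right _ _) hn)
  rw [Real.dist_eq, sub_zero] at a1 a2 ⊢
  rw [abs_of_nonneg (hI0 n)]
  have b1 : C0 * (η n * m n) ≤ C0 * (η n * Cm) := mul_le_mul_of_nonneg_left (mul_le_mul_of_nonneg_left (hm n) (hη0 n)) hC0
  have b2 : C0 * (δ ^ ϑ * m n) ≤ C0 * (δ ^ ϑ * Cm) :=
    mul_le_mul_of_nonneg_left (mul_le_mul_of_nonneg_left (hm n) (Real.rpow_pos_of_pos hδ _).le) hC0
  have b3 := hI n δ hδ
  have c1 := (le_abs_self _).trans_lt a1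
  have c2 := (le_abs_self _).trans_lt a2
  have e : C0 * (η n * m n + δ ^ ϑ * m n + δ ^ (ϑ - 2) * q n) = C0 * (η n * m n) + C0 * (δ ^ ϑ * m n) + C0 * (δ ^ (ϑ - 2) * q n) := by ring
  rw [e] at b3
  linarith

end Claimed.Agent.R286
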