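import Claimed.Agent.R286.Cav.Contract
import Claimed.Agent.R286.Fd.Contract
import Claimed.Agent.R286.Brg.Tab
import Claimed.Agent.R286.Exit.ClkLim
import Claimed.Agent.R286.Exit.ClkStat
import Claimed.Agent.R286.Exit.CmpProj
import Claimed.Agent.R286.Cmp.ProjL8
import Claimed.Agent.R286.Brg.Step
import Claimed.Agent.R286.Brg.PrSk
import Claimed.Agent.R286.Fd.ObsU
import Claimed.Agent.R286.Bud.PinPath

/-!
# Row 286 (S0533), PE Section 4 (cavity), Cav/Lim : THE INPUTS AT PATH LEVEL AND THEIR TRANSFER TO FINE CHAINS      (owner helper76; prefix `cvl_`, type `CavP`)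

WHY.   `cav_clk_small/large/omitted` (`Cav/Contract`, 223) ask for `CavIn.Ok`, `CavIn.Star` on ALL FINE CHAINS (eventually along the net of finite sets of positions).
The suppliers (PE Sec 3: `exit_cmp_raw`, `exit_cmp_res`, `exit_cmp_dir*`;  LL 07: (C8), (C10), Lemma 7.6, (P9)) speak of the PATH: numbers `skCNu` at positions, integrals in the mass, values `ghAt` of the clocks.
The passage path -> chains is THE SAME for the two instances (PE: `exit_cav_inst_s/l`, owner 18;  LL07: `Bd7CSup`, owner 33): it is done HERE, ONCE.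
* `CavP`                     data of one instance at path level: `n, b, h, x, W, sv, et, T` and the POSITIONS `pB pX ps pU`;   `I.on l` = the `CavIn` carried by the chain `l` (`= cvInC ..`).
* `CavP.Ok`, `CavP.Star`, `CavP.Large`      PATH-LEVEL inputs (of Contract v4, 03:57Z).   Single numbers and integrals: STRICT inequalities (= the slack);  families of moments (orders `1 ≤ k ≤ kM`; `k = 0` is L13 on the chains): the constant `Cp k` becomes `2 Cp k` on the chains.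
                             (13) is NOT an input: it follows from `exit_cmp_proj` (192, proved) and the FIELD LENGTH `Star.fld` (a statement on the clock `h` only).
* `cvl_main`, `cvl_large`    TRANSFER:  path-level inputs  =>  eventually `(I.on (ghPs 1 F)).Ok ∧ .Star` (`.Large`).      GLUE PROVED HERE from the leaves L1-L19 below.
* `cav_path_small`, `cav_path_large`, `cav_path_omitted`      **Prop 4.1 with path-level inputs only** (PROVED from `cvl_main` + `cav_clk_*`).      TEX[PE:prop:cavity-closure]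
USERS: 18 and 33 instantiate `CavP.Ok/.Star`, NEVER chains.
LEAVES: 1 sorry = 1 leaf, sketch in the docstring, claim286 by Lean name, prove IN PLACE (add imports if you cite `Brg/*`, `Cmp/InstNum`, `Cmp/Proj*`).
DICTIONARY on a chain `l = ghPs 1 F` (strictly increasing valid positions), `P = skCStp 1 b h 0 0 l`, `N = l.length`:   the cut `j ≥ 1` sits at the position `l[j-1]`:
`ghIdx l l[j-1] = j`, `cvLo P j = l[j-1].u`, `skCumB P j = ghAt 1 b l[j-1]`, `skMs 1 P j = l[j].u` (`1` if `j ≥ N`).   The cut `0`: put `ghPosB 0` in the chain; its revelation is `⟨0,0,0⟩` and the cuts `0`, `1` carry the same laws (L12).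
-/

set_option autoImplicit false

namespace Claimed.Agent.R286

open MeasureTheory Set Filter Topology

noncomputable section

/-! ## 1. Path-level data and inputs -/

/-- **data of one instance at path level** -/
structure CavP where
  n : ℕ
  b : ℝ → ℝ
  h : ℝ → ℝ
  x : ℝ
  W : ℝ
  sv : ℝ
  et : ℝ
  T : ℝ
  pB : GhPos
  pX : GhPos
  ps : GhPos
  pU : GhPos

/-- the real tree with the labels `0, 1, 2`: `0` leaves `1, 2` at `p0`; `1, 2` split at `pv` (`p0 ≤ pv`) -/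
def cvlR3 (p0 pv : GhPos) : ℕ → ℕ → WithTop GhPos := fun y z =>
  if y = z then ⊤ else if y = 0 ∨ z = 0 then (p0 : WithTop GhPos) else (pv : WithTop GhPos)

/-- number of revelations of the chain of `F` up to the position `p` -/
def cvlJ (F : Finset GhPos) (p : GhPos) : ℕ := ghIdx (ghPs 1 F) (p : WithTop GhPos)

namespace CavP

variable (I : CavP)

/-- the instance carried by the chain `l` -/
def on (l : List GhPos) : CavIn := cvInC I.n I.b I.h I.x I.W I.sv I.et I.T I.pB I.pX I.ps I.pU l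

/-- the step path of the chain of `F` -/
def stp (F : Finset GhPos) : SkStp := skCStp 1 I.b I.h 0 0 (ghPs 1 F)

/-- `S` at a position -/
def S (p : GhPos) : ℝ := skCS I.n 1 I.b I.h p

/-- `D` at a position -/
def D (p : GhPos) : ℝ := cvDC I.n I.b I.h p

/-- `E (R - c)^{2k}` for a pair which splits at `p` -/
def mom (p : GhPos) (c : ℝ) (k : ℕ) : ℝ := skCNu I.n 1 I.b I.h 2 (ghR2 p) fun σ => (skOv (σ 0) (σ 1) - c) ^ (2 * k)

/-- `E (R_01 - R_02)^{2k}` on the tree `cvlR3 p0 pv` -/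
def res (p0 pv : GhPos) (k : ℕ) : ℝ :=
  skCNu I.n 1 I.b I.h 3 (cvlR3 p0 pv) fun σ => (skOv (σ 0) (σ 1) - skOv (σ 0) (σ 2)) ^ (2 * k)

/-- **path-level inputs at the scale `x`** (field by field the path form of `CavIn.Ok`; `mesh`, `adm` are free) -/
structure Ok (c C ρ : ℝ) (Cp : ℕ → ℝ) (kM : ℕ) : Prop where
  n2 : 2 ≤ I.n
  clk : CkAdm 1 I.b I.h
  x0 : 0 < I.x
  xW : I.x ≤ I.W
  WC : I.W ≤ C
  sv0 : 0 < I.sv
  sv1 : I.sv ≤ I.x ^ ρ
  et0 : 0 < I.et
  nx : 1 ≤ I.sv ^ 2 * I.n * I.x ^ 6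
  Cp0 : ∀ k, 0 < Cp k
  totB : ghAt 1 I.b (ghPosA 1) ≤ C
  totH : ghAt 1 I.h (ghPosA 1) ≤ C
  /-- (12) at every position -/
  raw : ∀ p : GhPos, p.Ok 1 → ∀ k, 1 ≤ k → k ≤ kM → I.mom p 0 k ≤ (Cp k * (p.u + I.x)) ^ (2 * k)
  pBok : I.pB.Ok 1
  pXok : I.pX.Ok 1
  pBX : I.pB ≤ I.pX
  band : I.pB.u < C * I.x
  UxLo : c * I.x ≤ I.pX.u
  UxHi : I.pX.u < C * I.x
  Ux1 : I.pX.u < 1
  hHi : ∀ p : GhPos, p.Ok 1 → I.pX < p → ghAt 1 I.h p ≤ C * p.u
  /-- (19) up to `U_x` -/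
  lowX : ∫ v in (0 : ℝ)..I.pX.u, I.D (ghPosA v) < I.et * I.x ^ 2
  /-- (18) above `U_x`, PER DYAD in cumulative form (the factor `2` is the slack) -/
  highX : ∀ v : ℝ, I.pX.u ≤ v → v ≤ 1 → 2 * ∫ t in I.pX.u..v, I.D (ghPosA t) ^ 2 ≤ v * (I.sv * I.x) ^ 2

/-- **path-level inputs at the calibration scale `W`** -/
structure Star (c C : ℝ) (Cp : ℕ → ℝ) (kM : ℕ) : Prop where
  psok : I.ps.Ok 1
  pUok : I.pU.Ok 1
  pBs : I.pB < I.ps
  psU : I.ps ≤ I.pU
  pXU : I.pX ≤ I.pU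
  ULo : c * I.W ≤ I.pU.u
  UHi : I.pU.u < C * I.W
  U1 : I.pU.u < 1
  SLo : c * I.W < I.S I.ps
  Dst : I.D I.ps < I.sv * I.x ^ 2 / I.W
  /-- (17) -/
  mom : ∀ k, 1 ≤ k → k ≤ kM → I.mom I.ps (I.S I.ps) k ≤ (Cp k * I.sv * I.W) ^ (2 * k)
  T1 : 1 ≤ I.T
  TC : I.T ≤ C
  /-- (4), O-form, at `*` only -/
  bst : |ghAt 1 I.b I.ps - I.T| ≤ C * I.W ^ 2
  hst : ghAt 1 I.h I.ps ≤ C * I.W ^ 3
  /-- (19) up to `U` -/
  lowU : ∫ v in (0 : ℝ)..I.pU.u, I.D (ghPosA v) < I.et * I.x ^ 2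
  /-- (18) above `U`, PER DYAD in cumulative form (the factor `2` is the slack) -/
  highU : ∀ v : ℝ, I.pU.u ≤ v → v ≤ 1 → 2 * ∫ t in I.pU.u..v, I.D (ghPosA t) ^ 2 ≤ v * (I.sv * I.x ^ 2 / I.W) ^ 2
  /-- (16): `z_v = x³/(W^{3/2} √v)` -/
  resU : ∀ p0 pv : GhPos, p0.Ok 1 → pv.Ok 1 → (p0 ≤ I.pB ∨ p0 = I.ps) → I.pU < pv → ∀ k, 1 ≤ k → k ≤ kM →
    I.res p0 pv k ≤ (Cp k * (I.sv * (I.x ^ 3 / (I.W * Real.sqrt I.W))) / Real.sqrt pv.u) ^ (2 * k)
  /-- FIELD LENGTH (the only input of (13)): before every position `p` above `U` there is a field clock interval `(p', p]`, after `*`, of masses `≥ p'.u`, with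
  `1/(p'.u √(n (h(p) - h(p')))) ≤ sv x³/(W^{3/2} p.u)` -/
  fld : ∀ p : GhPos, p.Ok 1 → I.pU < p → ∃ p' : GhPos, p'.Ok 1 ∧ I.ps ≤ p' ∧ p' < p ∧
    (I.W * Real.sqrt I.W * p.u) ^ 2 ≤ (I.sv * I.x ^ 3) ^ 2 * (p'.u ^ 2 * (I.n * (ghAt 1 I.h p - ghAt 1 I.h p')))

/-- **the regime `W ≥ w0`** -/
structure Large : Prop where
  all : ∫ v in (0 : ℝ)..1, I.D (ghPosA v) < I.et * I.x ^ 2

end CavP

theorem cvl_eqns_cite : True := by
  have := @cvlR3.eq_1
  have := @cvlJ.eq_1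
  have := @CavP.on.eq_1
  have := @CavP.stp.eq_1
  have := @CavP.S.eq_1
  have := @CavP.D.eq_1
  have := @CavP.mom.eq_1
  have := @CavP.res.eq_1
  trivial

/-! ## 2. LEAVES A: the dictionary of a chain (deterministic; lists, `ghAt`, `ghIdx`) -/

section leavesA

variable (I : CavP)

/-! #### helpers (helper97): sorted lists of positions -/

theorem cvl_a_len (a : ℝ) (b h : ℝ → ℝ) : ∀ (l : List GhPos) (b0 h0 : ℝ), (skCStp a b h b0 h0 l).length = l.length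
  | [], _, _ => rfl
  | p :: l, b0, h0 => by simp [skCStp, cvl_a_len a b h l]

/-- in a strictly sorted list the elements `≤ q` are exactly the first `ghIdx l q` ones -/
theorem cvl_a_le_iff : ∀ {l : List GhPos}, l.Pairwise (· < ·) → ∀ (q : GhPos) (i : ℕ) (hi : i < l.length),
    l[i] ≤ q ↔ i < ghIdx l (q : WithTop GhPos)
  | [], _, _, i, hi => by simp at hi
  | x :: t, hs, q, i, hi => by
    have hs' := List.pairwise_cons.1 hs
    rw [cvw_idx_coe]
    by_cases hx : x ≤ q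
    · rw [List.filter_cons_of_pos (by simpa using hx), List.length_cons]
      cases i with
      | zero => simpa using hx
      | succ i =>
        have hi' : i < t.length := by simpa using hi
        have := cvl_a_le_iff hs'.2 q i hi'
        rw [cvw_idx_coe] at this
        simp only [List.getElem_cons_succ]
        rw [this]
        omega
    · have e : t.filter (fun y : GhPos => decide (y ≤ q)) = [] := by
        rw [List.filter_eq_nil_iff]
        intro y hy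
        have := hs'.1 y hy
        simp only [decide_eq_true_eq]
        exact fun h => hx (this.le.trans h)
      rw [List.filter_cons_of_neg (by simpa using hx), e]
      simp only [List.length_nil, Nat.not_lt_zero, iff_false]
      cases i with
      | zero => simpa using hx
      | succ i =>
        have hi' : i < t.length := by simpa using hi
        simp only [List.getElem_cons_succ]
        exact fun h => hx ((hs'.1 _ (List.getElem_mem hi')).le.trans h)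

theorem cvl_a_mono {l : List GhPos} (hs : l.Pairwise (· < ·)) {i j : ℕ} (hij : i ≤ j) (hj : j < l.length) :
    l[i]'(lt_of_le_of_lt hij hj) ≤ l[j] := by
  rcases hij.eq_or_lt with rfl | h
  · exact le_rfl
  · exact (List.pairwise_iff_getElem.1 hs i j _ hj h).le

theorem cvl_a_idx_le (l : List GhPos) (q : GhPos) : ghIdx l (q : WithTop GhPos) ≤ l.length := by
  rw [cvw_idx_coe]
  exact List.length_filter_le _ _

/-- the index of the element number `i` -/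
theorem cvl_a_idx_get {l : List GhPos} (hs : l.Pairwise (· < ·)) (i : ℕ) (hi : i < l.length) :
    ghIdx l ((l[i] : GhPos) : WithTop GhPos) = i + 1 := by
  have h1 : i < ghIdx l ((l[i] : GhPos) : WithTop GhPos) := (cvl_a_le_iff hs l[i] i hi).1 le_rfl
  by_contra hne
  have h2 : i + 1 < ghIdx l ((l[i] : GhPos) : WithTop GhPos) := by omega
  have h3 : i + 1 < l.length := lt_of_lt_of_le h2 (cvl_a_idx_le l _)
  have h4 := (cvl_a_le_iff hs l[i] (i + 1) h3).2 h2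
  exact absurd (List.pairwise_iff_getElem.1 hs i (i + 1) hi h3 (Nat.lt_succ_self i)) (not_lt.2 h4)

/-- the cumulative clocks telescope -/
theorem cvl_a_cum (a : ℝ) (b h : ℝ → ℝ) : ∀ (l : List GhPos) (b0 h0 : ℝ) (i : ℕ) (hi : i < l.length),
    b0 + skCumB (skCStp a b h b0 h0 l) (i + 1) = ghAt a b l[i] ∧ h0 + skCumH (skCStp a b h b0 h0 l) (i + 1) = ghAt a h l[i]
  | [], _, _, i, hi => by simp at hi
  | p :: l, b0, h0, i, hi => by
    cases i with
    | zero => simp [skCStp, skCumB, skCumH]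
    | succ i =>
      have hi' : i < l.length := by simpa using hi
      have := cvl_a_cum a b h l (ghAt a b p) (ghAt a h p) i hi'
      simp only [skCStp, skCumB, skCumH, List.take_succ_cons, List.map_cons, List.sum_cons, List.getElem_cons_succ] at this ⊢
      constructor
      · rw [← this.1]; ring
      · rw [← this.2]; ring

theorem cvl_a_ms (a : ℝ) (b h : ℝ → ℝ) (l : List GhPos) (b0 h0 : ℝ) (i : ℕ) (hi : i < l.length) :
    skMs a (skCStp a b h b0 h0 l) i = (l[i]).u := by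
  unfold skMs
  rw [cvw_map_m, List.getD_eq_getElem _ _ (by simpa using hi)]
  simp

theorem cvl_a_ms_top (a : ℝ) (b h : ℝ → ℝ) (l : List GhPos) (b0 h0 : ℝ) (i : ℕ) (hi : l.length ≤ i) :
    skMs a (skCStp a b h b0 h0 l) i = a := by
  unfold skMs
  rw [cvw_map_m, List.getD_eq_default _ _ (by simpa using hi)]

theorem cvl_a_u_mono {p q : GhPos} (h : p ≤ q) : p.u ≤ q.u := sk_stp_pos_u_le h

theorem cvl_a_stp_len (F : Finset GhPos) : (I.stp F).length = (ghPs 1 F).length := cvl_a_len 1 I.b I.h _ 0 0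

/-- L1.   = `cmk_chain_adm` (`Cmp/InstNum`): masses sorted in `[0,1]`, increments `≥ 0` (`ghAt` is monotone in the position) -/
theorem cvl_adm (h : CkAdm 1 I.b I.h) (F : Finset GhPos) : SkAdm 1 (I.stp F) :=
  sk_stp_chain_adm zero_le_one h.1 h.2 (ghPs 1 F) 0 0 (gh_os_ps_pairwise 1 F) (fun p hp => (gh_os_ps_mem.1 hp).2)
    (fun p hp => gh_os_at_nonneg zero_le_one h.1 (gh_os_ps_mem.1 hp).2.2.2.1)
    (fun p hp => gh_os_at_nonneg zero_le_one h.2 (gh_os_ps_mem.1 hp).2.2.2.1)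

/-- L2.   the total clocks telescope to `ghAt` at the last position `≤ ghPosA 1` -/
theorem cvl_tot (h : CkAdm 1 I.b I.h) (F : Finset GhPos) :
    skTotB (I.stp F) ≤ ghAt 1 I.b (ghPosA 1) ∧ skTotH (I.stp F) ≤ ghAt 1 I.h (ghPosA 1) := by
  have hl : (0 : ℝ) ≤ (ghPosA 1).lam := by simp [ghPosA, GhPos.lam]
  have := gh_pk_tot_lo zero_le_one h (ghPs 1 F) 0 0 (fun p hp => (gh_os_ps_mem.1 hp).2)
    (gh_os_at_nonneg zero_le_one h.1 hl) (gh_os_at_nonneg zero_le_one h.2 hl)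
  simpa [CavP.stp] using this

/-- L3.   = `gh_ct_idx_mono` (`Brg/ChTr`) -/
theorem cvl_J_mono (F : Finset GhPos) {p q : GhPos} (h : p ≤ q) : cvlJ F p ≤ cvlJ F q :=
  cvw_idx_mono _ h

/-- L4.   for a position OF THE CHAIN the index decides the order (`p` itself is counted in `cvlJ F p`) -/
theorem cvl_J_le_iff (F : Finset GhPos) {p q : GhPos} (hp : p ∈ ghPs 1 F) : cvlJ F p ≤ cvlJ F q ↔ p ≤ q := by
  obtain ⟨i, hi, rfl⟩ := List.mem_iff_getElem.1 hp
  unfold cvlJ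
  rw [cvl_a_idx_get (gh_os_ps_lt 1 F) i hi, cvl_a_le_iff (gh_os_ps_lt 1 F) q i hi]
  exact Nat.succ_le_iff

/-- L5.   THE NEXT REVELATION after `q`: base `F0 = {ghPosA u'}`; the revelation number `cvlJ F q` is the first position `> q` of the chain: its mass is `≥ q.u` and `≤ u'` -/
theorem cvl_next {q : GhPos} (hq : q.Ok 1) {u' : ℝ} (h1 : q.u < u') (h2 : u' ≤ 1) :
    ∀ᶠ F : Finset GhPos in atTop, cvlJ F q < (I.stp F).length ∧ q.u ≤ skMs 1 (I.stp F) (cvlJ F q) ∧ skMs 1 (I.stp F) (cvlJ F q) ≤ u' := by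
  filter_upwards [eventually_ge_atTop ({ghPosA u'} : Finset GhPos)] with F hF
  have hs := gh_os_ps_lt 1 F
  have hok : (ghPosA u').Ok 1 := gh_os_posA_ok (hq.1.trans h1.le) h2
  have hmem : ghPosA u' ∈ ghPs 1 F := gh_os_ps_mem.2 ⟨hF (Finset.mem_singleton_self _), hok⟩
  obtain ⟨i, hi, hie⟩ := List.mem_iff_getElem.1 hmem
  have hu : (ghPosA u').u = u' := rfl
  have hnle : ¬ (ghPs 1 F)[i] ≤ q := by
    rw [hie]
    intro hle
    have := cvl_a_u_mono hle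
    rw [hu] at this
    linarith
  have hki : cvlJ F q ≤ i := not_lt.1 fun hlt => hnle ((cvl_a_le_iff hs q i hi).2 hlt)
  have hk : cvlJ F q < (ghPs 1 F).length := lt_of_le_of_lt hki hi
  have hms : skMs 1 (I.stp F) (cvlJ F q) = ((ghPs 1 F)[cvlJ F q]).u := cvl_a_ms 1 I.b I.h _ 0 0 _ hk
  refine ⟨by rw [cvl_a_stp_len]; exact hk, ?_, ?_⟩
  · rw [hms]
    have : ¬ (ghPs 1 F)[cvlJ F q] ≤ q := fun hle => lt_irrefl _ ((cvl_a_le_iff hs q _ hk).1 hle)
    exact cvl_a_u_mono (not_le.1 this).le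
  · rw [hms, ← hu, ← hie]
    exact cvl_a_u_mono (cvl_a_mono hs hki hi)

/-- L6.   the clocks at a position of the chain: base `F0 = {q}`; the increments telescope -/
theorem cvl_cum {q : GhPos} (hq : q.Ok 1) :
    ∀ᶠ F : Finset GhPos in atTop, q ∈ ghPs 1 F ∧ skCumB (I.stp F) (cvlJ F q) = ghAt 1 I.b q ∧ skCumH (I.stp F) (cvlJ F q) = ghAt 1 I.h q := by
  filter_upwards [eventually_ge_atTop ({q} : Finset GhPos)] with F hF
  have hmem : q ∈ ghPs 1 F := gh_os_ps_mem.2 ⟨hF (Finset.mem_singleton_self _), hq⟩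
  refine ⟨hmem, ?_⟩
  obtain ⟨i, hi, rfl⟩ := List.mem_iff_getElem.1 hmem
  have e : cvlJ F (ghPs 1 F)[i] = i + 1 := cvl_a_idx_get (gh_os_ps_lt 1 F) i hi
  have := cvl_a_cum 1 I.b I.h (ghPs 1 F) 0 0 i hi
  rw [e]
  simpa [CavP.stp] using this

/-- L7.   every cut `j > cvlJ F q` sits at a position `p = l[j-1] > q` of the chain: `skCumH P j = ghAt 1 h p`, `cvLo P j = p.u` -/
theorem cvl_cut (F : Finset GhPos) (q : GhPos) {j : ℕ} (h1 : cvlJ F q < j) (h2 : j ≤ (I.stp F).length) :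
    ∃ p ∈ ghPs 1 F, p.Ok 1 ∧ q < p ∧ cvlJ F p = j ∧ cvLo (I.stp F) j = p.u ∧ skCumB (I.stp F) j = ghAt 1 I.b p ∧ skCumH (I.stp F) j = ghAt 1 I.h p := by
  have hs := gh_os_ps_lt 1 F
  rw [cvl_a_stp_len] at h2
  obtain ⟨i, rfl⟩ : ∃ i, j = i + 1 := ⟨j - 1, by omega⟩
  have hi : i < (ghPs 1 F).length := h2
  have hc := cvl_a_cum 1 I.b I.h (ghPs 1 F) 0 0 i hi
  refine ⟨(ghPs 1 F)[i], List.getElem_mem hi, (gh_os_ps_mem.1 (List.getElem_mem hi)).2, ?_, cvl_a_idx_get hs i hi, ?_, ?_, ?_⟩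
  · refine not_le.1 fun hle => ?_
    have := (cvl_a_le_iff hs q i hi).1 hle
    unfold cvlJ at h1
    omega
  · unfold cvLo
    rw [if_neg (Nat.succ_ne_zero i)]
    exact cvl_a_ms 1 I.b I.h _ 0 0 i hi
  · simpa [CavP.stp] using hc.1
  · simpa [CavP.stp] using hc.2

/-- L8.   MESH: base `F0 = {ghPosA (2^(-i)) : i ≤ i0}`, `2^(-i0) ≤ q.u`: after a position of mass `u ∈ [q.u, 1]` the chain has a position of mass `≤ min (2u) 1` -/
theorem cvl_mesh {q : GhPos} (hq : q.Ok 1) (hq0 : 0 < q.u) :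
    ∀ᶠ F : Finset GhPos in atTop, ∀ j, cvlJ F q < j → j ≤ (I.stp F).length → skMs 1 (I.stp F) j ≤ 2 * cvLo (I.stp F) j := by
  classical
  obtain ⟨i0, hi0⟩ : ∃ i0 : ℕ, (1 / 2 : ℝ) ^ i0 ≤ q.u :=
    ((tendsto_pow_atTop_nhds_zero_of_lt_one (by norm_num : (0 : ℝ) ≤ 1 / 2) (by norm_num)).eventually
      (ge_mem_nhds hq0)).exists
  filter_upwards [eventually_ge_atTop ((Finset.range (i0 + 1)).image fun i : ℕ => ghPosA ((1 / 2 : ℝ) ^ i))] with F hF
  intro j h1 h2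
  have hs := gh_os_ps_lt 1 F
  obtain ⟨p, hp, hpok, hqp, hJp, hlo, -, -⟩ := cvl_cut I F q h1 h2
  rw [hlo]
  have hpu : q.u ≤ p.u := cvl_a_u_mono hqp.le
  have hgrid : ∀ i, i ≤ i0 → ghPosA ((1 / 2 : ℝ) ^ i) ∈ ghPs 1 F := fun i hi =>
    gh_os_ps_mem.2 ⟨hF (Finset.mem_image.2 ⟨i, Finset.mem_range.2 (by omega), rfl⟩),
      gh_os_posA_ok (by positivity) (pow_le_one₀ (by norm_num) (by norm_num))⟩
  rw [cvl_a_stp_len] at h2
  -- a position `r > p` of the chain bounds the next mass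
  have hnext : ∀ r ∈ ghPs 1 F, p < r → skMs 1 (I.stp F) j ≤ r.u := by
    intro r hr hpr
    obtain ⟨m, hm, rfl⟩ := List.mem_iff_getElem.1 hr
    have hjm : j ≤ m := by
      by_contra hlt
      have : (ghPs 1 F)[m] ≤ p := (cvl_a_le_iff hs p m hm).2 (by unfold cvlJ at hJp; omega)
      exact absurd hpr (not_lt.2 this)
    have hj : j < (ghPs 1 F).length := lt_of_le_of_lt hjm hm
    have e : skMs 1 (I.stp F) j = ((ghPs 1 F)[j]).u := cvl_a_ms 1 I.b I.h _ 0 0 j hj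
    rw [e]
    exact cvl_a_u_mono (cvl_a_mono hs hjm hm)
  have hle1 : skMs 1 (I.stp F) j ≤ 1 := by
    by_cases hj : j < (ghPs 1 F).length
    · have e : skMs 1 (I.stp F) j = ((ghPs 1 F)[j]).u := cvl_a_ms 1 I.b I.h _ 0 0 j hj
      rw [e]
      exact (gh_os_ps_mem.1 (List.getElem_mem hj)).2.2.1
    · exact (cvl_a_ms_top 1 I.b I.h _ 0 0 j (not_lt.1 hj)).le
  by_cases hp1 : 1 ≤ 2 * p.u
  · exact hle1.trans hp1
  · have hex : ∃ m : ℕ, (1 / 2 : ℝ) ^ m ≤ p.u := ⟨i0, hi0.trans hpu⟩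
    set m := Nat.find hex with hm
    have hm1 : (1 / 2 : ℝ) ^ m ≤ p.u := Nat.find_spec hex
    have hm0 : m ≠ 0 := by
      intro h0
      rw [h0, pow_zero] at hm1
      linarith
    have hmi : m ≤ i0 := Nat.find_min' hex (hi0.trans hpu)
    have hm2 : p.u < (1 / 2 : ℝ) ^ (m - 1) := not_le.1 (Nat.find_min hex (by omega))
    have hr := hgrid (m - 1) (by omega)
    have hu : (ghPosA ((1 / 2 : ℝ) ^ (m - 1))).u = (1 / 2 : ℝ) ^ (m - 1) := rfl
    have hpr : p < ghPosA ((1 / 2 : ℝ) ^ (m - 1)) := (gh_os_pos_lt_iff _ _).2 (Or.inl (by rw [hu]; exact hm2))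
    refine (hnext _ hr hpr).trans ?_
    rw [hu]
    have e : (1 / 2 : ℝ) ^ (m - 1) = 2 * (1 / 2 : ℝ) ^ m := by
      obtain ⟨m', hm'⟩ : ∃ m', m = m' + 1 := ⟨m - 1, by omega⟩
      rw [hm', Nat.add_sub_cancel, pow_succ]
      ring
    rw [e]
    linarith

/-- L8'.   every valid position is `≤ ghPosA 1` -/
theorem cvl_top : ∀ᶠ F : Finset GhPos in atTop, cvlJ F (ghPosA 1) = (I.stp F).length := by
  refine Eventually.of_forall fun F => ?_
  rw [cvl_a_stp_len]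
  unfold cvlJ
  rw [cvw_idx_coe, List.filter_eq_self.2]
  intro p hp
  have hok := (gh_os_ps_mem.1 hp).2
  simp only [decide_eq_true_eq]
  rw [gh_os_pos_le_iff]
  have hu : (ghPosA 1).u = 1 := rfl
  have hl : (ghPosA 1).lam = 1 := rfl
  rw [hu, hl]
  rcases hok.2.1.lt_or_eq with h | h
  · exact Or.inl h
  · exact Or.inr ⟨h, hok.2.2.2⟩

end leavesA

/-! helpers of section B (helper32; prefix `cvlb_`) -/

theorem cvlb_u_mono {p q : GhPos} (h : p ≤ q) : p.u ≤ q.u := by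
  rcases Prod.Lex.le_iff.1 h with h | h
  · exact h.le
  · exact h.1.le

theorem cvlb_posB0_le {p : GhPos} (hp : p.Ok 1) : ghPosB 0 ≤ p := by
  rw [Prod.Lex.le_iff]
  rcases hp.1.lt_or_eq with h | h
  · exact Or.inl h
  · exact Or.inr ⟨h, hp.2.2.1⟩

theorem cvlb_min_congr {q : ℕ} {s t : Finset (Fin q)} (h : s = t) (hs : s.Nonempty) (ht : t.Nonempty) : s.min' hs = t.min' ht := by
  subst h; rfl

/-- the chain starts at `ghPosB 0` -/
theorem cvlb_head {F : Finset GhPos} (hB : ghPosB 0 ∈ F) : ∃ l', ghPs 1 F = ghPosB 0 :: l' := by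
  have hmem : ghPosB 0 ∈ ghPs 1 F := gh_os_ps_mem.2 ⟨hB, le_rfl, zero_le_one, le_rfl, zero_le_one⟩
  have hs := gh_os_ps_pairwise 1 F
  have hok : ∀ p ∈ ghPs 1 F, p.Ok 1 := fun p hp => (gh_os_ps_mem.1 hp).2
  cases hl : ghPs 1 F with
  | nil => rw [hl] at hmem; simp at hmem
  | cons p l' =>
    rw [hl] at hmem hs hok
    have h1 : ghPosB 0 ≤ p := cvlb_posB0_le (hok p List.mem_cons_self)
    have h2 : p ≤ ghPosB 0 := by
      rcases List.mem_cons.1 hmem with h | h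
      · exact h.ge
      · exact (List.pairwise_cons.1 hs).1 _ h
    exact ⟨l', by rw [le_antisymm h2 h1]⟩

theorem cvlb_J_posB0 (F : Finset GhPos) : cvlJ F (ghPosB 0) ≤ 1 := by
  unfold cvlJ
  rw [cvw_idx_coe]
  have hnd := gh_os_ps_nodup 1 F
  have hsub : (ghPs 1 F).filter (fun x : GhPos => decide (x ≤ ghPosB 0)) ⊆ [ghPosB 0] := by
    intro x hx
    have h1 := List.mem_filter.1 hx
    have h2 : x ≤ ghPosB 0 := by simpa using h1.2
    have h3 : ghPosB 0 ≤ x := cvlb_posB0_le (gh_os_ps_mem.1 h1.1).2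
    rw [le_antisymm h2 h3]
    exact List.mem_singleton.2 rfl
  have := (List.Nodup.filter _ hnd).subperm hsub
  simpa using this.length_le

/-- the first revelation of a chain which starts at `ghPosB 0` is empty: only the representatives of the later revelations matter -/
theorem cvlb_nu_head (n : ℕ) (b h : ℝ → ℝ) {q : ℕ} (l' : List GhPos) (rep rep' : ℕ → Fin q → Fin q) (hrep : ∀ t, 1 ≤ t → rep t = rep' t)
    (f : (Fin q → SkCfg n) → ℝ) :
    ghNu (skBase n 1) (skLvs n (skCStp 1 b h 0 0 (ghPosB 0 :: l'))) rep (fun _ => 0) (fun _ σ => f σ)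
      = ghNu (skBase n 1) (skLvs n (skCStp 1 b h 0 0 (ghPosB 0 :: l'))) rep' (fun _ => 0) fun _ σ => f σ := by
  have hz : ∀ c : ℝ → ℝ, ghAt 1 c (ghPosB 0) = 0 := fun c => by rw [gh_os_at_posB, gh_os_left_zero 1 c le_rfl]
  have hl : ∀ s i, (SkInc.lv n ⟨(ghPosB 0).u, ghAt 1 b (ghPosB 0) - 0, ghAt 1 h (ghPosB 0) - 0⟩).A s i = 0 := by
    intro s i
    simp only [SkInc.lv, ghLvF, hz, sub_zero]
    cases i <;> simp
  simp only [skCStp, skLvs, List.map_cons]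
  rw [tr_e_nu_empty_head _ f hl, tr_e_nu_empty_head _ f hl]
  have : (fun t => rep (t + 1)) = fun t => rep' (t + 1) := by
    funext t
    exact hrep (t + 1) (by omega)
  rw [this]

theorem cvlb_sqrt_sub {a b : ℝ} (ha : 0 ≤ a) (hb : 0 ≤ b) : |Real.sqrt a - Real.sqrt b| ≤ Real.sqrt |a - b| := by
  have key : ∀ {a b : ℝ}, 0 ≤ b → b ≤ a → Real.sqrt a - Real.sqrt b ≤ Real.sqrt (a - b) := by
    intro a b hb hab
    have h1 : Real.sqrt a ≤ Real.sqrt b + Real.sqrt (a - b) := by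
      rw [Real.sqrt_le_iff]
      refine ⟨by positivity, ?_⟩
      have e1 := Real.sq_sqrt hb
      have e2 := Real.sq_sqrt (sub_nonneg.2 hab)
      have e3 := mul_nonneg (Real.sqrt_nonneg b) (Real.sqrt_nonneg (a - b))
      nlinarith
    linarith
  rcases le_total b a with h | h
  · rw [abs_of_nonneg (sub_nonneg.2 (Real.sqrt_le_sqrt h)), abs_of_nonneg (sub_nonneg.2 h)]
    exact key hb h
  · rw [abs_sub_comm, abs_sub_comm a b, abs_of_nonneg (sub_nonneg.2 (Real.sqrt_le_sqrt h)), abs_of_nonneg (sub_nonneg.2 h)]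
    exact key ha h

theorem cvlb_J_neg (F : Finset GhPos) : cvlJ F (ghPosB (-1)) = 0 := by
  unfold cvlJ
  rw [cvw_idx_coe, List.length_eq_zero_iff, List.filter_eq_nil_iff]
  intro x hx
  have h1 := (gh_os_ps_mem.1 hx).2.1
  simp only [decide_eq_true_eq]
  intro h2
  have h3 : x.u ≤ -1 := cvlb_u_mono h2
  linarith

/-- the position of a cut of the chain -/
theorem cvlb_pos (I : CavP) {F : Finset GhPos} (hB : ghPosB 0 ∈ F) {j : ℕ} (hj : j ≤ (I.stp F).length) :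
    ∃ p ∈ ghPs 1 F, p.Ok 1 ∧ cvLo (I.stp F) j = p.u ∧ (j = cvlJ F p ∨ (j = 0 ∧ p = ghPosB 0)) := by
  rcases Nat.eq_zero_or_pos j with rfl | hj0
  · have hok : (ghPosB 0).Ok 1 := ⟨le_rfl, zero_le_one, le_rfl, zero_le_one⟩
    exact ⟨ghPosB 0, gh_os_ps_mem.2 ⟨hB, hok⟩, hok, rfl, Or.inr ⟨rfl, rfl⟩⟩
  · obtain ⟨p, hp, hok, -, e1, e2, -⟩ := cvl_cut I F (ghPosB (-1)) (by rw [cvlb_J_neg]; exact hj0) hj
    exact ⟨p, hp, hok, e2, Or.inl e1.symm⟩

theorem cvlb_min_pos (g : ℕ → ℝ) (hg : ∀ k, 0 < g k) (kM : ℕ) : ∃ δ : ℝ, 0 < δ ∧ ∀ k, k ≤ kM → δ ≤ g k := by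
  induction kM with
  | zero => exact ⟨g 0, hg 0, fun k hk => by rw [Nat.le_zero.1 hk]⟩
  | succ m ih =>
    obtain ⟨δ, hδ, h⟩ := ih
    refine ⟨min δ (g (m + 1)), lt_min hδ (hg _), fun k hk => ?_⟩
    rcases Nat.lt_or_ge k (m + 1) with h1 | h1
    · exact (min_le_left _ _).trans (h k (by omega))
    · rw [show k = m + 1 by omega]
      exact min_le_right _ _

theorem cvlb_slack {a b δ m : ℝ} {k : ℕ} (hk : 1 ≤ k) (ha : 0 ≤ a) (hm : m ≤ a ^ (2 * k)) (hδ : δ ≤ a ^ (2 * k)) (hab : 2 * a ≤ b) :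
    m + δ ≤ b ^ (2 * k) := by
  have h1 : (2 * a) ^ (2 * k) ≤ b ^ (2 * k) := pow_le_pow_left₀ (by positivity) hab _
  have h2 : (2 : ℝ) ≤ 2 ^ (2 * k) := by
    calc (2 : ℝ) = 2 ^ 1 := (pow_one 2).symm
      _ ≤ 2 ^ (2 * k) := pow_le_pow_right₀ (by norm_num) (by omega)
  have h3 : 0 ≤ a ^ (2 * k) := pow_nonneg ha _
  rw [mul_pow] at h1
  nlinarith

/-- real trees with one special label -/
theorem cvlb_rt (c q : ℕ) {p0 pv : GhPos} (hp0 : p0.Ok 1) (hpv : pv.Ok 1) (h : p0 ≤ pv) :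
    GhIsRT 1 q (fun y z => if y = z then ⊤ else if y = c ∨ z = c then (p0 : WithTop GhPos) else (pv : WithTop GhPos)) where
  diag := fun x _ => by simp
  symm := fun x y _ _ => by
    by_cases hxy : x = y
    · simp [hxy]
    · have hyx : ¬ y = x := fun h => hxy h.symm
      simp only [if_neg hxy, if_neg hyx, or_comm]
  ultra := fun x y z _ _ _ => by
    have hc : (p0 : WithTop GhPos) ≤ (pv : WithTop GhPos) := WithTop.coe_le_coe.2 h
    by_cases hxz : x = z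
    · simp [hxz]
    by_cases hxy : x = y
    · subst hxy
      simp
    by_cases hyz : y = z
    · subst hyz
      simp
    simp only [if_neg hxz, if_neg hxy, if_neg hyz]
    by_cases h1 : x = c
    · simp [h1]
    by_cases h2 : z = c
    · simp [h2]
    by_cases h3 : y = c
    · simp [h1, h2, h3, hc]
    · simp [h1, h2, h3]
  ok := fun x y _ _ p hp => by
    split_ifs at hp
    · exact absurd hp.symm WithTop.coe_ne_top
    · rw [← WithTop.coe_injective hp]; exact hp0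
    · rw [← WithTop.coe_injective hp]; exact hpv

theorem cvlb_R3_rt {p0 pv : GhPos} (hp0 : p0.Ok 1) (hpv : pv.Ok 1) (h : p0 ≤ pv) : GhIsRT 1 3 (cvlR3 p0 pv) :=
  cvlb_rt 0 3 hp0 hpv h

/-- monotonicity of the path numbers in the test, with an additive error -/
theorem cvlb_cnu_le (n : ℕ) {b h : ℝ → ℝ} (hbh : CkAdm 1 b h) {q : ℕ} {τ : ℕ → ℕ → WithTop GhPos} (hτ : GhIsRT 1 q τ)
    {f g : (Fin q → SkCfg n) → ℝ} {e : ℝ} (hfg : ∀ σ, f σ ≤ g σ + e) : skCNu n 1 b h q τ f ≤ skCNu n 1 b h q τ g + e := by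
  rw [sk_c_nu_eq, sk_c_nu_eq]
  have hB := sk_pt_base_ok n (a := 1) one_pos
  have hv := sk_pt_clk hbh n
  have h1 := gh_pt_mono_test hB (skPhi n) hv 0 hτ (P := f) (P' := fun σ => g σ + e * (fun _ => (1 : ℝ)) σ) (fun σ => by simpa using hfg σ)
  rw [gh_pt_add_mul hB (skPhi n) hv 0 hτ g (fun _ => 1) e, gh_pt_const hB (skPhi n) hv] at h1
  linarith

theorem cvlb_pow_lip {M : ℝ} (hM : 1 ≤ M) {a b : ℝ} (ha : |a| ≤ M) (hb : |b| ≤ M) (m : ℕ) : |a ^ m - b ^ m| ≤ m * M ^ m * |a - b| := by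
  induction m with
  | zero => simp
  | succ m ih =>
    have e : a ^ (m + 1) - b ^ (m + 1) = a * (a ^ m - b ^ m) + (a - b) * b ^ m := by ring
    have h0 : 0 ≤ M := by linarith
    have h1 : |a * (a ^ m - b ^ m)| ≤ M * (m * M ^ m * |a - b|) := by
      rw [abs_mul]
      exact mul_le_mul ha ih (abs_nonneg _) h0
    have h2 : |(a - b) * b ^ m| ≤ |a - b| * M ^ m := by
      rw [abs_mul, abs_pow]
      exact mul_le_mul_of_nonneg_left (pow_le_pow_left₀ (abs_nonneg _) hb _) (abs_nonneg _)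
    have h3 : M ^ m ≤ M ^ (m + 1) := pow_le_pow_right₀ hM (Nat.le_succ _)
    have h4 := mul_le_mul_of_nonneg_left h3 (abs_nonneg (a - b))
    rw [e]
    refine (abs_add_le _ _).trans ?_
    push_cast
    calc |a * (a ^ m - b ^ m)| + |(a - b) * b ^ m| ≤ M * (m * M ^ m * |a - b|) + |a - b| * M ^ (m + 1) := by linarith
      _ = ((m : ℝ) + 1) * M ^ (m + 1) * |a - b| := by ring

/-! ## 3. LEAVES B: numbers (uniform convergence along the net, Riemann sums) -/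

section leavesB

variable (I : CavP)

/-- L9.   `S`, `D` at a fixed position: `exit_clk_lim_stat` at `p = q ∈ F`, `|√a - √b| ≤ √|a - b|`, `|D²_F - D²| ≤ 3 δ` -/
theorem cvl_stat (hn : 0 < I.n) (h : CkAdm 1 I.b I.h) {q : GhPos} (hq : q.Ok 1) {ε : ℝ} (hε : 0 < ε) :
    ∀ᶠ F : Finset GhPos in atTop, |cvS I.n (I.stp F) (cvlJ F q) - I.S q| ≤ ε ∧ |cvD I.n (I.stp F) (cvlJ F q) - I.D q| ≤ ε := by
  have hδ : 0 < min ε (ε ^ 2 / 3) := lt_min hε (by positivity)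
  obtain ⟨F0, hF0⟩ := exit_clk_lim_stat hn one_pos h hδ
  filter_upwards [Filter.eventually_ge_atTop (insert q F0)] with F hF
  obtain ⟨h1, h2, -⟩ := hF0 F ((Finset.subset_insert _ _).trans hF) q (hF (Finset.mem_insert_self _ _)) hq
  have hadm : SkAdm 1 (ckStp 1 I.b I.h (ghPs 1 F)) := flb_chain_adm zero_le_one h F
  have hS := fd_S_range hn one_pos _ hadm 0 (ghIdx (ghPs 1 F) q)
  have hBr := fd_B_range hn one_pos _ hadm 0 (ghIdx (ghPs 1 F) q)
  obtain ⟨g0, -, -, g3, g4⟩ := exit_clk_SB hn one_pos h hq hq le_rfl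
  have g1 : skCS I.n 1 I.b I.h q ≤ 1 := by nlinarith
  refine ⟨h1.trans (min_le_left _ _), ?_⟩
  have h1' := abs_le.1 (h1.trans (min_le_right _ _))
  have h2' := abs_le.1 (h2.trans (min_le_right _ _))
  set s := obS I.n 1 (ckStp 1 I.b I.h (ghPs 1 F)) 0 (ghIdx (ghPs 1 F) q) with hs
  set B := obB I.n 1 (ckStp 1 I.b I.h (ghPs 1 F)) 0 (ghIdx (ghPs 1 F) q) with hB
  have e : |(B - s ^ 2) - (skCB I.n 1 I.b I.h q - skCS I.n 1 I.b I.h q ^ 2)| ≤ ε ^ 2 := by
    rw [abs_le]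
    constructor <;> nlinarith [h1'.1, h1'.2, h2'.1, h2'.2, hS.1, hS.2, g0, g1]
  have h3 := cvlb_sqrt_sub (sub_nonneg.2 hBr.1) (sub_nonneg.2 g3)
  have h4 : Real.sqrt |(B - s ^ 2) - (skCB I.n 1 I.b I.h q - skCS I.n 1 I.b I.h q ^ 2)| ≤ ε := by
    rw [Real.sqrt_le_iff]
    exact ⟨hε.le, e⟩
  exact h3.trans h4

/-- L11'.   the masses of the revelations after `q` lie in `[q.u, 1]` -/
theorem cvl_ms_mem (F : Finset GhPos) (q : GhPos) {j : ℕ} (h1 : cvlJ F q ≤ j) : q.u ≤ 1 → q.u ≤ skMs 1 (I.stp F) j ∧ skMs 1 (I.stp F) j ≤ 1 := by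
  intro hq1
  unfold skMs CavP.stp
  rw [cvw_map_m]
  by_cases hj : j < (ghPs 1 F).length
  · have e : ((ghPs 1 F).map GhPos.u).getD j 1 = ((ghPs 1 F)[j]).u := by
      simp [List.getD_eq_getElem?_getD, hj]
    rw [e]
    have hmem : (ghPs 1 F)[j] ∈ (ghPs 1 F).drop (ghIdx (ghPs 1 F) (q : WithTop GhPos)) := by
      rw [List.mem_drop_iff_getElem]
      have h1' : ghIdx (ghPs 1 F) (q : WithTop GhPos) ≤ j := h1
      exact ⟨j - ghIdx (ghPs 1 F) (q : WithTop GhPos), by omega, by congr 1; omega⟩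
    have h2 := bst_drop_idx _ (gh_os_ps_pairwise 1 F) q _ hmem
    exact ⟨cvlb_u_mono h2.le, (gh_os_ps_mem.1 (List.getElem_mem hj)).2.2.1⟩
  · have e : ((ghPs 1 F).map GhPos.u).getD j 1 = 1 := by
      simp [List.getD_eq_getElem?_getD, not_lt.1 hj]
    rw [e]
    exact ⟨hq1, le_rfl⟩

/-! ### Riemann sums (helpers of L10, L11; 76) -/

theorem cvl_sqrt_le {a b e : ℝ} (hb : 0 ≤ b) (he : 0 ≤ e) (h : a ≤ b + e) : Real.sqrt a ≤ Real.sqrt b + Real.sqrt e := by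
  rw [Real.sqrt_le_iff]
  refine ⟨add_nonneg (Real.sqrt_nonneg _) (Real.sqrt_nonneg _), ?_⟩
  have h1 := Real.sq_sqrt hb
  have h2 := Real.sq_sqrt he
  have h3 := mul_nonneg (Real.sqrt_nonneg b) (Real.sqrt_nonneg e)
  nlinarith

theorem cvl_sqrt_sq_le {a b : ℝ} (hb : 0 ≤ b) (h : a ≤ b) : Real.sqrt a ^ 2 ≤ b := by
  rcases le_total 0 a with ha | ha
  · rw [Real.sq_sqrt ha]; exact h
  · rw [Real.sqrt_eq_zero_of_nonpos ha]; simpa using hb


/-- the statistics of the path at the positions after the jumps -/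
theorem cvl_path_stat (hn : 0 < I.n) (h : CkAdm 1 I.b I.h) :
    (∀ v ∈ Icc (0 : ℝ) 1, 0 ≤ skCS I.n 1 I.b I.h (ghPosA v) ∧ skCS I.n 1 I.b I.h (ghPosA v) ≤ 1 ∧
      0 ≤ skCB I.n 1 I.b I.h (ghPosA v) - skCS I.n 1 I.b I.h (ghPosA v) ^ 2 ∧
      skCB I.n 1 I.b I.h (ghPosA v) - skCS I.n 1 I.b I.h (ghPosA v) ^ 2 ≤ 1) ∧
    MonotoneOn (fun v => skCS I.n 1 I.b I.h (ghPosA v)) (Icc 0 1) ∧ MonotoneOn (fun v => skCB I.n 1 I.b I.h (ghPosA v)) (Icc 0 1) := by
  have hok : ∀ v ∈ Icc (0 : ℝ) 1, (ghPosA v).Ok 1 := fun v hv => ⟨hv.1, hv.2, zero_le_one, le_rfl⟩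
  have hle : ∀ {v v' : ℝ}, v ≤ v' → ghPosA v ≤ ghPosA v' := by
    intro v v' hvv
    rw [Prod.Lex.le_iff]
    rcases hvv.lt_or_eq with h | h
    · exact Or.inl h
    · exact Or.inr ⟨h, le_rfl⟩
  refine ⟨fun v hv => ?_, fun v hv v' hv' hvv => ?_, fun v hv v' hv' hvv => ?_⟩
  · obtain ⟨h0, -, -, h3, h4⟩ := exit_clk_SB hn one_pos h (hok v hv) (hok v hv) le_rfl
    refine ⟨h0, ?_, by linarith, ?_⟩
    · nlinarith
    · nlinarith [sq_nonneg (skCS I.n 1 I.b I.h (ghPosA v))]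
  · exact (exit_clk_SB hn one_pos h (hok v hv) (hok v' hv') (hle hvv)).2.1
  · exact (exit_clk_SB hn one_pos h (hok v hv) (hok v' hv') (hle hvv)).2.2.1

/-- integrability of `D²` and of `D` on subintervals of `[0,1]` -/
theorem cvl_D_int (hn : 0 < I.n) (h : CkAdm 1 I.b I.h) {s t : ℝ} (hs : 0 ≤ s) (hst : s ≤ t) (ht : t ≤ 1) :
    IntervalIntegrable (fun v => I.D (ghPosA v) ^ 2) volume s t ∧ IntervalIntegrable (fun v => I.D (ghPosA v)) volume s t := by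
  obtain ⟨hst0, hS, hB⟩ := cvl_path_stat I hn h
  have hsub : uIcc s t ⊆ Icc (0 : ℝ) 1 := by rw [uIcc_of_le hst]; exact Icc_subset_Icc hs ht
  have hS2 : MonotoneOn (fun v => skCS I.n 1 I.b I.h (ghPosA v) ^ 2) (Icc 0 1) := by
    intro v hv v' hv' hvv
    exact pow_le_pow_left₀ (hst0 v hv).1 (hS hv hv' hvv) 2
  have h1 : IntervalIntegrable (fun v => skCB I.n 1 I.b I.h (ghPosA v) - skCS I.n 1 I.b I.h (ghPosA v) ^ 2) volume s t :=
    (hB.mono hsub).intervalIntegrable.sub (hS2.mono hsub).intervalIntegrable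
  have e2 : ∀ v ∈ Icc (0 : ℝ) 1, I.D (ghPosA v) ^ 2 = skCB I.n 1 I.b I.h (ghPosA v) - skCS I.n 1 I.b I.h (ghPosA v) ^ 2 := by
    intro v hv
    unfold CavP.D cvDC
    exact Real.sq_sqrt (hst0 v hv).2.2.1
  have h2 : IntervalIntegrable (fun v => I.D (ghPosA v) ^ 2) volume s t := by
    refine h1.congr ?_
    intro v hv
    exact (e2 v (hsub (uIoc_subset_uIcc hv))).symm
  refine ⟨h2, ?_⟩
  rw [intervalIntegrable_iff] at h1 ⊢
  have hm : AEStronglyMeasurable (fun v => I.D (ghPosA v)) (volume.restrict (uIoc s t)) :=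
    Real.continuous_sqrt.comp_aestronglyMeasurable h1.aestronglyMeasurable
  have hc : IntegrableOn (fun _ : ℝ => (1 : ℝ)) (uIoc s t) := by
    rw [uIoc_of_le hst]; exact integrableOn_const (by simp)
  refine Integrable.mono' hc hm ?_
  refine (ae_restrict_iff' measurableSet_uIoc).2 (Eventually.of_forall fun v hv => ?_)
  have hv' := hsub (uIoc_subset_uIcc hv)
  rw [Real.norm_eq_abs]
  unfold CavP.D cvDC
  rw [abs_of_nonneg (Real.sqrt_nonneg _), Real.sqrt_le_iff]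
  exact ⟨zero_le_one, by simpa using (hst0 v hv').2.2.2⟩

/-- comparison of a sum over consecutive cuts with an integral -/
theorem cvl_cut_le {P : SkStp} (hP : SkAdm 1 P) (G : ℕ → ℝ) (f : ℝ → ℝ)
    (hf : ∀ s t : ℝ, 0 ≤ s → s ≤ t → t ≤ 1 → IntervalIntegrable f volume s t)
    (hle : ∀ j ≤ P.length, ∀ v, bmMs 1 P j ≤ v → v < skMs 1 P j → G j ≤ f v) {j1 j2 : ℕ} (h12 : j1 ≤ j2) (h2 : j2 ≤ P.length + 1) :
    ∑ j ∈ Finset.Ico j1 j2, skGap 1 P j * G j ≤ ∫ v in (bmMs 1 P j1)..(bmMs 1 P j2), f v := by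
  have hint : ∀ k, IntervalIntegrable f volume (bmMs 1 P k) (bmMs 1 P (k + 1)) := by
    intro k
    rw [bud_pp_bm_succ]
    exact hf _ _ (bud_pp_bm_nonneg one_pos hP k) (bud_pp_bm_le one_pos hP k) (bud_pp_ms_le one_pos hP k)
  rw [← intervalIntegral.sum_integral_adjacent_intervals_Ico h12 fun k _ => hint k]
  refine Finset.sum_le_sum fun j hj => ?_
  have hj' : j ≤ P.length := by
    have := (Finset.mem_Ico.1 hj).2
    omega
  have e : skGap 1 P j * G j = ∫ _v in (bmMs 1 P j)..(bmMs 1 P (j + 1)), G j := by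
    rw [intervalIntegral.integral_const, bud_pp_bm_succ, smul_eq_mul]
    rfl
  rw [e]
  refine intervalIntegral.integral_mono_on_of_le_Ioo ?_ intervalIntegrable_const (hint j) fun v hv => ?_
  · rw [bud_pp_bm_succ]; exact bud_pp_bm_le one_pos hP j
  · rw [bud_pp_bm_succ] at hv
    exact hle j hj' v hv.1.le hv.2

theorem cvl_D2_close {s s' b b' δ : ℝ} (_hδ1 : δ ≤ 1) (hs : |s' - s| ≤ δ) (hb : |b' - b| ≤ δ) (h0 : 0 ≤ s) (h1 : s ≤ 1) :
    b' - s' ^ 2 ≤ (b - s ^ 2) + 4 * δ := by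
  have hs' := abs_le.1 hs
  have hb' := abs_le.1 hb
  have hδ0 : 0 ≤ δ := (abs_nonneg _).trans hs
  nlinarith [sq_nonneg (s' - s), mul_nonneg hδ0 h0, mul_nonneg hδ0 (sub_nonneg.2 h1)]

/-- on all fine chains, on every cut, `D²` of the chain is at most `D²` of the path `+ 4δ` -/
theorem cvl_D_cut (hn : 0 < I.n) (h : CkAdm 1 I.b I.h) {δ : ℝ} (hδ : 0 < δ) (hδ1 : δ ≤ 1) :
    ∀ᶠ F : Finset GhPos in atTop, ∀ j ≤ (I.stp F).length, ∀ v, bmMs 1 (I.stp F) j ≤ v → v < skMs 1 (I.stp F) j →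
      obD2 I.n 1 (I.stp F) 0 j ≤ I.D (ghPosA v) ^ 2 + 4 * δ := by
  obtain ⟨F0, hF0⟩ := bud_pp_unif hn one_pos h hδ
  obtain ⟨hst0, -, -⟩ := cvl_path_stat I hn h
  filter_upwards [Filter.eventually_ge_atTop F0] with F hF j hj v h1 h2
  have hP : SkAdm 1 (I.stp F) := cvl_adm I h F
  have hv : v ∈ Icc (0 : ℝ) 1 := ⟨(bud_pp_bm_nonneg one_pos hP j).trans h1, h2.le.trans (bud_pp_ms_le one_pos hP j)⟩
  have hix : ghIdx (ghPs 1 F) ((ghPosA v : GhPos) : WithTop GhPos) = j := by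
    rw [bud_pp_idx (a := 1) I.b I.h (ghPs 1 F) 0 0 (fun p hp => (gh_os_ps_mem.1 hp).2) v]
    exact bud_pp_ix_eq one_pos _ hP j v hj h1 h2
  obtain ⟨hS, hB, -⟩ := hF0 F hF v hv
  rw [hix] at hS hB
  have e2 : I.D (ghPosA v) ^ 2 = skCB I.n 1 I.b I.h (ghPosA v) - skCS I.n 1 I.b I.h (ghPosA v) ^ 2 := by
    unfold CavP.D cvDC
    exact Real.sq_sqrt (hst0 v hv).2.2.1
  rw [e2]
  exact cvl_D2_close hδ1 hS hB (hst0 v hv).1 (hst0 v hv).2.1

/-- L10.   RIEMANN SUM of `D` below `q`.   Base: `ghPosB 0`, `q`, `ghPosA 1`, a grid of mesh `μ`, the base of `exit_clk_lim_stat` for `δ`.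
On the cut `j ≥ 1` (masses `(l[j-1].u, l[j].u)`): `|D²_F(j) - D²(ghPosA v)| ≤ 3δ + ω_j`, `ω_j = (B(l[j]) - B(l[j-1])) + 2 (S(l[j]) - S(l[j-1]))` (`exit_clk_SB`), `∑ ω_j ≤ 3`;
`∑ gap_j √(3δ + ω_j) ≤ √(3δ + 3μ)` (Cauchy-Schwarz); the cut `0` has length `0`; the last cut overshoots `q.u` by `≤ μ`, `D ≤ 1`.   Integrability: `exit_clk_intble`. -/
theorem cvl_low (hn : 0 < I.n) (h : CkAdm 1 I.b I.h) {q : GhPos} (hq : q.Ok 1) {ε : ℝ} (hε : 0 < ε) :
    ∀ᶠ F : Finset GhPos in atTop, ∑ j ∈ Finset.range (cvlJ F q + 1), skGap 1 (I.stp F) j * cvD I.n (I.stp F) j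
      ≤ (∫ v in (0 : ℝ)..q.u, I.D (ghPosA v)) + ε := by
  have hδ : 0 < min 1 (ε ^ 2 / 16) := lt_min one_pos (by positivity)
  have hnext : ∀ᶠ F : Finset GhPos in atTop, skMs 1 (I.stp F) (cvlJ F q) ≤ q.u + ε / 2 := by
    rcases hq.2.1.lt_or_eq with h1 | h1
    · filter_upwards [cvl_next I hq (u' := min (q.u + ε / 2) 1) (lt_min (by linarith) h1) (min_le_right _ _)] with F hF
      exact hF.2.2.trans (min_le_left _ _)
    · refine Eventually.of_forall fun F => ?_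
      have := (cvl_ms_mem I F q le_rfl hq.2.1).2
      linarith
  filter_upwards [cvl_D_cut I hn h hδ (min_le_left _ _), hnext] with F hF hnx
  set δ := min 1 (ε ^ 2 / 16) with hδdef
  have hP : SkAdm 1 (I.stp F) := cvl_adm I h F
  have hI : ∀ s t : ℝ, 0 ≤ s → s ≤ t → t ≤ 1 → IntervalIntegrable (fun v => I.D (ghPosA v) + Real.sqrt (4 * δ)) volume s t :=
    fun s t hs hst ht => (cvl_D_int I hn h hs hst ht).2.add intervalIntegrable_const
  have hJ : cvlJ F q ≤ (I.stp F).length := by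
    have := gh_ct_idx_coe_le (ghPs 1 F) q
    rw [← bud_pp_chain_length 1 I.b I.h (ghPs 1 F) 0 0] at this
    exact this
  have key := cvl_cut_le hP (fun j => cvD I.n (I.stp F) j) (fun v => I.D (ghPosA v) + Real.sqrt (4 * δ)) hI
    (fun j hj v hv1 hv2 => by
      have h5 := cvl_sqrt_le (sq_nonneg (I.D (ghPosA v))) (by positivity : (0 : ℝ) ≤ 4 * δ) (hF j hj v hv1 hv2)
      have h6 : 0 ≤ I.D (ghPosA v) := Real.sqrt_nonneg _
      rw [Real.sqrt_sq h6] at h5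
      exact h5)
    (j1 := 0) (j2 := cvlJ F q + 1) (by omega) (by omega)
  rw [bud_pp_bm_succ, bud_pp_bm_zero] at key
  rw [← Nat.Ico_zero_eq_range]
  refine key.trans ?_
  have hm1 := cvl_ms_mem I F q le_rfl hq.2.1
  have hq0 : 0 ≤ q.u := hq.1
  rw [intervalIntegral.integral_add (cvl_D_int I hn h le_rfl (hq0.trans hm1.1) hm1.2).2 intervalIntegrable_const,
    intervalIntegral.integral_const, smul_eq_mul,
    ← intervalIntegral.integral_add_adjacent_intervals (cvl_D_int I hn h le_rfl hq0 hq.2.1).2 (cvl_D_int I hn h hq0 hm1.1 hm1.2).2]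
  have hD1 : ∀ v ∈ Icc q.u (skMs 1 (I.stp F) (cvlJ F q)), I.D (ghPosA v) ≤ 1 := by
    intro v hv
    obtain ⟨hst0, -, -⟩ := cvl_path_stat I hn h
    unfold CavP.D cvDC
    rw [Real.sqrt_le_iff]
    exact ⟨zero_le_one, by simpa using (hst0 v ⟨hq0.trans hv.1, hv.2.trans hm1.2⟩).2.2.2⟩
  have h3 : ∫ v in q.u..(skMs 1 (I.stp F) (cvlJ F q)), I.D (ghPosA v) ≤ ε / 2 := by
    have := intervalIntegral.integral_mono_on hm1.1 (cvl_D_int I hn h hq0 hm1.1 hm1.2).2 intervalIntegrable_const hD1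
    rw [intervalIntegral.integral_const, smul_eq_mul, mul_one] at this
    linarith
  have h4 : Real.sqrt (4 * δ) ≤ ε / 2 := by
    rw [Real.sqrt_le_iff]
    refine ⟨by positivity, ?_⟩
    have := min_le_right 1 (ε ^ 2 / 16)
    nlinarith
  have h5 : (skMs 1 (I.stp F) (cvlJ F q) - 0) * Real.sqrt (4 * δ) ≤ 1 * (ε / 2) :=
    mul_le_mul (by linarith [hm1.2]) h4 (Real.sqrt_nonneg _) zero_le_one
  linarith

/-- L11.   RIEMANN SUMS of `D²` above `q`, UNIFORMLY in the upper cut `j2` (same proof, without the square root: the total error is `≤ ∑_j gap_j (3δ + ω_j) ≤ 3δ + 3μ`;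
the sum starts at the first revelation after `q`, of mass `≥ q.u`, and `D² ≥ 0`) -/
theorem cvl_high (hn : 0 < I.n) (h : CkAdm 1 I.b I.h) {q : GhPos} (hq : q.Ok 1) {ε : ℝ} (hε : 0 < ε) :
    ∀ᶠ F : Finset GhPos in atTop, ∀ j2, cvlJ F q < j2 → j2 ≤ (I.stp F).length →
      ∑ j ∈ Finset.Ioc (cvlJ F q) j2, skGap 1 (I.stp F) j * cvD I.n (I.stp F) j ^ 2
        ≤ (∫ v in q.u..(skMs 1 (I.stp F) j2), I.D (ghPosA v) ^ 2) + ε := by
  have hδ : 0 < min 1 (ε / 4) := lt_min one_pos (by positivity)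
  filter_upwards [cvl_D_cut I hn h hδ (min_le_left _ _)] with F hF j2 h1 h2
  set δ := min 1 (ε / 4) with hδdef
  have hP : SkAdm 1 (I.stp F) := cvl_adm I h F
  have hI : ∀ s t : ℝ, 0 ≤ s → s ≤ t → t ≤ 1 → IntervalIntegrable (fun v => I.D (ghPosA v) ^ 2 + 4 * δ) volume s t :=
    fun s t hs hst ht => (cvl_D_int I hn h hs hst ht).1.add intervalIntegrable_const
  have hIoc : Finset.Ioc (cvlJ F q) j2 = Finset.Ico (cvlJ F q + 1) (j2 + 1) := by
    ext j; simp only [Finset.mem_Ioc, Finset.mem_Ico]; omega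
  have key := cvl_cut_le hP (fun j => cvD I.n (I.stp F) j ^ 2) (fun v => I.D (ghPosA v) ^ 2 + 4 * δ) hI
    (fun j hj v hv1 hv2 => cvl_sqrt_sq_le (by positivity) (hF j hj v hv1 hv2))
    (j1 := cvlJ F q + 1) (j2 := j2 + 1) (by omega) (by omega)
  rw [bud_pp_bm_succ, bud_pp_bm_succ] at key
  rw [hIoc]
  refine key.trans ?_
  have hm1 := cvl_ms_mem I F q le_rfl hq.2.1
  have hm2 := cvl_ms_mem I F q h1.le hq.2.1
  have hmono : skMs 1 (I.stp F) (cvlJ F q) ≤ skMs 1 (I.stp F) j2 := bud_pp_ms_mono one_pos hP h1.le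
  have hq0 : 0 ≤ q.u := hq.1
  rw [intervalIntegral.integral_add (cvl_D_int I hn h (hq0.trans hm1.1) hmono hm2.2).1 intervalIntegrable_const,
    intervalIntegral.integral_const, smul_eq_mul]
  have h3 : ∫ v in (skMs 1 (I.stp F) (cvlJ F q))..(skMs 1 (I.stp F) j2), I.D (ghPosA v) ^ 2
      ≤ ∫ v in q.u..(skMs 1 (I.stp F) j2), I.D (ghPosA v) ^ 2 :=
    intervalIntegral.integral_mono_interval hm1.1 hmono le_rfl (Eventually.of_forall fun v => sq_nonneg _)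
      (cvl_D_int I hn h hq0 hm2.1 hm2.2).1
  have h4 : (skMs 1 (I.stp F) j2 - skMs 1 (I.stp F) (cvlJ F q)) * (4 * δ) ≤ 1 * ε := by
    refine mul_le_mul (by linarith [hm2.2, hq0.trans hm1.1]) ?_ (by positivity) zero_le_one
    have := min_le_right 1 (ε / 4)
    linarith
  linarith

/-- L12.   TREE NUMBERS ON THE CHAIN, uniformly in the tree.   `T` a tree on `q` labels all of whose splits `T.sh x y` (`x ≠ y`) are cuts `≤ N`; `τ` = the real tree of the positions of these cuts (`ghPosB 0` for the cut `0`).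
Base: `ghPosB 0` + the base of `exit_clk_lim_nu`.   (a) `cvNu n P T f = ckNuF n 1 b h q τ f l` when `T.sh x y = ghIdx l (τ x y)` off the diagonal (`T.rep = ghRepN`);
(b) the first revelation of the chain is `⟨0,0,0⟩` (`ghAt 1 c (ghPosB 0) = 0`): a level with zero increment does not see whether it is shared, so the cut `0` may be replaced by the cut `1`. -/
theorem cvl_nu (hn : 0 < I.n) (h : CkAdm 1 I.b I.h) (q : ℕ) {δ : ℝ} (hδ : 0 < δ) :
    ∀ᶠ F : Finset GhPos in atTop, ∀ (T : GhTree q) (τ : ℕ → ℕ → WithTop GhPos), GhIsRT 1 q τ →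
      (∀ x y : Fin q, x ≠ y → ∃ p ∈ ghPs 1 F, τ x y = (p : WithTop GhPos) ∧ (T.sh x y = cvlJ F p ∨ (T.sh x y = 0 ∧ p = ghPosB 0))) →
      ∀ (f : (Fin q → SkCfg I.n) → ℝ) (K : ℝ), (∀ σ, |f σ| ≤ K) →
        |cvNu I.n (I.stp F) T f - skCNu I.n 1 I.b I.h q τ f| ≤ δ * K := by
  obtain ⟨F0, hF0⟩ := exit_clk_lim_nu hn one_pos h q hδ
  filter_upwards [Filter.eventually_ge_atTop (insert (ghPosB 0) F0)] with F hF T τ hτ hT f K hK
  have hF0' : F0 ⊆ F := (Finset.subset_insert _ _).trans hF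
  have hB : ghPosB 0 ∈ F := hF (Finset.mem_insert_self _ _)
  have h1 := hF0 F hF0' τ hτ (by
    intro x y p hx hy hp
    by_cases hxy : x = y
    · subst hxy
      rw [hτ.diag x hx] at hp
      exact absurd hp.symm WithTop.coe_ne_top
    · obtain ⟨p', hp', e, -⟩ := hT ⟨x, hx⟩ ⟨y, hy⟩ (fun h => hxy (congrArg Fin.val h))
      have e' : τ x y = (p' : WithTop GhPos) := e
      rw [hp] at e'
      rw [WithTop.coe_injective e']
      exact (gh_os_ps_mem.1 hp').1) f K hK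
  have e : cvNu I.n (I.stp F) T f = ckNuF I.n 1 I.b I.h q τ f (ghPs 1 F) := by
    obtain ⟨l', hl'⟩ := cvlb_head hB
    have hrep : ∀ t, 1 ≤ t → T.rep t = ghRepN q (ghDisc (ghPs 1 F) τ) t := by
      intro t ht
      funext a
      unfold GhTree.rep ghRepN
      refine cvlb_min_congr (Finset.filter_congr fun b _ => ?_) _ _
      by_cases hba : b = a
      · simp [hba]
      · obtain ⟨p, -, e, hsh⟩ := hT a b (fun h => hba h.symm)
        have e2 : ghDisc (ghPs 1 F) τ a.1 b.1 = cvlJ F p := by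
          unfold ghDisc cvlJ
          rw [e]
        rw [e2]
        rcases hsh with hsh | ⟨hsh, rfl⟩
        · rw [hsh]
        · have := cvlb_J_posB0 F
          rw [hsh]
          constructor
          · rintro (h | h)
            · exact Or.inl h
            · omega
          · rintro (h | h)
            · exact Or.inl h
            · omega
    unfold cvNu GhTree.nu ckNuF ckStp CavP.stp ghSp
    rw [hl'] at hrep ⊢
    exact cvlb_nu_head I.n I.b I.h l' _ _ hrep f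
  rw [e]
  exact h1

/-- L13.   normalisation on a step path -/
theorem cvl_nu_one (n : ℕ) (P : SkStp) (hP : SkAdm 1 P) {q : ℕ} (T : GhTree q) : cvNu n P T (fun _ => 1) = 1 := by
  exact gh_n_tree_const (skBase n 1) (obu_base_ok n one_pos) (skLvs n P) (obu_lvs_nn n hP) T 0 1

variable {I} {c C ρ : ℝ} {Cp Cq : ℕ → ℝ} {kM : ℕ}

/-- L14.   (12) on the chains.   `k = 0`: L13.   `1 ≤ k ≤ kM`: L12 (`q = 2`, `T = obT2 j`, `τ = ghR2 l[j-1]`, resp. `ghR2 (ghPosB 0)`; `K = 1`) with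
`δ ≤ min_k (Cp k x)^(2k)`:   `(Cp k (u+x))^(2k) + δ ≤ 2 (Cp k (u+x))^(2k) ≤ (Cq k (u+x))^(2k)`. -/
theorem cvl_raw (hI : I.Ok c C ρ Cp kM) (hq : ∀ k, 2 * Cp k ≤ Cq k) :
    ∀ᶠ F : Finset GhPos in atTop, ∀ j k, j ≤ (I.stp F).length → k ≤ kM →
      cvNu I.n (I.stp F) (obT2 j) (fun σ => skOv (σ 0) (σ 1) ^ (2 * k)) ≤ (Cq k * (cvLo (I.stp F) j + I.x)) ^ (2 * k) := by
  have hn : 0 < I.n := lt_of_lt_of_le (by norm_num) hI.n2
  obtain ⟨δ, hδ, hδk⟩ := cvlb_min_pos (fun k => (Cp k * I.x) ^ (2 * k)) (fun k => pow_pos (mul_pos (hI.Cp0 k) hI.x0) _) kM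
  filter_upwards [cvl_nu I hn hI.clk 2 hδ, Filter.eventually_ge_atTop {ghPosB 0}] with F hnu hF j k hj hk
  have hB : ghPosB 0 ∈ F := hF (Finset.mem_singleton_self _)
  rcases Nat.eq_zero_or_pos k with rfl | hk1
  · simp only [Nat.mul_zero, pow_zero]
    exact (cvl_nu_one I.n _ (cvl_adm I hI.clk F) _).le
  obtain ⟨p, hp, hok, e1, e2⟩ := cvlb_pos I hB hj
  have h1 := hnu (obT2 j) (ghR2 p) (gh_pt_star_rt 2 hok) (by
    intro x y hxy
    refine ⟨p, hp, ?_, e2⟩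
    unfold ghR2
    rw [if_neg fun h => hxy (Fin.ext h)]) (fun σ => skOv (σ 0) (σ 1) ^ (2 * k)) 1 (by
    intro σ
    rw [abs_pow]
    exact pow_le_one₀ (abs_nonneg _) (sk_pt_ov_abs hn _ _))
  have h2 := hI.raw p hok k hk1 hk
  have e3 : I.mom p 0 k = skCNu I.n 1 I.b I.h 2 (ghR2 p) fun σ => skOv (σ 0) (σ 1) ^ (2 * k) := by
    unfold CavP.mom
    simp only [sub_zero]
  rw [e3] at h2
  have h3 := (abs_le.1 h1).2
  rw [e1]
  have hx0 := hI.x0
  have hu0 := hok.1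
  have hC := hI.Cp0 k
  have h4 : δ ≤ (Cp k * (p.u + I.x)) ^ (2 * k) :=
    (hδk k hk).trans (pow_le_pow_left₀ (by positivity) (mul_le_mul_of_nonneg_left (by linarith) hC.le) _)
  have h5 := cvlb_slack hk1 (by positivity) h2 h4 (b := Cq k * (p.u + I.x)) (by
    have := mul_le_mul_of_nonneg_right (hq k) (by linarith : 0 ≤ p.u + I.x)
    linarith)
  linarith

/-- L15.   (16) on the chains, GENERAL FORM: amplitude `A`, threshold `q`, admissible low forks `R`.   L12 with `q = 3`, `T = cvStar 3 j0 jv`, `τ = cvlR3 p0 pv`, `K = 4^kM`;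
slack `δ 4^kM ≤ min_k (Cp k A)^(2k)` (`pv.u ≤ 1`).   The low cut `j0` is given by: every position of the chain with the index `j0` satisfies `R` (`j0 = 0`: `R (ghPosB 0)`). -/
theorem cvl_res (hn : 0 < I.n) (h : CkAdm 1 I.b I.h) (hCp : ∀ k, 0 < Cp k) (hq : ∀ k, 2 * Cp k ≤ Cq k) {A : ℝ} (hA : 0 < A) {q : GhPos} (hqok : q.Ok 1)
    (hq0 : 0 < q.u) (R : GhPos → Prop) (hR0 : R (ghPosB 0)) (hRq : ∀ p, R p → p ≤ q)
    (hres : ∀ p0 pv : GhPos, p0.Ok 1 → pv.Ok 1 → R p0 → q < pv → ∀ k, 1 ≤ k → k ≤ kM → I.res p0 pv k ≤ (Cp k * A / Real.sqrt pv.u) ^ (2 * k)) :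
    ∀ᶠ F : Finset GhPos in atTop, ∀ j0 jv k, (∀ p ∈ ghPs 1 F, cvlJ F p = j0 → R p) → j0 ≤ cvlJ F q → cvlJ F q < jv → jv ≤ (I.stp F).length → k ≤ kM →
      cvRes I.n (I.stp F) j0 jv k ≤ (Cq k * A / Real.sqrt (cvLo (I.stp F) jv)) ^ (2 * k) := by
  obtain ⟨δ0, hδ0, hδk⟩ := cvlb_min_pos (fun k => (Cp k * A) ^ (2 * k)) (fun k => pow_pos (mul_pos (hCp k) hA) _) kM
  have h4 : (0 : ℝ) < 4 ^ kM := by positivity
  filter_upwards [cvl_nu I hn h 3 (div_pos hδ0 h4), Filter.eventually_ge_atTop {ghPosB 0}] with F hnu hF j0 jv k hR hj0 hjv hjN hk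
  have hB : ghPosB 0 ∈ F := hF (Finset.mem_singleton_self _)
  rcases Nat.eq_zero_or_pos k with rfl | hk1
  · unfold cvRes
    simp only [Nat.mul_zero, pow_zero]
    exact (cvl_nu_one I.n _ (cvl_adm I h F) _).le
  obtain ⟨p0, hp0, hok0, -, e0⟩ := cvlb_pos I hB (j := j0) (by omega)
  obtain ⟨pv, hpv, hokv, hqv, ev, eLo, -⟩ := cvl_cut I F q hjv hjN
  have hRp0 : R p0 := by
    rcases e0 with e0 | ⟨-, rfl⟩
    · exact hR p0 hp0 e0.symm
    · exact hR0
  have h0v : p0 ≤ pv := (hRq p0 hRp0).trans hqv.le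
  have h1 := hnu (cvStar 3 j0 jv) (cvlR3 p0 pv) (cvlb_R3_rt hok0 hokv h0v) (by
    intro x y hxy
    have hxy' : (x : ℕ) ≠ (y : ℕ) := fun h => hxy (Fin.ext h)
    by_cases hz : (x : ℕ) = 0 ∨ (y : ℕ) = 0
    · refine ⟨p0, hp0, ?_, ?_⟩
      · unfold cvlR3
        rw [if_neg hxy', if_pos hz]
      · have : (cvStar 3 j0 jv).sh x y = j0 := by
          show (if x.1 = 0 ∨ y.1 = 0 then min j0 jv else jv) = j0
          rw [if_pos hz]
          exact min_eq_left (by omega)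
        rw [this]
        exact e0
    · refine ⟨pv, hpv, ?_, Or.inl ?_⟩
      · unfold cvlR3
        rw [if_neg hxy', if_neg hz]
      · show (if x.1 = 0 ∨ y.1 = 0 then min j0 jv else jv) = _
        rw [if_neg hz, ev]) (fun σ => (skOv (σ 0) (σ 1) - skOv (σ 0) (σ 2)) ^ (2 * k)) (4 ^ kM) (by
    intro σ
    have a1 := abs_le.1 (sk_pt_ov_abs hn (σ 0) (σ 1))
    have a2 := abs_le.1 (sk_pt_ov_abs hn (σ 0) (σ 2))
    have a3 : |skOv (σ 0) (σ 1) - skOv (σ 0) (σ 2)| ≤ 2 := abs_le.2 ⟨by linarith [a1.1, a2.2], by linarith [a1.2, a2.1]⟩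
    rw [abs_pow]
    calc |skOv (σ 0) (σ 1) - skOv (σ 0) (σ 2)| ^ (2 * k) ≤ 2 ^ (2 * k) := pow_le_pow_left₀ (abs_nonneg _) a3 _
      _ = 4 ^ k := by rw [pow_mul]; norm_num
      _ ≤ 4 ^ kM := pow_le_pow_right₀ (by norm_num) hk)
  rw [div_mul_cancel₀ _ h4.ne'] at h1
  have h2 := hres p0 pv hok0 hokv hRp0 hqv k hk1 hk
  have h3 := (abs_le.1 h1).2
  have hu0 : 0 < pv.u := lt_of_lt_of_le hq0 (cvlb_u_mono hqv.le)
  have hs0 : 0 < Real.sqrt pv.u := Real.sqrt_pos.2 hu0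
  have hs1 : Real.sqrt pv.u ≤ 1 := Real.sqrt_le_one.2 hokv.2.1
  have hC := hCp k
  have h5 : δ0 ≤ (Cp k * A / Real.sqrt pv.u) ^ (2 * k) := by
    refine (hδk k hk).trans (pow_le_pow_left₀ (by positivity) ?_ _)
    rw [le_div_iff₀ hs0]
    have : 0 < Cp k * A := by positivity
    nlinarith
  have h6 := cvlb_slack hk1 (by positivity) h2 h5 (b := Cq k * A / Real.sqrt pv.u) (by
    rw [← mul_div_assoc, ← mul_assoc]
    exact div_le_div_of_nonneg_right (mul_le_mul_of_nonneg_right (hq k) hA.le) hs0.le)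
  rw [eLo]
  have e : cvRes I.n (I.stp F) j0 jv k
      = cvNu I.n (I.stp F) (cvStar 3 j0 jv) fun σ => (skOv (σ 0) (σ 1) - skOv (σ 0) (σ 2)) ^ (2 * k) := rfl
  have e' : I.res p0 pv k = skCNu I.n 1 I.b I.h 3 (cvlR3 p0 pv) fun σ => (skOv (σ 0) (σ 1) - skOv (σ 0) (σ 2)) ^ (2 * k) := rfl
  rw [e]
  rw [e'] at h6
  linarith

/-- L16.   (17) on the chains: L12 (`q = 2`, `K = 4^kM`) + L9 (the centre moves by `≤ ε`: `|(r - s)^(2k) - (r - s')^(2k)| ≤ 2k 2^(2k) |s - s'|` for `|r|, |s|, |s'| ≤ 1`) -/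
theorem cvl_mom (hI : I.Ok c C ρ Cp kM) (hS : I.Star c C Cp kM) (hq : ∀ k, 2 * Cp k ≤ Cq k) :
    ∀ᶠ F : Finset GhPos in atTop, ∀ k, k ≤ kM →
      cvNu I.n (I.stp F) (obT2 (cvlJ F I.ps)) (fun σ => (skOv (σ 0) (σ 1) - cvS I.n (I.stp F) (cvlJ F I.ps)) ^ (2 * k))
        ≤ (Cq k * I.sv * I.W) ^ (2 * k) := by
  have hn : 0 < I.n := lt_of_lt_of_le (by norm_num) hI.n2
  have hW0 : 0 < I.W := lt_of_lt_of_le hI.x0 hI.xW
  obtain ⟨δ0, hδ0, hδk⟩ := cvlb_min_pos (fun k => (Cp k * I.sv * I.W) ^ (2 * k))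
    (fun k => pow_pos (mul_pos (mul_pos (hI.Cp0 k) hI.sv0) hW0) _) kM
  have h4 : (0 : ℝ) < 4 ^ kM := by positivity
  have hL : (0 : ℝ) < 2 * kM * 4 ^ kM + 1 := by positivity
  filter_upwards [cvl_nu I hn hI.clk 2 (div_pos (half_pos hδ0) h4), cvl_stat I hn hI.clk hS.psok (div_pos (half_pos hδ0) hL),
    Filter.eventually_ge_atTop {I.ps}] with F hnu hst hF k hk
  have hps : I.ps ∈ ghPs 1 F := gh_os_ps_mem.2 ⟨hF (Finset.mem_singleton_self _), hS.psok⟩
  rcases Nat.eq_zero_or_pos k with rfl | hk1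
  · simp only [Nat.mul_zero, pow_zero]
    exact (cvl_nu_one I.n _ (cvl_adm I hI.clk F) _).le
  set s := cvS I.n (I.stp F) (cvlJ F I.ps) with hs
  have hsr : 0 ≤ s ∧ s ≤ 1 := fd_S_range hn one_pos _ (cvl_adm I hI.clk F) 0 _
  obtain ⟨g0, -, -, g3, g4⟩ := exit_clk_SB hn one_pos hI.clk hS.psok hS.psok le_rfl
  have g1 : I.S I.ps ≤ 1 := by
    have : skCS I.n 1 I.b I.h I.ps ≤ 1 := by nlinarith
    exact this
  have g0' : 0 ≤ I.S I.ps := g0
  have hrt := gh_pt_star_rt (a := 1) 2 hS.psok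
  have hb2 : ∀ (t : ℝ), 0 ≤ t → t ≤ 1 → ∀ σ : Fin 2 → SkCfg I.n, |skOv (σ 0) (σ 1) - t| ≤ 2 := by
    intro t t0 t1 σ
    have a1 := abs_le.1 (sk_pt_ov_abs hn (σ 0) (σ 1))
    exact abs_le.2 ⟨by linarith [a1.1], by linarith [a1.2]⟩
  have h4k : (2 : ℝ) ^ (2 * k) ≤ 4 ^ kM := by
    calc (2 : ℝ) ^ (2 * k) = 4 ^ k := by rw [pow_mul]; norm_num
      _ ≤ 4 ^ kM := pow_le_pow_right₀ (by norm_num) hk
  have h1 := hnu (obT2 (cvlJ F I.ps)) (ghR2 I.ps) hrt (by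
    intro x y hxy
    refine ⟨I.ps, hps, ?_, Or.inl rfl⟩
    unfold ghR2
    rw [if_neg fun h => hxy (Fin.ext h)]) (fun σ => (skOv (σ 0) (σ 1) - s) ^ (2 * k)) (4 ^ kM) (by
    intro σ
    rw [abs_pow]
    exact (pow_le_pow_left₀ (abs_nonneg _) (hb2 s hsr.1 hsr.2 σ) _).trans h4k)
  rw [div_mul_cancel₀ _ h4.ne'] at h1
  have h2 := cvlb_cnu_le I.n hI.clk hrt (f := fun σ => (skOv (σ 0) (σ 1) - s) ^ (2 * k))
    (g := fun σ => (skOv (σ 0) (σ 1) - I.S I.ps) ^ (2 * k)) (e := δ0 / 2) (by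
    intro σ
    have a1 := cvlb_pow_lip (M := 2) (by norm_num) (hb2 s hsr.1 hsr.2 σ) (hb2 _ g0' g1 σ) (2 * k)
    have a2 : |skOv (σ 0) (σ 1) - s - (skOv (σ 0) (σ 1) - I.S I.ps)| ≤ δ0 / 2 / (2 * kM * 4 ^ kM + 1) := by
      have : skOv (σ 0) (σ 1) - s - (skOv (σ 0) (σ 1) - I.S I.ps) = -(s - I.S I.ps) := by ring
      rw [this, abs_neg]
      exact hst.1
    have a3 : (((2 * k : ℕ) : ℝ)) * 2 ^ (2 * k) ≤ 2 * kM * 4 ^ kM + 1 := by
      have b1 : ((2 * k : ℕ) : ℝ) ≤ 2 * kM := by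
        push_cast
        have : (k : ℝ) ≤ kM := by exact_mod_cast hk
        linarith
      have := mul_le_mul b1 h4k (by positivity) (by positivity)
      linarith
    have a4 : (((2 * k : ℕ) : ℝ)) * 2 ^ (2 * k) * |skOv (σ 0) (σ 1) - s - (skOv (σ 0) (σ 1) - I.S I.ps)|
        ≤ (2 * kM * 4 ^ kM + 1) * (δ0 / 2 / (2 * kM * 4 ^ kM + 1)) := mul_le_mul a3 a2 (abs_nonneg _) hL.le
    rw [mul_div_cancel₀ _ hL.ne'] at a4
    have := (abs_le.1 (a1.trans a4)).2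
    linarith)
  have h3 := hS.mom k hk1 hk
  have e3 : I.mom I.ps (I.S I.ps) k = skCNu I.n 1 I.b I.h 2 (ghR2 I.ps) fun σ => (skOv (σ 0) (σ 1) - I.S I.ps) ^ (2 * k) := rfl
  rw [e3] at h3
  have hC := hI.Cp0 k
  have hsv := hI.sv0
  have h5 := cvlb_slack hk1 (by positivity) h3 (hδk k hk) (b := Cq k * I.sv * I.W) (by
    have := mul_le_mul_of_nonneg_right (mul_le_mul_of_nonneg_right (hq k) hsv.le) hW0.le
    linarith)
  have h6 := (abs_le.1 h1).2
  linarith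

/-- L16'.   RELABELLING, for the supplier `exit_cmp_res` (labels `a = 0, a' = 1, b = 2`): permutation invariance of the tree numbers (`sk_sy_*`, 208) + symmetry of `skOv` -/
theorem cvl_res_swap (I : CavP) (h : CkAdm 1 I.b I.h) {pf pv : GhPos} (h1 : pf.Ok 1) (h2 : pv.Ok 1) (h3 : pf ≤ pv) (k : ℕ) :
    skCNu I.n 1 I.b I.h 3 (fun y z => if y = z then ⊤ else if y = 2 ∨ z = 2 then (pf : WithTop GhPos) else (pv : WithTop GhPos))
      (fun σ => (skOv (σ 0) (σ 2) - skOv (σ 1) (σ 2)) ^ (2 * k)) = I.res pf pv k := by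
  unfold CavP.res skCNu ghLim
  congr 1
  funext F
  have hτ1 := cvlb_rt 2 3 h1 h2 h3
  have hτ2 := cvlb_R3_rt h1 h2 h3
  have hadm : SkAdm 1 (skCStp 1 I.b I.h 0 0 (ghPs 1 F)) := flb_chain_adm zero_le_one h F
  have key := gh_n_tree_pull (skBase I.n 1) (obu_base_ok I.n one_pos) (skLvs I.n (skCStp 1 I.b I.h 0 0 (ghPs 1 F)))
    (obu_lvs_nn I.n hadm) (brgTree (brg_t_disc hτ1 (ghPs 1 F))) (brgTree (brg_t_disc hτ2 (ghPs 1 F))) (Equiv.swap (0 : Fin 3) 2)
    (by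
      intro t _ a b
      have e : (brgTree (brg_t_disc hτ1 (ghPs 1 F))).sh (Equiv.swap (0 : Fin 3) 2 a) (Equiv.swap (0 : Fin 3) 2 b)
          = (brgTree (brg_t_disc hτ2 (ghPs 1 F))).sh a b := by
        show ghIdx _ _ = ghIdx _ _
        congr 1
        fin_cases a <;> fin_cases b <;> simp [cvlR3, Equiv.swap_apply_def]
      rw [e, (Equiv.swap (0 : Fin 3) 2).injective.eq_iff]) 0
    (fun _ σ => (skOv (σ 0) (σ 1) - skOv (σ 0) (σ 2)) ^ (2 * k))
  have e1 : (ghPull (Equiv.swap (0 : Fin 3) 2) (fun _ σ => (skOv (σ 0) (σ 1) - skOv (σ 0) (σ 2)) ^ (2 * k)) :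
      GhTest (SkCfg I.n) (SkDr I.n) 3) = fun _ σ => (skOv (σ 0) (σ 2) - skOv (σ 1) (σ 2)) ^ (2 * k) := by
    funext η σ
    have s0 : Equiv.swap (0 : Fin 3) 2 0 = 2 := Equiv.swap_apply_left _ _
    have s2 : Equiv.swap (0 : Fin 3) 2 2 = 0 := Equiv.swap_apply_right _ _
    have s1 : Equiv.swap (0 : Fin 3) 2 1 = 1 := Equiv.swap_apply_of_ne_of_ne (by decide) (by decide)
    have hsym : ∀ a b : SkCfg I.n, skOv a b = skOv b a := fun a b => by
      unfold skOv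
      congr 1
      exact Finset.sum_congr rfl fun i _ => mul_comm _ _
    show (skOv (σ (Equiv.swap (0 : Fin 3) 2 0)) (σ (Equiv.swap (0 : Fin 3) 2 1))
      - skOv (σ (Equiv.swap (0 : Fin 3) 2 0)) (σ (Equiv.swap (0 : Fin 3) 2 2))) ^ (2 * k) = _
    rw [s0, s1, s2, hsym (σ 2) (σ 1), hsym (σ 2) (σ 0), ← neg_sub, Even.neg_pow (even_two_mul k)]
  rw [e1] at key
  exact key

end leavesB

/-! ## 4. LEAVES C: (13) from the field length -/

section leavesC

/-- the interval of an SK step path with its directions -/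
noncomputable def cvlSt (n : ℕ) (V : Fin n → ℝ) (Q : SkStp) : List (CmjSt (SkCfg n) (SkDr n)) :=
  Q.map fun e => ⟨e.lv n, Sum.elim (fun _ => 0) V, Real.sqrt (n * e.dh)⟩

theorem cvl_c_ls (n : ℕ) (V : Fin n → ℝ) (Q : SkStp) : cmjLs (cvlSt n V Q) = skLvs n Q := by
  simp [cmjLs, cvlSt, skLvs, List.map_map, Function.comp_def]

theorem cvl_c_T (n : ℕ) (V : Fin n → ℝ) (Q : SkStp) (hQ : ∀ e ∈ Q, 0 ≤ e.dh) : cmjT (cvlSt n V Q) = n * skTotH Q := by
  induction Q with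
  | nil => simp [cmjT, cvlSt, skTotH]
  | cons e Q ih =>
    have h1 := ih fun e' he' => hQ e' (List.mem_cons_of_mem _ he')
    have h2 : 0 ≤ e.dh := hQ e List.mem_cons_self
    simp only [cmjT, cvlSt, skTotH, List.map_cons, List.sum_cons, List.map_map] at h1 ⊢
    rw [h1, Real.sq_sqrt (mul_nonneg (Nat.cast_nonneg n) h2)]
    ring

theorem cvl_c_totH_nonneg (Q : SkStp) (hQ : ∀ e ∈ Q, 0 ≤ e.dh) : 0 ≤ skTotH Q := by
  unfold skTotH
  refine List.sum_nonneg ?_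
  intro x hx
  obtain ⟨e, he, rfl⟩ := List.mem_map.1 hx
  exact hQ e he

/-- dictionary `cvProj` = `cmjA` -/
theorem cvl_c_dict (n : ℕ) (P1 P2 : SkStp) (hP2 : ∀ e ∈ P2, 0 ≤ e.m) (z : SkCfg n → ℝ) (V : Fin n → ℝ) (k : ℕ) :
    cvProj n (P1 ++ P2) z V P1.length k
      = cmjA (skBase n 1) (skLvs n P1) (skLvs n P2) (fun σ => ∑ i, V i * skY σ i) (2 * k) z := by
  have hB : (skBase n 1).Ok := cmj_sk_base_ok n one_pos
  have hnn : GhNn (skLvs n P2) := by
    intro l hl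
    obtain ⟨e, he, rfl⟩ := List.mem_map.1 hl
    exact hP2 e he
  have e := cmj_path (skBase n 1) (skLvs n P1) (skLvs n P2) z
    (fun y s => ((∑ i, V i * skY s i) - ghE (skBase n 1) (skLvs n P2) (fun σ => ∑ i, V i * skY σ i) y) ^ (2 * k))
  have hl : skLvs n P1 ++ skLvs n P2 = skLvs n (P1 ++ P2) := by simp [skLvs]
  have hlen : (skLvs n P1).length = P1.length := by simp [skLvs]
  rw [hl, hlen] at e
  unfold cmjA cmjM
  rw [← e]
  unfold cvProj obE
  congr 1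
  funext ξ σ
  congr 1
  have hd : (P1 ++ P2).drop P1.length = P2 := by simp
  simp only [obXp, obX, obFld, hd]
  rw [gh_b_E_sum hB Finset.univ (fun i σ => V i * skY σ i) hnn, ← Finset.sum_sub_distrib]
  refine Finset.sum_congr rfl fun i _ => ?_
  rw [gh_b_E_const_mul, mul_sub]
  rfl

/-- L18.   **(13) on a step path** `A ++ Q ++ R`, started at any field `z`, projected at the end of `Q`: `= exit_cmp_proj` (192), first line, with `p = 2k+2`, `lsA = skLvs n A`, `R1 = []`, `Φ = V·y`, `v = |V|`,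
`η = V` on the field drivers, `c = √(n dh)`, `T(Q) = n skTotH Q` (instance `cmj_sk_st`), `vm = v` (the masses of `Q ++ R` are `≥ v`: the path is sorted) + the dictionary
`cvProj n (A ++ Q ++ R) z V (|A| + |Q|) (k+1) = cmjA (skBase n 1) (skLvs n (A ++ Q)) (skLvs n R) (V·y) (2k+2) z`.      `skTotH Q = 0`: the left side is `0`. -/
theorem cvl_prj_step : ∃ M : ℕ → ℝ, (∀ k, 0 < M k) ∧ ∀ (k n : ℕ) (v : ℝ) (A Q R : SkStp), 0 < v → SkAdm 1 (A ++ (Q ++ R)) → (∀ e ∈ Q, v ≤ e.m) →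
    ∀ (V : Fin n → ℝ) (z : SkCfg n → ℝ),
      cvProj n (A ++ (Q ++ R)) z V (A.length + Q.length) (k + 1) * (v ^ 2 * (n * skTotH Q)) ^ (k + 1) ≤ M k * (∑ i, V i ^ 2) ^ (k + 1) := by
  have hex : ∀ k : ℕ, _ := fun k => exit_cmp_proj (2 * (k + 1)) (even_two_mul _) (by omega)
  choose M hM h using hex
  refine ⟨M, hM, ?_⟩
  intro k n v A Q R hv hadm hQ V z
  have hV0 : 0 ≤ ∑ i, V i ^ 2 := Finset.sum_nonneg fun i _ => sq_nonneg _
  have hR0 : 0 ≤ M k * (∑ i, V i ^ 2) ^ (k + 1) := mul_nonneg (hM k).le (pow_nonneg hV0 _)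
  have hQdh : ∀ e ∈ Q, 0 ≤ e.dh := fun e he => (hadm.2 e (by simp [he])).2.2.2
  have hT0 : 0 ≤ skTotH Q := cvl_c_totH_nonneg Q hQdh
  rcases Nat.eq_zero_or_pos n with hn | hn
  · subst hn
    simp
  rcases hT0.eq_or_lt with hT | hT
  · rw [← hT]
    simpa using hR0
  -- main case
  have hB : (skBase n 1).Ok := cmj_sk_base_ok n one_pos
  have hQne : Q ≠ [] := by
    rintro rfl
    simp [skTotH] at hT
  have hQR : SkAdm 1 (Q ++ R) :=
    ⟨(List.pairwise_append.1 hadm.1).2.1, fun e he => hadm.2 e (List.mem_append_right _ he)⟩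
  have hQRv : ∀ e ∈ Q ++ R, v ≤ e.m := by
    intro e he
    rcases List.mem_append.1 he with he | he
    · exact hQ e he
    · obtain ⟨e0, he0⟩ := List.exists_mem_of_ne_nil Q hQne
      exact (hQ e0 he0).trans ((List.pairwise_append.1 hQR.1).2.2 e0 he0 e he)
  have hA : GhNn (skLvs n A) := by
    intro l hl
    obtain ⟨e, he, rfl⟩ := List.mem_map.1 hl
    exact (hadm.2 e (List.mem_append_left _ he)).1
  have hTn : 0 < (n : ℝ) * skTotH Q := mul_pos (by exact_mod_cast hn) hT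
  have key := (h k (SkCfg n) (SkDr n) (skBase n 1) (skLvs n A) (cvlSt n V Q) [] [] (skLvs n R)
    (fun σ => ∑ i, V i * skY σ i) (Real.sqrt (∑ i, V i ^ 2)) v z hB hA
    (by
      rw [cvl_c_ls]
      have := cmj_sk_adm (n := n) hQR hQRv
      simpa [skLvs] using this) hv
    (fun σ => cmj_cs V _ (cmj_sk_y_sq hn σ))
    (by
      intro e he
      obtain ⟨e', _, rfl⟩ := List.mem_map.1 he
      refine ⟨?_, ?_⟩
      · rw [(cmj_sk_dir n e' V).1, Real.sq_sqrt hV0]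
      · exact (cmj_sk_dir n e' V).2)
    (by rw [cvl_c_T n V Q hQdh]; exact hTn)).1
  rw [cvl_c_ls, cvl_c_T n V Q hQdh, cmj_sqrt_pow hV0 (even_two_mul _)] at key
  have e1 : 2 * (k + 1) / 2 = k + 1 := by omega
  rw [e1] at key
  have e2 := cvl_c_dict n (A ++ Q) R (fun e he => (hadm.2 e (by simp [he])).1) z V (k + 1)
  have e3 : skLvs n (A ++ Q) = skLvs n A ++ (skLvs n Q ++ []) := by simp [skLvs]
  rw [List.append_assoc, List.length_append, e3] at e2
  rw [e2]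
  simp only [List.nil_append] at key
  have hden : 0 < v ^ (2 * (k + 1)) * ((n : ℝ) * skTotH Q) ^ (k + 1) := by positivity
  rw [le_div_iff₀ hden] at key
  calc _ = cmjA (skBase n 1) (skLvs n A ++ (skLvs n Q ++ [])) (skLvs n R) (fun σ => ∑ i, V i * skY σ i) (2 * (k + 1)) z
        * (v ^ (2 * (k + 1)) * ((n : ℝ) * skTotH Q) ^ (k + 1)) := by
        rw [mul_pow, pow_mul]
    _ ≤ _ := key

theorem cvl_c_cum_split (P : SkStp) {j1 j2 : ℕ} (h : j1 ≤ j2) :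
    skTotH ((P.drop j1).take (j2 - j1)) = skCumH P j2 - skCumH P j1 := by
  have e : P.take j2 = P.take j1 ++ (P.drop j1).take (j2 - j1) := by
    have := List.take_add (l := P) (i := j1) (j := j2 - j1)
    rwa [Nat.add_sub_cancel' h] at this
  unfold skTotH skCumH
  rw [e, List.map_append, List.sum_append]
  ring

/-- (13) on a step path, index form: the interval = the revelations `j' ≤ i < jv` of `P`, the start = the cut `js` -/
theorem cvl_c_idx {M : ℕ → ℝ}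
    (hM : ∀ (k n : ℕ) (v : ℝ) (A Q R : SkStp), 0 < v → SkAdm 1 (A ++ (Q ++ R)) → (∀ e ∈ Q, v ≤ e.m) →
      ∀ (V : Fin n → ℝ) (z : SkCfg n → ℝ),
        cvProj n (A ++ (Q ++ R)) z V (A.length + Q.length) (k + 1) * (v ^ 2 * (n * skTotH Q)) ^ (k + 1) ≤ M k * (∑ i, V i ^ 2) ^ (k + 1))
    (k n : ℕ) (v : ℝ) (P : SkStp) (js j' jv : ℕ) (hv : 0 < v) (hP : SkAdm 1 P) (h1 : js ≤ j') (h2 : j' ≤ jv) (h3 : jv ≤ P.length)
    (hm : ∀ i (hi : i < P.length), j' ≤ i → v ≤ (P[i]).m) (V : Fin n → ℝ) (z : SkCfg n → ℝ) :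
    cvProj n (P.drop js) z V (jv - js) (k + 1) * (v ^ 2 * (n * (skCumH P jv - skCumH P j'))) ^ (k + 1) ≤ M k * (∑ i, V i ^ 2) ^ (k + 1) := by
  set A := (P.drop js).take (j' - js) with hA
  set Q := (P.drop j').take (jv - j') with hQ
  set R := P.drop jv with hR
  have e1 : P.drop js = A ++ P.drop j' := by
    have := (List.take_append_drop (j' - js) (P.drop js)).symm
    rwa [List.drop_drop, Nat.add_sub_cancel' h1] at this
  have e2 : P.drop j' = Q ++ R := by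
    have := (List.take_append_drop (jv - j') (P.drop j')).symm
    rwa [List.drop_drop, Nat.add_sub_cancel' h2] at this
  have e3 : P.drop js = A ++ (Q ++ R) := by rw [e1, e2]
  have lA : A.length = j' - js := by
    rw [hA, List.length_take, List.length_drop]; omega
  have lQ : Q.length = jv - j' := by
    rw [hQ, List.length_take, List.length_drop]; omega
  have hadm : SkAdm 1 (A ++ (Q ++ R)) := by
    rw [← e3]
    exact ⟨hP.1.sublist (List.drop_sublist _ _), fun e he => hP.2 e (List.mem_of_mem_drop he)⟩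
  have hQm : ∀ e ∈ Q, v ≤ e.m := by
    intro e he
    have he' : e ∈ P.drop j' := List.mem_of_mem_take he
    obtain ⟨i, hi, rfl⟩ := List.mem_iff_getElem.1 he'
    rw [List.getElem_drop]
    exact hm _ _ (Nat.le_add_right _ _)
  have key := hM k n v A Q R hv hadm hQm V z
  rw [← e3, lA, lQ, hQ, cvl_c_cum_split P h2] at key
  have e4 : j' - js + (jv - j') = jv - js := by omega
  rwa [e4] at key

theorem cvl_c_rest_adm {n : ℕ} (hn : 1 ≤ n) {P : SkStp} (hP : SkAdm 1 P) : SkAdm 1 (cvRest n P) := by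
  have hn1 : (1 : ℝ) ≤ n := by exact_mod_cast hn
  constructor
  · unfold cvRest
    rw [List.pairwise_map]
    exact hP.1
  · intro e he
    obtain ⟨e', he', rfl⟩ := List.mem_map.1 he
    obtain ⟨a1, a2, a3, a4⟩ := hP.2 e' he'
    exact ⟨a1, a2, div_nonneg (mul_nonneg a3 (by linarith)) (by linarith), a4⟩

theorem cvl_c_rest_cum (n : ℕ) (P : SkStp) (j : ℕ) : skCumH (cvRest n P) j = skCumH P j := by
  unfold skCumH cvRest
  rw [← List.map_take, List.map_map]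
  rfl

theorem cvl_c_zero (n : ℕ) (P : SkStp) (hP : SkAdm 1 P) (z : SkCfg n → ℝ) (V : Fin n → ℝ) (r : ℕ) : cvProj n P z V r 0 = 1 := by
  unfold cvProj obE
  simp only [Nat.mul_zero, pow_zero]
  refine obu_path_const (cmj_sk_base_ok n one_pos) ?_ z 1
  intro l hl
  obtain ⟨e, he, rfl⟩ := List.mem_map.1 hl
  exact (hP.2 e he).1

/-- the arithmetic of L19 -/
theorem cvl_c_arith {X Mk Y s G K w : ℝ} (k : ℕ) (hX : X * Y ^ (k + 1) ≤ Mk * s ^ (k + 1)) (hY : 0 < Y) (hs : 0 ≤ s) (hMk : 0 ≤ Mk)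
    (hGY : 1 ≤ 2 * G ^ 2 * Y) (hK1 : 1 ≤ K) (hK : Mk * 2 ^ (k + 1) ≤ K) (hw : K ≤ w) :
    X ≤ (w * G) ^ (2 * (k + 1)) * s ^ (k + 1) := by
  have hYk : 0 < Y ^ (k + 1) := pow_pos hY _
  have h1 : X ≤ Mk * s ^ (k + 1) / Y ^ (k + 1) := (le_div_iff₀ hYk).2 hX
  have h2 : 1 ≤ (2 * G ^ 2 * Y) ^ (k + 1) := one_le_pow₀ hGY
  have h3 : 1 / Y ^ (k + 1) ≤ (2 * G ^ 2) ^ (k + 1) := by
    rw [div_le_iff₀ hYk, ← mul_pow]
    exact h2
  have hw1 : 1 ≤ w := hK1.trans hw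
  have h4 : w ≤ w ^ (2 * (k + 1)) := le_self_pow₀ hw1 (by omega)
  have hsk : 0 ≤ s ^ (k + 1) := pow_nonneg hs _
  have hGk : 0 ≤ (G ^ 2) ^ (k + 1) := by positivity
  calc X ≤ Mk * s ^ (k + 1) * (1 / Y ^ (k + 1)) := by rw [mul_one_div]; exact h1
    _ ≤ Mk * s ^ (k + 1) * (2 * G ^ 2) ^ (k + 1) := mul_le_mul_of_nonneg_left h3 (mul_nonneg hMk hsk)
    _ = (Mk * 2 ^ (k + 1)) * ((G ^ 2) ^ (k + 1) * s ^ (k + 1)) := by rw [mul_pow]; ring
    _ ≤ w ^ (2 * (k + 1)) * ((G ^ 2) ^ (k + 1) * s ^ (k + 1)) :=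
        mul_le_mul_of_nonneg_right ((hK.trans hw).trans h4) (mul_nonneg hGk hsk)
    _ = (w * G) ^ (2 * (k + 1)) * s ^ (k + 1) := by rw [mul_pow, pow_mul G 2 (k + 1)]; ring

/-- L19.   **(13) on the chains**, for the actual system and for the rest-only system.   Fix `jv > jU`, `p = l[jv-1]` (L7), `p'` from `fld`; `A` = the revelations of `P.drop js` at positions `≤ p'`,
`Q` = those at positions in `(p', p]`, `R` = the later ones: masses of `Q` `≥ p'.u > 0`, `skTotH Q ≥ h(p) - h(p')`; L18; `k = 0` is `E 1 = 1`.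
Rest-only system: same masses and field increments, size `n - 1 ≥ n/2`. -/
theorem cvl_prj : ∃ Kp : ℕ → ℝ, (∀ k, 0 ≤ Kp k) ∧ ∀ (c C ρ : ℝ) (Cp Cq : ℕ → ℝ) (kM : ℕ) (I : CavP), 0 < c → I.Ok c C ρ Cp kM → I.Star c C Cp kM → (∀ k, Kp k ≤ Cq k) →
    ∀ᶠ F : Finset GhPos in atTop,
      (∀ (z : SkCfg I.n → ℝ) (V : Fin I.n → ℝ) (jv k : ℕ), cvlJ F I.pU < jv → jv ≤ (I.stp F).length → k ≤ kM →
        cvProj I.n ((I.stp F).drop (cvlJ F I.ps)) z V (jv - cvlJ F I.ps) k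
          ≤ (Cq k * I.sv * (I.x ^ 3 / (I.W * Real.sqrt I.W * cvLo (I.stp F) jv))) ^ (2 * k) * (∑ i, V i ^ 2) ^ k) ∧
      (∀ (z : SkCfg (I.n - 1) → ℝ) (V : Fin (I.n - 1) → ℝ) (jv k : ℕ), cvlJ F I.pU < jv → jv ≤ (I.stp F).length → k ≤ kM →
        cvProj (I.n - 1) ((cvRest I.n (I.stp F)).drop (cvlJ F I.ps)) z V (jv - cvlJ F I.ps) k
          ≤ (Cq k * I.sv * (I.x ^ 3 / (I.W * Real.sqrt I.W * cvLo (I.stp F) jv))) ^ (2 * k) * (∑ i, V i ^ 2) ^ k) := by
  obtain ⟨M, hM0, hM⟩ := cvl_prj_step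
  refine ⟨fun k => max 1 (M (k - 1) * 2 ^ k), fun k => zero_le_one.trans (le_max_left _ _), ?_⟩
  intro c C ρ Cp Cq kM I hc hI hS hq
  refine Eventually.of_forall fun F => ?_
  have hs := gh_os_ps_lt 1 F
  have hadm : SkAdm 1 (I.stp F) := cvl_adm I hI.clk F
  have hW : 0 < I.W := hI.x0.trans_le hI.xW
  -- the common part
  have main : ∀ (n' : ℕ) (P' : SkStp), (I.n : ℝ) ≤ 2 * n' → SkAdm 1 P' → P'.length = (I.stp F).length →
      (∀ i (hi : i < P'.length) (hi' : i < (ghPs 1 F).length), (P'[i]).m = ((ghPs 1 F)[i]).u) → (∀ j, skCumH P' j = skCumH (I.stp F) j) →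
      ∀ (z : SkCfg n' → ℝ) (V : Fin n' → ℝ) (jv k : ℕ), cvlJ F I.pU < jv → jv ≤ (I.stp F).length → k ≤ kM →
        cvProj n' (P'.drop (cvlJ F I.ps)) z V (jv - cvlJ F I.ps) k
          ≤ (Cq k * I.sv * (I.x ^ 3 / (I.W * Real.sqrt I.W * cvLo (I.stp F) jv))) ^ (2 * k) * (∑ i, V i ^ 2) ^ k := by
    intro n' P' hn' hP' hlen hms hcum z V jv k h1 h2 _
    cases k with
    | zero =>
      rw [cvl_c_zero n' _ ⟨hP'.1.sublist (List.drop_sublist _ _), fun e he => hP'.2 e (List.mem_of_mem_drop he)⟩]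
      simp
    | succ k =>
      obtain ⟨p, hp, hpok, hUp, hJp, hlo, -, hcH⟩ := cvl_cut I F I.pU h1 h2
      obtain ⟨p', hp'ok, hsp', hp'p, hfld⟩ := hS.fld p hpok hUp
      have hpu : 0 < p.u := (mul_pos hc hW).trans_le (hS.ULo.trans (cvl_a_u_mono hUp.le))
      have hL : 0 < (I.W * Real.sqrt I.W * p.u) ^ 2 := by
        have := Real.sqrt_pos.2 hW
        positivity
      have hprod : 0 < (I.sv * I.x ^ 3) ^ 2 * (p'.u ^ 2 * (I.n * (ghAt 1 I.h p - ghAt 1 I.h p'))) := hL.trans_le hfld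
      have hsx : 0 < (I.sv * I.x ^ 3) ^ 2 := by
        have := hI.sv0; have := hI.x0
        positivity
      have hprod2 : 0 < p'.u ^ 2 * (I.n * (ghAt 1 I.h p - ghAt 1 I.h p')) := (mul_pos_iff_of_pos_left hsx).1 hprod
      have hp'u : 0 < p'.u := by
        rcases hp'ok.1.eq_or_lt with h0 | h0
        · rw [← h0] at hprod2
          simp at hprod2
        · exact h0
      set js := cvlJ F I.ps with hjs
      set j' := cvlJ F p' with hj'
      have h3 : js ≤ j' := cvl_J_mono F hsp'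
      have h4 : j' < jv := by
        rw [← hJp]
        exact not_le.1 fun hle => absurd ((cvl_J_le_iff F hp).1 hle) (not_le.2 hp'p)
      have hlen' : (I.stp F).length = (ghPs 1 F).length := cvl_a_stp_len I F
      have hmass : ∀ i (hi : i < P'.length), j' ≤ i → p'.u ≤ (P'[i]).m := by
        intro i hi hji
        have hi' : i < (ghPs 1 F).length := by omega
        rw [hms i hi hi']
        have : ¬ (ghPs 1 F)[i] ≤ p' := fun hle => by
          have := (cvl_a_le_iff hs p' i hi').1 hle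
          simp only [hj', cvlJ] at hji
          omega
        exact cvl_a_u_mono (not_le.1 this).le
      have hcj' : skCumH (I.stp F) j' ≤ ghAt 1 I.h p' := by
        rcases Nat.eq_zero_or_pos j' with h0 | h0
        · rw [h0]
          simpa [skCumH] using gh_os_at_nonneg zero_le_one hI.clk.2 hp'ok.2.2.1
        · obtain ⟨i, hi⟩ : ∃ i, j' = i + 1 := ⟨j' - 1, by omega⟩
          have hi' : i < (ghPs 1 F).length := by omega
          have e := (cvl_a_cum 1 I.b I.h (ghPs 1 F) 0 0 i hi').2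
          have e' : skCumH (I.stp F) j' = ghAt 1 I.h (ghPs 1 F)[i] := by
            rw [hi]
            simpa [CavP.stp] using e
          rw [e']
          have hle : (ghPs 1 F)[i] ≤ p' := (cvl_a_le_iff hs p' i hi').2 (by simp only [hj', cvlJ] at hi; omega)
          exact gh_os_at_mono zero_le_one hI.clk.2 (gh_os_ps_mem.1 (List.getElem_mem hi')).2.2.2.2 hp'ok.2.2.1 hle
      have key := cvl_c_idx hM k n' p'.u P' js j' jv hp'u hP' h3 h4.le (by omega) hmass V z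
      rw [hcum, hcum, hcH] at key
      set Δ := ghAt 1 I.h p - skCumH (I.stp F) j' with hΔ
      have hΔ1 : ghAt 1 I.h p - ghAt 1 I.h p' ≤ Δ := by rw [hΔ]; linarith
      have hn0 : (0 : ℝ) ≤ I.n := Nat.cast_nonneg _
      have hd0 : 0 < (I.n : ℝ) * (ghAt 1 I.h p - ghAt 1 I.h p') := (mul_pos_iff_of_pos_left (pow_pos hp'u 2)).1 hprod2
      have hnpos : (0 : ℝ) < I.n := by
        rcases hn0.eq_or_lt with h0 | h0
        · rw [← h0] at hd0; simp at hd0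
        · exact h0
      have hd1 : 0 < ghAt 1 I.h p - ghAt 1 I.h p' := (mul_pos_iff_of_pos_left hnpos).1 hd0
      have hΔ0 : 0 < Δ := hd1.trans_le hΔ1
      have hn'0 : (0 : ℝ) < n' := by linarith
      have hsq : 0 < Real.sqrt I.W := Real.sqrt_pos.2 hW
      have hden : 0 < I.W * Real.sqrt I.W * p.u := by positivity
      rw [hlo]
      have e5 : Cq (k + 1) * I.sv * (I.x ^ 3 / (I.W * Real.sqrt I.W * p.u)) = Cq (k + 1) * (I.sv * I.x ^ 3 / (I.W * Real.sqrt I.W * p.u)) := by ring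
      rw [e5]
      refine cvl_c_arith k key (by positivity) (Finset.sum_nonneg fun i _ => sq_nonneg _) (hM0 k).le
        ?_ (le_max_left _ _) (le_max_right _ _) (hq (k + 1))
      rw [div_pow, mul_div_assoc', div_mul_eq_mul_div, le_div_iff₀ (pow_pos hden 2), one_mul]
      refine hfld.trans ?_
      have : (I.n : ℝ) * (ghAt 1 I.h p - ghAt 1 I.h p') ≤ 2 * (n' * Δ) := by
        calc (I.n : ℝ) * (ghAt 1 I.h p - ghAt 1 I.h p') ≤ (2 * n') * Δ := mul_le_mul hn' hΔ1 hd1.le (by positivity)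
          _ = 2 * (n' * Δ) := by ring
      calc (I.sv * I.x ^ 3) ^ 2 * (p'.u ^ 2 * (I.n * (ghAt 1 I.h p - ghAt 1 I.h p')))
          ≤ (I.sv * I.x ^ 3) ^ 2 * (p'.u ^ 2 * (2 * (n' * Δ))) := by gcongr
        _ = 2 * (I.sv * I.x ^ 3) ^ 2 * (p'.u ^ 2 * (n' * Δ)) := by ring
  have hlen' : (I.stp F).length = (ghPs 1 F).length := cvl_a_stp_len I F
  have hmsP : ∀ i (hi : i < (I.stp F).length) (hi' : i < (ghPs 1 F).length), ((I.stp F)[i]).m = ((ghPs 1 F)[i]).u := by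
    intro i hi hi'
    have := cvl_a_ms 1 I.b I.h (ghPs 1 F) 0 0 i hi'
    unfold skMs at this
    rw [List.getD_eq_getElem _ _ (by simpa [CavP.stp] using hi)] at this
    simpa [CavP.stp] using this
  constructor
  · refine main I.n (I.stp F) ?_ hadm rfl hmsP (fun _ => rfl)
    have : (0 : ℝ) ≤ I.n := Nat.cast_nonneg _
    linarith
  · refine main (I.n - 1) (cvRest I.n (I.stp F)) ?_ (cvl_c_rest_adm (by have := hI.n2; omega) hadm) (by simp [cvRest]) ?_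
      (cvl_c_rest_cum I.n (I.stp F))
    · have h2 := hI.n2
      have : ((I.n - 1 : ℕ) : ℝ) = (I.n : ℝ) - 1 := by
        rw [Nat.cast_sub (by omega)]; simp
      rw [this]
      have : (2 : ℝ) ≤ I.n := by exact_mod_cast h2
      linarith
    · intro i hi hi'
      have hi2 : i < (I.stp F).length := by omega
      rw [← hmsP i hi2 hi']
      simp [cvRest]

end leavesC

/-! ## 5. THE TRANSFER (glue, proved) -/

section glue

theorem cvl_u_mono {p q : GhPos} (h : p ≤ q) : p.u ≤ q.u := by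
  rcases Prod.Lex.le_iff.1 h with h | h
  · exact h.le
  · exact h.1.le

theorem cvl_posB0_le {p : GhPos} (hp : p.Ok 1) : ghPosB 0 ≤ p := by
  rw [Prod.Lex.le_iff]
  rcases hp.1.lt_or_eq with h | h
  · exact Or.inl h
  · exact Or.inr ⟨h, hp.2.2.1⟩

variable {c C ρ : ℝ} {Cp Cq : ℕ → ℝ} {kM : ℕ} {I : CavP}

/-- **transfer of the inputs at the scale `x`** -/
theorem cvl_ok (hc : 0 < c) (hI : I.Ok c C ρ Cp kM) (hq : ∀ k, 2 * Cp k ≤ Cq k) :
    ∀ᶠ F : Finset GhPos in atTop, (I.on (ghPs 1 F)).Ok c C ρ Cq kM := by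
  have hn : 0 < I.n := lt_of_lt_of_le (by norm_num) hI.n2
  have hX0 : 0 < I.pX.u := lt_of_lt_of_le (mul_pos hc hI.x0) hI.UxLo
  have hB1 : I.pB.u < 1 := lt_of_le_of_lt (cvl_u_mono hI.pBX) hI.Ux1
  have hsl : 0 < I.pX.u * (I.sv * I.x) ^ 2 / 2 := by
    have := mul_pos hI.sv0 hI.x0
    positivity
  filter_upwards [cvl_raw hI hq, cvl_next I hI.pXok (lt_min hI.UxHi hI.Ux1) (min_le_right _ _),
    cvl_next I hI.pBok (lt_min hI.band hB1) (min_le_right _ _), cvl_mesh I hI.pXok hX0,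
    cvl_low I hn hI.clk hI.pXok (sub_pos.2 hI.lowX), cvl_high I hn hI.clk hI.pXok hsl] with F hraw hnX hnB hmesh hlow hhigh
  exact
    { n2 := hI.n2
      adm := cvl_adm I hI.clk F
      x0 := hI.x0
      xW := hI.xW
      WC := hI.WC
      sv0 := hI.sv0
      sv1 := hI.sv1
      et0 := hI.et0.le
      nx := hI.nx
      totB := (cvl_tot I hI.clk F).1.trans hI.totB
      totH := (cvl_tot I hI.clk F).2.trans hI.totH
      raw := hraw
      jBX := cvl_J_mono F hI.pBX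
      jXN := hnX.1
      band := hnB.2.2.trans (min_le_left _ _)
      UxLo := hI.UxLo.trans hnX.2.1
      UxHi := hnX.2.2.trans (min_le_left _ _)
      hHi := by
        intro j h1 h2
        obtain ⟨p, -, hpok, hqp, -, e1, -, e3⟩ := cvl_cut I F I.pX h1 h2
        have := hI.hHi p hpok hqp
        calc skCumH (I.stp F) j = ghAt 1 I.h p := e3
          _ ≤ C * p.u := this
          _ = C * cvLo (I.stp F) j := by rw [e1]
      mesh := hmesh
      lowX := by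
        have : (∫ v in (0 : ℝ)..I.pX.u, I.D (ghPosA v)) + (I.et * I.x ^ 2 - ∫ v in (0 : ℝ)..I.pX.u, I.D (ghPosA v)) = I.et * I.x ^ 2 := by ring
        exact hlow.trans this.le
      highX := by
        intro j2 h1 h2
        have hm := cvl_ms_mem I F I.pX (le_of_lt h1) hI.pXok.2.1
        have h3 := hhigh j2 h1 h2
        have h4 := hI.highX _ hm.1 hm.2
        have h5 : I.pX.u * (I.sv * I.x) ^ 2 ≤ skMs 1 (I.stp F) j2 * (I.sv * I.x) ^ 2 :=
          mul_le_mul_of_nonneg_right hm.1 (sq_nonneg _)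
        have e : ∑ j ∈ Finset.Ioc (cvlJ F I.pX) j2, skGap 1 (I.stp F) j * cvD I.n (I.stp F) j ^ 2
            ≤ skMs 1 (I.stp F) j2 * (I.sv * I.x) ^ 2 := by linarith
        exact e }

/-- **transfer of the inputs at the calibration scale `W`** -/
theorem cvl_star (hc : 0 < c) (hI : I.Ok c C ρ Cp kM) (hS : I.Star c C Cp kM) (hq : ∀ k, 2 * Cp k ≤ Cq k)
    (hprj : ∀ᶠ F : Finset GhPos in atTop,
      (∀ (z : SkCfg I.n → ℝ) (V : Fin I.n → ℝ) (jv k : ℕ), cvlJ F I.pU < jv → jv ≤ (I.stp F).length → k ≤ kM →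
        cvProj I.n ((I.stp F).drop (cvlJ F I.ps)) z V (jv - cvlJ F I.ps) k
          ≤ (Cq k * I.sv * (I.x ^ 3 / (I.W * Real.sqrt I.W * cvLo (I.stp F) jv))) ^ (2 * k) * (∑ i, V i ^ 2) ^ k) ∧
      (∀ (z : SkCfg (I.n - 1) → ℝ) (V : Fin (I.n - 1) → ℝ) (jv k : ℕ), cvlJ F I.pU < jv → jv ≤ (I.stp F).length → k ≤ kM →
        cvProj (I.n - 1) ((cvRest I.n (I.stp F)).drop (cvlJ F I.ps)) z V (jv - cvlJ F I.ps) k
          ≤ (Cq k * I.sv * (I.x ^ 3 / (I.W * Real.sqrt I.W * cvLo (I.stp F) jv))) ^ (2 * k) * (∑ i, V i ^ 2) ^ k)) :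
    ∀ᶠ F : Finset GhPos in atTop, (I.on (ghPs 1 F)).Star c C Cq kM := by
  have hn : 0 < I.n := lt_of_lt_of_le (by norm_num) hI.n2
  have hW0 : 0 < I.W := lt_of_lt_of_le hI.x0 hI.xW
  have hU0 : 0 < I.pU.u := lt_of_lt_of_le (mul_pos hc hW0) hS.ULo
  have hA : 0 < I.sv * (I.x ^ 3 / (I.W * Real.sqrt I.W)) :=
    mul_pos hI.sv0 (div_pos (pow_pos hI.x0 3) (mul_pos hW0 (Real.sqrt_pos.2 hW0)))
  have hsl : 0 < I.pU.u * (I.sv * I.x ^ 2 / I.W) ^ 2 / 2 := by
    have := hI.sv0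
    have := hI.x0
    positivity
  filter_upwards [hprj, cvl_next I hS.pUok (lt_min hS.UHi hS.U1) (min_le_right _ _),
    cvl_stat I hn hI.clk hS.psok (sub_pos.2 hS.SLo), cvl_stat I hn hI.clk hS.psok (sub_pos.2 hS.Dst), cvl_mom hI hS hq,
    cvl_cum I hS.psok, cvl_low I hn hI.clk hS.pUok (sub_pos.2 hS.lowU), cvl_high I hn hI.clk hS.pUok hsl,
    cvl_res (I := I) (kM := kM) hn hI.clk hI.Cp0 hq hA hS.pUok hU0 (fun p => p ≤ I.pB ∨ p = I.ps) (Or.inl (cvl_posB0_le hI.pBok))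
      (fun p hp => hp.elim (fun h => h.trans (hI.pBX.trans hS.pXU)) (fun h => h ▸ hS.psU)) hS.resU]
    with F hp hnU hst1 hst2 hmom hcum hlow hhigh hres
  exact
    { jBs := by
        have e : cvlJ F I.pB < cvlJ F I.ps := by
          by_contra hcon
          exact absurd ((cvl_J_le_iff F hcum.1).1 (not_lt.1 hcon)) (not_le.2 hS.pBs)
        exact e
      jsU := cvl_J_mono F hS.psU
      jXU := cvl_J_mono F hS.pXU
      jUN := hnU.1
      ULo := hS.ULo.trans hnU.2.1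
      UHi := hnU.2.2.trans (min_le_left _ _)
      SLo := by
        have := (abs_le.1 hst1.1).1
        have e : c * I.W ≤ cvS I.n (I.stp F) (cvlJ F I.ps) := by linarith
        exact e
      Dst := by
        have := (abs_le.1 hst2.2).2
        have e : cvD I.n (I.stp F) (cvlJ F I.ps) ≤ I.sv * I.x ^ 2 / I.W := by linarith
        exact e
      mom := hmom
      T1 := hS.T1
      TC := hS.TC
      bst := by
        have e : |skCumB (I.stp F) (cvlJ F I.ps) - I.T| ≤ C * I.W ^ 2 := by rw [hcum.2.1]; exact hS.bst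
        exact e
      hst := by
        have e : skCumH (I.stp F) (cvlJ F I.ps) ≤ C * I.W ^ 3 := by rw [hcum.2.2]; exact hS.hst
        exact e
      lowU := by
        have : (∫ v in (0 : ℝ)..I.pU.u, I.D (ghPosA v)) + (I.et * I.x ^ 2 - ∫ v in (0 : ℝ)..I.pU.u, I.D (ghPosA v)) = I.et * I.x ^ 2 := by ring
        exact hlow.trans this.le
      highU := by
        intro j2 h1 h2
        have hm := cvl_ms_mem I F I.pU (le_of_lt h1) hS.pUok.2.1
        have h3 := hhigh j2 h1 h2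
        have h4 := hS.highU _ hm.1 hm.2
        have h5 : I.pU.u * (I.sv * I.x ^ 2 / I.W) ^ 2 ≤ skMs 1 (I.stp F) j2 * (I.sv * I.x ^ 2 / I.W) ^ 2 :=
          mul_le_mul_of_nonneg_right hm.1 (sq_nonneg _)
        have e : ∑ j ∈ Finset.Ioc (cvlJ F I.pU) j2, skGap 1 (I.stp F) j * cvD I.n (I.stp F) j ^ 2
            ≤ skMs 1 (I.stp F) j2 * (I.sv * I.x ^ 2 / I.W) ^ 2 := by linarith
        exact e
      resU := by
        intro j0 jv k h0 h1 h2 hk
        have h0' : j0 ≤ cvlJ F I.pB ∨ j0 = cvlJ F I.ps := h0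
        have hR : ∀ p ∈ ghPs 1 F, cvlJ F p = j0 → (p ≤ I.pB ∨ p = I.ps) := by
          intro p hp e
          rcases h0' with h | h
          · exact Or.inl ((cvl_J_le_iff F hp).1 (e ▸ h))
          · exact Or.inr (le_antisymm ((cvl_J_le_iff F hp).1 (by rw [e, h])) ((cvl_J_le_iff F hcum.1).1 (by rw [e, h])))
        have hj : j0 ≤ cvlJ F I.pU := by
          rcases h0' with h | h
          · exact h.trans (cvl_J_mono F (hI.pBX.trans hS.pXU))
          · exact h ▸ cvl_J_mono F hS.psU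
        have := hres j0 jv k hR hj h1 h2 hk
        have e : cvRes I.n (I.stp F) j0 jv k
            ≤ (Cq k * I.sv * (I.x ^ 3 / (I.W * Real.sqrt I.W * Real.sqrt (cvLo (I.stp F) jv)))) ^ (2 * k) := by
          refine this.trans (le_of_eq ?_)
          congr 1
          ring
        exact e
      prj := hp.1
      prjR := hp.2 }

/-- **THE TRANSFER**: path-level inputs hold on all fine chains.      `Kp` = the universal constants of (13) -/
theorem cvl_main : ∃ Kp : ℕ → ℝ, (∀ k, 0 ≤ Kp k) ∧ ∀ (c C ρ : ℝ) (Cp Cq : ℕ → ℝ) (kM : ℕ) (I : CavP), 0 < c → I.Ok c C ρ Cp kM → I.Star c C Cp kM →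
    (∀ k, 2 * Cp k ≤ Cq k) → (∀ k, Kp k ≤ Cq k) →
    ∀ᶠ F : Finset GhPos in atTop, (I.on (ghPs 1 F)).Ok c C ρ Cq kM ∧ (I.on (ghPs 1 F)).Star c C Cq kM := by
  obtain ⟨Kp, hKp, h⟩ := cvl_prj
  refine ⟨Kp, hKp, fun c C ρ Cp Cq kM I hc hI hS hq hK => ?_⟩
  exact (cvl_ok hc hI hq).and (cvl_star hc hI hS hq (h c C ρ Cp Cq kM I hc hI hS hK))

/-- the transfer in the regime `W ≥ w0` -/
theorem cvl_large (hc : 0 < c) (hI : I.Ok c C ρ Cp kM) (hL : I.Large) (hq : ∀ k, 2 * Cp k ≤ Cq k) :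
    ∀ᶠ F : Finset GhPos in atTop, (I.on (ghPs 1 F)).Ok c C ρ Cq kM ∧ (I.on (ghPs 1 F)).Large := by
  have hn : 0 < I.n := lt_of_lt_of_le (by norm_num) hI.n2
  have hA1 : (ghPosA 1).Ok 1 := ⟨zero_le_one, le_rfl, zero_le_one, le_rfl⟩
  filter_upwards [cvl_ok hc hI hq, cvl_low I hn hI.clk hA1 (sub_pos.2 hL.all), cvl_top I] with F h1 h2 h3
  refine ⟨h1, ⟨?_⟩⟩
  have e : (∫ v in (0 : ℝ)..1, I.D (ghPosA v)) + (I.et * I.x ^ 2 - ∫ v in (0 : ℝ)..1, I.D (ghPosA v)) = I.et * I.x ^ 2 := by ring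
  have h2' : ∑ j ∈ Finset.range ((I.stp F).length + 1), skGap 1 (I.stp F) j * cvD I.n (I.stp F) j
      ≤ (∫ v in (0 : ℝ)..1, I.D (ghPosA v)) + (I.et * I.x ^ 2 - ∫ v in (0 : ℝ)..1, I.D (ghPosA v)) := by
    rw [← h3]; exact h2
  exact h2'.trans e.le

end glue

/-! ## 6. Prop 4.1 with path-level inputs -/

/-- **Prop 4.1, modulus form, `W ≤ w0`, PATH-LEVEL INPUTS**      TEX[PE:prop:cavity-closure] -/
theorem cav_path_small (c C ρ : ℝ) (Cp : ℕ → ℝ) (hc : 0 < c) (hρ : 0 < ρ) :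
    ∃ (kM : ℕ) (C0 θ w0 : ℝ), 0 < θ ∧ θ ≤ 1 ∧ 0 < w0 ∧ ∀ ε : ℝ, 0 < ε → ∃ δ : ℝ, 0 < δ ∧ ∀ I : CavP,
      I.Ok c C ρ Cp kM → I.Star c C Cp kM → I.W ≤ w0 → I.x ≤ δ → I.sv ≤ δ → I.et ≤ δ →
      ∀ p : GhPos, p.Ok 1 → p ≤ I.pB → c * I.x ≤ p.u →
        |I.S p - cvGamC I.n I.b I.h p| ≤ C0 * I.x ^ 3 * (ε + (I.D p / I.x) ^ θ) := by
  obtain ⟨Kp, hKp, htr⟩ := cvl_main
  obtain ⟨kM, C0, θ, w0, h1, h2, h3, h⟩ := cav_clk_small c C ρ (fun k => 2 * |Cp k| + Kp k) hc hρ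
  refine ⟨kM, C0, θ, w0, h1, h2, h3, fun ε hε => ?_⟩
  obtain ⟨δ, hδ, h⟩ := h ε hε
  refine ⟨δ, hδ, fun I hI hS hW hx hsv het p hp hpB hpu => ?_⟩
  exact h I.n I.b I.h I.x I.W I.sv I.et I.T I.pB I.pX I.ps I.pU hI.clk.1 hI.clk.2
    (htr c C ρ Cp _ kM I hc hI hS (fun k => by have := le_abs_self (Cp k); have := hKp k; linarith)
      (fun k => by have := abs_nonneg (Cp k); linarith)) hW hx hsv het p hp hpB hpu

/-- **Prop 4.1, modulus form, `W` bounded below, PATH-LEVEL INPUTS**      TEX[PE:prop:cavity-closure] -/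
theorem cav_path_large (c C ρ : ℝ) (Cp : ℕ → ℝ) (hc : 0 < c) (hρ : 0 < ρ) :
    ∃ (kM : ℕ) (C0 θ : ℝ), 0 < θ ∧ θ ≤ 1 ∧ ∀ ε : ℝ, 0 < ε → ∃ δ : ℝ, 0 < δ ∧ ∀ I : CavP,
      I.Ok c C ρ Cp kM → I.Large → I.x ≤ δ → I.sv ≤ δ → I.et ≤ δ →
      ∀ p : GhPos, p.Ok 1 → p ≤ I.pB → c * I.x ≤ p.u →
        |I.S p - cvGamC I.n I.b I.h p| ≤ C0 * I.x ^ 3 * (ε + (I.D p / I.x) ^ θ) := by
  obtain ⟨kM, C0, θ, h1, h2, h⟩ := cav_clk_large c C ρ (fun k => 2 * Cp k) hc hρ
  refine ⟨kM, C0, θ, h1, h2, fun ε hε => ?_⟩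
  obtain ⟨δ, hδ, h⟩ := h ε hε
  refine ⟨δ, hδ, fun I hI hL hx hsv het p hp hpB hpu => ?_⟩
  exact h I.n I.b I.h I.x I.W I.sv I.et I.T I.pB I.pX I.ps I.pU hI.clk.1 hI.clk.2
    (cvl_large hc hI hL fun k => le_rfl) hx hsv het p hp hpB hpu

/-- **Prop 4.1, omitted lower cuts (`W ≤ C x`), PATH-LEVEL INPUTS**      TEX[PE:prop:cavity-closure] -/
theorem cav_path_omitted (c C ρ : ℝ) (Cp : ℕ → ℝ) (hc : 0 < c) (hρ : 0 < ρ) :
    ∃ (kM : ℕ) (C0 δ : ℝ), 0 < δ ∧ ∀ I : CavP,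
      I.Ok c C ρ Cp kM → I.Star c C Cp kM → I.W ≤ C * I.x → I.x ≤ δ → I.sv ≤ δ → I.et ≤ δ →
      ∀ p : GhPos, p.Ok 1 → p ≤ I.pB → |I.S p - cvGamC I.n I.b I.h p| ≤ C0 * I.x ^ 3 := by
  obtain ⟨Kp, hKp, htr⟩ := cvl_main
  obtain ⟨kM, C0, δ, hδ, h⟩ := cav_clk_omitted c C ρ (fun k => 2 * |Cp k| + Kp k) hc hρ
  refine ⟨kM, C0, δ, hδ, fun I hI hS hW hx hsv het p hp hpB => ?_⟩
  exact h I.n I.b I.h I.x I.W I.sv I.et I.T I.pB I.pX I.ps I.pU hI.clk.1 hI.clk.2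
    (htr c C ρ Cp _ kM I hc hI hS (fun k => by have := le_abs_self (Cp k); have := hKp k; linarith)
      (fun k => by have := abs_nonneg (Cp k); linarith)) hW hx hsv het p hp hpB

end

end Claimed.Agent.R286
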