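import Claimed.Agent.R286.Defs.Plc
import Claimed.Agent.R286.Defs.Clk
import Claimed.Agent.R286.Fd.Obs

/-!
# Row 286 (S0533), PE Section 4 (cavity), Cav/Defs : THE OBJECTS IN WHICH THE INPUTS AND THE EXITS OF THE SECTION ARE STATED      (owner helper223, head of PE Sec 4; prefix `cv`)      DEFINITIONS ONLY, 0 sorry

Built on `Defs/Gh` (76), `Defs/Sk` (273), `Defs/Plc` (42), `Defs/Clk` (76), `Fd/Obs` (278).      Terminal mass `a = 1` in the whole section (LL 07 rescales by `skRs`).
THE INNER VOCABULARY of the section (row family, signed sums, insertions, tests) is NOT here: it is `Defs/Tr` (N-tables, 150) + `Cav/LedDefs` (`LedSys`, 204) + `Cav/Tst` (218) + `Cav/Sys` (SK instance, 223).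
INDEXING.   `P : SkStp`, `N = P.length`.   A CUT is named by the NUMBER `j` OF SHARED REVELATIONS, `0 ≤ j ≤ N`.      `skCumB P j`, `skCumH P j` = clocks on the cut `j`; `skGap 1 P j` = its length in mass; `∫_0^1 f(u) du = ∑ j ∈ range (N+1), skGap 1 P j * f j`;
`cvLo P j` = lower mass of the cut `j` (mass of the last revelation), `skMs 1 P j` = its upper mass (mass of the next revelation).
* `cvNu`                   tree expectation of a spin test under the actual path.
* `cvS, cvD, cvK`          `S_j`, `D_j`, `K_j = h_j + b_j S_j` of the ACTUAL path.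
* `cvSc P K lam`           the scalar site = SK path of size `1` with the masses of `P` and the field clock `lam j * K j` (`lam` = revelation profile, design of 204);   `cvNuS` its tree expectations.
* `cvGamK`, `cvGam`        `Γ(K_j)` = second conditional magnetisation moment at the cut `j` of the scalar recursion with the WHOLE clock `K`.
* `cvRest n P`             the REST-ONLY system (`n - 1` spins, overlaps normalised by `n`, same field clock) as an SK path of size `n - 1`.
* `cvStar q ji js`         the star tree: all pairs split at `js`, the pairs which contain the label `0` at `min ji js`.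
* `cvGamC`, `cvDC`         PATH LEVEL (bounded monotone clocks): `Γ(K)` and `D` at a POSITION `p` (also inside a jump): `cvGamC` = limit along the chains of `cvGam` of the chain at the cut of `p`.
* `cvKf`, `cvGamP`         the scalar clock `K(u) = h(u) + b(u) S_u` as a function of the mass, and the number `S` of the system of size `1` with the field clock `K` (positions after the jumps);   `cvGamC n b h (ghPosA u) = cvGamP n b h u`: `exit_cav_gam`.
-/

set_option autoImplicit false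

namespace Claimed.Agent.R286

open MeasureTheory ProbabilityTheory

/-! ### the actual path -/

/-- tree expectation of a spin test under the actual path -/
noncomputable def cvNu (n : ℕ) (P : SkStp) {q : ℕ} (T : GhTree q) (f : (Fin q → SkCfg n) → ℝ) : ℝ :=
  T.nu (skBase n 1) (skLvs n P) 0 (ghSp f)

/-- `S_j` -/
noncomputable def cvS (n : ℕ) (P : SkStp) (j : ℕ) : ℝ := obS n 1 P 0 j

/-- `D_j` -/
noncomputable def cvD (n : ℕ) (P : SkStp) (j : ℕ) : ℝ := Real.sqrt (obD2 n 1 P 0 j)

/-- the scalar clock `K_j = h_j + b_j S_j` -/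
noncomputable def cvK (n : ℕ) (P : SkStp) (j : ℕ) : ℝ := skCumH P j + skCumB P j * cvS n P j

/-- lower mass of the cut `j` -/
def cvLo (P : SkStp) (j : ℕ) : ℝ := if j = 0 then 0 else skMs 1 P (j - 1)

/-! ### the scalar site -/

/-- the scalar site: masses of `P`, field clock `lam j * K j` -/
noncomputable def cvSc (P : SkStp) (K lam : ℕ → ℝ) : SkStp :=
  (List.range P.length).map fun j => ⟨skMs 1 P j, 0, lam (j + 1) * K (j + 1) - lam j * K j⟩

/-- tree expectation of a function of the site spins under the scalar site -/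
noncomputable def cvNuS (P : SkStp) (K lam : ℕ → ℝ) {q : ℕ} (T : GhTree q) (f : (Fin q → ℝ) → ℝ) : ℝ :=
  T.nu (skBase 1 1) (skLvs 1 (cvSc P K lam)) 0 (ghSp fun σ => f fun a => skSp (σ a) 0)

/-- **`Γ(K_j)`**: second conditional magnetisation moment at the cut `j` of the scalar recursion with the whole clock `K` -/
noncomputable def cvGamK (P : SkStp) (K : ℕ → ℝ) (j : ℕ) : ℝ := cvNuS P K (fun _ => 1) (obT2 j) fun s => s 0 * s 1

/-- `Γ(K_j)` for the clock `K = h + b S` of the actual path -/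
noncomputable def cvGam (n : ℕ) (P : SkStp) (j : ℕ) : ℝ := cvGamK P (cvK n P) j

/-- the REST-ONLY system (`n - 1` spins, overlaps normalised by `n`, same field clock) as an SK path of size `n - 1` -/
noncomputable def cvRest (n : ℕ) (P : SkStp) : SkStp := P.map fun e => ⟨e.m, e.db * ((n : ℝ) - 1) / n, e.dh⟩

/-! ### the star tree -/

/-- **the star tree**: all pairs split at `js`; the pairs which contain the label `0` split at `min ji js` -/
def cvStar (q ji js : ℕ) : GhTree q where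
  sh := fun a b => if a.1 = 0 ∨ b.1 = 0 then min ji js else js
  symm := fun a b => by simp only [or_comm]
  ultra := by
    intro a b c _
    by_cases h : a.1 = 0 ∨ c.1 = 0
    · rw [if_pos h]
      rcases h with h | h
      · rw [if_pos (Or.inl h)]; exact min_le_left _ _
      · rw [if_pos (Or.inr h : b.1 = 0 ∨ c.1 = 0)]; exact min_le_right _ _
    · rw [if_neg h]
      refine (min_le_left _ _).trans ?_
      split_ifs
      · exact min_le_right _ _
      · exact le_rfl

/-! ### path level -/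

/-- the scalar clock `K(u) = h(u) + b(u) S_u` of a pair of bounded monotone clocks -/
noncomputable def cvKf (n : ℕ) (b h : ℝ → ℝ) (u : ℝ) : ℝ := h u + b u * skCS n 1 b h (ghPosA u)

/-- **`Γ(K)_u`**: the number `S` of the system of size `1` with the field clock `K`, at the position after the jump at `u` -/
noncomputable def cvGamP (n : ℕ) (b h : ℝ → ℝ) (u : ℝ) : ℝ := skCS 1 1 (fun _ => 0) (cvKf n b h) (ghPosA u)

/-- **`Γ(K)` at a position**, `K = h + b S`: limit along the chains -/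
noncomputable def cvGamC (n : ℕ) (b h : ℝ → ℝ) (p : GhPos) : ℝ := ghLim 1 fun l => cvGam n (skCStp 1 b h 0 0 l) (ghIdx l p)

/-- `D` at a position -/
noncomputable def cvDC (n : ℕ) (b h : ℝ → ℝ) (p : GhPos) : ℝ := Real.sqrt (skCB n 1 b h p - skCS n 1 b h p ^ 2)

theorem cv_defs_eqns_cite : True := by
  have := @cvNu.eq_1
  have := @cvS.eq_1
  have := @cvD.eq_1
  have := @cvK.eq_1
  have := @cvLo.eq_1
  have := @cvSc.eq_1
  have := @cvNuS.eq_1
  have := @cvGamK.eq_1
  have := @cvGam.eq_1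
  have := @cvRest.eq_1
  have := @cvStar.eq_1
  have := @cvKf.eq_1
  have := @cvGamP.eq_1
  have := @cvGamC.eq_1
  have := @cvDC.eq_1
  trivial

/-! ## THE INPUTS OF THE SECTION (`CavIn`, `CavIn.Ok`, `CavIn.Star`, `CavIn.Large`): moved here from `Cav/Contract` (04:58Z) so that the units below `Cav/Asm` do not import the contract -/

/-- `E_z[(V·(y - X_r))^{2k}]`: planted path of the REMAINING step path `Q` started from the field `z`; `X_r` = conditional mean after `r` more revelations -/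
noncomputable def cvProj (n : ℕ) (Q : SkStp) (z : SkCfg n → ℝ) (V : Fin n → ℝ) (r k : ℕ) : ℝ :=
  obE n 1 Q z fun ξ σ => (∑ i, V i * (skY σ i - obXp n 1 Q z r ξ i)) ^ (2 * k)

/-- moment of order `2k` of the change of a boundary overlap: `c = 0` splits from `d = 1, d' = 2` at `j0`; `d, d'` share `jv` revelations -/
noncomputable def cvRes (n : ℕ) (P : SkStp) (j0 jv k : ℕ) : ℝ :=
  cvNu n P (cvStar 3 j0 jv) fun σ => (skOv (σ 0) (σ 1) - skOv (σ 0) (σ 2)) ^ (2 * k)

/-- **data of one instance** -/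
structure CavIn where
  n : ℕ
  P : SkStp
  x : ℝ
  W : ℝ
  sv : ℝ
  et : ℝ
  T : ℝ
  jB : ℕ
  jX : ℕ
  js : ℕ
  jU : ℕ

namespace CavIn

variable (I : CavIn)

/-- number of revelations -/
def N : ℕ := I.P.length

/-- **inputs at the scale `x`** -/
structure Ok (c C ρ : ℝ) (Cp : ℕ → ℝ) (kM : ℕ) : Prop where
  n2 : 2 ≤ I.n
  adm : SkAdm 1 I.P
  x0 : 0 < I.x
  xW : I.x ≤ I.W
  WC : I.W ≤ C
  sv0 : 0 < I.sv
  sv1 : I.sv ≤ I.x ^ ρ
  et0 : 0 ≤ I.et
  /-- `n^{-1/2} ≤ sv x³` -/
  nx : 1 ≤ I.sv ^ 2 * I.n * I.x ^ 6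
  totB : skTotB I.P ≤ C
  totH : skTotH I.P ≤ C
  /-- (12) -/
  raw : ∀ j k, j ≤ I.N → k ≤ kM → cvNu I.n I.P (obT2 j) (fun σ => skOv (σ 0) (σ 1) ^ (2 * k)) ≤ (Cp k * (cvLo I.P j + I.x)) ^ (2 * k)
  jBX : I.jB ≤ I.jX
  jXN : I.jX < I.N
  band : skMs 1 I.P I.jB ≤ C * I.x
  UxLo : c * I.x ≤ skMs 1 I.P I.jX
  UxHi : skMs 1 I.P I.jX ≤ C * I.x
  hHi : ∀ j, I.jX < j → j ≤ I.N → skCumH I.P j ≤ C * cvLo I.P j
  /-- MESH (185): above `U_x` the masses of consecutive revelations are comparable (free for the suppliers: true eventually along the net of chains) -/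
  mesh : ∀ j, I.jX < j → j ≤ I.N → skMs 1 I.P j ≤ 2 * cvLo I.P j
  /-- (19) up to `U_x` -/
  lowX : ∑ j ∈ Finset.range (I.jX + 1), skGap 1 I.P j * cvD I.n I.P j ≤ I.et * I.x ^ 2
  /-- (18) above `U_x`, PER DYAD in cumulative form (206, 185, 244): the integral of `D²` over the masses `(U_x, v]` is at most `v (sv x)²`;   `j2 = N`: the global bound -/
  highX : ∀ j2, I.jX < j2 → j2 ≤ I.N →
    ∑ j ∈ Finset.Ioc I.jX j2, skGap 1 I.P j * cvD I.n I.P j ^ 2 ≤ skMs 1 I.P j2 * (I.sv * I.x) ^ 2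

/-- **inputs at the calibration scale `W`** -/
structure Star (c C : ℝ) (Cp : ℕ → ℝ) (kM : ℕ) : Prop where
  /-- the good cut is ABOVE the low band (parity argument at the initial cut) -/
  jBs : I.jB < I.js
  jsU : I.js ≤ I.jU
  jXU : I.jX ≤ I.jU
  jUN : I.jU < I.N
  ULo : c * I.W ≤ skMs 1 I.P I.jU
  UHi : skMs 1 I.P I.jU ≤ C * I.W
  SLo : c * I.W ≤ cvS I.n I.P I.js
  Dst : cvD I.n I.P I.js ≤ I.sv * I.x ^ 2 / I.W
  /-- (17) -/
  mom : ∀ k, k ≤ kM → cvNu I.n I.P (obT2 I.js) (fun σ => (skOv (σ 0) (σ 1) - cvS I.n I.P I.js) ^ (2 * k)) ≤ (Cp k * I.sv * I.W) ^ (2 * k)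
  T1 : 1 ≤ I.T
  TC : I.T ≤ C
  /-- (4), O-form, at `*` only -/
  bst : |skCumB I.P I.js - I.T| ≤ C * I.W ^ 2
  hst : skCumH I.P I.js ≤ C * I.W ^ 3
  /-- (19) up to `U` -/
  lowU : ∑ j ∈ Finset.range (I.jU + 1), skGap 1 I.P j * cvD I.n I.P j ≤ I.et * I.x ^ 2
  /-- (18) above `U`, PER DYAD in cumulative form -/
  highU : ∀ j2, I.jU < j2 → j2 ≤ I.N →
    ∑ j ∈ Finset.Ioc I.jU j2, skGap 1 I.P j * cvD I.n I.P j ^ 2 ≤ skMs 1 I.P j2 * (I.sv * I.x ^ 2 / I.W) ^ 2
  /-- (16): `z_v = x³/(W^{3/2} √v)` -/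
  resU : ∀ j0 jv k, (j0 ≤ I.jB ∨ j0 = I.js) → I.jU < jv → jv ≤ I.N → k ≤ kM →
    cvRes I.n I.P j0 jv k ≤ (Cp k * I.sv * (I.x ^ 3 / (I.W * Real.sqrt I.W * Real.sqrt (cvLo I.P jv)))) ^ (2 * k)
  /-- (13), pointwise, chain started at `*`: cost `x³/(W^{3/2} v)` per unit of `|V|` -/
  prj : ∀ (z : SkCfg I.n → ℝ) (V : Fin I.n → ℝ) (jv k : ℕ), I.jU < jv → jv ≤ I.N → k ≤ kM →
    cvProj I.n (I.P.drop I.js) z V (jv - I.js) k
      ≤ (Cp k * I.sv * (I.x ^ 3 / (I.W * Real.sqrt I.W * cvLo I.P jv))) ^ (2 * k) * (∑ i, V i ^ 2) ^ k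
  /-- the same for the rest-only system -/
  prjR : ∀ (z : SkCfg (I.n - 1) → ℝ) (V : Fin (I.n - 1) → ℝ) (jv k : ℕ), I.jU < jv → jv ≤ I.N → k ≤ kM →
    cvProj (I.n - 1) ((cvRest I.n I.P).drop I.js) z V (jv - I.js) k
      ≤ (Cp k * I.sv * (I.x ^ 3 / (I.W * Real.sqrt I.W * cvLo I.P jv))) ^ (2 * k) * (∑ i, V i ^ 2) ^ k

/-- **the regime `W ≥ w0`**: (19) with `C = 1/w0`, truncated at mass `1` -/
structure Large : Prop where
  all : ∑ j ∈ Finset.range (I.N + 1), skGap 1 I.P j * cvD I.n I.P j ≤ I.et * I.x ^ 2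

/-- the closure error at the cut `j` -/
noncomputable def err (j : ℕ) : ℝ := cvS I.n I.P j - cvGam I.n I.P j

end CavIn

/-- the instance carried by the chain `l`: the cuts are named by POSITIONS -/
noncomputable def cvInC (n : ℕ) (b h : ℝ → ℝ) (x W sv et T : ℝ) (pB pX ps pU : GhPos) (l : List GhPos) : CavIn :=
  ⟨n, skCStp 1 b h 0 0 l, x, W, sv, et, T, ghIdx l pB, ghIdx l pX, ghIdx l ps, ghIdx l pU⟩

theorem cav_contract_eqns_cite : True := by
  have := @cvProj.eq_1
  have := @cvRes.eq_1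
  have := @CavIn.N.eq_1
  have := @CavIn.err.eq_1
  have := @cvInC.eq_1
  trivial

end Claimed.Agent.R286
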