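import Claimed.Agent.R286.Cav.PreInst
import Claimed.Agent.R286.Cav.Lim
import Claimed.Agent.R286.Cmp.InstNum

/-!
# Row 286 (S0533), PE Section 4, Cav/PreInstG : GLUE OF THE INSTANCE      (owner helper18; ADV helper206; prefix `cvi_`)
source: PE cavity.tex l.84-133, l.1058-1072.

From the leaves of `Cav/PreInst.lean` + the exits of PE Sec 3 to the PATH-LEVEL inputs `CavP.Ok`, `CavP.Star`, `CavP.Large` of 76 (`Cav/Lim.lean`) for the changed path of a comparison instance `I : CmI`: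
* `cviP I x T sv et pB pX ps pU : CavP`      the path-level data;   `sv = cviSv I θ = n^(-θ)`, `et = δ`, `pB = ghPosA (C' x)`, `pX = ghPosA (Gx x)`, `ps = ghPosA u*`, `pU = ghPosA (GU W)`;
* `cvi_path_ok`    `CavP.Ok`   (monotone in the constants `cc`, `CC`, `Cp`);
* `cvi_path_star`  `CavP.Star`;      * `cvi_path_large`  `CavP.Large`;
* `cvi_inst_s`, `cvi_inst_l`      = the statements of `exit_cav_inst_s`, `exit_cav_inst_l` (through `cvl_main`, `cvl_large`).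
-/

set_option autoImplicit false

namespace Claimed.Agent.R286

open MeasureTheory Set Filter

/-- the path-level data of the instance -/
noncomputable def cviP (I : CmI) (x T sv et : ℝ) (pB pX ps pU : GhPos) : CavP :=
  ⟨I.P.n, I.b, I.h, x, cmW I.P I.lam x, sv, et, T, pB, pX, ps, pU⟩

theorem cvi_g_eqns_cite : True := by
  have := @cviP.eq_1
  trivial

/-! ## helpers -/

theorem cvi_cl {u : ℝ} (h0 : 0 ≤ u) (h1 : u ≤ 1) : cmkCl u = u := by
  unfold cmkCl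
  rw [min_eq_left h1, max_eq_right h0]

theorem cvi_D_eq (I : CmI) {u : ℝ} (h0 : 0 ≤ u) (h1 : u ≤ 1) : I.num.D u = cvDC I.P.n I.b I.h (ghPosA u) := by
  show Real.sqrt (cmkD2 I.P.n I.b I.h (ghPosA (cmkCl u))) = _
  rw [cvi_cl h0 h1]
  rfl

theorem cvi_S_eq (I : CmI) {u : ℝ} (h0 : 0 ≤ u) (h1 : u ≤ 1) : I.num.S u = skCS I.P.n 1 I.b I.h (ghPosA u) := by
  show skCS I.P.n 1 I.b I.h (ghPosA (cmkCl u)) = _
  rw [cvi_cl h0 h1]

theorem cvi_posA_ok {u : ℝ} (h0 : 0 ≤ u) (h1 : u ≤ 1) : (ghPosA u).Ok 1 := ⟨h0, h1, zero_le_one, le_rfl⟩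

theorem cvi_posA_lt {u : ℝ} {p : GhPos} (hp : p.Ok 1) (h : ghPosA u < p) : u < p.u := by
  rcases (gh_os_pos_lt_iff _ _).1 h with h | h
  · exact h
  · exact absurd h.2 (not_lt.2 hp.2.2.2)

theorem cvi_posA_lt' {u v : ℝ} (h : u < v) : ghPosA u < ghPosA v := (gh_os_pos_lt_iff _ _).2 (Or.inl h)

theorem cvi_even_le {a b : ℝ} (h : |a| ≤ b) (l : ℕ) : a ^ (2 * l) ≤ b ^ (2 * l) := by
  rw [pow_mul, pow_mul, ← sq_abs a]
  exact pow_le_pow_left₀ (sq_nonneg _) (pow_le_pow_left₀ (abs_nonneg a) h 2) l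

theorem cvi_sv_sq (I : CmI) (hN : 0 < I.P.N) (θ : ℝ) : cviSv I θ ^ 2 = I.P.N ^ (-(2 * θ)) := by
  unfold cviSv
  rw [← Real.rpow_natCast, ← Real.rpow_mul hN.le]
  congr 1
  push_cast
  ring

theorem cvi_sv_anti (I : CmI) (hN : 1 ≤ I.P.N) {θ θ' : ℝ} (h : θ ≤ θ') : cviSv I θ' ≤ cviSv I θ :=
  Real.rpow_le_rpow_of_exponent_le hN (by linarith)

theorem cvi_D_intble (I : CmI) (hX : I.num.Ok) {a b : ℝ} (ha : 0 ≤ a) (hab : a ≤ b) (hb : b ≤ 1) :
    IntervalIntegrable I.num.D volume a b := by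
  rw [intervalIntegrable_iff_integrableOn_Ioc_of_le hab]
  refine Measure.integrableOn_of_bounded (M := 1) (by simp) hX.D_meas.aestronglyMeasurable ?_
  refine (ae_restrict_iff' measurableSet_Ioc).2 (Eventually.of_forall fun u hu => ?_)
  have hu' : u ∈ Icc (0 : ℝ) 1 := ⟨ha.trans hu.1.le, hu.2.trans hb⟩
  rw [Real.norm_eq_abs, abs_of_nonneg (hX.D_nn u hu')]
  exact hX.D_le u hu'

/-- the integral of `D` from `0`, in the vocabulary of `CavP`, is monotone in the upper end -/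
theorem cvi_low (I : CmI) (hX : I.num.Ok) {a b : ℝ} (ha : 0 ≤ a) (hab : a ≤ b) (hb : b ≤ 1) :
    ∫ v in (0 : ℝ)..a, cvDC I.P.n I.b I.h (ghPosA v) ≤ ∫ u in (0 : ℝ)..b, I.num.D u := by
  have e : ∫ v in (0 : ℝ)..a, cvDC I.P.n I.b I.h (ghPosA v) = ∫ u in (0 : ℝ)..a, I.num.D u := by
    refine intervalIntegral.integral_congr fun u hu => ?_
    rw [uIcc_of_le ha] at hu
    exact (cvi_D_eq I hu.1 (hu.2.trans (hab.trans hb))).symm
  rw [e]
  refine intervalIntegral.integral_mono_interval le_rfl ha hab ?_ (cvi_D_intble I hX le_rfl (ha.trans hab) hb)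
  refine (ae_restrict_iff' measurableSet_Ioc).2 (Eventually.of_forall fun u hu => ?_)
  exact hX.D_nn u ⟨hu.1.le, hu.2.trans hb⟩

theorem cvi_high_eq (I : CmI) {a b : ℝ} (ha : 0 ≤ a) (hab : a ≤ b) (hb : b ≤ 1) :
    ∫ t in a..b, cvDC I.P.n I.b I.h (ghPosA t) ^ 2 = ∫ u in a..b, I.num.D u ^ 2 := by
  refine intervalIntegral.integral_congr fun u hu => ?_
  rw [uIcc_of_le hab] at hu
  show cvDC I.P.n I.b I.h (ghPosA u) ^ 2 = I.num.D u ^ 2
  rw [cvi_D_eq I (ha.trans hu.1) (hu.2.trans hb)]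

/-! ## the inputs at the scale `x` -/

/-- **`CavP.Ok` for the changed path**, monotone in the constants -/
theorem cvi_path_ok (K : CviK) (hK : K.Ok) {C' : ℝ} (hC' : 0 < C') :
    ∃ (Gx CC0 : ℝ) (Cp0 : ℕ → ℝ), 1 ≤ Gx ∧ C' ≤ Gx ∧ (∀ k, 0 < Cp0 k) ∧
      ∀ θ : ℝ, 0 < θ → θ < K.mm → ∀ (kM : ℕ) (δ : ℝ), 0 < δ → ∃ (κ : ℝ) (n0 : ℕ), 0 < κ ∧
        ∀ (I : CmI) (x T : ℝ), CviH K I x → CviE K I x T → n0 ≤ I.P.n → I.P.u0 ≤ κ * x → x ≤ κ →
          cviSv I θ ≤ δ ∧ ∀ (cc CC : ℝ) (Cp : ℕ → ℝ) (ps pU : GhPos), cc ≤ 1 → CC0 ≤ CC → (∀ k, Cp0 k ≤ Cp k) →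
            (cviP I x T (cviSv I θ) δ (ghPosA (C' * x)) (ghPosA (Gx * x)) ps pU).Ok cc CC (3 * θ) Cp kM := by
  obtain ⟨Gi, Ai, n1, hGi, hAi, hint⟩ := cvi_int_x K hK
  obtain ⟨Ah, hAh, hhi⟩ := cvi_clk_hi K hK
  have hraw : ∀ l : ℕ, ∃ Kl : ℝ, 0 < Kl ∧ (1 ≤ l → ∀ (I : CmI) (x : ℝ), CviH K I x → ∀ p : GhPos, p.Ok 1 →
      cmkMR I.P.n I.b I.h l p ≤ (Kl * (p.u + x)) ^ (2 * l)) := by
    intro l
    by_cases hl : 1 ≤ l
    · obtain ⟨Kl, h0, h⟩ := exit_cmp_raw K.mm K.cE K.D0 K.Tm K.ca K.ce K.c K.C K.C0 hK.mm hK.cE hK.D0 hK.Tm hK.ca hK.ce hK.c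
        (hK.c.trans_le hK.cC) hK.C0 l hl
      exact ⟨Kl, h0, fun _ I x H p hp => (h I x H.m.ge H.std H.mono H.u0 H.loc p hp).2⟩
    · exact ⟨1, one_pos, fun h => absurd h hl⟩
  choose Kr hKr0 hKr using hraw
  set Gx : ℝ := max (max Gi K.C0) (max C' 1) with hGx
  have hGx1 : 1 ≤ Gx := (le_max_right _ _).trans (le_max_right _ _)
  have hGxC' : C' ≤ Gx := (le_max_left _ _).trans (le_max_right _ _)
  have hGxi : Gi ≤ Gx := (le_max_left _ _).trans (le_max_left _ _)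
  have hGx0 : K.C0 ≤ Gx := (le_max_right _ _).trans (le_max_left _ _)
  set CC0 : ℝ := max (max (max 1 (1 / Real.sqrt K.cd) * K.D0) K.Tm) (max (Gx + 1) Ah) with hCC0
  refine ⟨Gx, CC0, Kr, hGx1, hGxC', hKr0, fun θ hθ0 hθ1 kM δ hδ => ?_⟩
  obtain ⟨n2, hsv⟩ := cvi_sv K hK hθ0 hθ1.le hδ
  obtain ⟨κ1, n3, hκ1, h19⟩ := exit_cmp_dir19i (C' := Gx) (η := δ / 2) hK.mm hK.cE hK.D0 hK.Tm hK.ca hK.ce hK.c hK.cC hK.C0 hK.cd
    (by linarith) (half_pos hδ)
  obtain ⟨n4, hpow⟩ := cvi_pow_abs (A := 2 * Ai) (θ := 2 * θ) (θ' := 2 * K.mm) (by linarith)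
  refine ⟨min κ1 (1 / (2 * Gx)), max (max n1 n2) (max n3 (max n4 2)), lt_min hκ1 (by positivity), ?_⟩
  intro I x T H HE hn hu0 hx
  have hn1 : n1 ≤ I.P.n := ((le_max_left _ _).trans (le_max_left _ _)).trans hn
  have hn2 : n2 ≤ I.P.n := ((le_max_right _ _).trans (le_max_left _ _)).trans hn
  have hn3 : n3 ≤ I.P.n := ((le_max_left _ _).trans (le_max_right _ _)).trans hn
  have hn4 : n4 ≤ I.P.n := (((le_max_left _ _).trans (le_max_right _ _)).trans (le_max_right _ _)).trans hn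
  have hn5 : 2 ≤ I.P.n := (((le_max_right _ _).trans (le_max_right _ _)).trans (le_max_right _ _)).trans hn
  obtain ⟨hx0, hxW, hWC⟩ := cvi_W K hK I x H
  obtain ⟨hs0, hs1, hs2, hs3⟩ := hsv I x H hn2
  have hclk := cvi_clk_adm K I x H
  have hX : I.num.Ok := cmk_num_ok I.P.n (by omega) hclk
  have hN : 0 < I.P.N := cm_N_pos H.std.ok
  have hGxx : Gx * x ≤ 1 / 2 := by
    have h1 : x ≤ 1 / (2 * Gx) := hx.trans (min_le_right _ _)
    calc Gx * x ≤ Gx * (1 / (2 * Gx)) := mul_le_mul_of_nonneg_left h1 (by linarith)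
      _ = 1 / 2 := by field_simp
  have hGxx0 : 0 ≤ Gx * x := by positivity
  refine ⟨hs1, fun cc CC Cp ps pU hcc hCC hCp => ?_⟩
  have hCC1 : max 1 (1 / Real.sqrt K.cd) * K.D0 ≤ CC := ((le_max_left _ _).trans (le_max_left _ _)).trans hCC
  have hCC2 : K.Tm ≤ CC := ((le_max_right _ _).trans (le_max_left _ _)).trans hCC
  have hCC3 : Gx + 1 ≤ CC := ((le_max_left _ _).trans (le_max_right _ _)).trans hCC
  have hCC4 : Ah ≤ CC := ((le_max_right _ _).trans (le_max_right _ _)).trans hCC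
  exact
    { n2 := hn5
      clk := hclk
      x0 := hx0
      xW := hxW
      WC := hWC.trans hCC1
      sv0 := hs0
      sv1 := hs2
      et0 := hδ
      nx := hs3
      Cp0 := fun k => (hKr0 k).trans_le (hCp k)
      totB := by
        show ghAt 1 I.b (ghPosA 1) ≤ CC
        rw [gh_os_at_top 1 I.b zero_le_one]
        exact H.std.bT.trans hCC2
      totH := by
        show ghAt 1 I.h (ghPosA 1) ≤ CC
        rw [gh_os_at_top 1 I.h zero_le_one]
        exact H.std.hT.trans hCC2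
      raw := by
        intro p hp k hk _
        show skCNu I.P.n 1 I.b I.h 2 (ghR2 p) (fun σ => (skOv (σ 0) (σ 1) - 0) ^ (2 * k)) ≤ (Cp k * (p.u + x)) ^ (2 * k)
        have e : (fun σ : Fin 2 → SkCfg I.P.n => (skOv (σ 0) (σ 1) - 0) ^ (2 * k)) = fun σ => skOv (σ 0) (σ 1) ^ (2 * k) := by
          funext σ; rw [sub_zero]
        rw [e]
        refine (hKr k hk I x H p hp).trans ?_
        have hpx : 0 ≤ p.u + x := add_nonneg hp.1 hx0.le
        exact pow_le_pow_left₀ (mul_nonneg (hKr0 k).le hpx) (mul_le_mul_of_nonneg_right (hCp k) hpx) _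
      pBok := cvi_posA_ok (by positivity) ((mul_le_mul_of_nonneg_right hGxC' hx0.le).trans (hGxx.trans (by norm_num)))
      pXok := cvi_posA_ok hGxx0 (hGxx.trans (by norm_num))
      pBX := cmk_posA_le (mul_le_mul_of_nonneg_right hGxC' hx0.le)
      band := by
        show C' * x < CC * x
        exact mul_lt_mul_of_pos_right (by linarith) hx0
      UxLo := by
        show cc * x ≤ Gx * x
        exact mul_le_mul_of_nonneg_right (hcc.trans hGx1) hx0.le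
      UxHi := by
        show Gx * x < CC * x
        exact mul_lt_mul_of_pos_right (by linarith) hx0
      Ux1 := by
        show Gx * x < 1
        linarith
      hHi := by
        intro p hp hlt
        have h1 : Gx * x < p.u := cvi_posA_lt hp hlt
        have h2 : K.C0 * x ≤ p.u := (mul_le_mul_of_nonneg_right hGx0 hx0.le).trans h1.le
        have h3 : x ≤ p.u := by
          have : 1 * x ≤ Gx * x := mul_le_mul_of_nonneg_right hGx1 hx0.le
          linarith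
        exact (hhi I x T H HE p hp h2 h3).trans (mul_le_mul_of_nonneg_right hCC4 hp.1)
      lowX := by
        show ∫ v in (0 : ℝ)..(Gx * x), cvDC I.P.n I.b I.h (ghPosA v) < δ * x ^ 2
        have h1 : Gx * x ≤ min (Gx * cmW I.P I.lam x) 1 :=
          le_min (mul_le_mul_of_nonneg_left hxW (by linarith)) (hGxx.trans (by norm_num))
        have h2 := cvi_low I hX hGxx0 h1 (min_le_right _ _)
        have h3 := h19 I x H.std H.mono H.m H.loc hn3 H.dir (hu0.trans (mul_le_mul_of_nonneg_right (min_le_left _ _) hx0.le))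
        have h4 : δ / 2 * x ^ 2 < δ * x ^ 2 := mul_lt_mul_of_pos_right (half_lt_self hδ) (by positivity)
        linarith
      highX := by
        intro v hv hv1
        have hv' : Gx * x ≤ v := hv
        show 2 * ∫ t in (Gx * x)..v, cvDC I.P.n I.b I.h (ghPosA t) ^ 2 ≤ v * (cviSv I θ * x) ^ 2
        rw [cvi_high_eq I hGxx0 hv' hv1]
        have h1 := hint I x H hn1 (Gx * x) v (mul_le_mul_of_nonneg_right hGxi hx0.le) hv' hv1
        have h2 : 2 * Ai * I.P.N ^ (-(2 * K.mm)) < I.P.N ^ (-(2 * θ)) := hpow I.P.n hn4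
        have hv0 : 0 ≤ v := hGxx0.trans hv'
        rw [mul_pow, cvi_sv_sq I hN]
        have h3 : 0 ≤ v * x ^ 2 := by positivity
        have h4 := mul_le_mul_of_nonneg_right h2.le h3
        calc 2 * ∫ u in (Gx * x)..v, I.num.D u ^ 2 ≤ 2 * (Ai * I.P.N ^ (-(2 * K.mm)) * v * x ^ 2) := by linarith
          _ = 2 * Ai * I.P.N ^ (-(2 * K.mm)) * (v * x ^ 2) := by ring
          _ ≤ I.P.N ^ (-(2 * θ)) * (v * x ^ 2) := h4
          _ = v * (I.P.N ^ (-(2 * θ)) * x ^ 2) := by ring }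

/-! ## the inputs at the calibration scale `W` -/

/-- arithmetic core of the field length -/
theorem cvi_fld_arith {W s x G u N d : ℝ} (hW : 0 < W) (hG : 0 < G) (h5 : 16 * G ^ 2 * W ^ 3 ≤ s ^ 2 * x ^ 6 * (N * d)) :
    (W * Real.sqrt W * u) ^ 2 ≤ (s * x ^ 3) ^ 2 * ((u / (4 * G)) ^ 2 * (N * d)) := by
  have hsq : Real.sqrt W ^ 2 = W := Real.sq_sqrt hW.le
  have e1 : (W * Real.sqrt W * u) ^ 2 = W ^ 3 * u ^ 2 := by
    calc (W * Real.sqrt W * u) ^ 2 = W ^ 2 * Real.sqrt W ^ 2 * u ^ 2 := by ring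
      _ = W ^ 3 * u ^ 2 := by rw [hsq]; ring
  have e2 : (s * x ^ 3) ^ 2 * ((u / (4 * G)) ^ 2 * (N * d)) = (s ^ 2 * x ^ 6 * (N * d)) * (u ^ 2 / (16 * G ^ 2)) := by
    field_simp
    ring
  rw [e1, e2]
  calc W ^ 3 * u ^ 2 = 16 * G ^ 2 * W ^ 3 * (u ^ 2 / (16 * G ^ 2)) := by field_simp
    _ ≤ _ := mul_le_mul_of_nonneg_right h5 (by positivity)

set_option maxHeartbeats 1000000 in
/-- **`CavP.Star` for the changed path**, monotone in the constants -/
theorem cvi_path_star (K : CviK) (hK : K.Ok) {C' Gx : ℝ} (hC' : 0 < C') (hGx : 1 ≤ Gx) (hCG : C' ≤ Gx) :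
    ∃ (θ0 cc0 CC0 κ0 GU : ℝ) (Cp0 : ℕ → ℝ), 0 < θ0 ∧ 0 < cc0 ∧ 0 < κ0 ∧ (∀ k, 0 < Cp0 k) ∧
      ∀ θ : ℝ, 0 < θ → θ < θ0 → ∀ (kM : ℕ) (δ : ℝ), 0 < δ → ∃ (κ : ℝ) (n0 : ℕ), 0 < κ ∧
        ∀ (I : CmI) (x T : ℝ), CviH K I x → CviE K I x T → 1 ≤ T → T ≤ K.Tm → n0 ≤ I.P.n → cmW I.P I.lam x ≤ κ0 → I.P.u0 ≤ κ * x →
          ∃ ps : GhPos, ∀ (cc CC : ℝ) (Cp : ℕ → ℝ), cc ≤ cc0 → CC0 ≤ CC → (∀ k, Cp0 k ≤ Cp k) →
            (cviP I x T (cviSv I θ) δ (ghPosA (C' * x)) (ghPosA (Gx * x)) ps (ghPosA (GU * cmW I.P I.lam x))).Star cc CC Cp kM := by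
  obtain ⟨c2, c3, hc2, hc3, hsplit⟩ := exit_cmp_dir_split hK.mm hK.cE hK.D0 hK.Tm hK.ca hK.ce hK.c hK.cC hK.C0 hK.cd
  set G0 : ℝ := max (C' + 1) (max K.C0 (1 / K.c) + 1) with hG0
  have hG01 : 1 ≤ G0 := le_trans (by linarith) (le_max_left _ _)
  obtain ⟨κs, c', C'', Cl, n1, hκs, hc', hcC', hsp⟩ := hsplit G0 hG01
  have hC''0 : 0 < C'' := hc'.trans_le hcC'
  obtain ⟨C3, hC3, hres⟩ := exit_cmp_res_u K.mm K.cE K.D0 K.Tm K.ca K.ce K.c K.C K.C0 (max C' C'') hK.mm hK.cE hK.D0 hK.Tm hK.ca hK.ce hK.c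
    (hK.c.trans_le hK.cC) hK.C0 (lt_max_of_lt_left hC')
  have hres' : ∀ l : ℕ, ∃ Kl : ℝ, 0 < Kl ∧ (1 ≤ l → ∀ (I : CmI) (x x1 : ℝ), CviH K I x → x ≤ x1 → ∀ pf pv : GhPos, pf.Ok 1 → pv.Ok 1 →
      pf.u ≤ max C' C'' * x1 → C3 * x1 ≤ pv.u →
        skCNu I.P.n 1 I.b I.h 3
            (fun y z => if y = z then ⊤ else if y = 2 ∨ z = 2 then (pf : WithTop GhPos) else (pv : WithTop GhPos))
            (fun σ => (skOv (σ 0) (σ 2) - skOv (σ 1) (σ 2)) ^ (2 * l))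
          ≤ (Kl * I.P.Lam ^ 5 / Real.sqrt (I.P.N * I.P.e I.lam pv.u * pv.u ^ 2)) ^ (2 * l)) := by
    intro l
    by_cases hl : 1 ≤ l
    · obtain ⟨Kl, h0, h⟩ := hres l hl
      exact ⟨Kl, h0, fun _ I x x1 H hx1 pf pv h1 h2 h3 h4 => h I x x1 H.m.ge H.std H.mono H.u0 H.loc hx1 pf pv h1 h2 h3 h4⟩
    · exact ⟨1, one_pos, fun h => absurd h hl⟩
  choose Kq hKq0 hKq using hres'
  obtain ⟨G, hG, hlen⟩ := cvi_len K hK
  obtain ⟨Gw, Aw, n2, hGw, hAw, hintW⟩ := cvi_int_W K hK (c' := 1) one_pos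
  obtain ⟨As, hAs, hstar⟩ := cvi_clk_star K hK (G1 := C'') hC''0
  set GU : ℝ := max (max (4 * G * C'') 2) (max (max C3 (2 * G * max K.C0 1)) (max Gx Gw)) with hGU
  have hGU1 : 4 * G * C'' ≤ GU := (le_max_left _ _).trans (le_max_left _ _)
  have hGU2 : 2 ≤ GU := (le_max_right _ _).trans (le_max_left _ _)
  have hGU3 : C3 ≤ GU := ((le_max_left _ _).trans (le_max_left _ _)).trans (le_max_right _ _)
  have hGU4 : 2 * G * max K.C0 1 ≤ GU := ((le_max_right _ _).trans (le_max_left _ _)).trans (le_max_right _ _)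
  have hGU5 : Gx ≤ GU := ((le_max_left _ _).trans (le_max_right _ _)).trans (le_max_right _ _)
  have hGU6 : Gw ≤ GU := ((le_max_right _ _).trans (le_max_right _ _)).trans (le_max_right _ _)
  refine ⟨min (min c2 c3) K.mm, min (c' / 2) 1, max (max (GU + 1) K.Tm) As, min κs (1 / (2 * GU)), GU, fun k => |Cl k| + Kq k,
    lt_min (lt_min hc2 hc3) hK.mm, lt_min (half_pos hc') one_pos, lt_min hκs (by positivity),
    fun k => add_pos_of_nonneg_of_pos (abs_nonneg _) (hKq0 k), fun θ hθ0 hθ1 kM δ hδ => ?_⟩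
  have hθc2 : θ < c2 := hθ1.trans_le ((min_le_left _ _).trans (min_le_left _ _))
  have hθc3 : θ < c3 := hθ1.trans_le ((min_le_left _ _).trans (min_le_right _ _))
  have hθm : θ < K.mm := hθ1.trans_le (min_le_right _ _)
  obtain ⟨κ1, n3, hκ1, h19⟩ := exit_cmp_dir19i (C' := GU) (η := δ / 2) hK.mm hK.cE hK.D0 hK.Tm hK.ca hK.ce hK.c hK.cC hK.C0 hK.cd
    (by linarith) (half_pos hδ)
  obtain ⟨n4, hpow⟩ := cvi_pow_abs (A := 2 * Aw) (θ := 2 * θ) (θ' := 2 * K.mm) (by linarith)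
  obtain ⟨n5, hra⟩ := cvi_res_arith_W K hK (A := 1) (c' := 1) one_pos one_pos
  obtain ⟨n6, hl⟩ := hlen (16 * G ^ 2) (by positivity)
  refine ⟨κ1, max (max n1 n2) (max (max n3 n4) (max n5 n6)), hκ1, ?_⟩
  intro I x T H HE hT1 hTm hn hWκ hu0
  have hn1 : n1 ≤ I.P.n := ((le_max_left _ _).trans (le_max_left _ _)).trans hn
  have hn2 : n2 ≤ I.P.n := ((le_max_right _ _).trans (le_max_left _ _)).trans hn
  have hn3 : n3 ≤ I.P.n := (((le_max_left _ _).trans (le_max_left _ _)).trans (le_max_right _ _)).trans hn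
  have hn4 : n4 ≤ I.P.n := (((le_max_right _ _).trans (le_max_left _ _)).trans (le_max_right _ _)).trans hn
  have hn5 : n5 ≤ I.P.n := (((le_max_left _ _).trans (le_max_right _ _)).trans (le_max_right _ _)).trans hn
  have hn6 : n6 ≤ I.P.n := (((le_max_right _ _).trans (le_max_right _ _)).trans (le_max_right _ _)).trans hn
  obtain ⟨hx0, hxW, -⟩ := cvi_W K hK I x H
  set W : ℝ := cmW I.P I.lam x with hWdef
  have hW0 : 0 < W := hx0.trans_le hxW
  have hclk := cvi_clk_adm K I x H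
  have hnpos : 0 < I.P.n := by have := H.std.ok.n3; omega
  have hX : I.num.Ok := cmk_num_ok I.P.n hnpos hclk
  have hN : 0 < I.P.N := cm_N_pos H.std.ok
  have hN1 : 1 < I.P.N := by have := cm_N_ge H.std.ok; linarith
  have hG0' : 0 < G := by linarith
  have hGUW : GU * W ≤ 1 / 2 := by
    have h1 : W ≤ 1 / (2 * GU) := hWκ.trans (min_le_right _ _)
    calc GU * W ≤ GU * (1 / (2 * GU)) := mul_le_mul_of_nonneg_left h1 (by linarith)
      _ = 1 / 2 := by field_simp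
  have hGUW0 : 0 ≤ GU * W := by positivity
  obtain ⟨us, hus1, husG, hus0, husc, husC, hSlo, -, hmom, hD⟩ :=
    hsp I x H.std H.mono H.m H.loc H.u0 hn1 H.dir (hWκ.trans (min_le_left _ _))
  have husp : 0 < us := (mul_pos hc' hW0).trans_le husc
  have husU : us ≤ GU * W := by
    refine husC.trans (mul_le_mul_of_nonneg_right ?_ hW0.le)
    have h1 : 1 * C'' ≤ (4 * G) * C'' := mul_le_mul_of_nonneg_right (by linarith) hC''0.le
    linarith
  have hus4 : 4 * G * us ≤ GU * W := by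
    calc 4 * G * us ≤ 4 * G * (C'' * W) := mul_le_mul_of_nonneg_left husC (by positivity)
      _ = 4 * G * C'' * W := by ring
      _ ≤ GU * W := mul_le_mul_of_nonneg_right hGU1 hW0.le
  have husB : C' * x < us := by
    have h1 : (C' + 1) * x ≤ us := (mul_le_mul_of_nonneg_right (le_max_left _ _) hx0.le).trans husG
    have h2 : (C' + 1) * x = C' * x + x := by ring
    linarith
  have husR : max K.C0 (1 / K.c) * x < us := by
    have h1 : (max K.C0 (1 / K.c) + 1) * x ≤ us := (mul_le_mul_of_nonneg_right (le_max_right _ _) hx0.le).trans husG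
    have h2 : (max K.C0 (1 / K.c) + 1) * x = max K.C0 (1 / K.c) * x + x := by ring
    linarith
  have husok : (ghPosA us).Ok 1 := cvi_posA_ok husp.le hus1
  have hUok : (ghPosA (GU * W)).Ok 1 := cvi_posA_ok hGUW0 (hGUW.trans (by norm_num))
  have hXU : Gx * x ≤ GU * W := mul_le_mul hGU5 hxW hx0.le (by linarith)
  have h2W : 2 * W ≤ GU * W := mul_le_mul_of_nonneg_right hGU2 hW0.le
  refine ⟨ghPosA us, fun cc CC Cp hcc hCC hCp => ?_⟩
  have hCC1 : GU + 1 ≤ CC := ((le_max_left _ _).trans (le_max_left _ _)).trans hCC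
  have hCC2 : K.Tm ≤ CC := ((le_max_right _ _).trans (le_max_left _ _)).trans hCC
  have hCC3 : As ≤ CC := (le_max_right _ _).trans hCC
  have hst := hstar I x T H HE (ghPosA us) husok husR husC (lt_of_le_of_lt (husU.trans hGUW) (by norm_num))
  have hCpq : ∀ k, Kq k ≤ Cp k := fun k => le_trans (by have := abs_nonneg (Cl k); linarith) (hCp k)
  have hCpl : ∀ k, |Cl k| ≤ Cp k := fun k => le_trans (by have := (hKq0 k).le; linarith) (hCp k)
  have hsv0 : 0 < cviSv I θ := Real.rpow_pos_of_pos hN _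
  exact
    { psok := husok
      pUok := hUok
      pBs := cvi_posA_lt' husB
      psU := cmk_posA_le husU
      pXU := cmk_posA_le hXU
      ULo := by
        show cc * W ≤ GU * W
        exact mul_le_mul_of_nonneg_right ((hcc.trans (min_le_right _ _)).trans (by linarith)) hW0.le
      UHi := by
        show GU * W < CC * W
        exact mul_lt_mul_of_pos_right (by linarith) hW0
      U1 := by
        show GU * W < 1
        linarith
      SLo := by
        show cc * W < skCS I.P.n 1 I.b I.h (ghPosA us)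
        rw [← cvi_S_eq I husp.le hus1]
        have h1 : cc * W ≤ c' / 2 * W := mul_le_mul_of_nonneg_right (hcc.trans (min_le_left _ _)) hW0.le
        have h2 : c' / 2 * W < c' * W := mul_lt_mul_of_pos_right (half_lt_self hc') hW0
        linarith
      Dst := by
        show cvDC I.P.n I.b I.h (ghPosA us) < cviSv I θ * x ^ 2 / W
        rw [← cvi_D_eq I husp.le hus1, mul_div_assoc]
        refine hD.trans_lt (mul_lt_mul_of_pos_right ?_ (by positivity))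
        exact Real.rpow_lt_rpow_of_exponent_lt hN1 (by linarith)
      mom := by
        intro k hk _
        show skCNu I.P.n 1 I.b I.h 2 (ghR2 (ghPosA us)) (fun σ => (skOv (σ 0) (σ 1) - skCS I.P.n 1 I.b I.h (ghPosA us)) ^ (2 * k))
          ≤ (Cp k * cviSv I θ * W) ^ (2 * k)
        refine (hmom k hk).trans (cvi_even_le ?_ k)
        have h1 : I.P.N ^ (-c2) ≤ cviSv I θ := Real.rpow_le_rpow_of_exponent_le hN1.le (by linarith)
        have h2 : 0 < I.P.N ^ (-c2) := Real.rpow_pos_of_pos hN _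
        rw [abs_mul, abs_mul, abs_of_pos h2, abs_of_pos hW0]
        exact mul_le_mul_of_nonneg_right (mul_le_mul (hCpl k) h1 h2.le ((abs_nonneg _).trans (hCpl k))) hW0.le
      T1 := hT1
      TC := hTm.trans hCC2
      bst := hst.1.trans (mul_le_mul_of_nonneg_right hCC3 (by positivity))
      hst := hst.2.trans (mul_le_mul_of_nonneg_right hCC3 (by positivity))
      lowU := by
        show ∫ v in (0 : ℝ)..(GU * W), cvDC I.P.n I.b I.h (ghPosA v) < δ * x ^ 2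
        have h1 : GU * W ≤ min (GU * W) 1 := le_min le_rfl (hGUW.trans (by norm_num))
        have h2 := cvi_low I hX hGUW0 h1 (min_le_right _ _)
        have h3 := h19 I x H.std H.mono H.m H.loc hn3 H.dir hu0
        have h4 : δ / 2 * x ^ 2 < δ * x ^ 2 := mul_lt_mul_of_pos_right (half_lt_self hδ) (by positivity)
        linarith
      highU := by
        intro v hv hv1
        have hv' : GU * W ≤ v := hv
        show 2 * ∫ t in (GU * W)..v, cvDC I.P.n I.b I.h (ghPosA t) ^ 2 ≤ v * (cviSv I θ * x ^ 2 / W) ^ 2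
        rw [cvi_high_eq I hGUW0 hv' hv1]
        have h1 := hintW I x H hn2 (GU * W) v (mul_le_mul hGU6 hxW hx0.le (by linarith))
          (mul_le_mul_of_nonneg_right (by linarith) hW0.le) hv' hv1
        have h2 : 2 * Aw * I.P.N ^ (-(2 * K.mm)) < I.P.N ^ (-(2 * θ)) := hpow I.P.n hn4
        have hv0 : 0 ≤ v := hGUW0.trans hv'
        rw [mul_div_assoc, mul_pow, cvi_sv_sq I hN]
        have h3 : 0 ≤ v * (x ^ 2 / W) ^ 2 := by positivity
        have h4 := mul_le_mul_of_nonneg_right h2.le h3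
        calc 2 * ∫ u in (GU * W)..v, I.num.D u ^ 2 ≤ 2 * (Aw * I.P.N ^ (-(2 * K.mm)) * v * (x ^ 2 / W) ^ 2) := by linarith
          _ = 2 * Aw * I.P.N ^ (-(2 * K.mm)) * (v * (x ^ 2 / W) ^ 2) := by ring
          _ ≤ I.P.N ^ (-(2 * θ)) * (v * (x ^ 2 / W) ^ 2) := h4
          _ = v * (I.P.N ^ (-(2 * θ)) * (x ^ 2 / W) ^ 2) := by ring
      resU := by
        intro p0 pv hp0 hpv hor hlt k hk _
        have hvU : GU * W < pv.u := cvi_posA_lt hpv hlt
        have hv0 : 0 < pv.u := lt_of_le_of_lt hGUW0 hvU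
        have hp0v : p0 ≤ pv := by
          rcases hor with h | h
          · exact (h.trans ((cmk_posA_le (mul_le_mul_of_nonneg_right hCG hx0.le)).trans (cmk_posA_le hXU))).trans hlt.le
          · rw [h]; exact (cmk_posA_le husU).trans hlt.le
        show (cviP I x T (cviSv I θ) δ (ghPosA (C' * x)) (ghPosA (Gx * x)) (ghPosA us) (ghPosA (GU * W))).res p0 pv k
          ≤ (Cp k * (cviSv I θ * (x ^ 3 / (W * Real.sqrt W))) / Real.sqrt pv.u) ^ (2 * k)
        rw [← cvl_res_swap _ hclk hp0 hpv hp0v k]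
        have hpf : p0.u ≤ max C' C'' * W := by
          rcases hor with h | h
          · have h1 : p0.u ≤ C' * x := cvl_u_mono h
            exact h1.trans (mul_le_mul (le_max_left _ _) hxW hx0.le (by positivity))
          · rw [h]
            exact husC.trans (mul_le_mul_of_nonneg_right (le_max_right _ _) hW0.le)
        refine (hKq k hk I x W H hxW p0 pv hp0 hpv hpf ((mul_le_mul_of_nonneg_right hGU3 hW0.le).trans hvU.le)).trans ?_
        have h1 := hra I x H hn5 pv.u (by rw [one_mul]; linarith) hpv.2.1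
        rw [one_mul] at h1
        have hq0 : 0 ≤ I.P.Lam ^ 5 / Real.sqrt (I.P.N * I.P.e I.lam pv.u * pv.u ^ 2) :=
          div_nonneg (pow_nonneg (by have := cm_Lam_ge_one H.std.ok; linarith) 5) (Real.sqrt_nonneg _)
        have hz0 : 0 ≤ x ^ 3 / (W * Real.sqrt W * Real.sqrt pv.u) := by positivity
        refine pow_le_pow_left₀ (by rw [mul_div_assoc]; exact mul_nonneg (hKq0 k).le hq0) ?_ _
        calc Kq k * I.P.Lam ^ 5 / Real.sqrt (I.P.N * I.P.e I.lam pv.u * pv.u ^ 2)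
            = Kq k * (I.P.Lam ^ 5 / Real.sqrt (I.P.N * I.P.e I.lam pv.u * pv.u ^ 2)) := by rw [mul_div_assoc]
          _ ≤ Kq k * (cviSv I K.mm * (x ^ 3 / (W * Real.sqrt W * Real.sqrt pv.u))) := mul_le_mul_of_nonneg_left h1 (hKq0 k).le
          _ ≤ Cp k * (cviSv I θ * (x ^ 3 / (W * Real.sqrt W * Real.sqrt pv.u))) :=
              mul_le_mul (hCpq k) (mul_le_mul_of_nonneg_right (cvi_sv_anti I hN1.le hθm.le) hz0)
                (mul_nonneg (Real.rpow_pos_of_pos hN _).le hz0) ((hKq0 k).le.trans (hCpq k))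
          _ = Cp k * (cviSv I θ * (x ^ 3 / (W * Real.sqrt W))) / Real.sqrt pv.u := by
              rw [← div_div]; ring
      fld := by
        intro p hp hlt
        have hpU : GU * W < p.u := cvi_posA_lt hp hlt
        have hp0 : 0 < p.u := lt_of_le_of_lt hGUW0 hpU
        have h4G : 0 < 4 * G := by positivity
        have hp'ok : (ghPosA (p.u / (4 * G))).Ok 1 :=
          cvi_posA_ok (by positivity) ((div_le_self hp0.le (by linarith)).trans hp.2.1)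
        refine ⟨ghPosA (p.u / (4 * G)), hp'ok, cmk_posA_le ?_, (gh_os_pos_lt_iff _ _).2 (Or.inl ?_), ?_⟩
        · rw [le_div_iff₀ h4G]
          calc us * (4 * G) = 4 * G * us := by ring
            _ ≤ GU * W := hus4
            _ ≤ p.u := hpU.le
        · exact div_lt_self hp0 (by linarith)
        · show (W * Real.sqrt W * p.u) ^ 2
            ≤ (cviSv I θ * x ^ 3) ^ 2 * ((p.u / (4 * G)) ^ 2 * (I.P.N * (ghAt 1 I.h p - ghAt 1 I.h (ghPosA (p.u / (4 * G))))))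
          have hu1 : p.u / (4 * G) < p.u / (2 * G) := by
            apply div_lt_div_of_pos_left hp0 (by positivity); linarith
          have hu11 : p.u / (2 * G) ≤ 1 := (div_le_self hp0.le (by linarith)).trans hp.2.1
          have ha := cvi_at_le hclk.2 hp'ok (u := p.u / (2 * G)) hu1 hu11
          have hb := cvi_at_ge hclk.2 hp (u := p.u / 2) (by positivity) (by linarith)
          have hmx : max K.C0 1 * x ≤ p.u / (2 * G) := by
            rw [le_div_iff₀ (by positivity)]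
            have h1 : 2 * G * max K.C0 1 * x ≤ GU * W := mul_le_mul hGU4 hxW hx0.le (by linarith)
            calc max K.C0 1 * x * (2 * G) = 2 * G * max K.C0 1 * x := by ring
              _ ≤ GU * W := h1
              _ ≤ p.u := hpU.le
          have hc1 : K.C0 * x ≤ p.u / (2 * G) := (mul_le_mul_of_nonneg_right (le_max_left _ _) hx0.le).trans hmx
          have hc2' : x ≤ p.u / (2 * G) := by
            have := (mul_le_mul_of_nonneg_right (le_max_right K.C0 1) hx0.le).trans hmx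
            linarith
          have hc3' : G * (p.u / (2 * G)) ≤ p.u / 2 := by
            apply le_of_eq; field_simp
          have hc4 : W ≤ p.u / 2 := by linarith
          have hmain := hl I x H hn6 (p.u / (2 * G)) (p.u / 2) hc1 hc2' hc3' hc4 (by linarith [hp.2.1])
          have hsv : cviSv I K.mm ^ 2 ≤ cviSv I θ ^ 2 :=
            pow_le_pow_left₀ (Real.rpow_pos_of_pos hN _).le (cvi_sv_anti I hN1.le hθm.le) 2
          have hd : I.h (p.u / 2) - I.h (p.u / (2 * G)) ≤ ghAt 1 I.h p - ghAt 1 I.h (ghPosA (p.u / (4 * G))) := by linarith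
          have hd0 : 0 ≤ I.h (p.u / 2) - I.h (p.u / (2 * G)) := by
            have : p.u / (2 * G) ≤ p.u / 2 := by
              apply div_le_div_of_nonneg_left hp0.le (by norm_num); linarith
            have := hclk.2.1 ⟨by positivity, hu11⟩ ⟨by positivity, by linarith [hp.2.1]⟩ this
            linarith
          have h5 : 16 * G ^ 2 * W ^ 3 ≤ cviSv I θ ^ 2 * x ^ 6 * (I.P.N * (ghAt 1 I.h p - ghAt 1 I.h (ghPosA (p.u / (4 * G))))) := by
            refine hmain.trans ?_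
            have hx6 : 0 ≤ x ^ 6 := by positivity
            exact mul_le_mul (mul_le_mul_of_nonneg_right hsv hx6) (mul_le_mul_of_nonneg_left hd hN.le)
              (mul_nonneg hN.le hd0) (mul_nonneg (sq_nonneg _) hx6)
          exact cvi_fld_arith hW0 hG0' h5 }

/-! ## the regime `W ≥ w1` -/

/-- **`CavP.Large` for the changed path** -/
theorem cvi_path_large (K : CviK) (hK : K.Ok) {w1 δ : ℝ} (hw1 : 0 < w1) (hδ : 0 < δ) :
    ∃ (κ : ℝ) (n0 : ℕ), 0 < κ ∧ ∀ (I : CmI) (x T sv : ℝ) (pB pX ps pU : GhPos), CviH K I x → n0 ≤ I.P.n → w1 ≤ cmW I.P I.lam x → I.P.u0 ≤ κ * x →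
      (cviP I x T sv δ pB pX ps pU).Large := by
  obtain ⟨κ1, n3, hκ1, h19⟩ := exit_cmp_dir19i (C' := 1 / w1) (η := δ / 2) hK.mm hK.cE hK.D0 hK.Tm hK.ca hK.ce hK.c hK.cC hK.C0 hK.cd
    (by positivity) (half_pos hδ)
  refine ⟨κ1, n3, hκ1, fun I x T sv pB pX ps pU H hn hW hu0 => ⟨?_⟩⟩
  obtain ⟨hx0, -, -⟩ := cvi_W K hK I x H
  have hclk := cvi_clk_adm K I x H
  have hnpos : 0 < I.P.n := by have := H.std.ok.n3; omega
  have hX : I.num.Ok := cmk_num_ok I.P.n hnpos hclk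
  show ∫ v in (0 : ℝ)..1, cvDC I.P.n I.b I.h (ghPosA v) < δ * x ^ 2
  have h1 : (1 : ℝ) ≤ 1 / w1 * cmW I.P I.lam x := by
    rw [div_mul_eq_mul_div, one_mul, le_div_iff₀ hw1, one_mul]; exact hW
  have h2 := cvi_low I hX zero_le_one le_rfl le_rfl
  have h3 := h19 I x H.std H.mono H.m H.loc hn H.dir hu0
  rw [min_eq_right h1] at h3
  have h4 : δ / 2 * x ^ 2 < δ * x ^ 2 := mul_lt_mul_of_pos_right (half_lt_self hδ) (by positivity)
  linarith

/-! ## the exits -/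

/-- = `exit_cav_inst_s` -/
theorem cvi_inst_s {mm cE D0 Tm ca ce c C C0 cd C4 C' : ℝ} (hmm : 0 < mm) (hcE : 0 < cE) (hD0 : 0 < D0) (hca : 0 < ca) (hce : 0 < ce)
    (hc : 0 < c) (hcC : c ≤ C) (hC0 : 0 < C0) (hcd : 0 < cd) (hC4 : 0 < C4) (hC' : 0 < C') :
    ∃ (cc CC ρ κ0 : ℝ) (Cp : ℕ → ℝ), 0 < cc ∧ 0 < ρ ∧ 0 < κ0 ∧ ∀ (kM : ℕ) (δ : ℝ), 0 < δ → ∃ (κ : ℝ) (n0 : ℕ), 0 < κ ∧
      ∀ (I : CmI) (x T : ℝ), I.Std cE D0 Tm → MonotoneOn I.h0 (Icc I.P.u0 1) → I.P.m = mm → I.Loc ca ce c C C0 x → n0 ≤ I.P.n →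
        cd * x ^ 2 ≤ I.P.e I.lam x → cmW I.P I.lam x ≤ κ0 → I.P.u0 ≤ κ * x → x ≤ κ → 1 ≤ T → T ≤ Tm →
        (∀ u : ℝ, C0 * x ≤ u → I.P.u0 < u → u < 1 → |I.b0 u - T| ≤ C4 * u ^ 2 ∧ |I.h0 u| ≤ C4 * u ^ 3) →
        ∃ (sv et : ℝ) (pX ps pU : GhPos), sv ≤ δ ∧ et ≤ δ ∧
          ∀ᶠ F : Finset GhPos in atTop,
            (cvInC I.P.n I.b I.h x (cmW I.P I.lam x) sv et T (ghPosA (C' * x)) pX ps pU (ghPs 1 F)).Ok cc CC ρ Cp kM ∧
            (cvInC I.P.n I.b I.h x (cmW I.P I.lam x) sv et T (ghPosA (C' * x)) pX ps pU (ghPs 1 F)).Star cc CC Cp kM := by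
  by_cases hTm : 0 < Tm
  swap
  · exact ⟨1, 1, 1, 1, fun _ => 1, one_pos, one_pos, one_pos, fun kM δ _ => ⟨1, 0, one_pos,
      fun I x T _ _ _ _ _ _ _ _ _ hT1 hT2 _ => absurd (lt_of_lt_of_le one_pos (hT1.trans hT2)) hTm⟩⟩
  set K : CviK := ⟨mm, cE, D0, Tm, ca, ce, c, C, C0, cd, C4⟩ with hKdef
  have hK : K.Ok := ⟨hmm, hcE, hD0, hTm, hca, hce, hc, hcC, hC0, hcd, hC4⟩
  obtain ⟨Gx, CCa, Cpa, hGx1, hGxC, hCpa, hok⟩ := cvi_path_ok K hK hC'
  obtain ⟨θ0, cc0, CCb, κ0, GU, Cpb, hθ0, hcc0, hκ0, hCpb, hst⟩ := cvi_path_star K hK hC' hGx1 hGxC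
  obtain ⟨Kp, hKp, htr⟩ := cvl_main
  have hθpos : 0 < min θ0 mm / 2 := half_pos (lt_min hθ0 hmm)
  have hθ1 : min θ0 mm / 2 < θ0 := lt_of_lt_of_le (half_lt_self (lt_min hθ0 hmm)) (min_le_left _ _)
  have hθ2 : min θ0 mm / 2 < K.mm := lt_of_lt_of_le (half_lt_self (lt_min hθ0 hmm)) (min_le_right _ _)
  refine ⟨min cc0 1, max CCa CCb, 3 * (min θ0 mm / 2), κ0, fun k => 2 * max (Cpa k) (Cpb k) + Kp k, lt_min hcc0 one_pos, by positivity, hκ0,
    fun kM δ hδ => ?_⟩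
  obtain ⟨κa, na, hκa, ha⟩ := hok _ hθpos hθ2 kM δ hδ
  obtain ⟨κb, nb, hκb, hb⟩ := hst _ hθpos hθ1 kM δ hδ
  refine ⟨min (min κa κb) 1, max na nb, lt_min (lt_min hκa hκb) one_pos, ?_⟩
  intro I x T hStd hmono hm hLoc hn hdir hW hu0 hx hT1 hT2 hE
  have hx0 : 0 < x := hLoc.x0
  have H : CviH K I x := ⟨hStd, hmono, hm, hLoc, hdir, hu0.trans (by
    have := mul_le_mul_of_nonneg_right (min_le_right (min κa κb) 1) hx0.le
    linarith)⟩
  have hua : I.P.u0 ≤ κa * x := hu0.trans (mul_le_mul_of_nonneg_right ((min_le_left _ _).trans (min_le_left _ _)) hx0.le)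
  have hub : I.P.u0 ≤ κb * x := hu0.trans (mul_le_mul_of_nonneg_right ((min_le_left _ _).trans (min_le_right _ _)) hx0.le)
  obtain ⟨hsv, hOk⟩ := ha I x T H hE ((le_max_left _ _).trans hn) hua (hx.trans ((min_le_left _ _).trans (min_le_left _ _)))
  obtain ⟨ps, hStar⟩ := hb I x T H hE hT1 hT2 ((le_max_right _ _).trans hn) hW hub
  refine ⟨cviSv I (min θ0 mm / 2), δ, ghPosA (Gx * x), ps, ghPosA (GU * cmW I.P I.lam x), hsv, le_rfl, ?_⟩
  exact htr (min cc0 1) (max CCa CCb) _ (fun k => max (Cpa k) (Cpb k)) _ kM _ (lt_min hcc0 one_pos)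
    (hOk _ _ _ ps _ (min_le_right _ _) (le_max_left _ _) fun k => le_max_left _ _)
    (hStar _ _ _ (min_le_left _ _) (le_max_right _ _) fun k => le_max_right _ _)
    (fun k => by have := hKp k; linarith)
    (fun k => by have := (hCpa k).trans_le (le_max_left (Cpa k) (Cpb k)); linarith)

/-- = `exit_cav_inst_l` -/
theorem cvi_inst_l {mm cE D0 Tm ca ce c C C0 cd C4 C' w1 : ℝ} (hmm : 0 < mm) (hcE : 0 < cE) (hD0 : 0 < D0) (hca : 0 < ca) (hce : 0 < ce)
    (hc : 0 < c) (hcC : c ≤ C) (hC0 : 0 < C0) (hcd : 0 < cd) (hC4 : 0 < C4) (hC' : 0 < C') (hw1 : 0 < w1) :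
    ∃ (cc CC ρ : ℝ) (Cp : ℕ → ℝ), 0 < cc ∧ 0 < ρ ∧ ∀ (kM : ℕ) (δ : ℝ), 0 < δ → ∃ (κ : ℝ) (n0 : ℕ), 0 < κ ∧
      ∀ (I : CmI) (x T : ℝ), I.Std cE D0 Tm → MonotoneOn I.h0 (Icc I.P.u0 1) → I.P.m = mm → I.Loc ca ce c C C0 x → n0 ≤ I.P.n →
        cd * x ^ 2 ≤ I.P.e I.lam x → w1 ≤ cmW I.P I.lam x → I.P.u0 ≤ κ * x → x ≤ κ → 1 ≤ T → T ≤ Tm →
        (∀ u : ℝ, C0 * x ≤ u → I.P.u0 < u → u < 1 → |I.b0 u - T| ≤ C4 * u ^ 2 ∧ |I.h0 u| ≤ C4 * u ^ 3) →
        ∃ (sv et : ℝ) (pX : GhPos), sv ≤ δ ∧ et ≤ δ ∧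
          ∀ᶠ F : Finset GhPos in atTop,
            (cvInC I.P.n I.b I.h x (cmW I.P I.lam x) sv et T (ghPosA (C' * x)) pX pX pX (ghPs 1 F)).Ok cc CC ρ Cp kM ∧
            (cvInC I.P.n I.b I.h x (cmW I.P I.lam x) sv et T (ghPosA (C' * x)) pX pX pX (ghPs 1 F)).Large := by
  by_cases hTm : 0 < Tm
  swap
  · exact ⟨1, 1, 1, fun _ => 1, one_pos, one_pos, fun kM δ _ => ⟨1, 0, one_pos,
      fun I x T _ _ _ _ _ _ _ _ _ hT1 hT2 _ => absurd (lt_of_lt_of_le one_pos (hT1.trans hT2)) hTm⟩⟩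
  set K : CviK := ⟨mm, cE, D0, Tm, ca, ce, c, C, C0, cd, C4⟩ with hKdef
  have hK : K.Ok := ⟨hmm, hcE, hD0, hTm, hca, hce, hc, hcC, hC0, hcd, hC4⟩
  obtain ⟨Gx, CCa, Cpa, hGx1, hGxC, hCpa, hok⟩ := cvi_path_ok K hK hC'
  refine ⟨1, CCa, 3 * (mm / 2), fun k => 2 * Cpa k, one_pos, by positivity, fun kM δ hδ => ?_⟩
  obtain ⟨κa, na, hκa, ha⟩ := hok (mm / 2) (half_pos hmm) (half_lt_self hmm) kM δ hδ
  obtain ⟨κb, nb, hκb, hb⟩ := cvi_path_large K hK hw1 hδ
  refine ⟨min (min κa κb) 1, max na nb, lt_min (lt_min hκa hκb) one_pos, ?_⟩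
  intro I x T hStd hmono hm hLoc hn hdir hW hu0 hx hT1 hT2 hE
  have hx0 : 0 < x := hLoc.x0
  have H : CviH K I x := ⟨hStd, hmono, hm, hLoc, hdir, hu0.trans (by
    have := mul_le_mul_of_nonneg_right (min_le_right (min κa κb) 1) hx0.le
    linarith)⟩
  have hua : I.P.u0 ≤ κa * x := hu0.trans (mul_le_mul_of_nonneg_right ((min_le_left _ _).trans (min_le_left _ _)) hx0.le)
  have hub : I.P.u0 ≤ κb * x := hu0.trans (mul_le_mul_of_nonneg_right ((min_le_left _ _).trans (min_le_right _ _)) hx0.le)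
  obtain ⟨hsv, hOk⟩ := ha I x T H hE ((le_max_left _ _).trans hn) hua (hx.trans ((min_le_left _ _).trans (min_le_left _ _)))
  refine ⟨cviSv I (mm / 2), δ, ghPosA (Gx * x), hsv, le_rfl, ?_⟩
  exact cvl_large one_pos (hOk 1 CCa Cpa (ghPosA (Gx * x)) (ghPosA (Gx * x)) le_rfl le_rfl fun k => le_rfl)
    (hb I x T _ _ _ _ _ H ((le_max_right _ _).trans hn) hW hub) fun k => le_rfl

end Claimed.Agent.R286
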