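import Claimed.Agent.R286.Cav.Contract
import Claimed.Agent.R286.Exit.CavInstS
import Claimed.Agent.R286.Exit.CavInstL
import Claimed.Agent.R286.Exit.CmpRaw

/-!
# Row 286 (S0533), PE Section 4 (cavity), Cav/Wrap : FROM THE ABSTRACT CLOSURE TO THE EXITS OF THE SECTION      (unit WRAP: head helper266; this part W3 = helper231; prefix `cvw_`)      0 sorry

W1 (`cav_clk_small`, `cav_clk_large`, `cav_clk_omitted` from the step forms) is proved IN PLACE in `Cav/Contract.lean` (helpers `cvw_idx_*`, `cvw_lo`, `cvw_lim_*`, `cvw_pass`).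
THIS FILE = W3: `cvw_exit_cav` (= `exit_cav`, verbatim) and `cvw_exit_cav_om` (= `exit_cav_om`, verbatim) from
* `exit_cav_inst_s`, `exit_cav_inst_l` (the inputs `CavIn.Ok/Star/Large` hold eventually along the chains at a minimiser of (6)),
* `cav_clk_small`, `cav_clk_large`, `cav_clk_omitted`,
* `exit_cmp_raw` with `l = 1` (`D_u ≤ K (u + x)`): it is needed to merge the two exponents `θ` of the two regimes (`t^θ' ≤ M t^θ` for `t ≤ M`, `θ ≤ θ'`).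
ORDER OF THE CONSTANTS: inst_s → (cc, CC, ρ, κ0, Cp) → clk_small at `min cc c'` → (kM, A, θs, w0) → inst_l at `w1 = min w0 κ0` → clk_large → (kL, A', θl); `θ = min θs θl`; then `ε` → `δ` → `κ, n0`.
`cvw_ok_mono`, `cvw_star_mono`: the inputs are monotone in `(c, C, kM)` (written with structure update: robust under new fields which do not mention `c, C, kM`).
`Tm ≤ 0`: the statement is void (`1 ≤ T ≤ Tm`).      The hypothesis `r(u) ≤ C' x` of `exit_cav` is not used.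
-/

set_option autoImplicit false

namespace Claimed.Agent.R286

open MeasureTheory ProbabilityTheory Filter Topology Set

/-! ### W3: monotonicity of the inputs in the constants -/

theorem cvw_ms_nonneg {P : SkStp} (hP : SkAdm 1 P) (j : ℕ) : 0 ≤ skMs 1 P j := by
  unfold skMs
  rw [List.getD_eq_getElem?_getD]
  rcases lt_or_ge j (P.map SkInc.m).length with hj | hj
  · rw [List.getElem?_eq_getElem hj, Option.getD_some, List.getElem_map]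
    exact (hP.2 _ (List.getElem_mem _)).1
  · rw [List.getElem?_eq_none hj]
    exact zero_le_one

theorem cvw_lo_nonneg {P : SkStp} (hP : SkAdm 1 P) (j : ℕ) : 0 ≤ cvLo P j := by
  unfold cvLo
  split_ifs
  · exact le_rfl
  · exact cvw_ms_nonneg hP _

theorem cvw_ok_mono {I : CavIn} {c C ρ : ℝ} {Cp : ℕ → ℝ} {kM : ℕ} (h : I.Ok c C ρ Cp kM) {c' C' : ℝ} {kM' : ℕ}
    (hc : c' ≤ c) (hC : C ≤ C') (hk : kM' ≤ kM) : I.Ok c' C' ρ Cp kM' :=
  { h with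
    WC := h.WC.trans hC
    totB := h.totB.trans hC
    totH := h.totH.trans hC
    raw := fun j k hj hk' => h.raw j k hj (hk'.trans hk)
    band := h.band.trans (mul_le_mul_of_nonneg_right hC h.x0.le)
    UxLo := (mul_le_mul_of_nonneg_right hc h.x0.le).trans h.UxLo
    UxHi := h.UxHi.trans (mul_le_mul_of_nonneg_right hC h.x0.le)
    hHi := fun j h1 h2 => (h.hHi j h1 h2).trans (mul_le_mul_of_nonneg_right hC (cvw_lo_nonneg h.adm _)) }

theorem cvw_star_mono {I : CavIn} {c C : ℝ} {Cp : ℕ → ℝ} {kM : ℕ} (h : I.Star c C Cp kM) (hW : 0 < I.W) {c' C' : ℝ} {kM' : ℕ}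
    (hc : c' ≤ c) (hC : C ≤ C') (hk : kM' ≤ kM) : I.Star c' C' Cp kM' :=
  { h with
    ULo := (mul_le_mul_of_nonneg_right hc hW.le).trans h.ULo
    UHi := h.UHi.trans (mul_le_mul_of_nonneg_right hC hW.le)
    SLo := (mul_le_mul_of_nonneg_right hc hW.le).trans h.SLo
    mom := fun k hk' => h.mom k (hk'.trans hk)
    TC := h.TC.trans hC
    bst := h.bst.trans (mul_le_mul_of_nonneg_right hC (by positivity))
    hst := h.hst.trans (mul_le_mul_of_nonneg_right hC (by positivity))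
    resU := fun j0 jv k h1 h2 h3 hk' => h.resU j0 jv k h1 h2 h3 (hk'.trans hk)
    prj := fun z V jv k h1 h2 hk' => h.prj z V jv k h1 h2 (hk'.trans hk)
    prjR := fun z V jv k h1 h2 hk' => h.prjR z V jv k h1 h2 (hk'.trans hk) }

/-! ### W3: vocabulary of PE Sec 3 -/

theorem cvw_cl {u : ℝ} (h0 : 0 ≤ u) (h1 : u ≤ 1) : cmkCl u = u := by
  unfold cmkCl
  rw [min_eq_left h1, max_eq_right h0]

theorem cvw_num (I : CmI) {u : ℝ} (h0 : 0 ≤ u) (h1 : u ≤ 1) :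
    I.num.S u = skCS I.P.n 1 I.b I.h (ghPosA u) ∧ I.num.D u = cvDC I.P.n I.b I.h (ghPosA u) := by
  constructor
  · show skCS I.P.n 1 I.b I.h (ghPosA (cmkCl u)) = _
    rw [cvw_cl h0 h1]
  · show Real.sqrt (cmkD2 I.P.n I.b I.h (ghPosA (cmkCl u))) = _
    rw [cvw_cl h0 h1]
    rfl

theorem cvw_D_le {n : ℕ} {b h : ℝ → ℝ} {p : GhPos} {A : ℝ} (hA : 0 ≤ A) (h1 : cmkMR n b h 1 p ≤ A ^ (2 * 1)) :
    cvDC n b h p ≤ A := by
  have e : cmkMR n b h 1 p = skCB n 1 b h p := rfl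
  rw [e] at h1
  unfold cvDC
  calc Real.sqrt (skCB n 1 b h p - skCS n 1 b h p ^ 2) ≤ Real.sqrt (A ^ 2) := by
        apply Real.sqrt_le_sqrt
        have := sq_nonneg (skCS n 1 b h p)
        have h2 : A ^ (2 * 1) = A ^ 2 := by norm_num
        linarith
    _ = A := Real.sqrt_sq hA

theorem cvw_rpow_cmp {t M θ θ' : ℝ} (ht : 0 ≤ t) (htM : t ≤ M) (hM : 1 ≤ M) (hθ : 0 < θ) (hθθ : θ ≤ θ') (hθ' : θ' ≤ 1) :
    t ^ θ' ≤ M * t ^ θ := by
  rcases le_total t 1 with h1 | h1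
  · calc t ^ θ' ≤ t ^ θ := Real.rpow_le_rpow_of_exponent_ge' ht h1 hθ.le hθθ
      _ ≤ M * t ^ θ := le_mul_of_one_le_left (Real.rpow_nonneg ht _) hM
  · calc t ^ θ' ≤ t ^ (1 : ℝ) := Real.rpow_le_rpow_of_exponent_le h1 hθ'
      _ = t := Real.rpow_one t
      _ ≤ M := htM
      _ ≤ M * t ^ θ := le_mul_of_one_le_right (by linarith) (Real.one_le_rpow h1 hθ.le)

theorem cvw_posA_ok {u : ℝ} (h0 : 0 ≤ u) (h1 : u ≤ 1) : (ghPosA u).Ok 1 :=
  ⟨h0, h1, zero_le_one, le_rfl⟩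

theorem cvw_pos_le {p : GhPos} (hp : p.Ok 1) {v : ℝ} (h : p.u ≤ v) : p ≤ ghPosA v := by
  have : p = toLex (p.u, p.lam) := rfl
  rw [this]
  unfold ghPosA
  rw [Prod.Lex.toLex_le_toLex]
  rcases h.lt_or_eq with h | h
  · exact Or.inl h
  · exact Or.inr ⟨h, hp.2.2.2⟩


/-- the two regimes give the same shape -/
theorem cvw_shape {A K M x ε t θ θ' E : ℝ} (hx : 0 ≤ x) (hε : 0 < ε) (ht : 0 ≤ t) (htM : t ≤ M) (hM : 1 ≤ M) (hθ : 0 < θ)
    (hθθ : θ ≤ θ') (hθ' : θ' ≤ 1) (hK : |A| * M ≤ K) (h : E ≤ A * x ^ 3 * (ε + t ^ θ')) : E ≤ K * x ^ 3 * (ε + t ^ θ) := by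
  have h1 : t ^ θ' ≤ M * t ^ θ := cvw_rpow_cmp ht htM hM hθ hθθ hθ'
  have h2 : 0 ≤ t ^ θ := Real.rpow_nonneg ht _
  have h3 : 0 ≤ t ^ θ' := Real.rpow_nonneg ht _
  have hx3 : 0 ≤ x ^ 3 := by positivity
  calc E ≤ A * x ^ 3 * (ε + t ^ θ') := h
    _ ≤ |A| * x ^ 3 * (ε + t ^ θ') := by
        apply mul_le_mul_of_nonneg_right _ (by positivity)
        exact mul_le_mul_of_nonneg_right (le_abs_self A) hx3
    _ ≤ |A| * x ^ 3 * (M * (ε + t ^ θ)) := by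
        apply mul_le_mul_of_nonneg_left _ (by positivity)
        nlinarith
    _ = (|A| * M) * x ^ 3 * (ε + t ^ θ) := by ring
    _ ≤ K * x ^ 3 * (ε + t ^ θ) := by
        apply mul_le_mul_of_nonneg_right _ (by positivity)
        exact mul_le_mul_of_nonneg_right hK hx3

/-! ### W3: the exits -/

/-- `exit_cav`, verbatim -/
theorem cvw_exit_cav {mm cE D0 Tm ca ce c C C0 cd C4 c' C' : ℝ} (hmm : 0 < mm) (hcE : 0 < cE) (hD0 : 0 < D0) (hca : 0 < ca) (hce : 0 < ce)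
    (hc : 0 < c) (hcC : c ≤ C) (hC0 : 0 < C0) (hcd : 0 < cd) (hC4 : 0 < C4) (hc' : 0 < c') (hC' : c' ≤ C') :
    ∃ K θ : ℝ, 0 < K ∧ 0 < θ ∧ θ ≤ 1 ∧ ∀ ε : ℝ, 0 < ε → ∃ (κ : ℝ) (n0 : ℕ), 0 < κ ∧
      ∀ (I : CmI) (x T : ℝ), I.Std cE D0 Tm → MonotoneOn I.h0 (Icc I.P.u0 1) → I.P.m = mm → I.Loc ca ce c C C0 x → n0 ≤ I.P.n →
        cd * x ^ 2 ≤ I.P.e I.lam x → I.P.u0 ≤ κ * x → x ≤ κ → 1 ≤ T → T ≤ Tm →
        (∀ u : ℝ, C0 * x ≤ u → I.P.u0 < u → u < 1 → |I.b0 u - T| ≤ C4 * u ^ 2 ∧ |I.h0 u| ≤ C4 * u ^ 3) →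
        ∀ u : ℝ, c' * x ≤ u → u ≤ C' * x → I.P.u0 ≤ u → u ≤ 1 → I.q.r u ≤ C' * x →
          |I.num.S u - cvGamC I.P.n I.b I.h (ghPosA u)| ≤ K * x ^ 3 * (ε + (I.num.D u / x) ^ θ) := by
  by_cases hTm : 0 < Tm
  swap
  · refine ⟨1, 1, one_pos, one_pos, le_rfl, fun ε _ => ⟨1, 0, one_pos, ?_⟩⟩
    intro I x T _ _ _ _ _ _ _ _ hT1 hT2
    exact absurd (lt_of_lt_of_le one_pos (hT1.trans hT2)) hTm
  have hC'0 : 0 < C' := lt_of_lt_of_le hc' hC'
  obtain ⟨cc, CC, ρ, κ0, Cp, hcc, hρ, hκ0, Hs⟩ :=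
    exit_cav_inst_s (Tm := Tm) hmm hcE hD0 hca hce hc hcC hC0 hcd hC4 hC'0
  obtain ⟨kM, As, θs, w0, hθs, hθs1, hw0, Hcs⟩ := cav_clk_small (min cc c') CC ρ Cp (lt_min hcc hc') hρ
  have hw1 : 0 < min w0 κ0 := lt_min hw0 hκ0
  obtain ⟨cl, CL, ρl, Cpl, hcl, hρl, Hl⟩ :=
    exit_cav_inst_l (Tm := Tm) hmm hcE hD0 hca hce hc hcC hC0 hcd hC4 hC'0 hw1
  obtain ⟨kL, Al, θl, hθl, hθl1, Hcl⟩ := cav_clk_large (min cl c') CL ρl Cpl (lt_min hcl hc') hρl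
  obtain ⟨Kr, hKr, Hr⟩ := exit_cmp_raw mm cE D0 Tm ca ce c C C0 hmm hcE hD0 hTm hca hce hc (lt_of_lt_of_le hc hcC) hC0 1 le_rfl
  set M : ℝ := max 1 (Kr * (C' + 1)) with hM
  have hM1 : 1 ≤ M := le_max_left _ _
  set K : ℝ := (max |As| |Al| + 1) * M with hK
  have hK0 : 0 < K := by
    have : 0 ≤ max |As| |Al| := le_max_of_le_left (abs_nonneg _)
    positivity
  have hKs : |As| * M ≤ K := by
    apply mul_le_mul_of_nonneg_right _ (by linarith)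
    linarith [le_max_left |As| |Al|]
  have hKl : |Al| * M ≤ K := by
    apply mul_le_mul_of_nonneg_right _ (by linarith)
    linarith [le_max_right |As| |Al|]
  refine ⟨K, min θs θl, hK0, lt_min hθs hθl, (min_le_left _ _).trans hθs1, fun ε hε => ?_⟩
  obtain ⟨δs, hδs, Hcs⟩ := Hcs ε hε
  obtain ⟨δl, hδl, Hcl⟩ := Hcl ε hε
  obtain ⟨κs, ns, hκs, Hs⟩ := Hs kM δs hδs
  obtain ⟨κl, nl, hκl, Hl⟩ := Hl kL δl hδl
  refine ⟨min (min κs κl) (min (min δs δl) 1), max ns nl, lt_min (lt_min hκs hκl) (lt_min (lt_min hδs hδl) one_pos), ?_⟩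
  intro I x T hStd hmono hm hLoc hn hd hu0 hxκ hT1 hT2 h4 u hu1 hu2 hu3 hu4 _
  have hx0 : 0 < x := hLoc.x0
  have hu0' : 0 ≤ u := le_trans (by positivity) hu1
  have hκ1 : min (min κs κl) (min (min δs δl) 1) ≤ 1 := (min_le_right _ _).trans (min_le_right _ _)
  have hκs' : min (min κs κl) (min (min δs δl) 1) ≤ κs := (min_le_left _ _).trans (min_le_left _ _)
  have hκl' : min (min κs κl) (min (min δs δl) 1) ≤ κl := (min_le_left _ _).trans (min_le_right _ _)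
  have hδs' : min (min κs κl) (min (min δs δl) 1) ≤ δs := (min_le_right _ _).trans ((min_le_left _ _).trans (min_le_left _ _))
  have hδl' : min (min κs κl) (min (min δs δl) 1) ≤ δl := (min_le_right _ _).trans ((min_le_left _ _).trans (min_le_right _ _))
  have hb : GhClk1 1 I.b := (hStd.adm I.q).1
  have hh : GhClk1 1 I.h := (hStd.adm I.q).2
  have hpo : (ghPosA u).Ok 1 := cvw_posA_ok hu0' hu4
  have hpB : ghPosA u ≤ ghPosA (C' * x) := cvw_pos_le hpo hu2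
  obtain ⟨eS, eD⟩ := cvw_num I hu0' hu4
  rw [eS, eD]
  -- the a priori bound of `D / x`
  have hux : I.P.u0 ≤ x := hu0.trans (by nlinarith)
  have hD : cvDC I.P.n I.b I.h (ghPosA u) ≤ Kr * (u + x) :=
    cvw_D_le (by positivity) (Hr I x hm.ge hStd hmono hux hLoc _ hpo).2
  have ht0 : 0 ≤ cvDC I.P.n I.b I.h (ghPosA u) / x := div_nonneg (Real.sqrt_nonneg _) hx0.le
  have htM : cvDC I.P.n I.b I.h (ghPosA u) / x ≤ M := by
    rw [div_le_iff₀ hx0]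
    calc cvDC I.P.n I.b I.h (ghPosA u) ≤ Kr * (u + x) := hD
      _ ≤ Kr * (C' * x + x) := by apply mul_le_mul_of_nonneg_left _ hKr.le; linarith
      _ = Kr * (C' + 1) * x := by ring
      _ ≤ M * x := mul_le_mul_of_nonneg_right (le_max_right _ _) hx0.le
  rcases le_total (cmW I.P I.lam x) (min w0 κ0) with hW | hW
  · obtain ⟨sv, et, pX, ps, pU, hsv, het, hev⟩ := Hs I x T hStd hmono hm hLoc ((le_max_left _ _).trans hn) hd
      (hW.trans (min_le_right _ _)) (hu0.trans (mul_le_mul_of_nonneg_right hκs' hx0.le)) (hxκ.trans hκs') hT1 hT2 h4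
    have h1 := Hcs I.P.n I.b I.h x (cmW I.P I.lam x) sv et T (ghPosA (C' * x)) pX ps pU hb hh
      (hev.mono fun F hF => ⟨cvw_ok_mono hF.1 (min_le_left _ _) le_rfl le_rfl,
        cvw_star_mono hF.2 (lt_of_lt_of_le hF.1.x0 hF.1.xW) (min_le_left _ _) le_rfl le_rfl⟩)
      (hW.trans (min_le_left _ _)) (hxκ.trans hδs') hsv het (ghPosA u) hpo hpB
      ((mul_le_mul_of_nonneg_right (min_le_right _ _) hx0.le).trans hu1)
    exact cvw_shape hx0.le hε ht0 htM hM1 (lt_min hθs hθl) (min_le_left _ _) hθs1 hKs h1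
  · obtain ⟨sv, et, pX, hsv, het, hev⟩ := Hl I x T hStd hmono hm hLoc ((le_max_right _ _).trans hn) hd
      hW (hu0.trans (mul_le_mul_of_nonneg_right hκl' hx0.le)) (hxκ.trans hκl') hT1 hT2 h4
    have h1 := Hcl I.P.n I.b I.h x (cmW I.P I.lam x) sv et T (ghPosA (C' * x)) pX pX pX hb hh
      (hev.mono fun F hF => ⟨cvw_ok_mono hF.1 (min_le_left _ _) le_rfl le_rfl, hF.2⟩)
      (hxκ.trans hδl') hsv het (ghPosA u) hpo hpB
      ((mul_le_mul_of_nonneg_right (min_le_right _ _) hx0.le).trans hu1)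
    exact cvw_shape hx0.le hε ht0 htM hM1 (lt_min hθs hθl) (min_le_right _ _) hθl1 hKl h1

/-- `exit_cav_om`, verbatim -/
theorem cvw_exit_cav_om {mm cE D0 Tm ca ce c C C0 cd C4 CW C' : ℝ} (hmm : 0 < mm) (hcE : 0 < cE) (hD0 : 0 < D0) (hca : 0 < ca) (hce : 0 < ce)
    (hc : 0 < c) (hcC : c ≤ C) (hC0 : 0 < C0) (hcd : 0 < cd) (hC4 : 0 < C4) (hCW : 1 ≤ CW) (hC' : 0 < C') :
    ∃ (K κ : ℝ) (n0 : ℕ), 0 < K ∧ 0 < κ ∧
      ∀ (I : CmI) (x T : ℝ), I.Std cE D0 Tm → MonotoneOn I.h0 (Icc I.P.u0 1) → I.P.m = mm → I.Loc ca ce c C C0 x → n0 ≤ I.P.n →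
        cd * x ^ 2 ≤ I.P.e I.lam x → cmW I.P I.lam x ≤ CW * x → I.P.u0 ≤ κ * x → x ≤ κ → 1 ≤ T → T ≤ Tm →
        (∀ u : ℝ, C0 * x ≤ u → I.P.u0 < u → u < 1 → |I.b0 u - T| ≤ C4 * u ^ 2 ∧ |I.h0 u| ≤ C4 * u ^ 3) →
        ∀ p : GhPos, p.Ok 1 → p.u ≤ C' * x → |skCS I.P.n 1 I.b I.h p - cvGamC I.P.n I.b I.h p| ≤ K * x ^ 3 := by
  obtain ⟨cc, CC, ρ, κ0, Cp, hcc, hρ, hκ0, Hs⟩ :=
    exit_cav_inst_s (Tm := Tm) hmm hcE hD0 hca hce hc hcC hC0 hcd hC4 hC'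
  obtain ⟨kM, A, δ, hδ, Hc⟩ := cav_clk_omitted cc (max CC CW) ρ Cp hcc hρ
  obtain ⟨κs, ns, hκs, Hs⟩ := Hs kM δ hδ
  have hCW0 : 0 < CW := lt_of_lt_of_le one_pos hCW
  refine ⟨|A| + 1, min (min κs δ) (κ0 / CW), ns, by positivity, lt_min (lt_min hκs hδ) (by positivity), ?_⟩
  intro I x T hStd hmono hm hLoc hn hd hW hu0 hxκ hT1 hT2 h4 p hp hpu
  have hx0 : 0 < x := hLoc.x0
  have hκs' : min (min κs δ) (κ0 / CW) ≤ κs := (min_le_left _ _).trans (min_le_left _ _)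
  have hδ' : min (min κs δ) (κ0 / CW) ≤ δ := (min_le_left _ _).trans (min_le_right _ _)
  have hWκ : cmW I.P I.lam x ≤ κ0 := by
    have h1 : x ≤ κ0 / CW := hxκ.trans (min_le_right _ _)
    rw [le_div_iff₀ hCW0] at h1
    linarith
  obtain ⟨sv, et, pX, ps, pU, hsv, het, hev⟩ := Hs I x T hStd hmono hm hLoc hn hd hWκ
    (hu0.trans (mul_le_mul_of_nonneg_right hκs' hx0.le)) (hxκ.trans hκs') hT1 hT2 h4
  have h1 := Hc I.P.n I.b I.h x (cmW I.P I.lam x) sv et T (ghPosA (C' * x)) pX ps pU (hStd.adm I.q).1 (hStd.adm I.q).2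
    (hev.mono fun F hF => ⟨cvw_ok_mono hF.1 le_rfl (le_max_left _ _) le_rfl,
      cvw_star_mono hF.2 (lt_of_lt_of_le hF.1.x0 hF.1.xW) le_rfl (le_max_left _ _) le_rfl⟩)
    (hW.trans (mul_le_mul_of_nonneg_right (le_max_right _ _) hx0.le)) (hxκ.trans hδ') hsv het p hp (cvw_pos_le hp hpu)
  refine h1.trans (mul_le_mul_of_nonneg_right ?_ (by positivity))
  linarith [le_abs_self A]

end Claimed.Agent.R286
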