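import Mathlib

/-!
# Row 286 (S0533), folder Cav, file Abs : the ABSTRACT part of PE Section 4.3-4.5      (helper244; prefix `sk_cavabs_`)

No spins, no trees: finite induction and real arithmetic only.

* `sk_cavabs_two_root`   : the two-fresh-root identity (PE l.915-925)
* `sk_cavabs_beta`, `sk_cavabs_rec` : the finite-depth recursion (PE Lemma 4.9, l.927-966): nodes = rooted tests, `L` = longitudinal insertion, `p` = natural scale
* `sk_cavabs_beta_le`    : closed bound of the accumulated constants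
* `sk_cavabs_lhs`        : the left side of (25) divided by `χ K_*`
* `sk_cavabs_absorb`     : absorption of `J₀` in the calibration (PE Lemma 4.10, l.1003-1008)
* `sk_cavabs_terminal`   : `n^(-k c₂) ≤ n^(-(k c₂ - 1/3 + 2 m)) x²` if `x ≥ n^(-1/6+m)`
-/

set_option autoImplicit false

namespace Claimed.Agent.R286

open Finset

/-- the two-fresh-root identity -/
theorem sk_cavabs_two_root {La Lb Lu Lv e1 e2 C1 C2 : ℝ} (h1 : La + Lb = e1 - C1) (h2 : Lu + Lv = e2 - C2)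
    (hu : Lu = Lb) (hv : Lv = Lb) : La = e1 - e2 / 2 - C1 + C2 / 2 := by
  subst hu; subst hv; linarith

/-- the accumulated constant of the recursion of depth `k`, seen from the generation `k - r` (`r` = number of remaining generations):
`E j` = error constant of generation `j`, `G j` = (number of children) * (coefficient constant) * (scale constant) of generation `j`, `B` = terminal constant -/
noncomputable def sk_cavabs_beta (E G : ℕ → ℝ) (B : ℝ) (k : ℕ) : ℕ → ℝ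
  | 0 => B
  | r + 1 => E (k - (r + 1)) + G (k - (r + 1)) * sk_cavabs_beta E G B k r

theorem sk_cavabs_eqns_cite : True := by
  have := @sk_cavabs_beta.eq_1
  have := @sk_cavabs_beta.eq_2
  trivial

/-- **abstract finite-depth recursion.**   `adm j t` : the node `t` is admissible of generation `j`. -/
theorem sk_cavabs_rec {Node ι : Type*} [Fintype ι] (L p err : Node → ℝ) (child : Node → ι → Node) (coef : Node → ι → ℝ)
    (adm : ℕ → Node → Prop) (k : ℕ) (W : ℝ) (hW : 0 < W) (E Cc Cp : ℕ → ℝ) (B : ℝ)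
    (hCc : ∀ j, 0 ≤ Cc j) (hCp : ∀ j, 0 ≤ Cp j) (hB : 0 ≤ B) (hE : ∀ j, 0 ≤ E j)
    (hrec : ∀ j, j < k → ∀ t, adm j t → L t = err t + ∑ i, coef t i * L (child t i))
    (hadm : ∀ j, j < k → ∀ t, adm j t → ∀ i, adm (j + 1) (child t i))
    (hcoef : ∀ j, j < k → ∀ t, adm j t → ∀ i, |coef t i| ≤ Cc j / W)
    (hscale : ∀ j, j < k → ∀ t, adm j t → ∀ i, p (child t i) ≤ Cp j * W * p t)
    (herr : ∀ j, j < k → ∀ t, adm j t → |err t| ≤ E j * p t)
    (hterm : ∀ t, adm k t → |L t| ≤ B * p t) :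
    ∀ r, r ≤ k → ∀ t, adm (k - r) t →
      |L t| ≤ sk_cavabs_beta E (fun j => (Fintype.card ι : ℝ) * (Cc j * Cp j)) B k r * p t := by
  intro r
  induction r with
  | zero =>
    intro _ t ht
    simpa [sk_cavabs_beta] using hterm t (by simpa using ht)
  | succ r ih =>
    intro hr t ht
    have hj : k - (r + 1) < k := by omega
    have hj1 : k - (r + 1) + 1 = k - r := by omega
    set j := k - (r + 1) with hjdef
    set β := sk_cavabs_beta E (fun j => (Fintype.card ι : ℝ) * (Cc j * Cp j)) B k r with hβ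
    have hβ0 : 0 ≤ β := by
      have : ∀ r, 0 ≤ sk_cavabs_beta E (fun j => (Fintype.card ι : ℝ) * (Cc j * Cp j)) B k r := by
        intro r
        induction r with
        | zero => simpa [sk_cavabs_beta] using hB
        | succ r ih =>
          simp only [sk_cavabs_beta]
          have := hE (k - (r + 1)); have := hCc (k - (r + 1)); have := hCp (k - (r + 1))
          positivity
      exact this r
    have hchild : ∀ i, |coef t i * L (child t i)| ≤ Cc j * Cp j * β * p t := by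
      intro i
      have h1 : |L (child t i)| ≤ β * p (child t i) := ih (by omega) _ (by rw [← hj1]; exact hadm j hj t ht i)
      have h2 : |L (child t i)| ≤ β * (Cp j * W * p t) := h1.trans (mul_le_mul_of_nonneg_left (hscale j hj t ht i) hβ0)
      rw [abs_mul]
      calc |coef t i| * |L (child t i)| ≤ (Cc j / W) * (β * (Cp j * W * p t)) :=
            mul_le_mul (hcoef j hj t ht i) h2 (abs_nonneg _) (div_nonneg (hCc j) hW.le)
        _ = Cc j * Cp j * β * p t := by field_simp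
    have hsum : |∑ i, coef t i * L (child t i)| ≤ (Fintype.card ι : ℝ) * (Cc j * Cp j * β * p t) := by
      calc |∑ i, coef t i * L (child t i)| ≤ ∑ i, |coef t i * L (child t i)| := abs_sum_le_sum_abs _ _
        _ ≤ ∑ _i : ι, Cc j * Cp j * β * p t := sum_le_sum fun i _ => hchild i
        _ = (Fintype.card ι : ℝ) * (Cc j * Cp j * β * p t) := by simp [Finset.card_univ]
    rw [hrec j hj t ht]
    calc |err t + ∑ i, coef t i * L (child t i)| ≤ |err t| + |∑ i, coef t i * L (child t i)| := abs_add_le _ _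
      _ ≤ E j * p t + (Fintype.card ι : ℝ) * (Cc j * Cp j * β * p t) := add_le_add (herr j hj t ht) hsum
      _ = sk_cavabs_beta E (fun j => (Fintype.card ι : ℝ) * (Cc j * Cp j)) B k (r + 1) * p t := by
        simp only [sk_cavabs_beta]
        rw [← hjdef, ← hβ]; ring

/-- closed bound of the accumulated constant -/
theorem sk_cavabs_beta_le (E G : ℕ → ℝ) (B : ℝ) (k : ℕ) (E0 G0 : ℝ) (hG0 : 1 ≤ G0) (hE0 : 0 ≤ E0) (hB : 0 ≤ B)
    (hE : ∀ j, j < k → E j ≤ E0) (hG : ∀ j, j < k → G j ≤ G0) (hGn : ∀ j, 0 ≤ G j) :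
    ∀ r, r ≤ k → sk_cavabs_beta E G B k r ≤ G0 ^ r * ((r : ℝ) * E0 + B) ∧ 0 ≤ G0 ^ r * ((r : ℝ) * E0 + B) := by
  intro r
  induction r with
  | zero => intro _; simp [sk_cavabs_beta, hB]
  | succ r ih =>
    intro hr
    obtain ⟨h1, h0⟩ := ih (by omega)
    have hj : k - (r + 1) < k := by omega
    have hpos : 0 ≤ G0 ^ (r + 1) * (((r + 1 : ℕ) : ℝ) * E0 + B) := by positivity
    refine ⟨?_, hpos⟩
    simp only [sk_cavabs_beta]
    have hGr : (1 : ℝ) ≤ G0 ^ (r + 1) := one_le_pow₀ hG0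
    have h2 : G (k - (r + 1)) * sk_cavabs_beta E G B k r ≤ G0 * (G0 ^ r * ((r : ℝ) * E0 + B)) := by
      calc G (k - (r + 1)) * sk_cavabs_beta E G B k r ≤ G (k - (r + 1)) * (G0 ^ r * ((r : ℝ) * E0 + B)) :=
            mul_le_mul_of_nonneg_left h1 (hGn _)
        _ ≤ G0 * (G0 ^ r * ((r : ℝ) * E0 + B)) := mul_le_mul_of_nonneg_right (hG _ hj) h0
    have h3 : E (k - (r + 1)) ≤ G0 ^ (r + 1) * E0 := by
      calc E (k - (r + 1)) ≤ E0 := hE _ hj
        _ = 1 * E0 := (one_mul _).symm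
        _ ≤ G0 ^ (r + 1) * E0 := mul_le_mul_of_nonneg_right hGr hE0
    calc E (k - (r + 1)) + G (k - (r + 1)) * sk_cavabs_beta E G B k r
        ≤ G0 ^ (r + 1) * E0 + G0 * (G0 ^ r * ((r : ℝ) * E0 + B)) := add_le_add h3 h2
      _ = G0 ^ (r + 1) * (((r + 1 : ℕ) : ℝ) * E0 + B) := by push_cast; ring

/-- the left side of (25), divided by `χ K_*` -/
theorem sk_cavabs_lhs {bs T χ Ks W x y s p C1 C0 c : ℝ} (hW : 0 < W) (hc : 0 < c) (hs : 0 ≤ s) (hp : 0 ≤ p)
    (hb : |bs - T| ≤ C1 * W ^ 2) (hχ0 : 0 ≤ χ) (hχ : χ ≤ C0) (hK : c * W ≤ χ * Ks) (hy : |y| ≤ s * (x ^ 2 / W) * p) :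
    |(1 - bs * χ ^ 2) * y| / (χ * Ks) ≤ (s / c) * x ^ 2 * p * (C1 * C0 ^ 2 + |T * χ ^ 2 - 1| / W ^ 2) := by
  have hKpos : 0 < χ * Ks := lt_of_lt_of_le (by positivity) hK
  have hC1 : 0 ≤ C1 := by
    have : 0 ≤ C1 * W ^ 2 := (abs_nonneg _).trans hb
    by_contra h
    push Not at h
    nlinarith [pow_pos hW 2]
  have h1 : |1 - bs * χ ^ 2| ≤ C1 * C0 ^ 2 * W ^ 2 + |T * χ ^ 2 - 1| := by
    have e : 1 - bs * χ ^ 2 = -(bs - T) * χ ^ 2 + -(T * χ ^ 2 - 1) := by ring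
    rw [e]
    refine (abs_add_le _ _).trans ?_
    rw [abs_neg, abs_mul, abs_neg, abs_of_nonneg (sq_nonneg χ)]
    have h2 : χ ^ 2 ≤ C0 ^ 2 := pow_le_pow_left₀ hχ0 hχ 2
    have : |bs - T| * χ ^ 2 ≤ C1 * W ^ 2 * C0 ^ 2 := mul_le_mul hb h2 (sq_nonneg _) (by positivity)
    linarith
  rw [div_le_iff₀ hKpos, abs_mul]
  have hA : 0 ≤ C1 * C0 ^ 2 * W ^ 2 + |T * χ ^ 2 - 1| := by positivity
  have hx : 0 ≤ s * (x ^ 2 / W) * p := by positivity
  calc |1 - bs * χ ^ 2| * |y| ≤ (C1 * C0 ^ 2 * W ^ 2 + |T * χ ^ 2 - 1|) * (s * (x ^ 2 / W) * p) :=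
        mul_le_mul h1 hy (abs_nonneg _) hA
    _ = (s / c) * x ^ 2 * p * (C1 * C0 ^ 2 + |T * χ ^ 2 - 1| / W ^ 2) * (c * W) := by field_simp
    _ ≤ (s / c) * x ^ 2 * p * (C1 * C0 ^ 2 + |T * χ ^ 2 - 1| / W ^ 2) * (χ * Ks) :=
        mul_le_mul_of_nonneg_left hK (by positivity)

/-- absorption of `J₀` -/
theorem sk_cavabs_absorb {J C η x W : ℝ} (hx : 0 < x) (hxW : x ≤ W) (hη0 : 0 ≤ η) (hη : η ≤ 1 / 2) (_hC : 0 ≤ C)
    (h : |J| ≤ C * W ^ 2 + η * x ^ 2 + η * |J| * x ^ 2 / W ^ 2) : |J| ≤ (2 * C + 1) * W ^ 2 := by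
  have hW : 0 < W := lt_of_lt_of_le hx hxW
  have hq : x ^ 2 / W ^ 2 ≤ 1 := by
    rw [div_le_one (by positivity)]
    exact pow_le_pow_left₀ hx.le hxW 2
  have hq0 : 0 ≤ x ^ 2 / W ^ 2 := by positivity
  have h1 : η * |J| * x ^ 2 / W ^ 2 ≤ |J| / 2 := by
    have : η * |J| * x ^ 2 / W ^ 2 = (η * (x ^ 2 / W ^ 2)) * |J| := by ring
    rw [this]
    have h2 : η * (x ^ 2 / W ^ 2) ≤ 1 / 2 := by nlinarith
    nlinarith [abs_nonneg J]
  have h3 : η * x ^ 2 ≤ W ^ 2 / 2 := by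
    have : x ^ 2 ≤ W ^ 2 := pow_le_pow_left₀ hx.le hxW 2
    nlinarith [sq_nonneg x]
  nlinarith

/-- terminal arithmetic -/
theorem sk_cavabs_terminal {n x m c2 : ℝ} (k : ℕ) (hn : 1 ≤ n) (hx : n ^ (-(1 : ℝ) / 6 + m) ≤ x) :
    n ^ (-((k : ℝ) * c2)) ≤ n ^ (-((k : ℝ) * c2 - 1 / 3 + 2 * m)) * x ^ 2 := by
  have hn0 : 0 < n := lt_of_lt_of_le one_pos hn
  have h1 : (n ^ (-(1 : ℝ) / 6 + m)) ^ 2 ≤ x ^ 2 := pow_le_pow_left₀ (Real.rpow_nonneg hn0.le _) hx 2
  have h2 : (n ^ (-(1 : ℝ) / 6 + m)) ^ 2 = n ^ (-(1 : ℝ) / 3 + 2 * m) := by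
    rw [← Real.rpow_natCast, ← Real.rpow_mul hn0.le]
    congr 1; push_cast; ring
  calc n ^ (-((k : ℝ) * c2)) = n ^ (-((k : ℝ) * c2 - 1 / 3 + 2 * m)) * n ^ (-(1 : ℝ) / 3 + 2 * m) := by
        rw [← Real.rpow_add hn0]; congr 1; ring
    _ ≤ n ^ (-((k : ℝ) * c2 - 1 / 3 + 2 * m)) * x ^ 2 :=
        mul_le_mul_of_nonneg_left (h2 ▸ h1) (Real.rpow_nonneg hn0.le _)

end Claimed.Agent.R286
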