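import Claimed.Agent.R286.Cav.Abs

/-!
# Row 286 (S0533), folder Cav, file Abs2 : the ABSTRACT part of PE Section 4.4-4.5, second file      (helper194; prefix `sk_cavabs2_`)

No spins, no trees: real arithmetic, Hoelder.   Statements = A3, A4 of origin/helper218:notes/R286/P09_adv_218.md sec. 3.1.

* `sk_cavabs2_calib`      : A3 = susceptibility calibration (PE Lemma 4.10, l.985-1008): `|J₀| ≤ C' W²`, `C' = 2 (C₀² + 1) C / c + 1` explicit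
* `sk_cavabs2_pow_int`    : `∫ g^θ ≤ (μ univ)^(1-θ/2) (∫ g²)^(θ/2)` for `0 < θ ≤ 2`, finite measure
* `sk_cavabs2_L1`         : A4 = the normalised `L¹` claim (PE l.1203-1222), measure version
* `sk_cavabs2_pow_sum`, `sk_cavabs2_L1_sum` : the same for finite weighted sums
* `sk_cavabs2_L1_le`, `sk_cavabs2_L1_sum_le` : with a bound `δ` for the second moment
-/

set_option autoImplicit false

namespace Claimed.Agent.R286

open MeasureTheory Finset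

/-- **A3: susceptibility calibration** (PE Lemma 4.10).   `S = S_*`, `K = K_*`, `Gam = Γ(K_*)`, `J0 = T χ² - 1`. -/
theorem sk_cavabs2_calib {S W x J0 T χ K Gam η C C0 c : ℝ} (hx : 0 < x) (hxW : x ≤ W) (hc : 0 < c) (hS : c * W ≤ S)
    (hC : 0 ≤ C) (hG : |Gam - χ ^ 2 * K| ≤ C * W ^ 3) (hK : |K - T * S| ≤ C * W ^ 3) (hχ0 : 0 ≤ χ) (hχ : χ ≤ C0)
    (hη0 : 0 ≤ η) (hη : η ≤ c / 2) (hJ : J0 = T * χ ^ 2 - 1)
    (hSG : |S - Gam| ≤ η * W * x ^ 2 * (1 + |J0| / W ^ 2)) :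
    |J0| ≤ (2 * ((C0 ^ 2 + 1) * C / c) + 1) * W ^ 2 := by
  have hW : 0 < W := lt_of_lt_of_le hx hxW
  have hcW : 0 < c * W := by positivity
  have hχ2 : χ ^ 2 ≤ C0 ^ 2 := pow_le_pow_left₀ hχ0 hχ 2
  -- the identity
  have e : J0 * S = -(S - Gam) + -(χ ^ 2 * (K - T * S)) + -(Gam - χ ^ 2 * K) := by rw [hJ]; ring
  have h1 : |J0| * S ≤ η * W * x ^ 2 * (1 + |J0| / W ^ 2) + (C0 ^ 2 + 1) * C * W ^ 3 := by
    have hS0 : 0 ≤ S := hcW.le.trans hS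
    have : |J0 * S| ≤ |S - Gam| + χ ^ 2 * |K - T * S| + |Gam - χ ^ 2 * K| := by
      rw [e]
      refine (abs_add_le _ _).trans ?_
      refine add_le_add ((abs_add_le _ _).trans ?_) (by rw [abs_neg])
      rw [abs_neg, abs_neg, abs_mul, abs_of_nonneg (sq_nonneg χ)]
    rw [abs_mul, abs_of_nonneg hS0] at this
    have h2 : χ ^ 2 * |K - T * S| ≤ C0 ^ 2 * (C * W ^ 3) := mul_le_mul hχ2 hK (abs_nonneg _) (sq_nonneg _)
    nlinarith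
  have h2 : |J0| * (c * W) ≤ η * W * x ^ 2 * (1 + |J0| / W ^ 2) + (C0 ^ 2 + 1) * C * W ^ 3 :=
    (mul_le_mul_of_nonneg_left hS (abs_nonneg _)).trans h1
  have h3 : |J0| ≤ (C0 ^ 2 + 1) * C / c * W ^ 2 + η / c * x ^ 2 + η / c * |J0| * x ^ 2 / W ^ 2 := by
    have : |J0| = |J0| * (c * W) / (c * W) := by field_simp
    rw [this, div_le_iff₀ hcW]
    refine h2.trans (le_of_eq ?_)
    field_simp
    ring
  exact sk_cavabs_absorb hx hxW (div_nonneg hη0 hc.le) (by rw [div_le_iff₀ hc]; linarith) (by positivity) h3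

/-- Hoelder: the `θ`-th moment against the second moment on a finite measure space, `0 < θ ≤ 2` -/
theorem sk_cavabs2_pow_int {α : Type*} [MeasurableSpace α] (μ : Measure α) [IsFiniteMeasure μ] (g : α → ℝ) (C θ : ℝ)
    (hgm : AEStronglyMeasurable g μ) (hg0 : ∀ a, 0 ≤ g a) (hgC : ∀ a, g a ≤ C) (hθ0 : 0 < θ) (hθ2 : θ ≤ 2) :
    ∫ a, g a ^ θ ∂μ ≤ μ.real Set.univ ^ (1 - θ / 2) * (∫ a, g a ^ 2 ∂μ) ^ (θ / 2) := by
  rcases eq_or_lt_of_le hθ2 with rfl | hlt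
  · norm_num
  have h2θ : (0 : ℝ) < 2 - θ := by linarith
  have hp : (2 / θ).HolderConjugate (2 / (2 - θ)) := by
    rw [Real.holderConjugate_iff]
    refine ⟨by rw [lt_div_iff₀ hθ0]; linarith, ?_⟩
    field_simp
    ring
  have hfm : AEStronglyMeasurable (fun a => g a ^ θ) μ := (hgm.aemeasurable.pow_const θ).aestronglyMeasurable
  have hfb : ∀ᵐ a ∂μ, ‖g a ^ θ‖ ≤ |C| ^ θ := Filter.Eventually.of_forall fun a => by
    rw [Real.norm_of_nonneg (Real.rpow_nonneg (hg0 a) _)]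
    exact Real.rpow_le_rpow (hg0 a) ((hgC a).trans (le_abs_self C)) hθ0.le
  have key := integral_mul_le_Lp_mul_Lq_of_nonneg (μ := μ) hp (f := fun a => g a ^ θ) (g := fun _ => (1 : ℝ))
    (Filter.Eventually.of_forall fun a => Real.rpow_nonneg (hg0 a) _) (Filter.Eventually.of_forall fun _ => zero_le_one)
    (MemLp.of_bound hfm _ hfb) (memLp_const 1)
  have e1 : ∀ a, (g a ^ θ) ^ (2 / θ) = g a ^ 2 := fun a => by
    rw [← Real.rpow_mul (hg0 a), mul_div_cancel₀ _ hθ0.ne', Real.rpow_two]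
  simp only [mul_one, e1, Real.one_rpow, integral_const, smul_eq_mul] at key
  have e2 : 1 / (2 / θ) = θ / 2 := by field_simp
  have e3 : 1 / (2 / (2 - θ)) = 1 - θ / 2 := by field_simp
  rw [e2, e3] at key
  rw [mul_comm]
  exact key

/-- **A4: the normalised `L¹` claim** (PE l.1203-1222), measure version.   No integrability of `err` is needed. -/
theorem sk_cavabs2_L1 {α : Type*} [MeasurableSpace α] (μ : Measure α) [IsFiniteMeasure μ] (g err : α → ℝ) (C C0 Cm η θ : ℝ)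
    (hm : μ.real Set.univ ≤ Cm) (hgm : AEStronglyMeasurable g μ) (hg0 : ∀ a, 0 ≤ g a) (hgC : ∀ a, g a ≤ C)
    (hC0 : 0 ≤ C0) (hη : 0 ≤ η) (hθ0 : 0 < θ) (hθ2 : θ ≤ 2) (herr : ∀ a, err a ≤ C0 * (η + g a ^ θ)) :
    ∫ a, err a ∂μ ≤ C0 * Cm * η + C0 * Cm ^ (1 - θ / 2) * (∫ a, g a ^ 2 ∂μ) ^ (θ / 2) := by
  have hm0 : 0 ≤ μ.real Set.univ := measureReal_nonneg
  have hCm : 0 ≤ Cm := hm0.trans hm
  have hI2 : 0 ≤ ∫ a, g a ^ 2 ∂μ := integral_nonneg fun a => sq_nonneg _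
  have hR : 0 ≤ C0 * Cm * η + C0 * Cm ^ (1 - θ / 2) * (∫ a, g a ^ 2 ∂μ) ^ (θ / 2) := by positivity
  by_cases hint : Integrable err μ
  swap
  · rw [integral_undef hint]; exact hR
  have hfm : AEStronglyMeasurable (fun a => g a ^ θ) μ := (hgm.aemeasurable.pow_const θ).aestronglyMeasurable
  have hfb : ∀ᵐ a ∂μ, ‖g a ^ θ‖ ≤ |C| ^ θ := Filter.Eventually.of_forall fun a => by
    rw [Real.norm_of_nonneg (Real.rpow_nonneg (hg0 a) _)]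
    exact Real.rpow_le_rpow (hg0 a) ((hgC a).trans (le_abs_self C)) hθ0.le
  have hfi : Integrable (fun a => g a ^ θ) μ := Integrable.of_bound hfm _ hfb
  have hint2 : Integrable (fun a => C0 * (η + g a ^ θ)) μ := ((integrable_const η).add hfi).const_mul C0
  have h1 : ∫ a, err a ∂μ ≤ ∫ a, C0 * (η + g a ^ θ) ∂μ := integral_mono hint hint2 herr
  have h2 : ∫ a, C0 * (η + g a ^ θ) ∂μ = C0 * (μ.real Set.univ * η + ∫ a, g a ^ θ ∂μ) := by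
    rw [integral_const_mul, integral_add (integrable_const η) hfi, integral_const, smul_eq_mul]
  have h3 := sk_cavabs2_pow_int μ g C θ hgm hg0 hgC hθ0 hθ2
  have h4 : μ.real Set.univ ^ (1 - θ / 2) ≤ Cm ^ (1 - θ / 2) := Real.rpow_le_rpow hm0 hm (by linarith)
  have h5 : μ.real Set.univ ^ (1 - θ / 2) * (∫ a, g a ^ 2 ∂μ) ^ (θ / 2) ≤ Cm ^ (1 - θ / 2) * (∫ a, g a ^ 2 ∂μ) ^ (θ / 2) :=
    mul_le_mul_of_nonneg_right h4 (Real.rpow_nonneg hI2 _)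
  rw [h2] at h1
  calc ∫ a, err a ∂μ ≤ C0 * (μ.real Set.univ * η + ∫ a, g a ^ θ ∂μ) := h1
    _ ≤ C0 * (Cm * η + Cm ^ (1 - θ / 2) * (∫ a, g a ^ 2 ∂μ) ^ (θ / 2)) :=
        mul_le_mul_of_nonneg_left (add_le_add (mul_le_mul_of_nonneg_right hm hη) (h3.trans h5)) hC0
    _ = C0 * Cm * η + C0 * Cm ^ (1 - θ / 2) * (∫ a, g a ^ 2 ∂μ) ^ (θ / 2) := by ring

/-- A4 with a bound `δ` of the second moment -/
theorem sk_cavabs2_L1_le {α : Type*} [MeasurableSpace α] (μ : Measure α) [IsFiniteMeasure μ] (g err : α → ℝ) (C C0 Cm η θ δ : ℝ)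
    (hm : μ.real Set.univ ≤ Cm) (hgm : AEStronglyMeasurable g μ) (hg0 : ∀ a, 0 ≤ g a) (hgC : ∀ a, g a ≤ C)
    (hC0 : 0 ≤ C0) (hη : 0 ≤ η) (hθ0 : 0 < θ) (hθ2 : θ ≤ 2) (herr : ∀ a, err a ≤ C0 * (η + g a ^ θ))
    (hδ : ∫ a, g a ^ 2 ∂μ ≤ δ) :
    ∫ a, err a ∂μ ≤ C0 * Cm * η + C0 * Cm ^ (1 - θ / 2) * δ ^ (θ / 2) := by
  have hCm : 0 ≤ Cm := (measureReal_nonneg (μ := μ)).trans hm
  have hI2 : 0 ≤ ∫ a, g a ^ 2 ∂μ := integral_nonneg fun a => sq_nonneg _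
  refine (sk_cavabs2_L1 μ g err C C0 Cm η θ hm hgm hg0 hgC hC0 hη hθ0 hθ2 herr).trans ?_
  have : (∫ a, g a ^ 2 ∂μ) ^ (θ / 2) ≤ δ ^ (θ / 2) := Real.rpow_le_rpow hI2 hδ (by positivity)
  have h2 : 0 ≤ C0 * Cm ^ (1 - θ / 2) := by positivity
  nlinarith

/-- Hoelder for finite weighted sums: the `θ`-th moment against the second moment, `0 < θ ≤ 2` -/
theorem sk_cavabs2_pow_sum {ι : Type*} (s : Finset ι) (w g : ι → ℝ) (θ : ℝ) (hw : ∀ i ∈ s, 0 ≤ w i) (hg0 : ∀ i ∈ s, 0 ≤ g i)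
    (hθ0 : 0 < θ) (hθ2 : θ ≤ 2) :
    ∑ i ∈ s, w i * g i ^ θ ≤ (∑ i ∈ s, w i) ^ (1 - θ / 2) * (∑ i ∈ s, w i * g i ^ 2) ^ (θ / 2) := by
  rcases eq_or_lt_of_le hθ2 with rfl | hlt
  · norm_num
  have h2θ : (0 : ℝ) < 2 - θ := by linarith
  have hp : (2 / θ).HolderConjugate (2 / (2 - θ)) := by
    rw [Real.holderConjugate_iff]
    refine ⟨by rw [lt_div_iff₀ hθ0]; linarith, ?_⟩
    field_simp
    ring
  have key := Real.inner_le_Lp_mul_Lq_of_nonneg s hp (f := fun i => w i ^ (θ / 2) * g i ^ θ) (g := fun i => w i ^ (1 - θ / 2))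
    (fun i hi => mul_nonneg (Real.rpow_nonneg (hw i hi) _) (Real.rpow_nonneg (hg0 i hi) _)) (fun i hi => Real.rpow_nonneg (hw i hi) _)
  have e0 : ∑ i ∈ s, w i ^ (θ / 2) * g i ^ θ * w i ^ (1 - θ / 2) = ∑ i ∈ s, w i * g i ^ θ := by
    refine sum_congr rfl fun i hi => ?_
    have : w i ^ (θ / 2) * w i ^ (1 - θ / 2) = w i := by
      rw [← Real.rpow_add_of_nonneg (hw i hi) (by positivity) (by linarith)]
      norm_num
    calc w i ^ (θ / 2) * g i ^ θ * w i ^ (1 - θ / 2) = (w i ^ (θ / 2) * w i ^ (1 - θ / 2)) * g i ^ θ := by ring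
      _ = w i * g i ^ θ := by rw [this]
  have e1 : ∑ i ∈ s, (w i ^ (θ / 2) * g i ^ θ) ^ (2 / θ) = ∑ i ∈ s, w i * g i ^ 2 := by
    refine sum_congr rfl fun i hi => ?_
    rw [Real.mul_rpow (Real.rpow_nonneg (hw i hi) _) (Real.rpow_nonneg (hg0 i hi) _), ← Real.rpow_mul (hw i hi),
      ← Real.rpow_mul (hg0 i hi), mul_div_cancel₀ _ hθ0.ne', Real.rpow_two]
    have : θ / 2 * (2 / θ) = 1 := by field_simp
    rw [this, Real.rpow_one]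
  have e2 : ∑ i ∈ s, (w i ^ (1 - θ / 2)) ^ (2 / (2 - θ)) = ∑ i ∈ s, w i := by
    refine sum_congr rfl fun i hi => ?_
    rw [← Real.rpow_mul (hw i hi)]
    have : (1 - θ / 2) * (2 / (2 - θ)) = 1 := by field_simp
    rw [this, Real.rpow_one]
  have e3 : 1 / (2 / θ) = θ / 2 := by field_simp
  have e4 : 1 / (2 / (2 - θ)) = 1 - θ / 2 := by field_simp
  rw [e0, e1, e2, e3, e4] at key
  rw [mul_comm]
  exact key

/-- **A4 for finite weighted sums** -/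
theorem sk_cavabs2_L1_sum {ι : Type*} (s : Finset ι) (w g err : ι → ℝ) (C0 Cm η θ : ℝ) (hw : ∀ i ∈ s, 0 ≤ w i)
    (hm : ∑ i ∈ s, w i ≤ Cm) (hg0 : ∀ i ∈ s, 0 ≤ g i) (hC0 : 0 ≤ C0) (hη : 0 ≤ η) (hθ0 : 0 < θ) (hθ2 : θ ≤ 2)
    (herr : ∀ i ∈ s, err i ≤ C0 * (η + g i ^ θ)) :
    ∑ i ∈ s, w i * err i ≤ C0 * Cm * η + C0 * Cm ^ (1 - θ / 2) * (∑ i ∈ s, w i * g i ^ 2) ^ (θ / 2) := by
  have hm0 : 0 ≤ ∑ i ∈ s, w i := sum_nonneg hw
  have hI2 : 0 ≤ ∑ i ∈ s, w i * g i ^ 2 := sum_nonneg fun i hi => mul_nonneg (hw i hi) (sq_nonneg _)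
  have h1 : ∑ i ∈ s, w i * err i ≤ ∑ i ∈ s, w i * (C0 * (η + g i ^ θ)) :=
    sum_le_sum fun i hi => mul_le_mul_of_nonneg_left (herr i hi) (hw i hi)
  have h2 : ∑ i ∈ s, w i * (C0 * (η + g i ^ θ)) = C0 * ((∑ i ∈ s, w i) * η + ∑ i ∈ s, w i * g i ^ θ) := by
    rw [sum_mul, ← sum_add_distrib, mul_sum]
    exact sum_congr rfl fun i _ => by ring
  have h3 := sk_cavabs2_pow_sum s w g θ hw hg0 hθ0 hθ2
  have h4 : (∑ i ∈ s, w i) ^ (1 - θ / 2) ≤ Cm ^ (1 - θ / 2) := Real.rpow_le_rpow hm0 hm (by linarith)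
  have h5 : (∑ i ∈ s, w i) ^ (1 - θ / 2) * (∑ i ∈ s, w i * g i ^ 2) ^ (θ / 2) ≤ Cm ^ (1 - θ / 2) * (∑ i ∈ s, w i * g i ^ 2) ^ (θ / 2) :=
    mul_le_mul_of_nonneg_right h4 (Real.rpow_nonneg hI2 _)
  rw [h2] at h1
  calc ∑ i ∈ s, w i * err i ≤ C0 * ((∑ i ∈ s, w i) * η + ∑ i ∈ s, w i * g i ^ θ) := h1
    _ ≤ C0 * (Cm * η + Cm ^ (1 - θ / 2) * (∑ i ∈ s, w i * g i ^ 2) ^ (θ / 2)) :=
        mul_le_mul_of_nonneg_left (add_le_add (mul_le_mul_of_nonneg_right hm hη) (h3.trans h5)) hC0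
    _ = C0 * Cm * η + C0 * Cm ^ (1 - θ / 2) * (∑ i ∈ s, w i * g i ^ 2) ^ (θ / 2) := by ring

/-- A4 for finite weighted sums, with a bound `δ` of the second moment -/
theorem sk_cavabs2_L1_sum_le {ι : Type*} (s : Finset ι) (w g err : ι → ℝ) (C0 Cm η θ δ : ℝ) (hw : ∀ i ∈ s, 0 ≤ w i)
    (hm : ∑ i ∈ s, w i ≤ Cm) (hg0 : ∀ i ∈ s, 0 ≤ g i) (hC0 : 0 ≤ C0) (hη : 0 ≤ η) (hθ0 : 0 < θ) (hθ2 : θ ≤ 2)
    (herr : ∀ i ∈ s, err i ≤ C0 * (η + g i ^ θ)) (hδ : ∑ i ∈ s, w i * g i ^ 2 ≤ δ) :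
    ∑ i ∈ s, w i * err i ≤ C0 * Cm * η + C0 * Cm ^ (1 - θ / 2) * δ ^ (θ / 2) := by
  have hCm : 0 ≤ Cm := (sum_nonneg hw).trans hm
  have hI2 : 0 ≤ ∑ i ∈ s, w i * g i ^ 2 := sum_nonneg fun i hi => mul_nonneg (hw i hi) (sq_nonneg _)
  refine (sk_cavabs2_L1_sum s w g err C0 Cm η θ hw hm hg0 hC0 hη hθ0 hθ2 herr).trans ?_
  have : (∑ i ∈ s, w i * g i ^ 2) ^ (θ / 2) ≤ δ ^ (θ / 2) := Real.rpow_le_rpow hI2 hδ (by positivity)
  have h2 : 0 ≤ C0 * Cm ^ (1 - θ / 2) := by positivity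
  nlinarith

end Claimed.Agent.R286
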