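import Claimed.Agent.R286.Cav.Abs

/-!
# Row 286 (S0533), folder Cav, file Alg : PE Lemma 4.9 (finite-depth longitudinal cancellation) and Lemma 4.10 (susceptibility calibration)
# over an INTERFACE RECORD      (helper244; prefix `sk_cavalg_`)

`CavAlg` = what the model layer (Led = (24), Rep = Lemma 4.8, Pre = Lemmas 4.3-4.6, Hoelder + (17)) has to deliver, for ONE instance (fixed `n`), NON-ASYMPTOTIC.
Rooted tests are abstract.  Operations: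
* `cen P`  = `P° = P - ν[P]` (same target)            * `mulY P` = `P · Y_a` (`a` = target of `P`)
* `sw P`   = `∑_c γ_ac P Δ_bc`, new target `b` (fresh)  * `fr P`   = `P` with a fresh target (no factor at it)
Functionals: `L P = 𝓛(P, target) = ν[P M_target]`, `nuY P = ν[Y_target P]`.
`adm j` = admissible tests of generation `j` (degree `≤ N + 3 j`, every term has at least `j` star factors, live or dead).
Small numbers: `ρ` (remainder of (25) in units `W x² p₀`), `sv` (saving of the good split: `D_* ≤ sv x²/W`), `st` (saving of a star factor, (17)).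
-/

set_option autoImplicit false

namespace Claimed.Agent.R286

open Finset

/-- interface record for the algebra of PE Section 4.3-4.4 -/
structure CavAlg where
  Tst : Type
  L : Tst → ℝ
  nuY : Tst → ℝ
  p0 : Tst → ℝ
  cen : Tst → Tst
  mulY : Tst → Tst
  sw : Tst → Tst
  fr : Tst → Tst
  adm : ℕ → Tst → Prop
  k : ℕ
  (W x bs Ks χ T ρ sv st : ℝ)
  (c C0 C1 Cb Cs Cy Ca : ℝ)
  hx : 0 < x
  hxW : x ≤ W
  hc : 0 < c
  hρ : 0 ≤ ρ
  hsv : 0 ≤ sv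
  hst : 0 ≤ st
  hCs : 0 ≤ Cs
  hCy : 0 ≤ Cy
  hCa : 0 ≤ Ca
  hχ0 : 0 ≤ χ
  hχ : χ ≤ C0
  hb0 : 0 ≤ bs
  hb : bs ≤ Cb
  hbT : |bs - T| ≤ C1 * W ^ 2
  hK : c * W ≤ χ * Ks
  hp0 : ∀ P, 0 ≤ p0 P
  /-- closure of the family (PE Lemma 4.6) -/
  adm_fr : ∀ j P, adm j P → adm j (fr P)
  adm_mulY : ∀ j P, j < k → adm j P → adm (j + 1) (mulY (cen P))
  adm_sw : ∀ j P, j < k → adm j P → adm (j + 1) (sw (cen P))
  p0_fr : ∀ P, p0 (fr P) ≤ p0 P
  p0_mulY : ∀ j P, j < k → adm j P → p0 (mulY (cen P)) ≤ Cs * W * p0 P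
  p0_sw : ∀ j P, j < k → adm j P → p0 (sw (cen P)) ≤ Cs * W * p0 P
  /-- pruning + relabelling -/
  L_fr : ∀ P, L (fr (fr P)) = L (fr P)
  /-- equation (25) with its remainder -/
  h25 : ∀ j P, j < k → adm j P →
    |(1 - bs * χ ^ 2) * nuY (cen P) - χ * Ks * (L P + L (fr P)) - bs * (χ * L (mulY (cen P)) + L (sw (cen P)))| ≤ ρ * (W * x ^ 2 * p0 P)
  /-- good split + raw moments -/
  hnuY : ∀ j P, j < k → adm j P → |nuY (cen P)| ≤ Cy * sv * (x ^ 2 / W) * p0 P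
  /-- Hoelder + (17) at a terminal node -/
  hterm : ∀ P, adm k P → |L P| ≤ Ca * st ^ k * p0 P

namespace CavAlg

variable (D : CavAlg)

/-- `J₀ = T χ² - 1` -/
def J0 : ℝ := D.T * D.χ ^ 2 - 1

/-- the error constant of one generation, in units `p₀` -/
noncomputable def E0 : ℝ :=
  3 / 2 * ((D.Cy * D.sv / D.c) * D.x ^ 2 * (D.C1 * D.C0 ^ 2 + |D.J0| / D.W ^ 2) + D.ρ / D.c * D.x ^ 2)

/-- the growth constant of one generation -/
noncomputable def G0 : ℝ := max 1 (4 * (D.Cb * (1 + D.C0) / D.c * D.Cs))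

/-- the remainder of (25) -/
noncomputable def E25 (P : D.Tst) : ℝ :=
  (1 - D.bs * D.χ ^ 2) * D.nuY (D.cen P) - D.χ * D.Ks * (D.L P + D.L (D.fr P))
    - D.bs * (D.χ * D.L (D.mulY (D.cen P)) + D.L (D.sw (D.cen P)))

/-- `ε(P;a,b)` of PE l.905 -/
noncomputable def eps (P : D.Tst) : ℝ := ((1 - D.bs * D.χ ^ 2) * D.nuY (D.cen P) - D.E25 P) / (D.χ * D.Ks)

/-- the four children -/
def child (P : D.Tst) : Fin 4 → D.Tst :=
  ![D.mulY (D.cen P), D.sw (D.cen P), D.mulY (D.cen (D.fr P)), D.sw (D.cen (D.fr P))]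

/-- their coefficients -/
noncomputable def coef : Fin 4 → ℝ :=
  ![-(D.bs * D.χ / (D.χ * D.Ks)), -(D.bs / (D.χ * D.Ks)), D.bs * D.χ / (D.χ * D.Ks) / 2, D.bs / (D.χ * D.Ks) / 2]

end CavAlg

theorem sk_cavalg_eqns_cite : True := by
  have := @CavAlg.J0.eq_1
  have := @CavAlg.E0.eq_1
  have := @CavAlg.G0.eq_1
  have := @CavAlg.E25.eq_1
  have := @CavAlg.eps.eq_1
  have := @CavAlg.child.eq_1
  have := @CavAlg.coef.eq_1
  trivial

variable (D : CavAlg)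

theorem sk_cavalg_W : 0 < D.W := lt_of_lt_of_le D.hx D.hxW

theorem sk_cavalg_K : 0 < D.χ * D.Ks := lt_of_lt_of_le (mul_pos D.hc (sk_cavalg_W D)) D.hK

/-- one generation, before the two roots -/
theorem sk_cavalg_gen (P : D.Tst) :
    D.L P + D.L (D.fr P) = D.eps P -
      (D.bs * D.χ / (D.χ * D.Ks) * D.L (D.mulY (D.cen P)) + D.bs / (D.χ * D.Ks) * D.L (D.sw (D.cen P))) := by
  have hK := (sk_cavalg_K D).ne'
  unfold CavAlg.eps CavAlg.E25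
  set κ := D.χ * D.Ks with hκ
  rw [eq_sub_iff_add_eq, eq_div_iff hK]
  have e1 : D.bs * D.χ / κ * D.L (D.mulY (D.cen P)) * κ = D.bs * D.χ * D.L (D.mulY (D.cen P)) := by field_simp
  have e2 : D.bs / κ * D.L (D.sw (D.cen P)) * κ = D.bs * D.L (D.sw (D.cen P)) := by field_simp
  linear_combination e1 + e2

/-- the recursion identity (PE l.920) -/
theorem sk_cavalg_recid (P : D.Tst) :
    D.L P = (D.eps P - D.eps (D.fr P) / 2) + ∑ i, D.coef i * D.L (D.child P i) := by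
  have h := sk_cavabs_two_root (sk_cavalg_gen D P) (sk_cavalg_gen D (D.fr P)) rfl (D.L_fr P)
  rw [h]
  simp only [CavAlg.coef, CavAlg.child, Fin.sum_univ_four, Matrix.cons_val_zero, Matrix.cons_val_one, Matrix.cons_val]
  ring

/-- bound of `ε` -/
theorem sk_cavalg_eps (j : ℕ) (hj : j < D.k) (P : D.Tst) (hP : D.adm j P) :
    |D.eps P| ≤ ((D.Cy * D.sv / D.c) * D.x ^ 2 * (D.C1 * D.C0 ^ 2 + |D.J0| / D.W ^ 2) + D.ρ / D.c * D.x ^ 2) * D.p0 P := by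
  have hW := sk_cavalg_W D
  have hK := sk_cavalg_K D
  have hp := D.hp0 P
  have h1 := sk_cavabs_lhs (bs := D.bs) (T := D.T) (χ := D.χ) (Ks := D.Ks) (W := D.W) (x := D.x) (y := D.nuY (D.cen P))
    (s := D.Cy * D.sv) (p := D.p0 P) (C1 := D.C1) (C0 := D.C0) (c := D.c) hW D.hc (mul_nonneg D.hCy D.hsv) hp D.hbT D.hχ0 D.hχ D.hK
    (D.hnuY j P hj hP)
  have h2 : |D.E25 P| / (D.χ * D.Ks) ≤ D.ρ / D.c * D.x ^ 2 * D.p0 P := by
    rw [div_le_iff₀ hK]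
    have h3 : |D.E25 P| ≤ D.ρ * (D.W * D.x ^ 2 * D.p0 P) := D.h25 j P hj hP
    have hc := D.hc
    have hρ := D.hρ
    calc |D.E25 P| ≤ D.ρ * (D.W * D.x ^ 2 * D.p0 P) := h3
      _ = D.ρ / D.c * D.x ^ 2 * D.p0 P * (D.c * D.W) := by field_simp
      _ ≤ D.ρ / D.c * D.x ^ 2 * D.p0 P * (D.χ * D.Ks) := mul_le_mul_of_nonneg_left D.hK (by positivity)
  unfold CavAlg.eps
  rw [sub_div]
  refine (abs_sub _ _).trans ?_
  rw [abs_div, abs_div, abs_of_pos hK]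
  unfold CavAlg.J0
  calc |(1 - D.bs * D.χ ^ 2) * D.nuY (D.cen P)| / (D.χ * D.Ks) + |D.E25 P| / (D.χ * D.Ks)
      ≤ D.Cy * D.sv / D.c * D.x ^ 2 * D.p0 P * (D.C1 * D.C0 ^ 2 + |D.T * D.χ ^ 2 - 1| / D.W ^ 2) + D.ρ / D.c * D.x ^ 2 * D.p0 P :=
        add_le_add h1 h2
    _ = _ := by ring

theorem sk_cavalg_E0_nonneg : 0 ≤ D.E0 := by
  have hW := sk_cavalg_W D
  have hc := D.hc; have hρ := D.hρ; have hsv := D.hsv; have hCy := D.hCy
  have hC1 : 0 ≤ D.C1 := by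
    have : 0 ≤ D.C1 * D.W ^ 2 := (abs_nonneg _).trans D.hbT
    by_contra h
    push Not at h
    nlinarith [pow_pos hW 2]
  unfold CavAlg.E0
  positivity

/-- bound of the coefficients -/
theorem sk_cavalg_coef (i : Fin 4) : |D.coef i| ≤ D.Cb * (1 + D.C0) / D.c / D.W := by
  have hW := sk_cavalg_W D
  have hK := sk_cavalg_K D
  have hc := D.hc
  have hb0 := D.hb0; have hb := D.hb; have hχ0 := D.hχ0; have hχ := D.hχ
  have hCb : 0 ≤ D.Cb := hb0.trans hb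
  have hC0 : 0 ≤ D.C0 := hχ0.trans hχ
  have hinv : 1 / (D.χ * D.Ks) ≤ 1 / (D.c * D.W) := one_div_le_one_div_of_le (by positivity) D.hK
  have key : ∀ a : ℝ, 0 ≤ a → a ≤ D.Cb * (1 + D.C0) → a / (D.χ * D.Ks) ≤ D.Cb * (1 + D.C0) / D.c / D.W := by
    intro a ha0 ha
    calc a / (D.χ * D.Ks) = a * (1 / (D.χ * D.Ks)) := by ring
      _ ≤ (D.Cb * (1 + D.C0)) * (1 / (D.c * D.W)) := mul_le_mul ha hinv (by positivity) (by positivity)
      _ = D.Cb * (1 + D.C0) / D.c / D.W := by field_simp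
  have ha1 : D.bs * D.χ ≤ D.Cb * (1 + D.C0) := by nlinarith
  have ha2 : D.bs ≤ D.Cb * (1 + D.C0) := by nlinarith
  have hq1 : 0 ≤ D.bs * D.χ / (D.χ * D.Ks) := by positivity
  have hq2 : 0 ≤ D.bs / (D.χ * D.Ks) := by positivity
  have k1 := key _ (mul_nonneg hb0 hχ0) ha1
  have k2 := key _ hb0 ha2
  fin_cases i
  · simp only [CavAlg.coef, Fin.zero_eta, Matrix.cons_val_zero, abs_neg, abs_of_nonneg hq1]; exact k1
  · simp only [CavAlg.coef, Fin.mk_one, Matrix.cons_val_one, Matrix.cons_val_zero, abs_neg, abs_of_nonneg hq2]; exact k2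
  · simp only [CavAlg.coef, Fin.reduceFinMk, Matrix.cons_val]
    rw [abs_of_nonneg (by positivity)]; linarith
  · simp only [CavAlg.coef, Fin.reduceFinMk, Matrix.cons_val]
    rw [abs_of_nonneg (by positivity)]; linarith

/-- **PE Lemma 4.9**, non-asymptotic -/
theorem sk_cavalg_long (P : D.Tst) (hP : D.adm 0 P) :
    |D.L P| ≤ D.G0 ^ D.k * ((D.k : ℝ) * D.E0 + D.Ca * D.st ^ D.k) * D.p0 P := by
  have hW := sk_cavalg_W D
  have hc := D.hc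
  have hCb : 0 ≤ D.Cb := D.hb0.trans D.hb
  have hC0 : 0 ≤ D.C0 := D.hχ0.trans D.hχ
  have hCc : 0 ≤ D.Cb * (1 + D.C0) / D.c := by positivity
  have hB : 0 ≤ D.Ca * D.st ^ D.k := mul_nonneg D.hCa (pow_nonneg D.hst _)
  have hchildadm : ∀ j, j < D.k → ∀ t, D.adm j t → ∀ i, D.adm (j + 1) (D.child t i) := by
    intro j hj t ht i
    fin_cases i
    · exact D.adm_mulY j t hj ht
    · exact D.adm_sw j t hj ht
    · exact D.adm_mulY j _ hj (D.adm_fr j t ht)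
    · exact D.adm_sw j _ hj (D.adm_fr j t ht)
  have hchildp : ∀ j, j < D.k → ∀ t, D.adm j t → ∀ i, D.p0 (D.child t i) ≤ D.Cs * D.W * D.p0 t := by
    intro j hj t ht i
    have hfr : D.Cs * D.W * D.p0 (D.fr t) ≤ D.Cs * D.W * D.p0 t :=
      mul_le_mul_of_nonneg_left (D.p0_fr t) (mul_nonneg D.hCs hW.le)
    fin_cases i
    · exact D.p0_mulY j t hj ht
    · exact D.p0_sw j t hj ht
    · exact (D.p0_mulY j _ hj (D.adm_fr j t ht)).trans hfr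
    · exact (D.p0_sw j _ hj (D.adm_fr j t ht)).trans hfr
  have herr : ∀ j, j < D.k → ∀ t, D.adm j t → |D.eps t - D.eps (D.fr t) / 2| ≤ D.E0 * D.p0 t := by
    intro j hj t ht
    have h1 := sk_cavalg_eps D j hj t ht
    have h2 := sk_cavalg_eps D j hj _ (D.adm_fr j t ht)
    set A := (D.Cy * D.sv / D.c) * D.x ^ 2 * (D.C1 * D.C0 ^ 2 + |D.J0| / D.W ^ 2) + D.ρ / D.c * D.x ^ 2 with hA
    have hA0 : 0 ≤ A := by
      have := sk_cavalg_E0_nonneg D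
      unfold CavAlg.E0 at this
      rw [← hA] at this
      linarith
    have h3 : A * D.p0 (D.fr t) ≤ A * D.p0 t := mul_le_mul_of_nonneg_left (D.p0_fr t) hA0
    have h4 : |D.eps t - D.eps (D.fr t) / 2| ≤ |D.eps t| + |D.eps (D.fr t)| / 2 := by
      refine (abs_sub _ _).trans ?_
      rw [abs_div, abs_of_pos (by norm_num : (0 : ℝ) < 2)]
    have : D.E0 = 3 / 2 * A := by unfold CavAlg.E0; rw [hA]
    rw [this]
    linarith
  have main := sk_cavabs_rec D.L D.p0 (fun t => D.eps t - D.eps (D.fr t) / 2) D.child (fun _ => D.coef) D.adm D.k D.W hW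
    (fun _ => D.E0) (fun _ => D.Cb * (1 + D.C0) / D.c) (fun _ => D.Cs) (D.Ca * D.st ^ D.k)
    (fun _ => hCc) (fun _ => D.hCs) hB (fun _ => sk_cavalg_E0_nonneg D)
    (fun j _ t _ => sk_cavalg_recid D t) hchildadm (fun j _ t _ i => sk_cavalg_coef D i) hchildp herr D.hterm D.k le_rfl P (by simpa using hP)
  have hle := (sk_cavabs_beta_le (fun _ => D.E0) (fun _ => ((Fintype.card (Fin 4) : ℕ) : ℝ) * (D.Cb * (1 + D.C0) / D.c * D.Cs)) (D.Ca * D.st ^ D.k) D.k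
    D.E0 D.G0 (le_max_left _ _) (sk_cavalg_E0_nonneg D) hB (fun _ _ => le_rfl)
    (fun _ _ => by simp only [Fintype.card_fin]; unfold CavAlg.G0; push_cast; exact le_max_right _ _)
    (fun _ => by have := D.hCs; positivity) D.k le_rfl).1
  exact main.trans (mul_le_mul_of_nonneg_right hle (D.hp0 P))

/-- **(27)**: Lemma 4.9 once `J₀ = O(W²)` is known -/
theorem sk_cavalg_27 (CJ : ℝ) (hJ : |D.J0| ≤ CJ * D.W ^ 2) (P : D.Tst) (hP : D.adm 0 P) :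
    |D.L P| ≤ D.G0 ^ D.k * ((D.k : ℝ) * (3 / 2 * ((D.Cy * D.sv / D.c) * (D.C1 * D.C0 ^ 2 + CJ) + D.ρ / D.c)) * D.x ^ 2
      + D.Ca * D.st ^ D.k) * D.p0 P := by
  have hW := sk_cavalg_W D
  have hc := D.hc; have hsv := D.hsv; have hCy := D.hCy
  have h1 : |D.J0| / D.W ^ 2 ≤ CJ := by rw [div_le_iff₀ (by positivity)]; exact hJ
  have h2 : D.E0 ≤ 3 / 2 * ((D.Cy * D.sv / D.c) * (D.C1 * D.C0 ^ 2 + CJ) + D.ρ / D.c) * D.x ^ 2 := by
    unfold CavAlg.E0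
    have h3 : (D.Cy * D.sv / D.c) * D.x ^ 2 * (D.C1 * D.C0 ^ 2 + |D.J0| / D.W ^ 2)
        ≤ (D.Cy * D.sv / D.c) * D.x ^ 2 * (D.C1 * D.C0 ^ 2 + CJ) :=
      mul_le_mul_of_nonneg_left (by linarith) (by positivity)
    nlinarith
  have hG : 0 ≤ D.G0 ^ D.k := pow_nonneg (le_trans zero_le_one (le_max_left _ _)) _
  refine (sk_cavalg_long D P hP).trans (mul_le_mul_of_nonneg_right (mul_le_mul_of_nonneg_left ?_ hG) (D.hp0 P))
  have : (D.k : ℝ) * D.E0 ≤ (D.k : ℝ) * (3 / 2 * ((D.Cy * D.sv / D.c) * (D.C1 * D.C0 ^ 2 + CJ) + D.ρ / D.c) * D.x ^ 2) :=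
    mul_le_mul_of_nonneg_left h2 (Nat.cast_nonneg _)
  linarith

/-- interface record for the calibration (PE Lemma 4.10): the STAR-ONLY instance of `CavAlg`, the two tests `Y_a` and `∑_c γ_ac Δ_bc`, (24) at `P = 1`, the scalar low expansion -/
structure CavCal extends CavAlg where
  tY : Tst
  tS : Tst
  (S Γ C2 τ : ℝ)
  adm_tY : adm 0 tY
  adm_tS : adm 0 tS
  p0_tY : p0 tY ≤ Cs * W
  p0_tS : p0 tS ≤ Cs * W
  hC2 : 0 ≤ C2
  hτ : 0 ≤ τ
  /-- (24) at `P = 1` after the replacements -/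
  hcal : |S - Γ - bs * (χ * L tY + L tS)| ≤ ρ * (W * x ^ 2)
  /-- scalar low expansion `Γ(K_*) = χ² K_* + O(W³)` -/
  hΓ : |Γ - χ ^ 2 * Ks| ≤ C2 * W ^ 3
  hKS : |Ks - T * S| ≤ C2 * W ^ 3
  hS : c * W ≤ S
  /-- the depth is large enough -/
  hdepth : st ^ k ≤ τ * x ^ 2

namespace CavCal

variable (D : CavCal)

/-- accumulated constant -/
noncomputable def A : ℝ := D.Cb * (1 + D.C0) * D.toCavAlg.G0 ^ D.k * D.Cs

/-- the small number multiplying `|J₀| x² / W²` -/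
noncomputable def η2 : ℝ := D.A * D.k * (3 / 2) * (D.Cy * D.sv / D.c)

/-- the small number multiplying `x²` -/
noncomputable def η1 : ℝ := D.η2 * (D.C1 * D.C0 ^ 2) + D.A * D.k * (3 / 2) * (D.ρ / D.c) + D.A * D.Ca * D.τ + D.ρ

end CavCal

theorem sk_cavalg_eqns_cite2 : True := by
  have := @CavCal.A.eq_1
  have := @CavCal.η1.eq_1
  have := @CavCal.η2.eq_1
  trivial

/-- **PE Lemma 4.10**, non-asymptotic: `J₀ = O(W²)` as soon as the small numbers are small -/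
theorem sk_cavalg_J0 (D : CavCal) (η : ℝ) (h1 : D.η1 / D.c ≤ η) (h2 : D.η2 / D.c ≤ η) (hη : η ≤ 1 / 2) :
    |D.toCavAlg.J0| ≤ (2 * (D.C2 * (1 + D.C0 ^ 2) / D.c) + 1) * D.W ^ 2 := by
  have hW := sk_cavalg_W D.toCavAlg
  have hc := D.hc; have hx := D.hx
  have hCb : 0 ≤ D.Cb := D.hb0.trans D.hb
  have hC0 : 0 ≤ D.C0 := D.hχ0.trans D.hχ
  have hG : 0 ≤ D.toCavAlg.G0 ^ D.k := pow_nonneg (le_trans zero_le_one (le_max_left _ _)) _
  have hE0 := sk_cavalg_E0_nonneg D.toCavAlg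
  set J := D.toCavAlg.J0 with hJ
  set M := D.toCavAlg.G0 ^ D.k * ((D.k : ℝ) * D.toCavAlg.E0 + D.Ca * D.st ^ D.k) with hM
  have hM0 : 0 ≤ M := by
    have := D.hCa; have := D.hst
    positivity
  have hLY : |D.L D.tY| ≤ M * (D.Cs * D.W) :=
    (sk_cavalg_long D.toCavAlg D.tY D.adm_tY).trans (mul_le_mul_of_nonneg_left D.p0_tY hM0)
  have hLS : |D.L D.tS| ≤ M * (D.Cs * D.W) :=
    (sk_cavalg_long D.toCavAlg D.tS D.adm_tS).trans (mul_le_mul_of_nonneg_left D.p0_tS hM0)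
  -- the insertion terms
  have hins : |D.bs * (D.χ * D.L D.tY + D.L D.tS)| ≤ D.Cb * (1 + D.C0) * (M * (D.Cs * D.W)) := by
    rw [abs_mul, abs_of_nonneg D.hb0]
    have h3 : |D.χ * D.L D.tY + D.L D.tS| ≤ (1 + D.C0) * (M * (D.Cs * D.W)) := by
      refine (abs_add_le _ _).trans ?_
      rw [abs_mul, abs_of_nonneg D.hχ0]
      have h4 : D.χ * |D.L D.tY| ≤ D.C0 * (M * (D.Cs * D.W)) := mul_le_mul D.hχ hLY (abs_nonneg _) hC0
      linarith
    calc D.bs * |D.χ * D.L D.tY + D.L D.tS| ≤ D.Cb * ((1 + D.C0) * (M * (D.Cs * D.W))) :=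
          mul_le_mul D.hb h3 (abs_nonneg _) hCb
      _ = _ := by ring
  have hSG : |D.S - D.Γ| ≤ D.Cb * (1 + D.C0) * (M * (D.Cs * D.W)) + D.ρ * (D.W * D.x ^ 2) := by
    have e : D.S - D.Γ = (D.S - D.Γ - D.bs * (D.χ * D.L D.tY + D.L D.tS)) + D.bs * (D.χ * D.L D.tY + D.L D.tS) := by ring
    rw [e]
    refine (abs_add_le _ _).trans ?_
    linarith [D.hcal]
  -- the bound in terms of the small numbers
  have hA0 : 0 ≤ D.A := by
    have := D.hCs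
    unfold CavCal.A; positivity
  have hMb : D.Cb * (1 + D.C0) * (M * (D.Cs * D.W)) + D.ρ * (D.W * D.x ^ 2)
      ≤ D.W * (D.η1 * D.x ^ 2 + D.η2 * |J| * D.x ^ 2 / D.W ^ 2) := by
    have e1 : D.Cb * (1 + D.C0) * (M * (D.Cs * D.W)) = D.A * D.W * ((D.k : ℝ) * D.toCavAlg.E0 + D.Ca * D.st ^ D.k) := by
      rw [hM]; unfold CavCal.A; ring
    have e2 : D.A * D.W * (D.Ca * D.st ^ D.k) ≤ D.A * D.W * (D.Ca * (D.τ * D.x ^ 2)) :=
      mul_le_mul_of_nonneg_left (mul_le_mul_of_nonneg_left D.hdepth D.hCa) (by positivity)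
    rw [e1]
    unfold CavCal.η1 CavCal.η2 CavAlg.E0
    rw [← hJ]
    have e3 : D.W * ((D.A * ↑D.k * (3 / 2) * (D.Cy * D.sv / D.c) * (D.C1 * D.C0 ^ 2) + D.A * ↑D.k * (3 / 2) * (D.ρ / D.c) + D.A * D.Ca * D.τ + D.ρ) * D.x ^ 2
        + D.A * ↑D.k * (3 / 2) * (D.Cy * D.sv / D.c) * |J| * D.x ^ 2 / D.W ^ 2)
        = D.A * D.W * (↑D.k * (3 / 2 * (D.Cy * D.sv / D.c * D.x ^ 2 * (D.C1 * D.C0 ^ 2 + |J| / D.W ^ 2) + D.ρ / D.c * D.x ^ 2)))
          + D.A * D.W * (D.Ca * (D.τ * D.x ^ 2)) + D.ρ * (D.W * D.x ^ 2) := by ring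
    rw [e3]
    linarith
  -- `J₀ S`
  have hJS : |J| * D.S ≤ D.W * (D.η1 * D.x ^ 2 + D.η2 * |J| * D.x ^ 2 / D.W ^ 2) + D.C2 * (1 + D.C0 ^ 2) * D.W ^ 3 := by
    have hS0 : 0 ≤ D.S := le_trans (by positivity) D.hS
    have e : J * D.S = -(D.S - D.Γ) - (D.Γ - D.χ ^ 2 * D.Ks) - D.χ ^ 2 * (D.Ks - D.T * D.S) := by
      rw [hJ]; unfold CavAlg.J0; ring
    rw [← abs_of_nonneg hS0, ← abs_mul, e]
    have t1 : |-(D.S - D.Γ) - (D.Γ - D.χ ^ 2 * D.Ks) - D.χ ^ 2 * (D.Ks - D.T * D.S)|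
        ≤ |D.S - D.Γ| + |D.Γ - D.χ ^ 2 * D.Ks| + D.χ ^ 2 * |D.Ks - D.T * D.S| := by
      refine (abs_sub _ _).trans ?_
      rw [abs_mul, abs_of_nonneg (sq_nonneg D.χ)]
      refine add_le_add_left ((abs_sub _ _).trans ?_) _
      rw [abs_neg]
    have t2 : D.χ ^ 2 * |D.Ks - D.T * D.S| ≤ D.C0 ^ 2 * (D.C2 * D.W ^ 3) :=
      mul_le_mul (pow_le_pow_left₀ D.hχ0 D.hχ 2) D.hKS (abs_nonneg _) (by positivity)
    have := D.hΓ
    nlinarith
  have hfin : |J| ≤ (D.C2 * (1 + D.C0 ^ 2) / D.c) * D.W ^ 2 + η * D.x ^ 2 + η * |J| * D.x ^ 2 / D.W ^ 2 := by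
    have s1 : |J| * (D.c * D.W) ≤ |J| * D.S := mul_le_mul_of_nonneg_left D.hS (abs_nonneg _)
    have s2 : |J| ≤ (D.W * (D.η1 * D.x ^ 2 + D.η2 * |J| * D.x ^ 2 / D.W ^ 2) + D.C2 * (1 + D.C0 ^ 2) * D.W ^ 3) / (D.c * D.W) := by
      rw [le_div_iff₀ (by positivity)]; exact s1.trans hJS
    have s3 : (D.W * (D.η1 * D.x ^ 2 + D.η2 * |J| * D.x ^ 2 / D.W ^ 2) + D.C2 * (1 + D.C0 ^ 2) * D.W ^ 3) / (D.c * D.W)
        = (D.C2 * (1 + D.C0 ^ 2) / D.c) * D.W ^ 2 + (D.η1 / D.c) * D.x ^ 2 + (D.η2 / D.c) * (|J| * D.x ^ 2 / D.W ^ 2) := by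
      field_simp
      ring
    rw [s3] at s2
    have s4 : (D.η1 / D.c) * D.x ^ 2 ≤ η * D.x ^ 2 := mul_le_mul_of_nonneg_right h1 (sq_nonneg _)
    have s5 : (D.η2 / D.c) * (|J| * D.x ^ 2 / D.W ^ 2) ≤ η * (|J| * D.x ^ 2 / D.W ^ 2) :=
      mul_le_mul_of_nonneg_right h2 (by positivity)
    have s6 : η * (|J| * D.x ^ 2 / D.W ^ 2) = η * |J| * D.x ^ 2 / D.W ^ 2 := by ring
    linarith
  have hη0 : 0 ≤ η := by
    have : 0 ≤ D.η2 / D.c := by
      have := D.hCy; have := D.hsv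
      unfold CavCal.η2; positivity
    linarith
  exact sk_cavabs_absorb hx D.hxW hη0 hη (by have := D.hC2; positivity) hfin

end Claimed.Agent.R286
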