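import Mathlib

/-!
# Row 286 (S0533), folder Cav, file Anchor : the WEIGHTED ANCHOR bound of PE Lemma 4.8 (cavity.tex l.745-800)      (helper266; prefix `sk_cvan_`)

Abstract form (no spins, no trees).   `κ` = joint law of the exterior leaves given the trunk prefix, `H` = the exterior factors of the test,
`y` = the normalised spin vector of the exterior endpoint `o` of the incoming edge (coordinates `K`),
`V k = ∫ H y_k dκ` = the anchor `E[H y_o | F]`.

* `sk_cvan_cs`    : Cauchy-Schwarz for Bochner integrals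
* `sk_cvan_sq`    : `|V|² ≤ E[H²|F] * (E[R_{oo'}²|F])^{1/2}`      (PE: `|V|² ≤ E[H²|F] ‖A‖_op`, `‖A‖_op ≤ ‖A‖_HS = (E[R_{oo'}²|F])^{1/2}`)
* `sk_cvan_Lp`    : `E |V|^{2r} ≤ (E H^{4r})^{1/2} (E R_{oo'}^{2r})^{1/2}`, i.e. `‖V‖_p ≤ ‖H‖_{2p} ‖R_j‖_p^{1/2}` with `p = 2 r`, from pointwise data
TEX[PE:lem:cavity-replacements] (part: the anchor estimate)
-/

set_option autoImplicit false

namespace Claimed.Agent.R286

open MeasureTheory

/-- Cauchy-Schwarz for Bochner integrals -/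
theorem sk_cvan_cs {α : Type*} [MeasurableSpace α] {μ : Measure α} {u v : α → ℝ}
    (hu : Integrable (fun x => u x ^ 2) μ) (hv : Integrable (fun x => v x ^ 2) μ)
    (huv : Integrable (fun x => u x * v x) μ) :
    (∫ x, u x * v x ∂μ) ^ 2 ≤ (∫ x, u x ^ 2 ∂μ) * ∫ x, v x ^ 2 ∂μ := by
  have h : ∀ t : ℝ, 0 ≤ (∫ x, u x ^ 2 ∂μ) * (t * t) + (-2 * ∫ x, u x * v x ∂μ) * t
      + ∫ x, v x ^ 2 ∂μ := by
    intro t
    have e : ∫ x, (u x * t - v x) ^ 2 ∂μ =
        (∫ x, u x ^ 2 ∂μ) * (t * t) + (-2 * ∫ x, u x * v x ∂μ) * t + ∫ x, v x ^ 2 ∂μ := by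
      have e1 : (fun x => (u x * t - v x) ^ 2) =
          fun x => u x ^ 2 * (t * t) + (-2 * (u x * v x)) * t + v x ^ 2 := by
        funext x; ring
      have hs : Integrable (fun x => u x ^ 2 * (t * t) + (-2 * (u x * v x)) * t) μ :=
        (hu.mul_const _).add ((huv.const_mul _).mul_const _)
      rw [e1, integral_add hs hv, integral_add (hu.mul_const _) ((huv.const_mul _).mul_const _),
        integral_mul_const, integral_mul_const, integral_const_mul]
    rw [← e]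
    exact integral_nonneg (fun x => sq_nonneg _)
  have := discrim_le_zero h
  rw [discrim] at this
  nlinarith

/-- a bounded measurable function is integrable on a finite measure -/
theorem sk_cvan_int_bdd {α : Type*} [MeasurableSpace α] (μ : Measure α) [IsFiniteMeasure μ] {f : α → ℝ} (hf : Measurable f)
    (B : ℝ) (hb : ∀ x, |f x| ≤ B) : Integrable f μ :=
  Integrable.of_bound hf.aestronglyMeasurable B (Filter.Eventually.of_forall fun x => by simpa using hb x)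

variable {Ξ K : Type*} [MeasurableSpace Ξ] [Fintype K]

/-- **the weighted anchor bound**, pointwise in the trunk prefix -/
theorem sk_cvan_sq (κ : Measure Ξ) [IsFiniteMeasure κ] (H : Ξ → ℝ) (y : Ξ → K → ℝ) (C : ℝ)
    (hHm : AEStronglyMeasurable H κ) (hH : Integrable (fun ξ => H ξ ^ 2) κ)
    (hym : ∀ k, Measurable fun ξ => y ξ k) (hyb : ∀ ξ k, |y ξ k| ≤ C) :
    ∑ k, (∫ ξ, H ξ * y ξ k ∂κ) ^ 2 ≤
      (∫ ξ, H ξ ^ 2 ∂κ) * Real.sqrt (∫ ξ, ∫ ξ', (∑ k, y ξ k * y ξ' k) ^ 2 ∂κ ∂κ) := by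
  classical
  set V : K → ℝ := fun k => ∫ ξ, H ξ * y ξ k ∂κ with hV
  set N : ℝ := ∑ k, V k ^ 2 with hN
  set g : Ξ → ℝ := fun ξ => ∑ k, V k * y ξ k with hg
  set h2 : ℝ := ∫ ξ, ∫ ξ', (∑ k, y ξ k * y ξ' k) ^ 2 ∂κ ∂κ with hh2
  set q : ℝ := ∫ ξ, g ξ ^ 2 ∂κ with hq
  set A : ℝ := ∫ ξ, H ξ ^ 2 ∂κ with hA
  have hA0 : 0 ≤ A := integral_nonneg fun _ => sq_nonneg _
  have hN0 : 0 ≤ N := Finset.sum_nonneg fun _ _ => sq_nonneg _
  have hq0 : 0 ≤ q := integral_nonneg fun _ => sq_nonneg _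
  have hh0 : 0 ≤ h2 := integral_nonneg fun _ => integral_nonneg fun _ => sq_nonneg _
  -- integrability
  have hHi : Integrable H κ := by
    refine Integrable.mono' ((integrable_const (1 : ℝ)).add hH) hHm (Filter.Eventually.of_forall fun ξ => ?_)
    simp only [Real.norm_eq_abs, Pi.add_apply]
    nlinarith [sq_abs (H ξ), sq_nonneg (|H ξ| - 1), abs_nonneg (H ξ)]
  have hHy : ∀ k, Integrable (fun ξ => H ξ * y ξ k) κ := fun k =>
    hHi.mul_bdd (c := C) (hym k).aestronglyMeasurable (Filter.Eventually.of_forall fun ξ => by simpa using hyb ξ k)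
  have hgm : Measurable g := Finset.measurable_sum _ fun k _ => (hym k).const_mul _
  set G : ℝ := ∑ k, |V k| * C with hG
  have hgb : ∀ ξ, |g ξ| ≤ G := fun ξ => by
    refine (Finset.abs_sum_le_sum_abs _ _).trans (Finset.sum_le_sum fun k _ => ?_)
    rw [abs_mul]
    exact mul_le_mul_of_nonneg_left (hyb ξ k) (abs_nonneg _)
  have hgi2 : Integrable (fun ξ => g ξ ^ 2) κ :=
    sk_cvan_int_bdd κ (hgm.pow_const 2) (G ^ 2) fun ξ => by
      rw [abs_pow]; exact pow_le_pow_left₀ (abs_nonneg _) (hgb ξ) 2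
  have hHg : Integrable (fun ξ => H ξ * g ξ) κ :=
    hHi.mul_bdd (c := G) hgm.aestronglyMeasurable (Filter.Eventually.of_forall fun ξ => by simpa using hgb ξ)
  -- N = ∫ H g
  have e1 : ∫ ξ, H ξ * g ξ ∂κ = N := by
    have : (fun ξ => H ξ * g ξ) = fun ξ => ∑ k, V k * (H ξ * y ξ k) := by
      funext ξ; simp only [hg, Finset.mul_sum]; exact Finset.sum_congr rfl fun k _ => by ring
    rw [this, integral_finsetSum _ fun k _ => (hHy k).const_mul _]
    simp only [integral_const_mul, hN]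
    exact Finset.sum_congr rfl fun k _ => by simp only [hV]; ring
  have s1 : N ^ 2 ≤ A * q := by
    rw [← e1]; exact sk_cvan_cs hH hgi2 hHg
  -- q = ∑ V w
  set w : K → ℝ := fun k => ∫ ξ, g ξ * y ξ k ∂κ with hw
  have hgy : ∀ k, Integrable (fun ξ => g ξ * y ξ k) κ := fun k =>
    sk_cvan_int_bdd κ (hgm.mul (hym k)) (G * C) fun ξ => by
      rw [abs_mul]
      exact mul_le_mul (hgb ξ) (hyb ξ k) (abs_nonneg _) ((abs_nonneg _).trans (hgb ξ))
  have e2 : q = ∑ k, V k * w k := by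
    have : (fun ξ => g ξ ^ 2) = fun ξ => ∑ k, V k * (g ξ * y ξ k) := by
      funext ξ
      have : g ξ ^ 2 = g ξ * ∑ k, V k * y ξ k := by simp only [hg]; ring
      rw [this, Finset.mul_sum]; exact Finset.sum_congr rfl fun k _ => by ring
    rw [hq, this, integral_finsetSum _ fun k _ => (hgy k).const_mul _]
    simp only [integral_const_mul, hw]
  set Wn : ℝ := ∑ k, w k ^ 2 with hWn
  have hWn0 : 0 ≤ Wn := Finset.sum_nonneg fun _ _ => sq_nonneg _
  have s2 : q ^ 2 ≤ N * Wn := by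
    rw [e2]; exact Finset.sum_mul_sq_le_sq_mul_sq _ _ _
  -- Wn = ∫∫ g g' R
  set R : Ξ × Ξ → ℝ := fun z => ∑ k, y z.1 k * y z.2 k with hR
  have hRm : Measurable R := Finset.measurable_sum _ fun k _ =>
    ((hym k).comp measurable_fst).mul ((hym k).comp measurable_snd)
  set RB : ℝ := ∑ _k : K, C * C with hRB
  have hRb : ∀ z, |R z| ≤ RB := fun z => by
    refine (Finset.abs_sum_le_sum_abs _ _).trans (Finset.sum_le_sum fun k _ => ?_)
    rw [abs_mul]
    exact mul_le_mul (hyb _ k) (hyb _ k) (abs_nonneg _) ((abs_nonneg _).trans (hyb z.1 k))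
  have hgg : Measurable fun z : Ξ × Ξ => g z.1 * g z.2 := (hgm.comp measurable_fst).mul (hgm.comp measurable_snd)
  have hggb : ∀ z : Ξ × Ξ, |g z.1 * g z.2| ≤ G * G := fun z => by
    rw [abs_mul]; exact mul_le_mul (hgb _) (hgb _) (abs_nonneg _) ((abs_nonneg _).trans (hgb z.1))
  have i1 : Integrable (fun z : Ξ × Ξ => (g z.1 * g z.2) ^ 2) (κ.prod κ) :=
    sk_cvan_int_bdd _ (hgg.pow_const 2) ((G * G) ^ 2) fun z => by
      rw [abs_pow]; exact pow_le_pow_left₀ (abs_nonneg _) (hggb z) 2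
  have i2 : Integrable (fun z : Ξ × Ξ => R z ^ 2) (κ.prod κ) :=
    sk_cvan_int_bdd _ (hRm.pow_const 2) (RB ^ 2) fun z => by
      rw [abs_pow]; exact pow_le_pow_left₀ (abs_nonneg _) (hRb z) 2
  have i3 : Integrable (fun z : Ξ × Ξ => (g z.1 * g z.2) * R z) (κ.prod κ) :=
    sk_cvan_int_bdd _ (hgg.mul hRm) ((G * G) * RB) fun z => by
      rw [abs_mul]; exact mul_le_mul (hggb z) (hRb z) (abs_nonneg _) ((abs_nonneg _).trans (hggb z))
  have e3 : ∫ z, (g z.1 * g z.2) * R z ∂(κ.prod κ) = Wn := by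
    have : (fun z : Ξ × Ξ => (g z.1 * g z.2) * R z) = fun z => ∑ k, (g z.1 * y z.1 k) * (g z.2 * y z.2 k) := by
      funext z; simp only [hR, Finset.mul_sum]; exact Finset.sum_congr rfl fun k _ => by ring
    rw [this, integral_finsetSum _ fun k _ => (hgy k).mul_prod (hgy k)]
    refine Finset.sum_congr rfl fun k _ => ?_
    rw [integral_prod_mul (fun ξ => g ξ * y ξ k) (fun ξ => g ξ * y ξ k)]
    simp only [hw]; ring
  have e4 : ∫ z, (g z.1 * g z.2) ^ 2 ∂(κ.prod κ) = q ^ 2 := by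
    have : (fun z : Ξ × Ξ => (g z.1 * g z.2) ^ 2) = fun z => (g z.1 ^ 2) * (g z.2 ^ 2) := by
      funext z; ring
    rw [this, integral_prod_mul (fun ξ => g ξ ^ 2) (fun ξ => g ξ ^ 2)]
    simp only [hq]; ring
  have e5 : ∫ z, R z ^ 2 ∂(κ.prod κ) = h2 := by
    rw [integral_prod _ i2]
  have s3 : Wn ^ 2 ≤ q ^ 2 * h2 := by
    rw [← e3, ← e4, ← e5]; exact sk_cvan_cs i1 i2 i3
  set s : ℝ := Real.sqrt h2 with hs
  have hs0 : 0 ≤ s := Real.sqrt_nonneg _
  have hs2 : s ^ 2 = h2 := Real.sq_sqrt hh0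
  have s4 : Wn ≤ q * s := by
    refine abs_le_of_sq_le_sq' ?_ (mul_nonneg hq0 hs0) |>.2
    rw [mul_pow, hs2]; exact s3
  -- conclusion
  have s5 : q ≤ N * s := by
    rcases hq0.eq_or_lt with h | h
    · rw [← h]; exact mul_nonneg hN0 hs0
    · have : q * q ≤ q * (N * s) := by
        calc q * q = q ^ 2 := by ring
          _ ≤ N * Wn := s2
          _ ≤ N * (q * s) := mul_le_mul_of_nonneg_left s4 hN0
          _ = q * (N * s) := by ring
      exact le_of_mul_le_mul_left this h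
  rcases hN0.eq_or_lt with h | h
  · rw [← h]; exact mul_nonneg hA0 hs0
  · have : N * N ≤ N * (A * s) := by
      calc N * N = N ^ 2 := by ring
        _ ≤ A * q := s1
        _ ≤ A * (N * s) := mul_le_mul_of_nonneg_left s5 hA0
        _ = N * (A * s) := by ring
    exact le_of_mul_le_mul_left this h

/-- **`L^p` form** (`p = 2 r`): `N ω = |V|²`, `A ω = E[H²|F]`, `h ω = E[R²|F]`; `A2`, `h2` = conditional higher moments (Jensen). -/
theorem sk_cvan_Lp {Ω : Type*} [MeasurableSpace Ω] (P : Measure Ω) (r : ℕ) (N A h A2 h2 : Ω → ℝ)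
    (hN0 : ∀ ω, 0 ≤ N ω) (_hA0 : ∀ ω, 0 ≤ A ω) (hh0 : ∀ ω, 0 ≤ h ω)
    (hN : ∀ ω, N ω ≤ A ω * Real.sqrt (h ω)) (hA : ∀ ω, A ω ^ (2 * r) ≤ A2 ω) (hh : ∀ ω, h ω ^ r ≤ h2 ω)
    (hNi : Integrable (fun ω => N ω ^ r) P) (hA2 : Integrable A2 P) (hh2 : Integrable h2 P)
    (hAm : AEStronglyMeasurable A P) (hhm : AEStronglyMeasurable h P) :
    ∫ ω, N ω ^ r ∂P ≤ Real.sqrt (∫ ω, A2 ω ∂P) * Real.sqrt (∫ ω, h2 ω ∂P) := by
  set u : Ω → ℝ := fun ω => A ω ^ r with hu
  set v : Ω → ℝ := fun ω => Real.sqrt (h ω) ^ r with hv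
  have hu2 : ∀ ω, u ω ^ 2 = A ω ^ (2 * r) := fun ω => by simp only [hu]; rw [← pow_mul, mul_comm]
  have hv2 : ∀ ω, v ω ^ 2 = h ω ^ r := fun ω => by
    simp only [hv]; rw [← pow_mul, mul_comm, pow_mul, Real.sq_sqrt (hh0 ω)]
  have hum : AEStronglyMeasurable u P := hAm.pow r
  have hvm : AEStronglyMeasurable v P := by
    have : AEStronglyMeasurable (fun ω => Real.sqrt (h ω)) P :=
      (Real.continuous_sqrt.comp_aestronglyMeasurable hhm)
    exact this.pow r
  have iu : Integrable (fun ω => u ω ^ 2) P :=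
    hA2.mono' (hum.pow 2) (Filter.Eventually.of_forall fun ω => by
      rw [Real.norm_eq_abs, abs_of_nonneg (sq_nonneg _), hu2]; exact hA ω)
  have iv : Integrable (fun ω => v ω ^ 2) P :=
    hh2.mono' (hvm.pow 2) (Filter.Eventually.of_forall fun ω => by
      rw [Real.norm_eq_abs, abs_of_nonneg (sq_nonneg _), hv2]; exact hh ω)
  have iuv : Integrable (fun ω => u ω * v ω) P := by
    refine ((iu.add iv)).mono' (hum.mul hvm) (Filter.Eventually.of_forall fun ω => ?_)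
    simp only [Real.norm_eq_abs, Pi.add_apply]
    rw [abs_le]; constructor <;> nlinarith [sq_nonneg (u ω - v ω), sq_nonneg (u ω + v ω)]
  have h1 : ∫ ω, N ω ^ r ∂P ≤ ∫ ω, u ω * v ω ∂P := by
    refine integral_mono hNi iuv fun ω => ?_
    simp only [hu, hv]
    rw [← mul_pow]
    exact pow_le_pow_left₀ (hN0 ω) (hN ω) r
  have h2' : (∫ ω, u ω * v ω ∂P) ^ 2 ≤ (∫ ω, A2 ω ∂P) * ∫ ω, h2 ω ∂P := by
    refine (sk_cvan_cs iu iv iuv).trans ?_
    have a1 : ∫ ω, u ω ^ 2 ∂P ≤ ∫ ω, A2 ω ∂P := integral_mono iu hA2 fun ω => by simp only [hu2]; exact hA ω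
    have a2 : ∫ ω, v ω ^ 2 ∂P ≤ ∫ ω, h2 ω ∂P := integral_mono iv hh2 fun ω => by simp only [hv2]; exact hh ω
    exact mul_le_mul a1 a2 (integral_nonneg fun _ => sq_nonneg _)
      ((integral_nonneg fun _ => sq_nonneg _).trans a1)
  refine h1.trans ?_
  rw [← Real.sqrt_mul' _ ((integral_nonneg fun ω => (pow_nonneg (hh0 ω) r)).trans
    (integral_mono_of_nonneg (Filter.Eventually.of_forall fun ω => pow_nonneg (hh0 ω) r) hh2
      (Filter.Eventually.of_forall hh)))]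
  exact Real.le_sqrt_of_sq_le h2'

end Claimed.Agent.R286
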