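import Claimed.Agent.R286.Cav.H25Dic

/-!
# Row 286 (S0533), folder Cav (PE Section 4), file H25 : THE TWO RETAINED TERMS OF (24) AFTER THE REPLACEMENTS = the leaves `cve_E3`, `cve_E4` of equation (25)      (owner helper150; prefix `h25`)

TEX[PE:lem:cavity-replacements]      `h25_E3`, `h25_E4` = verbatim statements of `cve_E3`, `cve_E4` (`Cav/Eq25`, 244), COMPILED GLUE from
* `cvr_main1`, `cvr_main2` (185, `Cav/Rep`: PE Lemma 4.8 for full overlaps),   `cvri_in`, `cvri_high`, `cvri_sv_lg` (223, `Cav/RepInst`: the records at an instance),   `cve_gam_le` (244)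
* the dictionary `Cav/H25Dic` ((a) `eps = 0`, (b) `eps = 1/n`, (c) loss),   the numbers `cvn_*` (56, `Cav/Num`).
-/

set_option autoImplicit false

namespace Claimed.Agent.R286

open Finset

/-! ## 1. arithmetic -/

/-- the loss per unit: `eps / (a0 X) ≤ sv W x²` -/
theorem h25_n_t {x X W sv a0 eps : ℝ} (hx : 0 < x) (hxX : x ≤ X) (hxW : x ≤ W) (hx1 : x ≤ 1) (hs0 : 0 < sv) (hs1 : sv ≤ 1) (ha : 1 ≤ a0)
    (he : eps ≤ sv ^ 2 * x ^ 6) : eps / (a0 * X) ≤ sv * (W * x ^ 2) := by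
  have hX : 0 < a0 * X := by nlinarith
  rw [div_le_iff₀ hX]
  have h1 : x ≤ a0 * X := by nlinarith
  have h2 : sv ^ 2 * x ^ 6 ≤ sv * (x * x ^ 2) * x := by
    have a1 : sv ^ 2 ≤ sv := by nlinarith
    have a2 : x ^ 6 ≤ x ^ 4 := pow_le_pow_of_le_one hx.le hx1 (by norm_num)
    calc sv ^ 2 * x ^ 6 ≤ sv * x ^ 4 := mul_le_mul a1 a2 (by positivity) hs0.le
      _ = sv * (x * x ^ 2) * x := by ring
  have h3 : sv * (x * x ^ 2) * x ≤ sv * (W * x ^ 2) * (a0 * X) := by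
    have b1 : sv * (x * x ^ 2) ≤ sv * (W * x ^ 2) :=
      mul_le_mul_of_nonneg_left (mul_le_mul_of_nonneg_right hxW (by positivity)) hs0.le
    exact mul_le_mul b1 h1 hx.le (by have := hx.trans_le hxW; positivity)
  linarith

/-- `A²` -/
theorem h25_n_A {x W sv : ℝ} (hW : 0 < W) : (sv * x ^ 3 / (W * Real.sqrt W)) ^ 2 = sv ^ 2 * x ^ 6 / W ^ 3 := by
  rw [div_pow, mul_pow, mul_pow, Real.sq_sqrt hW.le]
  ring

/-- the error of the first replacement -/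
theorem h25_n_e1 {x X W sv lg Cl : ℝ} (hx : 0 < x) (hxX : x ≤ X) (hXW : X ≤ W) (hs0 : 0 < sv) (hlg : 0 ≤ lg) (hl : sv * lg ≤ Cl) :
    lg * (sv * x ^ 3 / (W * Real.sqrt W)) ^ 2 * (W / X) ≤ Cl * (sv * (W * x ^ 2)) := by
  have hX : 0 < X := hx.trans_le hxX
  have hW : 0 < W := hX.trans_le hXW
  rw [h25_n_A hW]
  have e : lg * (sv ^ 2 * x ^ 6 / W ^ 3) * (W / X) = (sv * lg) * (sv * (x ^ 6 / (W ^ 2 * X))) := by
    field_simp
  rw [e]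
  have h1 : x ^ 6 / (W ^ 2 * X) ≤ W * x ^ 2 := by
    rw [div_le_iff₀ (by positivity)]
    have a1 : x ^ 3 ≤ W ^ 3 := pow_le_pow_left₀ hx.le (hxX.trans hXW) 3
    calc x ^ 6 = x ^ 3 * x ^ 2 * x := by ring
      _ ≤ W ^ 3 * x ^ 2 * X := mul_le_mul (mul_le_mul_of_nonneg_right a1 (by positivity)) hxX hx.le (by positivity)
      _ = W * x ^ 2 * (W ^ 2 * X) := by ring
  calc (sv * lg) * (sv * (x ^ 6 / (W ^ 2 * X))) ≤ (sv * lg) * (sv * (W * x ^ 2)) :=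
        mul_le_mul_of_nonneg_left (mul_le_mul_of_nonneg_left h1 hs0.le) (mul_nonneg hs0.le hlg)
    _ ≤ Cl * (sv * (W * x ^ 2)) := mul_le_mul_of_nonneg_right hl (by positivity)

/-- the error of the second replacement -/
theorem h25_n_e2 {x X W sv lg Cl : ℝ} (hx : 0 < x) (hxX : x ≤ X) (hXW : X ≤ W) (hs0 : 0 < sv) (hs1 : sv ≤ 1) (hlg : 0 ≤ lg) (hl : sv * lg ≤ Cl) :
    lg * (sv * x ^ 3 / (W * Real.sqrt W) * Real.sqrt W + (sv * x ^ 3 / (W * Real.sqrt W)) ^ 2 / X) * (sv * x ^ 2 / W) ≤ 2 * Cl * (sv * (W * x ^ 2)) := by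
  have hX : 0 < X := hx.trans_le hxX
  have hW : 0 < W := hX.trans_le hXW
  have hq : 0 < Real.sqrt W := Real.sqrt_pos.2 hW
  rw [h25_n_A hW]
  have e0 : sv * x ^ 3 / (W * Real.sqrt W) * Real.sqrt W = sv * x ^ 3 / W := by field_simp
  rw [e0]
  have e : lg * (sv * x ^ 3 / W + sv ^ 2 * x ^ 6 / W ^ 3 / X) * (sv * x ^ 2 / W)
      = (sv * lg) * (sv * (x ^ 5 / W ^ 2 + sv * (x ^ 8 / (W ^ 4 * X)))) := by
    field_simp
  rw [e]
  have hxW : x ≤ W := hxX.trans hXW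
  have h1 : x ^ 5 / W ^ 2 ≤ W * x ^ 2 := by
    rw [div_le_iff₀ (by positivity)]
    have a1 : x ^ 3 ≤ W ^ 3 := pow_le_pow_left₀ hx.le hxW 3
    calc x ^ 5 = x ^ 3 * x ^ 2 := by ring
      _ ≤ W ^ 3 * x ^ 2 := mul_le_mul_of_nonneg_right a1 (by positivity)
      _ = W * x ^ 2 * W ^ 2 := by ring
  have h2 : x ^ 8 / (W ^ 4 * X) ≤ W * x ^ 2 := by
    rw [div_le_iff₀ (by positivity)]
    have a1 : x ^ 5 ≤ W ^ 5 := pow_le_pow_left₀ hx.le hxW 5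
    calc x ^ 8 = x ^ 5 * x ^ 2 * x := by ring
      _ ≤ W ^ 5 * x ^ 2 * X := mul_le_mul (mul_le_mul_of_nonneg_right a1 (by positivity)) hxX hx.le (by positivity)
      _ = W * x ^ 2 * (W ^ 4 * X) := by ring
  have h3 : sv * (x ^ 8 / (W ^ 4 * X)) ≤ W * x ^ 2 := by
    have : 0 ≤ x ^ 8 / (W ^ 4 * X) := by positivity
    nlinarith
  calc (sv * lg) * (sv * (x ^ 5 / W ^ 2 + sv * (x ^ 8 / (W ^ 4 * X)))) ≤ (sv * lg) * (sv * (2 * (W * x ^ 2))) :=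
        mul_le_mul_of_nonneg_left (mul_le_mul_of_nonneg_left (by linarith) hs0.le) (mul_nonneg hs0.le hlg)
    _ ≤ Cl * (sv * (2 * (W * x ^ 2))) := mul_le_mul_of_nonneg_right hl (by positivity)
    _ = _ := by ring

/-- the unit of the loss -/
theorem h25_unit {a0 W x sv t p : ℝ} {len Nd : ℕ} (k : ℕ) (ha : 1 ≤ a0) (hp : 0 ≤ p) (ht0 : 0 ≤ t) (ht : t ≤ sv * (W * x ^ 2)) (hlen : len ≤ Nd) :
    a0 ^ len * p * 2 ^ (len + k) * t ≤ a0 ^ Nd * 2 ^ (Nd + k) * (sv * (W * x ^ 2 * p)) := by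
  have h1 : a0 ^ len ≤ a0 ^ Nd := pow_le_pow_right₀ ha hlen
  have h2 : (2 : ℝ) ^ (len + k) ≤ 2 ^ (Nd + k) := pow_le_pow_right₀ (by norm_num) (by omega)
  have h0 : 0 ≤ a0 ^ len := by positivity
  calc a0 ^ len * p * 2 ^ (len + k) * t ≤ a0 ^ Nd * p * 2 ^ (Nd + k) * (sv * (W * x ^ 2)) := by
        refine mul_le_mul (mul_le_mul (mul_le_mul_of_nonneg_right h1 hp) h2 (by positivity) (by positivity)) ht ht0 (by positivity)
    _ = _ := by ring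

/-! ## 2. the records at an instance -/

/-- the constant of the scales -/
noncomputable def h25A0 (C : ℝ) (Cp : ℕ → ℝ) (r : ℕ) : ℝ := |cvnCx C Cp r| + cvnSt Cp r

theorem h25_eqns_cite4 : True := by
  have := @h25A0.eq_1
  trivial

theorem h25_A0_one (C : ℝ) (Cp : ℕ → ℝ) (r : ℕ) : 1 ≤ h25A0 C Cp r := by
  unfold h25A0 cvnSt
  have := abs_nonneg (cvnCx C Cp r)
  have := abs_nonneg (Cp r)
  linarith

/-- star-only tests: one cut, one scale -/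
theorem CvrIn.h25_star {n : ℕ} {ι : Type} [Fintype ι] {B : GhB (SkCfg n)} {ls : List (GhLv (SkCfg n) ι)} {tI tS tU : ℕ} {W x A lg : ℝ} {Cr Ca : ℕ → ℝ}
    {kM : ℕ} (h : CvrIn B ls tI tS tU W x A lg Cr Ca kM) : CvrIn B ls tS tS tU W W A lg Cr Ca kM where
  okB := h.okB
  adm := h.adm
  a_le := h.a_le
  hn := h.hn
  ord := ⟨le_rfl, h.ord.2⟩
  x_pos := h.x_pos.trans_le h.x_le
  x_le := le_rfl
  A_nonneg := h.A_nonneg
  Cr_nonneg := h.Cr_nonneg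
  Ca_nonneg := h.Ca_nonneg
  lg_nonneg := h.lg_nonneg
  U_pos := h.U_pos
  raw_star := h.raw_star
  cen_star := h.cen_star
  cen_ini := h.cen_star
  anchor := h.anchor
  mesh := h.mesh

/-- the two modes: (initial cut in the low band, scale `x`) or (star cut, scale `W`) -/
def H25Md (I : CavIn) (kI : ℕ) (X : ℝ) : Prop := (kI ≤ I.jB ∧ X = I.x) ∨ (kI = I.js ∧ X = I.W)

theorem h25_eqns_cite5 : True := by
  have := @H25Md.eq_1
  trivial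

/-- **`CvrIn` in both modes** -/
theorem h25_in (c C ρ : ℝ) (Cp : ℕ → ℝ) (hc : 0 < c) : ∃ Cr Ca : ℕ → ℝ, ∀ (kM : ℕ) (I : CavIn) (m0 : ℕ), CveHyp c C ρ Cp kM C 1 I m0 →
    ∀ (kI : ℕ) (X : ℝ), H25Md I kI X →
      CvrIn (skBase (m0 + 1) 1) (skLvs (m0 + 1) I.P) kI I.js (I.jU + 1) I.W X (I.sv * I.x ^ 3 / (I.W * Real.sqrt I.W)) (cvriLg I + 2) Cr Ca kM := by
  obtain ⟨Cr, Ca, H⟩ := cvri_in c C ρ Cp hc
  refine ⟨Cr, Ca, fun kM I m0 hI kI X hX => ?_⟩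
  rcases hX with ⟨h1, rfl⟩ | ⟨rfl, rfl⟩
  · have := H kM I hI.ok hI.star kI h1
    rwa [hI.hn] at this
  · have := (H kM I hI.ok hI.star 0 (Nat.zero_le _)).h25_star
    rwa [hI.hn] at this

/-- **the scales of the restoration in both modes** -/
theorem h25_inst {c C ρ : ℝ} {Cp : ℕ → ℝ} {kM : ℕ} {I : CavIn} {m0 : ℕ} (hI : CveHyp c C ρ Cp kM C 1 I m0) {r : ℕ} (hr1 : 1 ≤ r) (hr : r ≤ kM)
    {kI Ii : ℕ} (hT : CveTg I kI Ii) :
    ∃ X : ℝ, I.x ≤ X ∧ X ≤ I.W ∧ (Ii = 0 ∨ X = I.x) ∧ (kI ≠ I.js ∨ Ii = 0) ∧ H25Md I kI X ∧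
      H25Sc (cvySys m0 I.P) r kI I.js (h25A0 C Cp r * I.W) (h25A0 C Cp r * X) (1 / ((m0 : ℝ) + 1)) C := by
  have ha := h25_A0_one C Cp r
  have hx0 := hI.ok.x0
  have hW0 : 0 < I.W := hx0.trans_le hI.ok.xW
  obtain ⟨e1, -, e3⟩ := cvn_inv_n' I m0 hI.hn hI.ok hI.hx hI.hsv
  have hex : 1 / ((m0 : ℝ) + 1) ≤ I.x := e1.trans e3
  have hS : (cvySys m0 I.P).mom r I.js ≤ (h25A0 C Cp r * I.W) ^ (2 * r) := by
    refine (cvn_momS I m0 hI.hn hI.ok hI.star hI.hx hI.hsv hr).trans (pow_le_pow_left₀ ?_ ?_ _)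
    · have : 0 ≤ cvnSt Cp r := by unfold cvnSt; positivity
      have := hI.ok.sv0
      positivity
    · have h1 : 0 ≤ cvnSt Cp r := by unfold cvnSt; positivity
      have h2 : cvnSt Cp r ≤ h25A0 C Cp r := by unfold h25A0; linarith [abs_nonneg (cvnCx C Cp r)]
      calc cvnSt Cp r * I.sv * I.W ≤ cvnSt Cp r * 1 * I.W :=
            mul_le_mul_of_nonneg_right (mul_le_mul_of_nonneg_left hI.hsv h1) hW0.le
        _ ≤ h25A0 C Cp r * I.W := by rw [mul_one]; exact mul_le_mul_of_nonneg_right h2 hW0.le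
  rcases hT with ⟨h1, rfl⟩ | ⟨rfl, rfl⟩
  · refine ⟨I.x, le_rfl, hI.ok.xW, Or.inr rfl, Or.inl (by have := hI.star.jBs; omega), Or.inl ⟨h1, rfl⟩, ?_⟩
    refine ⟨cvy_ok m0 I.P hI.ok.adm, by positivity, by positivity, hex.trans (by nlinarith), mul_le_mul_of_nonneg_left hI.ok.xW (by linarith), hS, ?_,
      (cvn_bh_le I m0 hI.ok).1, Or.inl (by have := hI.star.jBs; omega)⟩
    refine (cvn_momI I m0 hI.hn hI.ok hI.hx hI.hsv (by have := hI.ok.jBX; omega) hr1 hr).trans ?_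
    rw [pow_mul, pow_mul, ← sq_abs (cvnCx C Cp r * I.x)]
    refine pow_le_pow_left₀ (by positivity) (pow_le_pow_left₀ (abs_nonneg _) ?_ 2) r
    rw [abs_mul, abs_of_pos hx0]
    refine mul_le_mul_of_nonneg_right ?_ hx0.le
    unfold h25A0 cvnSt
    linarith [abs_nonneg (Cp r)]
  · refine ⟨I.W, hI.ok.xW, le_rfl, Or.inl rfl, Or.inr rfl, Or.inr ⟨rfl, rfl⟩, ?_⟩
    exact ⟨cvy_ok m0 I.P hI.ok.adm, by positivity, by positivity, (hex.trans hI.ok.xW).trans (by nlinarith), le_rfl, hS, hS,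
      (cvn_bh_le I m0 hI.ok).1, Or.inr rfl⟩

/-! ## 3. the first retained term -/

/-- the common facts on one instance and one monomial -/
theorem h25_facts {c C ρ : ℝ} {Cp : ℕ → ℝ} {kM : ℕ} {I : CavIn} {m0 : ℕ} (hI : CveHyp c C ρ Cp kM C 1 I m0) {kI Ii : ℕ} (hT : CveTg I kI Ii) :
    kI ≤ I.js ∧ I.js < I.jU + 1 ∧ I.jU + 1 ≤ I.P.length ∧ I.js ≤ I.P.length ∧ kI ≤ I.P.length := by
  have h1 := hT.le hI.star
  have h2 := hI.star.jsU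
  have h3 : I.jU < I.P.length := hI.star.jUN
  omega

theorem h25_star_af {N kI kS a f : ℕ} (ha : a ≠ 0) (hf : f ≠ 0) (haf : a ≠ f) : cvtStar N kI kS a f = kS := by
  unfold cvtStar
  rw [if_neg haf, if_neg (by simp [ha, hf])]

theorem h25_star_le {N kI kS : ℕ} (h1 : kI ≤ N) (h2 : kS ≤ N) {y z : ℕ} (h : y ≠ z) : cvtStar N kI kS y z ≤ N := by
  unfold cvtStar
  rw [if_neg h]
  split_ifs <;> assumption

/-- **E3**      TEX[PE:lem:cavity-replacements] (i) -/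
theorem h25_E3 (c C ρ : ℝ) (Cp : ℕ → ℝ) (hc : 0 < c) (hρ : 0 < ρ) (Nd Qd : ℕ) :
    ∃ (kM : ℕ) (C3 : ℝ), 0 ≤ C3 ∧ ∀ (I : CavIn) (m0 : ℕ),
      CveHyp c C ρ Cp kM C 1 I m0 → ∀ kI Ii : ℕ, CveTg I kI Ii → ∀ (a f : ℕ) (μ : CvtMon), CveMon Nd Qd Ii a f μ →
        |(cvySys m0 I.P).cveM1 kI I.js (I.jU + 1) (Qd + 2) a f μ
            - (cvySys m0 I.P).b I.js * (cvySys m0 I.P).chi (I.jU + 1) ^ 2 * (cvySys m0 I.P).nuM kI I.js ((a, f) :: μ)|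
          ≤ C3 * I.sv * (I.W * I.x ^ 2 * cvtMsz I.W I.x μ) := by
  obtain ⟨Cr, Ca, Hin⟩ := h25_in c C ρ Cp hc
  obtain ⟨Cg, hCg, Hg⟩ := cve_gam_le c C ρ Cp hc
  obtain ⟨Cl, hCl, Hl⟩ := cvri_sv_lg c C ρ hc hρ
  obtain ⟨kR, CR, hCR, HR⟩ := cvr_main1 (Nd + Qd + 2) Cr Ca (Cg + 1)
  set r : ℕ := Nd + 2 with hr
  set a0 : ℝ := h25A0 C Cp r with ha0
  have ha1 : 1 ≤ a0 := h25_A0_one C Cp r
  set K1 : ℝ := a0 * |C| * (a0 ^ Nd * 2 ^ (Nd + 1)) with hK1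
  have hK10 : 0 ≤ K1 := by positivity
  refine ⟨max kR r, |C| * (h25TV 2 (Qd + 2) * K1 + CR * Cl + K1), by have := h25_TV_nonneg 2 (Qd + 2); positivity, ?_⟩
  intro I m0 hI kI Ii hT a f μ hμ
  obtain ⟨hIS, hSU, hUN, hSN, hIN⟩ := h25_facts hI hT
  obtain ⟨hlab, ha, hf, ha0', hf0, haf⟩ := h25_lab hμ
  obtain ⟨X, hxX, hXW, hX1, hX2, hMd, hsc⟩ := h25_inst hI (r := r) (by omega) (le_max_right _ _) hT
  have hP := hI.ok.adm
  have hY := cvy_ok m0 I.P hP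
  have hx0 := hI.ok.x0
  have hW0 : 0 < I.W := hx0.trans_le hI.ok.xW
  have hC0 : 0 < C := cvn_C_pos I hI.ok
  have hs0 := hI.ok.sv0
  have hlen : μ.length ≤ Nd := hμ.ok.len
  set Y := cvySys m0 I.P with hYd
  set q : ℕ := Qd + 2 with hq
  set τ : ℕ → ℕ → ℕ := cvtStar I.P.length kI I.js with hτd
  set eps : ℝ := 1 / ((m0 : ℝ) + 1) with heps
  set B := skBase (m0 + 1) 1 with hB
  set ls := skLvs (m0 + 1) I.P with hls
  set p : ℝ := cvtMsz I.W I.x μ with hp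
  have hp0 : 0 ≤ p := cvtMsz_nonneg hW0.le hx0.le μ
  have hpX : cvtMsz I.W X μ = p := by
    rcases hX1 with h | h
    · exact h25_msz_star (h ▸ hμ.ok.ini) _ _ _
    · rw [h]
  have hτ : IsTr I.P.length q τ := cvt_star_isTr hIS hSN q
  have hstaf : τ a f = I.js := h25_star_af ha0' hf0 haf
  have hlab' : ∀ e ∈ μ, e.1 < q ∧ e.2 < q ∧ τ e.1 e.2 ≤ I.P.length := fun e he =>
    ⟨(hlab e he).1, (hlab e he).2.1, h25_star_le hIN hSN (hlab e he).2.2⟩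
  have hlabP : ∀ e ∈ ((a, f) :: μ : CvtMon), e.1 < q ∧ e.2 < q ∧ e.1 ≠ e.2 := by
    intro e he
    rcases List.mem_cons.1 he with rfl | he
    · exact ⟨ha, hf, haf⟩
    · exact hlab e he
  have hlabP' : ∀ e ∈ ((a, f) :: μ : CvtMon), e.1 < q ∧ e.2 < q ∧ τ e.1 e.2 ≤ I.P.length := fun e he =>
    ⟨(hlabP e he).1, (hlabP e he).2.1, h25_star_le hIN hSN (hlabP e he).2.2⟩
  -- the loss per unit
  set t : ℝ := eps / (a0 * X) with ht
  have ht0 : 0 ≤ t := div_nonneg hsc.eps0 hsc.x0.le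
  have htle : t ≤ I.sv * (I.W * I.x ^ 2) :=
    h25_n_t hx0 hxX hI.ok.xW hI.hx hs0 hI.hsv ha1 (cvn_inv_n I m0 hI.hn hI.ok)
  have hmsz : cvtMsz (a0 * I.W) (a0 * X) μ = a0 ^ μ.length * p := by rw [h25_msz_smul, hpX]
  -- the chain
  have s1 : Y.cveM1 kI I.js (I.jU + 1) q a f μ = Y.b I.js * Y.fM1 0 (I.jU + 1) q τ a f μ := h25_a1 Y hY hIS hSU hUN μ hlab ha hf hstaf
  have s2 := h25_c1 hsc hIS hSU hUN μ hlab (by omega) ha hf hstaf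
  have s3 := h25_b1 m0 I.P hP hτ hSU hUN μ hlab' ha hf hstaf
  obtain ⟨ths, io, rest, hadm, hel, hem, hes⟩ := h25_adm (N := I.P.length) hIS hSN hμ hX2
  have hin := (Hin (max kR r) I m0 hI kI X hMd).mono (le_max_left kR r)
  have hgam : ∀ j, I.jU + 1 ≤ j → j ≤ ls.length → |Y.gam (I.jU + 1) j| ≤ (Cg + 1) * cvrV B ls j := by
    intro j h1 h2
    rw [hls, cvri_len] at h2
    rw [hB, hls, cvri_V]
    refine (Hg I m0 (hI.mono (by omega) le_rfl le_rfl) j h1 h2).trans ?_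
    exact mul_le_mul_of_nonneg_right (by linarith) (cvn_lo_nonneg I.P hP j)
  have hgt : |Y.gam (I.jU + 1) (ls.length + 1)| ≤ Cg + 1 := by
    rw [hls, cvri_len]
    exact (led_a_gam_le Y hY (I.jU + 1) le_rfl).trans (by linarith)
  have s4 := HR (m0 + 1) _ B ls kI I.js (I.jU + 1) I.W X _ _ hin q τ a f ths io rest (by rw [hls, cvri_len]; exact hadm) (by omega)
    (by rw [hel]; omega) (Y.gam (I.jU + 1)) hgam hgt
  rw [hem, hes, hpX, s3, hB, hls, h25_msf, cvri_len, ← hB, ← hls] at s4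
  have hchi : cvrChi (skMs 1 I.P) I.P.length (I.jU + 1) (Y.gam (I.jU + 1)) = Y.chi (I.jU + 1) := (h25_chi Y hY hUN).symm
  rw [hchi] at s4
  have s5 : trNu B ls q τ 0 (fun σ => cvrDl (cvrS B ls) τ a f σ * cvrMon (cvrS B ls) τ μ σ) = Y.act q τ (Y.gFl eps τ ((a, f) :: μ)) := by
    rw [← h25_b4 m0 I.P hP hτ ((a, f) :: μ) hlabP']
    congr 1
  rw [s5] at s4
  have s6 := h25_c4 hsc hIS hSN ((a, f) :: μ) hlabP (by simp only [List.length_cons]; omega)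
  have s7 : Y.nuM kI I.js ((a, f) :: μ) = Y.act q τ (Y.gFl 0 τ ((a, f) :: μ)) := by
    rw [← led_t_nuQ_eq Y hY hIS hSN ((a, f) :: μ) (q := q) (cvtTopM_cons_le ha hf (by have := hμ.ok.top; omega))]
    exact h25_a4 Y ((a, f) :: μ) fun e he => (hlabP e he).2.2
  -- numbers
  have hb0 : 0 ≤ Y.b I.js := ret_b_nonneg hY _
  have hbC : Y.b I.js ≤ C := hsc.b_le _
  have hχ0 : 0 ≤ Y.chi (I.jU + 1) := (cvs_x_chi_pos m0 hP hUN).le
  have hχ1 : Y.chi (I.jU + 1) ≤ 1 := cvs_x_chi_le m0 hP hUN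
  have hχ2 : Y.chi (I.jU + 1) ^ 2 ≤ 1 := by nlinarith
  set Z : ℝ := I.sv * (I.W * I.x ^ 2 * p) with hZ
  have hZ0 : 0 ≤ Z := by positivity
  have hu := h25_unit (a0 := a0) (W := I.W) (x := I.x) (sv := I.sv) (t := t) (p := p) 1 ha1 hp0 ht0 htle hlen
  have hwC : a0 * I.W ≤ a0 * |C| := by
    rw [abs_of_pos hC0]
    exact mul_le_mul_of_nonneg_left hI.ok.WC (by linarith)
  have hL : a0 * I.W * (a0 ^ μ.length * p) * 2 ^ (μ.length + 1) * t ≤ K1 * Z := by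
    calc a0 * I.W * (a0 ^ μ.length * p) * 2 ^ (μ.length + 1) * t = a0 * I.W * (a0 ^ μ.length * p * 2 ^ (μ.length + 1) * t) := by ring
      _ ≤ a0 * |C| * (a0 ^ Nd * 2 ^ (Nd + 1) * Z) := mul_le_mul hwC hu (by positivity) (by positivity)
      _ = K1 * Z := by rw [hK1]; ring
  rw [hmsz] at s2
  have s2' : |Y.fM1 eps (I.jU + 1) q τ a f μ - Y.fM1 0 (I.jU + 1) q τ a f μ| ≤ h25TV 2 q * (K1 * Z) :=
    s2.trans (mul_le_mul_of_nonneg_left hL (h25_TV_nonneg 2 q))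
  have s6' : |Y.act q τ (Y.gFl eps τ ((a, f) :: μ)) - Y.act q τ (Y.gFl 0 τ ((a, f) :: μ))| ≤ K1 * Z := by
    refine s6.trans ?_
    rw [cvtMsz_cons, cvtEsz_star _ _ ha0' hf0, hmsz, List.length_cons]
    exact hL
  have hlg0 : 0 ≤ cvriLg I + 2 := hin.lg_nonneg
  have s4' : |Y.fM1 eps (I.jU + 1) q τ a f μ - Y.chi (I.jU + 1) ^ 2 * Y.act q τ (Y.gFl eps τ ((a, f) :: μ))| ≤ CR * Cl * Z := by
    refine s4.trans ?_
    have h1 := h25_n_e1 hx0 hxX hXW hs0 hlg0 (Hl Cp _ I hI.ok hI.star hI.hx)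
    calc CR * (cvriLg I + 2) * (I.sv * I.x ^ 3 / (I.W * Real.sqrt I.W)) ^ 2 * (I.W / X) * p
        = CR * ((cvriLg I + 2) * (I.sv * I.x ^ 3 / (I.W * Real.sqrt I.W)) ^ 2 * (I.W / X)) * p := by ring
      _ ≤ CR * (Cl * (I.sv * (I.W * I.x ^ 2))) * p := mul_le_mul_of_nonneg_right (mul_le_mul_of_nonneg_left h1 hCR) hp0
      _ = CR * Cl * Z := by rw [hZ]; ring
  rw [s1, s7]
  set F0 := Y.fM1 0 (I.jU + 1) q τ a f μ
  set Fe := Y.fM1 eps (I.jU + 1) q τ a f μ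
  set Te := Y.act q τ (Y.gFl eps τ ((a, f) :: μ))
  set T0 := Y.act q τ (Y.gFl 0 τ ((a, f) :: μ))
  set χ := Y.chi (I.jU + 1)
  have e : Y.b I.js * F0 - Y.b I.js * χ ^ 2 * T0 = Y.b I.js * (-(Fe - F0) + (Fe - χ ^ 2 * Te) + χ ^ 2 * (Te - T0)) := by ring
  rw [e, abs_mul, abs_of_nonneg hb0]
  have b1 : |-(Fe - F0) + (Fe - χ ^ 2 * Te) + χ ^ 2 * (Te - T0)| ≤ h25TV 2 q * (K1 * Z) + CR * Cl * Z + K1 * Z := by
    have t1 := abs_add_le (-(Fe - F0) + (Fe - χ ^ 2 * Te)) (χ ^ 2 * (Te - T0))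
    have t2 := abs_add_le (-(Fe - F0)) (Fe - χ ^ 2 * Te)
    rw [abs_neg] at t2
    have t3 : |χ ^ 2 * (Te - T0)| ≤ K1 * Z := by
      rw [abs_mul, abs_of_nonneg (sq_nonneg χ)]
      calc χ ^ 2 * |Te - T0| ≤ 1 * (K1 * Z) := mul_le_mul hχ2 s6' (abs_nonneg _) zero_le_one
        _ = _ := one_mul _
    linarith
  calc Y.b I.js * |-(Fe - F0) + (Fe - χ ^ 2 * Te) + χ ^ 2 * (Te - T0)|
      ≤ |C| * (h25TV 2 q * (K1 * Z) + CR * Cl * Z + K1 * Z) := by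
        rw [abs_of_pos hC0]
        exact mul_le_mul hbC b1 (abs_nonneg _) hC0.le
    _ = |C| * (h25TV 2 q * K1 + CR * Cl + K1) * I.sv * (I.W * I.x ^ 2 * p) := by rw [hZ]; ring

/-! ## 4. the second retained term -/

/-- the error of `cvr_main2` in the units of (25) -/
theorem h25_E4_err {CR C b lg T eH p Cl sv W x : ℝ} (hCR : 0 ≤ CR) (hC : 0 ≤ C) (hb0 : 0 ≤ b) (hb : b ≤ C) (hp : 0 ≤ p)
    (h : lg * T * eH ≤ 2 * Cl * (sv * (W * x ^ 2))) (h0 : 0 ≤ lg * T * eH) :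
    CR * 2 * C * |b| * lg * T * eH * p ≤ CR * 2 * C * C * (2 * Cl) * (sv * (W * x ^ 2)) * p := by
  rw [abs_of_nonneg hb0]
  calc CR * 2 * C * b * lg * T * eH * p = CR * 2 * C * b * (lg * T * eH) * p := by ring
    _ ≤ CR * 2 * C * C * (2 * Cl * (sv * (W * x ^ 2))) * p :=
        mul_le_mul_of_nonneg_right (mul_le_mul (mul_le_mul_of_nonneg_left hb (by positivity)) h h0 (by positivity)) hp
    _ = _ := by ring

/-- the final algebra of E4 -/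
theorem h25_E4_fin {T3 T4 C w wc Kc K b χ M1 M2 U1 U2 Z GE F0 Fe La Lf Pa Pf La0 Lf0 Pa0 Pf0 : ℝ} (hT3 : 0 ≤ T3) (hT4 : 0 ≤ T4) (hC : 0 ≤ C)
    (hw0 : 0 ≤ w) (hw : w ≤ wc) (hK0 : 0 ≤ K) (hK : K ≤ Kc) (hb0 : 0 ≤ b) (hb : b ≤ C) (hχ0 : 0 ≤ χ) (hχ1 : χ ≤ 1)
    (hM10 : 0 ≤ M1) (hM1 : M1 ≤ U1 * Z) (hM20 : 0 ≤ M2) (hM2 : M2 ≤ U2 * Z) (hU1 : 0 ≤ U1) (hU2 : 0 ≤ U2) (hZ : 0 ≤ Z)
    (s2 : |Fe - F0| ≤ T4 * (2 * C * ((K + C * w) * ((2 + w) * M2))))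
    (l1 : |La - La0| ≤ T3 * (C * ((2 + w) * M1))) (l2 : |Lf - Lf0| ≤ T3 * (C * ((2 + w) * M1)))
    (l3 : |Pa - Pa0| ≤ T3 * (C * ((2 + w) * (w * M2)))) (l4 : |Pf - Pf0| ≤ T3 * (C * ((2 + w) * (w * M2))))
    (s4 : |Fe - χ * K * (La + Lf) - b * χ * (Pa + Pf)| ≤ GE * Z) :
    |F0 - χ * K * (La0 + Lf0) - b * χ * (Pa0 + Pf0)|
      ≤ (T4 * (2 * C * ((Kc + C * wc) * ((2 + wc) * U2))) + GE + Kc * (T3 * (C * ((2 + wc) * U1)) + T3 * (C * ((2 + wc) * U1)))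
          + C * (T3 * (C * ((2 + wc) * (wc * U2))) + T3 * (C * ((2 + wc) * (wc * U2))))) * Z := by
  have hwc0 : 0 ≤ wc := hw0.trans hw
  have hKc0 : 0 ≤ Kc := hK0.trans hK
  have a1 : (2 + w) * M1 ≤ (2 + wc) * (U1 * Z) := mul_le_mul (by linarith) hM1 hM10 (by linarith)
  have a2 : (2 + w) * M2 ≤ (2 + wc) * (U2 * Z) := mul_le_mul (by linarith) hM2 hM20 (by linarith)
  have a3 : (2 + w) * (w * M2) ≤ (2 + wc) * (wc * (U2 * Z)) :=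
    mul_le_mul (by linarith) (mul_le_mul hw hM2 hM20 hwc0) (mul_nonneg hw0 hM20) (by linarith)
  have a4 : K + C * w ≤ Kc + C * wc := add_le_add hK (mul_le_mul_of_nonneg_left hw hC)
  have s2' : |Fe - F0| ≤ T4 * (2 * C * ((Kc + C * wc) * ((2 + wc) * (U2 * Z)))) :=
    s2.trans (mul_le_mul_of_nonneg_left (mul_le_mul_of_nonneg_left (mul_le_mul a4 a2 (by positivity) (by positivity)) (by positivity)) hT4)
  have l1' : |La - La0| ≤ T3 * (C * ((2 + wc) * (U1 * Z))) := l1.trans (mul_le_mul_of_nonneg_left (mul_le_mul_of_nonneg_left a1 hC) hT3)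
  have l2' : |Lf - Lf0| ≤ T3 * (C * ((2 + wc) * (U1 * Z))) := l2.trans (mul_le_mul_of_nonneg_left (mul_le_mul_of_nonneg_left a1 hC) hT3)
  have l3' : |Pa - Pa0| ≤ T3 * (C * ((2 + wc) * (wc * (U2 * Z)))) := l3.trans (mul_le_mul_of_nonneg_left (mul_le_mul_of_nonneg_left a3 hC) hT3)
  have l4' : |Pf - Pf0| ≤ T3 * (C * ((2 + wc) * (wc * (U2 * Z)))) := l4.trans (mul_le_mul_of_nonneg_left (mul_le_mul_of_nonneg_left a3 hC) hT3)
  have e : F0 - χ * K * (La0 + Lf0) - b * χ * (Pa0 + Pf0)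
      = -(Fe - F0) + (Fe - χ * K * (La + Lf) - b * χ * (Pa + Pf)) + χ * K * ((La - La0) + (Lf - Lf0)) + b * χ * ((Pa - Pa0) + (Pf - Pf0)) := by ring
  rw [e]
  have t1 := abs_add_le (-(Fe - F0) + (Fe - χ * K * (La + Lf) - b * χ * (Pa + Pf)) + χ * K * ((La - La0) + (Lf - Lf0))) (b * χ * ((Pa - Pa0) + (Pf - Pf0)))
  have t2 := abs_add_le (-(Fe - F0) + (Fe - χ * K * (La + Lf) - b * χ * (Pa + Pf))) (χ * K * ((La - La0) + (Lf - Lf0)))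
  have t3 := abs_add_le (-(Fe - F0)) (Fe - χ * K * (La + Lf) - b * χ * (Pa + Pf))
  rw [abs_neg] at t3
  have t4 : |χ * K * ((La - La0) + (Lf - Lf0))| ≤ Kc * (T3 * (C * ((2 + wc) * (U1 * Z))) + T3 * (C * ((2 + wc) * (U1 * Z)))) := by
    rw [abs_mul, abs_of_nonneg (mul_nonneg hχ0 hK0)]
    have b1 : χ * K ≤ Kc := by
      calc χ * K ≤ 1 * Kc := mul_le_mul hχ1 hK hK0 zero_le_one
        _ = Kc := one_mul _
    exact mul_le_mul b1 ((abs_add_le _ _).trans (add_le_add l1' l2')) (abs_nonneg _) hKc0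
  have t5 : |b * χ * ((Pa - Pa0) + (Pf - Pf0))| ≤ C * (T3 * (C * ((2 + wc) * (wc * (U2 * Z)))) + T3 * (C * ((2 + wc) * (wc * (U2 * Z))))) := by
    rw [abs_mul, abs_of_nonneg (mul_nonneg hb0 hχ0)]
    have b1 : b * χ ≤ C := by
      calc b * χ ≤ C * 1 := mul_le_mul hb hχ1 hχ0 hC
        _ = C := mul_one _
    exact mul_le_mul b1 ((abs_add_le _ _).trans (add_le_add l3' l4')) (abs_nonneg _) hC
  have e2 : (T4 * (2 * C * ((Kc + C * wc) * ((2 + wc) * U2))) + GE + Kc * (T3 * (C * ((2 + wc) * U1)) + T3 * (C * ((2 + wc) * U1)))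
          + C * (T3 * (C * ((2 + wc) * (wc * U2))) + T3 * (C * ((2 + wc) * (wc * U2))))) * Z
      = T4 * (2 * C * ((Kc + C * wc) * ((2 + wc) * (U2 * Z)))) + GE * Z
        + Kc * (T3 * (C * ((2 + wc) * (U1 * Z))) + T3 * (C * ((2 + wc) * (U1 * Z))))
        + C * (T3 * (C * ((2 + wc) * (wc * (U2 * Z)))) + T3 * (C * ((2 + wc) * (wc * (U2 * Z))))) := by ring
  rw [e2]
  linarith

set_option maxHeartbeats 1600000 in
/-- **E4**      TEX[PE:lem:cavity-replacements] (ii), (iii), (iv) -/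
theorem h25_E4 (c C ρ : ℝ) (Cp : ℕ → ℝ) (hc : 0 < c) (hρ : 0 < ρ) (Nd Qd : ℕ) :
    ∃ (kM : ℕ) (C4 : ℝ), 0 ≤ C4 ∧ ∀ (I : CavIn) (m0 : ℕ),
      CveHyp c C ρ Cp kM C 1 I m0 → ∀ kI Ii : ℕ, CveTg I kI Ii → ∀ (a f : ℕ) (μ : CvtMon), CveMon Nd Qd Ii a f μ →
        |(cvySys m0 I.P).cveM2 kI I.js (I.jU + 1) (Qd + 2) a f μ
            - (cvySys m0 I.P).chi (I.jU + 1) * (cvySys m0 I.P).K I.js
                * ((cvySys m0 I.P).LM kI I.js (I.jU + 1) μ a + (cvySys m0 I.P).LM kI I.js (I.jU + 1) μ f)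
            - (cvySys m0 I.P).b I.js * (cvySys m0 I.P).chi (I.jU + 1)
                * ((cvySys m0 I.P).LM kI I.js (I.jU + 1) ((a, f) :: μ) a + (cvySys m0 I.P).LM kI I.js (I.jU + 1) ((a, f) :: μ) f)|
          ≤ C4 * I.sv * (I.W * I.x ^ 2 * cvtMsz I.W I.x μ) := by
  obtain ⟨Cr, Ca, Hin⟩ := h25_in c C ρ Cp hc
  obtain ⟨Cg, hCg, Hg⟩ := cve_gam_le c C ρ Cp hc
  obtain ⟨Cl, hCl, Hl⟩ := cvri_sv_lg c C ρ hc hρ
  obtain ⟨kR, CR, hCR, HR⟩ := cvr_main2 (Nd + Qd + 2) Cr Ca (Cg + 1)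
  set r : ℕ := Nd + 2 with hr
  set a0 : ℝ := h25A0 C Cp r with ha0
  have ha1 : 1 ≤ a0 := h25_A0_one C Cp r
  set wc : ℝ := a0 * |C| with hwc
  set Kc : ℝ := |cvnCo C Cp r| * |C| with hKc
  set U1 : ℝ := a0 ^ Nd * 2 ^ (Nd + 1) with hU1
  set U2 : ℝ := a0 ^ Nd * 2 ^ (Nd + 2) with hU2
  set G2 : ℝ := h25TV 4 (Qd + 2) * (2 * |C| * ((Kc + |C| * wc) * ((2 + wc) * U2))) with hG2
  set G3 : ℝ := h25TV 3 (Qd + 2) * (|C| * ((2 + wc) * U1)) with hG3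
  set G3' : ℝ := h25TV 3 (Qd + 2) * (|C| * ((2 + wc) * (wc * U2))) with hG3'
  set GE : ℝ := CR * 2 * |C| * |C| * (2 * Cl) with hGE
  have hwc0 : 0 ≤ wc := by positivity
  have hKc0 : 0 ≤ Kc := by positivity
  have hU10 : 0 ≤ U1 := by positivity
  have hU20 : 0 ≤ U2 := by positivity
  have hT3 := h25_TV_nonneg 3 (Qd + 2)
  have hT4 := h25_TV_nonneg 4 (Qd + 2)
  have hG20 : 0 ≤ G2 := by positivity
  have hG30 : 0 ≤ G3 := by positivity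
  have hG30' : 0 ≤ G3' := by positivity
  have hGE0 : 0 ≤ GE := by positivity
  refine ⟨max kR r, G2 + GE + Kc * (G3 + G3) + |C| * (G3' + G3'), by positivity, ?_⟩
  intro I m0 hI kI Ii hT a f μ hμ
  obtain ⟨hIS, hSU, hUN, hSN, hIN⟩ := h25_facts hI hT
  obtain ⟨hlab, ha, hf, ha0', hf0, haf⟩ := h25_lab hμ
  obtain ⟨X, hxX, hXW, hX1, hX2, hMd, hsc⟩ := h25_inst hI (r := r) (by omega) (le_max_right _ _) hT
  have hP := hI.ok.adm
  have hY := cvy_ok m0 I.P hP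
  have hx0 := hI.ok.x0
  have hW0 : 0 < I.W := hx0.trans_le hI.ok.xW
  have hC0 : 0 < C := cvn_C_pos I hI.ok
  have hCa : |C| = C := abs_of_pos hC0
  have hs0 := hI.ok.sv0
  have hlen : μ.length ≤ Nd := hμ.ok.len
  set Y := cvySys m0 I.P with hYd
  set q : ℕ := Qd + 2 with hq
  set τ : ℕ → ℕ → ℕ := cvtStar I.P.length kI I.js with hτd
  set eps : ℝ := 1 / ((m0 : ℝ) + 1) with heps
  set B := skBase (m0 + 1) 1 with hB
  set ls := skLvs (m0 + 1) I.P with hls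
  set p : ℝ := cvtMsz I.W I.x μ with hp
  have hp0 : 0 ≤ p := cvtMsz_nonneg hW0.le hx0.le μ
  have hpX : cvtMsz I.W X μ = p := by
    rcases hX1 with h | h
    · exact h25_msz_star (h ▸ hμ.ok.ini) _ _ _
    · rw [h]
  have hτ : IsTr I.P.length q τ := cvt_star_isTr hIS hSN q
  have hstaf : τ a f = I.js := h25_star_af ha0' hf0 haf
  have hlab' : ∀ e ∈ μ, e.1 < q ∧ e.2 < q ∧ τ e.1 e.2 ≤ I.P.length := fun e he =>
    ⟨(hlab e he).1, (hlab e he).2.1, h25_star_le hIN hSN (hlab e he).2.2⟩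
  have hlabP : ∀ e ∈ ((a, f) :: μ : CvtMon), e.1 < q ∧ e.2 < q ∧ e.1 ≠ e.2 := by
    intro e he
    rcases List.mem_cons.1 he with rfl | he
    · exact ⟨ha, hf, haf⟩
    · exact hlab e he
  have hlabP' : ∀ e ∈ ((a, f) :: μ : CvtMon), e.1 < q ∧ e.2 < q ∧ τ e.1 e.2 ≤ I.P.length := fun e he =>
    ⟨(hlabP e he).1, (hlabP e he).2.1, h25_star_le hIN hSN (hlabP e he).2.2⟩
  have htop : cvtTopM μ ≤ q := by have := hμ.ok.top; omega
  have htopP : cvtTopM ((a, f) :: μ) ≤ q := cvtTopM_cons_le ha hf htop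
  -- the loss per unit
  set t : ℝ := eps / (a0 * X) with ht
  have ht0 : 0 ≤ t := div_nonneg hsc.eps0 hsc.x0.le
  have htle : t ≤ I.sv * (I.W * I.x ^ 2) :=
    h25_n_t hx0 hxX hI.ok.xW hI.hx hs0 hI.hsv ha1 (cvn_inv_n I m0 hI.hn hI.ok)
  have hmsz : cvtMsz (a0 * I.W) (a0 * X) μ = a0 ^ μ.length * p := by rw [h25_msz_smul, hpX]
  have hmszP : cvtMsz (a0 * I.W) (a0 * X) ((a, f) :: μ) = a0 * I.W * (a0 ^ μ.length * p) := by
    rw [cvtMsz_cons, cvtEsz_star _ _ ha0' hf0, hmsz]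
  set Z : ℝ := I.sv * (I.W * I.x ^ 2 * p) with hZ
  have hZ0 : 0 ≤ Z := by positivity
  have hu1 : a0 ^ μ.length * p * 2 ^ (μ.length + 1) * t ≤ U1 * Z :=
    h25_unit (a0 := a0) (W := I.W) (x := I.x) (sv := I.sv) (t := t) (p := p) 1 ha1 hp0 ht0 htle hlen
  have hu2 : a0 ^ μ.length * p * 2 ^ (μ.length + 2) * t ≤ U2 * Z :=
    h25_unit (a0 := a0) (W := I.W) (x := I.x) (sv := I.sv) (t := t) (p := p) 2 ha1 hp0 ht0 htle hlen
  have hw0 : 0 ≤ a0 * I.W := by positivity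
  have hwC : a0 * I.W ≤ wc := by
    rw [hwc, hCa]
    exact mul_le_mul_of_nonneg_left hI.ok.WC (by linarith)
  -- numbers
  have hb0 : 0 ≤ Y.b I.js := ret_b_nonneg hY _
  have hbC : Y.b I.js ≤ |C| := by rw [hCa]; exact hsc.b_le _
  have hχ0 : 0 ≤ Y.chi (I.jU + 1) := (cvs_x_chi_pos m0 hP hUN).le
  have hχ1 : Y.chi (I.jU + 1) ≤ 1 := cvs_x_chi_le m0 hP hUN
  have hK0 : 0 ≤ Y.K I.js := ret_K_nonneg hY _
  have hKle : Y.K I.js ≤ Kc := by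
    refine (cvn_low_W I m0 hI.hn hI.ok hI.star hI.hx hI.hsv (j := I.js) (r := r) (by omega) (by omega) (le_max_right _ _)).2.trans ?_
    rw [hKc, hCa]
    exact mul_le_mul (le_abs_self _) hI.ok.WC hW0.le (abs_nonneg _)
  -- the chain
  have s1 : Y.cveM2 kI I.js (I.jU + 1) q a f μ = Y.fM2 0 (I.jU + 1) I.js q τ a f μ := h25_a2 Y hY hIS hSU hUN μ hlab ha hf hstaf
  have s2 := h25_c2 hsc hIS hSU hUN μ hlab (by omega) ha hf hstaf
  have s3 := h25_b2 m0 I.P hP hτ hSU hUN μ hlab' ha hf hstaf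
  obtain ⟨ths, io, rest, hadm, hel, hem, hes⟩ := h25_adm (N := I.P.length) hIS hSN hμ hX2
  have hin := (Hin (max kR r) I m0 hI kI X hMd).mono (le_max_left kR r)
  have hgam : ∀ j, I.jU + 1 ≤ j → j ≤ Y.N → |Y.gam (I.jU + 1) j| ≤ (Cg + 1) * cvrV B ls j := by
    intro j h1 h2
    rw [hB, hls, cvri_V]
    refine (Hg I m0 (hI.mono (by omega) le_rfl le_rfl) j h1 h2).trans ?_
    exact mul_le_mul_of_nonneg_right (by linarith) (cvn_lo_nonneg I.P hP j)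
  have hscal : CvrScal ls.length (I.jU + 1) (cvrV B ls) (Y.gam (I.jU + 1)) (h25Kap Y (I.jU + 1)) Y.b (Cg + 1) 2 C := by
    have := h25_scal Y hY (I.jU + 1) hgam (by linarith) hsc.b_le
    rw [hls, cvri_len]
    exact this
  have hhigh : CvrHigh B ls (I.jU + 1) (cvriLg I + 2) (I.sv * I.x ^ 2 / I.W) (cvD (m0 + 1) I.P) := by
    have := cvri_high hc hI.ok hI.star
    rwa [hI.hn] at this
  have s4 := HR (m0 + 1) _ B ls kI I.js (I.jU + 1) I.W X _ _ hin q τ a f ths io rest (by rw [hls, cvri_len]; exact hadm) (by omega)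
    (by rw [hel]; omega) (Y.gam (I.jU + 1)) (h25Kap Y (I.jU + 1)) Y.b 2 C _ (Y.K I.js) (Y.b I.js) _ hscal hhigh
  have hXD : (fun σ : ℕ → SkCfg (m0 + 1) => cvrMon (cvrS B ls) τ μ σ * cvrDl (cvrS B ls) τ a f σ) = cvrMon (cvrS B ls) τ ((a, f) :: μ) := by
    funext σ
    rw [cvrMon_cons, mul_comm]
  rw [hem, hes, hpX, s3, hXD, h25_b3 m0 I.P hP hτ μ hlab' ha, h25_b3 m0 I.P hP hτ μ hlab' hf, h25_b3 m0 I.P hP hτ ((a, f) :: μ) hlabP' ha,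
    h25_b3 m0 I.P hP hτ ((a, f) :: μ) hlabP' hf, hB, hls, h25_msf, cvri_len] at s4
  have hchi : cvrChi (skMs 1 I.P) I.P.length (I.jU + 1) (Y.gam (I.jU + 1)) = Y.chi (I.jU + 1) := (h25_chi Y hY hUN).symm
  rw [hchi] at s4
  have l1 := h25_c3 hsc hIS hSN (I.jU + 1) μ hlab (by omega) ha
  have l2 := h25_c3 hsc hIS hSN (I.jU + 1) μ hlab (by omega) hf
  have l3 := h25_c3 hsc hIS hSN (I.jU + 1) ((a, f) :: μ) hlabP (by simp only [List.length_cons]; omega) ha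
  have l4 := h25_c3 hsc hIS hSN (I.jU + 1) ((a, f) :: μ) hlabP (by simp only [List.length_cons]; omega) hf
  have m1 : Y.LM kI I.js (I.jU + 1) μ a = Y.fL 0 (I.jU + 1) q τ a μ := by
    rw [← led_t_LQ_eq Y hY hIS hSN (I.jU + 1) μ htop ha]; exact h25_a3 Y hY hIS hSN (I.jU + 1) μ hlab
  have m2 : Y.LM kI I.js (I.jU + 1) μ f = Y.fL 0 (I.jU + 1) q τ f μ := by
    rw [← led_t_LQ_eq Y hY hIS hSN (I.jU + 1) μ htop hf]; exact h25_a3 Y hY hIS hSN (I.jU + 1) μ hlab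
  have m3 : Y.LM kI I.js (I.jU + 1) ((a, f) :: μ) a = Y.fL 0 (I.jU + 1) q τ a ((a, f) :: μ) := by
    rw [← led_t_LQ_eq Y hY hIS hSN (I.jU + 1) ((a, f) :: μ) htopP ha]; exact h25_a3 Y hY hIS hSN (I.jU + 1) ((a, f) :: μ) hlabP
  have m4 : Y.LM kI I.js (I.jU + 1) ((a, f) :: μ) f = Y.fL 0 (I.jU + 1) q τ f ((a, f) :: μ) := by
    rw [← led_t_LQ_eq Y hY hIS hSN (I.jU + 1) ((a, f) :: μ) htopP hf]; exact h25_a3 Y hY hIS hSN (I.jU + 1) ((a, f) :: μ) hlabP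
  rw [hmsz] at s2 l1 l2
  rw [hmszP, List.length_cons] at l3 l4
  have hlg0 : 0 ≤ cvriLg I + 2 := hin.lg_nonneg
  have s4' := s4.trans (h25_E4_err (CR := CR) (C := C) (b := Y.b I.js) (p := p) hCR hC0.le hb0 (hsc.b_le _) hp0
    (h25_n_e2 hx0 hxX hXW hs0 hI.hsv hlg0 (Hl Cp _ I hI.ok hI.star hI.hx)) (by
      have hA0 := hin.A_nonneg
      have hX0 : 0 < X := hx0.trans_le hxX
      positivity))
  rw [s1, m1, m2, m3, m4]
  have hfin := h25_E4_fin (T3 := h25TV 3 q) (T4 := h25TV 4 q) (C := C) (w := a0 * I.W) (wc := wc) (Kc := Kc) (K := Y.K I.js) (b := Y.b I.js)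
    (χ := Y.chi (I.jU + 1)) (M1 := a0 ^ μ.length * p * 2 ^ (μ.length + 1) * t) (M2 := a0 ^ μ.length * p * 2 ^ (μ.length + 2) * t) (U1 := U1) (U2 := U2)
    (Z := Z) (GE := CR * 2 * C * C * (2 * Cl)) hT3 hT4 hC0.le hw0 hwC hK0 hKle hb0 (hsc.b_le _) hχ0 hχ1 (by positivity) hu1 (by positivity) hu2 hU10 hU20 hZ0
    (by rw [abs_of_nonneg hK0] at s2; refine s2.trans (le_of_eq ?_); ring)
    (l1.trans (le_of_eq (by ring))) (l2.trans (le_of_eq (by ring))) (l3.trans (le_of_eq (by ring))) (l4.trans (le_of_eq (by ring)))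
    (s4'.trans (le_of_eq (by rw [hZ]; ring)))
  refine hfin.trans (le_of_eq ?_)
  rw [hG2, hG3, hG3', hGE, hCa, hZ]
  ring

end Claimed.Agent.R286
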