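import Claimed.Agent.R286.Cav.TstApr

/-!
# Row 286 (S0533), folder Cav (PE Section 4), file H25Res : RESTORATION OF THE DELETED OVERLAPS, abstract part      (owner helper150; prefix `h25`)

PE cavity.tex l.375-392 ("restoring the deleted coordinate changes every overlap by at most `1/n`; Hoelder at a fixed order").      TEX[PE:lem:cavity-replacements] (restoration)
* `h25_pert`      Hoelder perturbation for a LIST of factors on a `CvExp`: `‖u_i‖_{2r} ≤ A_i`, `|v_i - u_i| ≤ eps` pointwise, spectators `G`: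
                  `|E[∏G ∏v] - E[∏G ∏u]| ≤ ∏G (∏(A_i + eps) - ∏A_i)`
* `h25_num`       `∏(A_i + eps) - ∏A_i ≤ ∏A_i (2^len - 1) eps / y`      (`y ≤ A_i`, `eps ≤ y`)
* `h25_sum_le`    two signed sums over `k` new labels whose summands differ by at most `M` on the extensions of `τ`
* `Y.gFl eps τ es`   the monomial of the edges `es` on ANY table `τ`: `∏ (R⁻ + eps s s' - S_{τ e})`;   `eps = 0`: deleted overlaps, `eps = 1/n`: full overlaps
* `h25_gfl`       **the restoration lemma** on any table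
-/

set_option autoImplicit false

namespace Claimed.Agent.R286

open Finset

/-- a pointwise bound gives the moment bound -/
theorem h25_mom_of_le {X : Type} (ν : CvExp X) (r : ℕ) {f : X → ℝ} {c : ℝ} (h : ∀ ω, |f ω| ≤ c) : ν.E (fun ω => f ω ^ (2 * r)) ≤ c ^ (2 * r) := by
  have h1 := ν.mono (fun ω => f ω ^ (2 * r)) (fun _ => c ^ (2 * r)) fun ω => by
    calc f ω ^ (2 * r) = |f ω| ^ (2 * r) := by rw [pow_mul, pow_mul, sq_abs]
      _ ≤ c ^ (2 * r) := pow_le_pow_left₀ (abs_nonneg _) (h ω) _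
  rwa [ν.const] at h1

/-- **Hoelder perturbation.**   `L` = list of (deleted factor `u`, restored factor `v`, bound `A`), `G` = list of spectators (factor, bound) -/
theorem h25_pert {X : Type} (ν : CvExp X) (r : ℕ) {eps : ℝ} (heps : 0 ≤ eps) :
    ∀ (L : List ((X → ℝ) × (X → ℝ) × ℝ)) (G : List ((X → ℝ) × ℝ)), G.length + L.length ≤ 2 * r →
    (∀ p ∈ G, 0 ≤ p.2 ∧ ν.E (fun ω => p.1 ω ^ (2 * r)) ≤ p.2 ^ (2 * r)) →
    (∀ p ∈ L, 0 ≤ p.2.2 ∧ ν.E (fun ω => p.1 ω ^ (2 * r)) ≤ p.2.2 ^ (2 * r) ∧ ∀ ω, |p.2.1 ω - p.1 ω| ≤ eps) →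
    |ν.E (fun ω => (G.map fun p => p.1 ω).prod * (L.map fun p => p.2.1 ω).prod)
        - ν.E (fun ω => (G.map fun p => p.1 ω).prod * (L.map fun p => p.1 ω).prod)|
      ≤ (G.map fun p => p.2).prod * ((L.map fun p => p.2.2 + eps).prod - (L.map fun p => p.2.2).prod) := by
  intro L
  induction L with
  | nil =>
    intro G _ _ _
    simp
  | cons t L ih =>
    intro G hlen hG hL
    obtain ⟨u, v, A⟩ := t
    obtain ⟨hA, hu, huv⟩ := hL (u, v, A) List.mem_cons_self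
    have hL' : ∀ p ∈ L, 0 ≤ p.2.2 ∧ ν.E (fun ω => p.1 ω ^ (2 * r)) ≤ p.2.2 ^ (2 * r) ∧ ∀ ω, |p.2.1 ω - p.1 ω| ≤ eps :=
      fun p hp => hL p (List.mem_cons_of_mem _ hp)
    simp only [List.length_cons] at hlen
    have h1 := ih ((u, A) :: G) (by simp only [List.length_cons]; omega) (by
      intro p hp
      rcases List.mem_cons.1 hp with rfl | hp
      · exact ⟨hA, hu⟩
      · exact hG p hp) hL'
    have hd : ν.E (fun ω => (v ω - u ω) ^ (2 * r)) ≤ eps ^ (2 * r) := h25_mom_of_le ν r huv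
    have hG2 : ∀ p ∈ ((fun ω => v ω - u ω, eps) :: G : List ((X → ℝ) × ℝ)), 0 ≤ p.2 ∧ ν.E (fun ω => p.1 ω ^ (2 * r)) ≤ p.2 ^ (2 * r) := by
      intro p hp
      rcases List.mem_cons.1 hp with rfl | hp
      · exact ⟨heps, hd⟩
      · exact hG p hp
    have h2 := ih ((fun ω => v ω - u ω, eps) :: G) (by simp only [List.length_cons]; omega) hG2 hL'
    have h3 := led_a_hol ν r (((fun ω => v ω - u ω, eps) :: G) ++ L.map fun p => (p.1, p.2.2))
      (by simp only [List.length_append, List.length_cons, List.length_map]; omega) (by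
        intro p hp
        rcases List.mem_append.1 hp with hp | hp
        · exact hG2 p hp
        · obtain ⟨p', hp', rfl⟩ := List.mem_map.1 hp
          exact ⟨(hL' p' hp').1, (hL' p' hp').2.1⟩)
    simp only [List.map_cons, List.prod_cons, List.map_append, List.prod_append, List.map_map, Function.comp_def] at h1 h2 h3 ⊢
    set g : X → ℝ := fun ω => (G.map fun p => p.1 ω).prod with hg
    set V : X → ℝ := fun ω => (L.map fun p => p.2.1 ω).prod with hV
    set U : X → ℝ := fun ω => (L.map fun p => p.1 ω).prod with hU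
    set Γ : ℝ := (G.map fun p => p.2).prod with hΓ
    set P' : ℝ := (L.map fun p => p.2.2 + eps).prod with hP'
    set Q' : ℝ := (L.map fun p => p.2.2).prod with hQ'
    have e1 : (fun ω => g ω * (v ω * V ω)) = fun ω => u ω * g ω * V ω + (v ω - u ω) * g ω * V ω := by
      funext ω; ring
    have e2 : (fun ω => g ω * (u ω * U ω)) = fun ω => u ω * g ω * U ω := by
      funext ω; ring
    have a1 : |ν.E (fun ω => u ω * g ω * V ω) - ν.E (fun ω => u ω * g ω * U ω)| ≤ A * Γ * (P' - Q') := h1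
    have a2 : |ν.E (fun ω => (v ω - u ω) * g ω * V ω) - ν.E (fun ω => (v ω - u ω) * g ω * U ω)| ≤ eps * Γ * (P' - Q') := h2
    have a3 : |ν.E (fun ω => (v ω - u ω) * g ω * U ω)| ≤ eps * Γ * Q' := h3
    show |ν.E (fun ω => g ω * (v ω * V ω)) - ν.E (fun ω => g ω * (u ω * U ω))| ≤ Γ * ((A + eps) * P' - A * Q')
    rw [e1, e2, ν.add]
    have b1 := abs_le.1 a1
    have b2 := abs_le.1 a2
    have b3 := abs_le.1 a3
    rw [abs_le]
    constructor <;> nlinarith [b1.1, b1.2, b2.1, b2.2, b3.1, b3.2]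

/-- numeric form of the loss -/
theorem h25_num {eps y : ℝ} (heps : 0 ≤ eps) (hy : 0 < y) (hey : eps ≤ y) :
    ∀ As : List ℝ, (∀ A ∈ As, y ≤ A) →
      (As.map fun A => A + eps).prod - As.prod ≤ As.prod * ((2 : ℝ) ^ As.length - 1) * (eps / y) := by
  intro As
  induction As with
  | nil => intro _; simp
  | cons A As ih =>
    intro h
    have hA : y ≤ A := h A List.mem_cons_self
    have ih' := ih fun B hB => h B (List.mem_cons_of_mem _ hB)
    have hQ : 0 ≤ As.prod := List.prod_nonneg fun B hB => hy.le.trans (h B (List.mem_cons_of_mem _ hB))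
    simp only [List.map_cons, List.prod_cons, List.length_cons]
    set P := (As.map fun A => A + eps).prod with hP
    set Q := As.prod with hQd
    set c : ℝ := (2 : ℝ) ^ As.length - 1 with hc
    set t : ℝ := eps / y with ht
    have hc0 : 0 ≤ c := by
      have : (1 : ℝ) ≤ 2 ^ As.length := one_le_pow₀ (by norm_num)
      linarith
    have ht0 : 0 ≤ t := div_nonneg heps hy.le
    have ht1 : t ≤ 1 := (div_le_one hy).2 hey
    have he : eps = t * y := by rw [ht]; field_simp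
    have heA : eps ≤ t * A := by rw [he]; exact mul_le_mul_of_nonneg_left hA ht0
    have hA0 : 0 ≤ A := hy.le.trans hA
    have hP1 : P ≤ Q + Q * c * t := by linarith
    have hP2 : Q + Q * c * t ≤ Q * (1 + c) := by
      have : Q * c * t ≤ Q * c * 1 := mul_le_mul_of_nonneg_left ht1 (mul_nonneg hQ hc0)
      linarith
    have hP0 : 0 ≤ Q * (1 + c) := mul_nonneg hQ (by linarith)
    have e : (2 : ℝ) ^ (As.length + 1) - 1 = 2 * c + 1 := by rw [hc, pow_succ]; ring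
    rw [e]
    calc (A + eps) * P - A * Q = A * (P - Q) + eps * P := by ring
      _ ≤ A * (Q * c * t) + (t * A) * (Q * (1 + c)) := by
        refine add_le_add (mul_le_mul_of_nonneg_left ih' hA0) ?_
        calc eps * P ≤ eps * (Q * (1 + c)) := mul_le_mul_of_nonneg_left (hP1.trans hP2) heps
          _ ≤ (t * A) * (Q * (1 + c)) := mul_le_mul_of_nonneg_right heA hP0
      _ = A * Q * (2 * c + 1) * t := by ring

/-! ## signed sums -/

theorem h25_sumK_sub (ms : ℕ → ℝ) (N k : ℕ) : ∀ (q : ℕ) (τ : ℕ → ℕ → ℕ) (Φ Ψ : (ℕ → ℕ → ℕ) → ℝ),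
    trSumK ms N k q τ (fun τ' => Φ τ' - Ψ τ') = trSumK ms N k q τ Φ - trSumK ms N k q τ Ψ := by
  induction k with
  | zero => intro q τ Φ Ψ; rfl
  | succ k ih =>
    intro q τ Φ Ψ
    simp only [trSumK, trSum, ih, mul_sub, Finset.sum_sub_distrib]

/-- total variation of `k` new labels -/
noncomputable def h25TV (k q : ℕ) : ℝ := 2 ^ k * ∏ i ∈ Finset.range k, ((q : ℝ) + i)

theorem h25_eqns_cite : True := by
  have := @h25TV.eq_1
  trivial

theorem h25_TV_nonneg (k q : ℕ) : 0 ≤ h25TV k q := by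
  unfold h25TV
  positivity

/-- **two signed sums whose summands are close on the extensions of `τ`** -/
theorem h25_sum_le {N q : ℕ} {τ : ℕ → ℕ → ℕ} {ms : ℕ → ℝ} (hτ : IsTr N q τ) (hms : IsMs N ms) (htop : ms N = 1) (k : ℕ)
    (Φ Ψ : (ℕ → ℕ → ℕ) → ℝ) {M : ℝ} (hM : 0 ≤ M)
    (h : ∀ τ', IsTr N (q + k) τ' → (∀ y z, y < q → z < q → τ' y z = τ y z) → |Φ τ' - Ψ τ'| ≤ M) :
    |trSumK ms N k q τ Φ - trSumK ms N k q τ Ψ| ≤ h25TV k q * M := by
  classical
  rw [← h25_sumK_sub]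
  set D : (ℕ → ℕ → ℕ) → ℝ := fun τ' => Φ τ' - Ψ τ' with hD
  set E : (ℕ → ℕ → ℕ) → ℝ := fun τ' => if ∀ y z, y < q → z < q → τ' y z = τ y z then D τ' else 0 with hE
  have s1 : |trSumK ms N k q τ D| ≤ trAbsK ms N k q τ fun τ' => |D τ'| := tr_sumK_le k D
  have s2 : (trAbsK ms N k q τ fun τ' => |D τ'|) = trAbsK ms N k q τ fun τ' => |E τ'| := by
    refine tr_absK_congr hτ k _ _ fun τ' _ hext => ?_
    rw [hE]
    simp only
    rw [if_pos hext]
  have s3 := tr_absK_le hτ hms k E M (by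
    intro τ' hτ'
    rw [hE]
    simp only
    split_ifs with hext
    · exact h τ' hτ' hext
    · simpa using hM)
  rw [htop, mul_one] at s3
  calc _ ≤ _ := s1
    _ = _ := s2
    _ ≤ _ := s3

/-! ## monomials on an arbitrary table -/

namespace LedSys

variable {Ω : Type} (Y : LedSys Ω)

/-- the factor of the edge `e` on the table `τ`, with the site term `eps s s'` -/
def eFl (eps : ℝ) (τ : ℕ → ℕ → ℕ) (σ : ℕ → Bool × Ω) (e : ℕ × ℕ) : ℝ :=
  Y.R (σ e.1).2 (σ e.2).2 + eps * (ledSg (σ e.1).1 * ledSg (σ e.2).1) - Y.S (τ e.1 e.2)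

/-- the monomial of the edges `es` on the table `τ` -/
def gFl (eps : ℝ) (τ : ℕ → ℕ → ℕ) (es : List (ℕ × ℕ)) (σ : ℕ → Bool × Ω) : ℝ := (es.map (Y.eFl eps τ σ)).prod

end LedSys

theorem h25_eqns_cite2 : True := by
  have := @LedSys.eFl.eq_1
  have := @LedSys.gFl.eq_1
  trivial

variable {Ω : Type} (Y : LedSys Ω)

@[simp] theorem h25_gFl_nil (eps : ℝ) (τ : ℕ → ℕ → ℕ) (σ : ℕ → Bool × Ω) : Y.gFl eps τ [] σ = 1 := rfl

@[simp] theorem h25_gFl_cons (eps : ℝ) (τ : ℕ → ℕ → ℕ) (e : ℕ × ℕ) (es : List (ℕ × ℕ)) (σ : ℕ → Bool × Ω) :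
    Y.gFl eps τ (e :: es) σ = Y.eFl eps τ σ e * Y.gFl eps τ es σ := by
  simp [LedSys.gFl]

/-- only the table on the edges matters -/
theorem h25_gFl_congr (eps : ℝ) {τ τ' : ℕ → ℕ → ℕ} (es : List (ℕ × ℕ)) (h : ∀ e ∈ es, τ' e.1 e.2 = τ e.1 e.2) (σ : ℕ → Bool × Ω) :
    Y.gFl eps τ' es σ = Y.gFl eps τ es σ := by
  unfold LedSys.gFl
  congr 1
  refine List.map_congr_left fun e he => ?_
  unfold LedSys.eFl
  rw [h e he]

theorem h25_gFl_uses (eps : ℝ) (τ : ℕ → ℕ → ℕ) (es : List (ℕ × ℕ)) {Q : ℕ} (h : ∀ e ∈ es, e.1 < Q ∧ e.2 < Q) : TrUses Q (Y.gFl eps τ es) := by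
  intro σ σ' hσ
  unfold LedSys.gFl
  congr 1
  refine List.map_congr_left fun e he => ?_
  unfold LedSys.eFl
  rw [hσ _ (h e he).1, hσ _ (h e he).2]

/-- the monomial of `Cav/TstMod` is the monomial of the deleted overlaps on every table which extends the star table -/
theorem h25_mEv_eq {kI kS : ℕ} (m : CvtMon) (hloop : ∀ e ∈ m, e.1 ≠ e.2) {τ : ℕ → ℕ → ℕ}
    (hst : ∀ e ∈ m, τ e.1 e.2 = cvtStar Y.N kI kS e.1 e.2) (σ : ℕ → Bool × Ω) :
    Y.mEv kI kS m (fun i => (σ i).2) = Y.gFl 0 τ m σ := by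
  unfold LedSys.mEv LedSys.gFl
  congr 1
  refine List.map_congr_left fun e he => ?_
  unfold LedSys.eDl LedSys.eFl
  rw [hst e he]
  unfold cvtStar
  rw [if_neg (hloop e he), zero_mul, add_zero]

/-- the moment of a deleted factor = the moment of its pair -/
theorem h25_edge (hY : Y.Ok) (r : ℕ) {Q : ℕ} {τ : ℕ → ℕ → ℕ} (hτ : IsTr Y.N Q τ) {e : ℕ × ℕ} (h1 : e.1 < Q) (h2 : e.2 < Q) (hne : e.1 ≠ e.2) :
    Y.act Q τ (fun σ => Y.eFl 0 τ σ e ^ (2 * r)) = Y.mom r (τ e.1 e.2) := by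
  have h := led_a_pair Y hY led_t_prof1 led_t_one_mem hτ h1 h2 hne (fun u v => (Y.R u.2 v.2 - Y.S (τ e.1 e.2)) ^ (2 * r))
  have e1 : (fun σ : ℕ → Bool × Ω => Y.eFl 0 τ σ e ^ (2 * r)) = fun σ => (Y.R (σ e.1).2 (σ e.2).2 - Y.S (τ e.1 e.2)) ^ (2 * r) := by
    funext σ
    unfold LedSys.eFl
    rw [zero_mul, add_zero]
  rw [e1]
  exact h

/-- **THE RESTORATION LEMMA** on an arbitrary table, with spectators `G` (factor, `L^{2r}` bound); `sc e` = `L^{2r}` bound of the deleted factor of the edge `e` -/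
theorem h25_gfl (hY : Y.Ok) (r : ℕ) {eps : ℝ} (heps : 0 ≤ eps) {Q : ℕ} {τ : ℕ → ℕ → ℕ} (hτ : IsTr Y.N Q τ) (es : List (ℕ × ℕ)) (sc : ℕ × ℕ → ℝ)
    (G : List (((ℕ → Bool × Ω) → ℝ) × ℝ)) (hlen : G.length + es.length ≤ 2 * r)
    (hG : ∀ p ∈ G, 0 ≤ p.2 ∧ Y.act Q τ (fun σ => p.1 σ ^ (2 * r)) ≤ p.2 ^ (2 * r))
    (hes : ∀ e ∈ es, e.1 < Q ∧ e.2 < Q ∧ e.1 ≠ e.2 ∧ 0 ≤ sc e ∧ Y.mom r (τ e.1 e.2) ≤ sc e ^ (2 * r)) :
    |Y.act Q τ (fun σ => (G.map fun p => p.1 σ).prod * Y.gFl eps τ es σ) - Y.act Q τ (fun σ => (G.map fun p => p.1 σ).prod * Y.gFl 0 τ es σ)|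
      ≤ (G.map fun p => p.2).prod * ((es.map fun e => sc e + eps).prod - (es.map sc).prod) := by
  have hmean := hY.mean (fun _ => 1) 1 Q τ led_t_prof1 led_t_one_mem hτ
  have h := h25_pert (ledExp hmean) r heps
    (es.map fun e => ((fun σ : ℕ → Bool × Ω => Y.eFl 0 τ σ e), (fun σ : ℕ → Bool × Ω => Y.eFl eps τ σ e), sc e)) G
    (by simpa using hlen) hG (by
      intro p hp
      obtain ⟨e, he, rfl⟩ := List.mem_map.1 hp
      obtain ⟨a1, a2, a3, a4, a5⟩ := hes e he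
      refine ⟨a4, ?_, fun σ => ?_⟩
      · show Y.act Q τ (fun σ => Y.eFl 0 τ σ e ^ (2 * r)) ≤ _
        rw [h25_edge Y hY r hτ a1 a2 a3]
        exact a5
      · show |Y.eFl eps τ σ e - Y.eFl 0 τ σ e| ≤ eps
        unfold LedSys.eFl
        have : Y.R (σ e.1).2 (σ e.2).2 + eps * (ledSg (σ e.1).1 * ledSg (σ e.2).1) - Y.S (τ e.1 e.2)
            - (Y.R (σ e.1).2 (σ e.2).2 + 0 * (ledSg (σ e.1).1 * ledSg (σ e.2).1) - Y.S (τ e.1 e.2))
            = eps * (ledSg (σ e.1).1 * ledSg (σ e.2).1) := by ring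
        rw [this, abs_mul, abs_mul, led_a_sg, led_a_sg, abs_of_nonneg heps]
        simp)
  simp only [List.map_map, Function.comp_def] at h
  exact h

/-- the restoration lemma without spectators -/
theorem h25_gfl0 (hY : Y.Ok) (r : ℕ) {eps : ℝ} (heps : 0 ≤ eps) {Q : ℕ} {τ : ℕ → ℕ → ℕ} (hτ : IsTr Y.N Q τ) (es : List (ℕ × ℕ)) (sc : ℕ × ℕ → ℝ)
    (hlen : es.length ≤ 2 * r)
    (hes : ∀ e ∈ es, e.1 < Q ∧ e.2 < Q ∧ e.1 ≠ e.2 ∧ 0 ≤ sc e ∧ Y.mom r (τ e.1 e.2) ≤ sc e ^ (2 * r)) :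
    |Y.act Q τ (Y.gFl eps τ es) - Y.act Q τ (Y.gFl 0 τ es)| ≤ (es.map fun e => sc e + eps).prod - (es.map sc).prod := by
  have h := h25_gfl Y hY r heps hτ es sc [] (by simpa using hlen) (by simp) hes
  simpa using h

/-- trivial moment bound -/
theorem h25_mom_two (hY : Y.Ok) (r : ℕ) {j : ℕ} (hj : j ≤ Y.N + 1) : Y.mom r j ≤ 2 ^ (2 * r) := by
  have hmean := hY.mean (fun _ => 1) 1 2 (ledPair Y.N j) led_t_prof1 led_t_one_mem (led_a_pair_isTr hj)
  refine h25_mom_of_le (ledExp hmean) r fun σ => ?_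
  have h1 := abs_le.1 (hY.R_le (σ 0).2 (σ 1).2)
  have h2 := hY.S_nonneg j
  have h3 := hY.S_le j
  exact abs_le.2 ⟨by linarith, by linarith⟩

end Claimed.Agent.R286
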