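import Claimed.Agent.R286.Cav.Eq24
import Claimed.Agent.R286.Cav.H25Res
import Claimed.Agent.R286.Cav.H25

/-!
# Row 286 (S0533), folder Cav (PE Section 4), file Eq25 : THE GLUE = EQUATION (25) PER MONOMIAL ON THE SK SYSTEM      (owner / architect helper244; prefix `cve`, `Cve`)

PRODUCES the two fields of the records of helper218 (`Cav/TstInst`: `CvtIn.Ok.h25`, `CvtIn.Cal.hcal`) which are not soft, for `Y = cvySys m0 I.P` (`Cav/Sys`), `I : CavIn` (`Cav/Contract`), `I.n = m0 + 1`,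
`kS = I.js`, `kU = I.jU + 1`, `kI` = the cut of the initial tooth.      CONSUMERS: `Exit/CvtInst` (helper150), `Cav/Asm` (helper56).      Shape of the quantifiers = shape of `Cav/Contract` (agreed with 56).
* **`cve_h25`**    TEX[PE:lem:cavity-replacements] (equation (25), with the switch term of R1 of helper266)
* **`cve_hcal`**   TEX[PE:lem:cavity-calibration] ((24) at `P = 1` after the replacements)
BOTH ARE COMPILED GLUE from the following LEAVES (one `sorry` each; key in `claim286` = the name).   All tests are monomials in the DELETED overlaps (`Y.mEv`), `q = Qd + 2` labels, star table `cvtStar N kI kS`.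
  `A(μ) = ν[s_a s_f μ]`, `M1, M2` = the retained terms `LedSys.main1, main2` of `led_main`.
* `cve_24`   (G4, owner 204, `Cav/Eq24`)      `|A(μ) - Γ ν[μ] - M1(μ) - M2(μ)| ≤ C (ε + (D_i/x)^θ) W x² p₀`      = `led_main` (204) on the star table + evaluation of the ledger (numbers: `Cav/Num`, 56; `hpr`: Pre/18-206; `hbd`: `Cav/Bdy`, 169)
* `cve_lhs`  (G2, owner 244)      `|A(μ) - ν[Δ_af μ] - S_* ν[μ]| ≤ C sv W x² p₀`      = restoration + site symmetry (`cvy_site_sym`, `cvy_act`)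
* `cve_E3`   (owner 150)          `|M1(μ) - b_* χ² ν[Δ_af μ]| ≤ C sv W x² p₀`      = `cvr_main1` (185) + dictionary + restoration
* `cve_E4`   (owner 150)          `|M2(μ) - χ K_* (𝓛(μ,a) + 𝓛(μ,f)) - b_* χ (𝓛(Δ_af μ, a) + 𝓛(Δ_af μ, f))| ≤ C sv W x² p₀`      = `cvr_main2` (185) + dictionary + restoration
* `cve_L0`   (owner 244)          `|𝓛(1,a)| ≤ C sv x²`      (deleted overlaps are centred up to `1/n` only)
* `cve_num`  (owner 56, `Cav/Num`)   `0 ≤ χ ≤ 1`, `0 ≤ b_* ≤ C`, `|K_*| ≤ C W`, `|ν[μ]| ≤ C p₀`, `|ν[Δ_12]| ≤ C sv W x²`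
ALGEBRA (proved here): with `X(μ) = (1 - b χ²) ν[Δ_af μ] + (S - Γ) ν[μ] - χ K (𝓛(μ,a) + 𝓛(μ,f)) - b χ (𝓛(Δ_af μ,a) + 𝓛(Δ_af μ,f))`:
  `X(μ) = (ν[Δ_af μ] + S ν[μ] - A) + (A - Γ ν[μ] - M1 - M2) + (M1 - ..) + (M2 - ..)`      and      `F25(μ) = X(μ) - ν[μ] X(1) - ν[μ] χ K (𝓛(1,a) + 𝓛(1,f))`.
-/

set_option autoImplicit false

namespace Claimed.Agent.R286

/-! ## 1. algebra -/

/-- `X(μ)`: the defect of (24) after the replacements, for the monomial `μ` -/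
def cveX (nu : CvtMon → ℝ) (L : CvtMon → ℕ → ℝ) (bs χ Ks S Γ : ℝ) (a f : ℕ) (μ : CvtMon) : ℝ :=
  (1 - bs * χ ^ 2) * nu ((a, f) :: μ) + (S - Γ) * nu μ - χ * Ks * (L μ a + L μ f)
    - bs * χ * (L ((a, f) :: μ) a + L ((a, f) :: μ) f)

theorem cve_eqns_cite : True := by
  have := @cveX.eq_1
  trivial

/-- (25) for `μ` = (24) for `μ` minus `ν[μ]` times (24) for `1` -/
theorem cve_alg_id (nu : CvtMon → ℝ) (L : CvtMon → ℕ → ℝ) (bs χ Ks S Γ : ℝ) (a f : ℕ) (μ : CvtMon) (h1 : nu [] = 1) :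
    cvtF25 nu L bs χ Ks a f μ
      = cveX nu L bs χ Ks S Γ a f μ - nu μ * cveX nu L bs χ Ks S Γ a f [] - nu μ * (χ * Ks * (L [] a + L [] f)) := by
  unfold cvtF25 cveX
  rw [h1]
  ring

/-- the four pieces of `X(μ)` -/
theorem cve_alg_X (nu : CvtMon → ℝ) (L : CvtMon → ℕ → ℝ) (bs χ Ks S Γ : ℝ) (a f : ℕ) (μ : CvtMon) (A M1 M2 e24 eL e1 e2 : ℝ)
    (h24 : |A - Γ * nu μ - M1 - M2| ≤ e24) (hL : |A - nu ((a, f) :: μ) - S * nu μ| ≤ eL)
    (h1 : |M1 - bs * χ ^ 2 * nu ((a, f) :: μ)| ≤ e1)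
    (h2 : |M2 - χ * Ks * (L μ a + L μ f) - bs * χ * (L ((a, f) :: μ) a + L ((a, f) :: μ) f)| ≤ e2) :
    |cveX nu L bs χ Ks S Γ a f μ| ≤ e24 + eL + e1 + e2 := by
  have e : cveX nu L bs χ Ks S Γ a f μ
      = -(A - nu ((a, f) :: μ) - S * nu μ) + (A - Γ * nu μ - M1 - M2) + (M1 - bs * χ ^ 2 * nu ((a, f) :: μ))
        + (M2 - χ * Ks * (L μ a + L μ f) - bs * χ * (L ((a, f) :: μ) a + L ((a, f) :: μ) f)) := by
    unfold cveX
    ring
  rw [e]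
  have t1 := abs_add_le (-(A - nu ((a, f) :: μ) - S * nu μ) + (A - Γ * nu μ - M1 - M2) + (M1 - bs * χ ^ 2 * nu ((a, f) :: μ)))
    (M2 - χ * Ks * (L μ a + L μ f) - bs * χ * (L ((a, f) :: μ) a + L ((a, f) :: μ) f))
  have t2 := abs_add_le (-(A - nu ((a, f) :: μ) - S * nu μ) + (A - Γ * nu μ - M1 - M2)) (M1 - bs * χ ^ 2 * nu ((a, f) :: μ))
  have t3 := abs_add_le (-(A - nu ((a, f) :: μ) - S * nu μ)) (A - Γ * nu μ - M1 - M2)
  rw [abs_neg] at t3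
  linarith

/-! ## 3. the leaves -/

/-- **E3**: the first retained term.      TEX[PE:lem:cavity-replacements] (i).      OWNER helper150 (from `cvr_main1` of helper185 + dictionary + restoration). -/
theorem cve_E3 (c C ρ : ℝ) (Cp : ℕ → ℝ) (hc : 0 < c) (hρ : 0 < ρ) (Nd Qd : ℕ) :
    ∃ (kM : ℕ) (C3 : ℝ), 0 ≤ C3 ∧ ∀ (I : CavIn) (m0 : ℕ),
      CveHyp c C ρ Cp kM C 1 I m0 → ∀ kI Ii : ℕ, CveTg I kI Ii → ∀ (a f : ℕ) (μ : CvtMon), CveMon Nd Qd Ii a f μ →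
        |(cvySys m0 I.P).cveM1 kI I.js (I.jU + 1) (Qd + 2) a f μ
            - (cvySys m0 I.P).b I.js * (cvySys m0 I.P).chi (I.jU + 1) ^ 2 * (cvySys m0 I.P).nuM kI I.js ((a, f) :: μ)|
          ≤ C3 * I.sv * (I.W * I.x ^ 2 * cvtMsz I.W I.x μ) := by
  exact h25_E3 c C ρ Cp hc hρ Nd Qd

/-- **E4**: the second retained term.      TEX[PE:lem:cavity-replacements] (ii), (iii), (iv).      OWNER helper150 (from `cvr_main2` of helper185 + dictionary + restoration). -/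
theorem cve_E4 (c C ρ : ℝ) (Cp : ℕ → ℝ) (hc : 0 < c) (hρ : 0 < ρ) (Nd Qd : ℕ) :
    ∃ (kM : ℕ) (C4 : ℝ), 0 ≤ C4 ∧ ∀ (I : CavIn) (m0 : ℕ),
      CveHyp c C ρ Cp kM C 1 I m0 → ∀ kI Ii : ℕ, CveTg I kI Ii → ∀ (a f : ℕ) (μ : CvtMon), CveMon Nd Qd Ii a f μ →
        |(cvySys m0 I.P).cveM2 kI I.js (I.jU + 1) (Qd + 2) a f μ
            - (cvySys m0 I.P).chi (I.jU + 1) * (cvySys m0 I.P).K I.js
                * ((cvySys m0 I.P).LM kI I.js (I.jU + 1) μ a + (cvySys m0 I.P).LM kI I.js (I.jU + 1) μ f)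
            - (cvySys m0 I.P).b I.js * (cvySys m0 I.P).chi (I.jU + 1)
                * ((cvySys m0 I.P).LM kI I.js (I.jU + 1) ((a, f) :: μ) a + (cvySys m0 I.P).LM kI I.js (I.jU + 1) ((a, f) :: μ) f)|
          ≤ C4 * I.sv * (I.W * I.x ^ 2 * cvtMsz I.W I.x μ) := by
  exact h25_E4 c C ρ Cp hc hρ Nd Qd

/-- `𝓛(1,u)` on any `LedSys`: every summand is `(1/2) κ b_r ν[R⁻ - S_r]` -/
theorem cve_L0_abs {Ω : Type} (Y : LedSys Ω) (hY : Y.Ok) {Cb cm : ℝ} (hbb : ∀ r, Y.b r ≤ Cb) (hcm : ∀ r, r ≤ Y.N → |Y.cen r| ≤ cm)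
    {kI kS : ℕ} (h1 : kI ≤ kS) (h2 : kS ≤ Y.N) (kU u : ℕ) :
    |Y.LM kI kS kU [] u| ≤ 8 * (∏ i ∈ Finset.range 3, (((max (cvtTopM []) (u + 1) : ℕ) : ℝ) + i)) * (Cb * cm) := by
  set q := max (cvtTopM []) (u + 1) with hq
  have hu : u < q := by rw [hq]; exact lt_of_lt_of_le (Nat.lt_succ_self u) (le_max_right _ _)
  have hτ := cvt_star_isTr h1 h2 (N := Y.N) q
  have hCb : 0 ≤ Cb := (led_a_b_nonneg Y hY 0).trans (hbb 0)
  have hcm0 : 0 ≤ cm := le_trans (abs_nonneg _) (hcm 0 (Nat.zero_le _))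
  have key := ret_sumK_bound (ms := Y.ms) hτ hY.ms_ok 3
    (fun τ' => Y.coefM kU q u τ' * Y.act (q + 3) τ' fun σ => Y.mEv kI kS [] (fun i => (σ i).2) * Y.dl (τ' (q + 1) (q + 2)) (σ (q + 1)).2 (σ (q + 2)).2)
    (Cb * cm) (by
      intro τ' hτ'
      by_cases h0 : τ' (q + 1) (q + 2) ≤ Y.N
      · have hc1 : |Y.coefM kU q u τ'| ≤ 1 := by
          unfold LedSys.coefM
          split_ifs
          · have := led_a_kap4_le Y hY kU hτ' (a := u) (c := q) (e := q + 1) (f := q + 2) (by omega) (by omega) (by omega) (by omega)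
            rw [abs_mul]
            norm_num
            linarith
          · simp
        have hp := led_a_pair Y hY led_t_prof1 led_t_one_mem hτ' (c := q + 1) (d := q + 2) (by omega) (by omega) (by omega)
          (fun s s' => Y.dl (τ' (q + 1) (q + 2)) s.2 s'.2)
        have e1 : (Y.act (q + 3) τ' fun σ => Y.mEv kI kS [] (fun i => (σ i).2) * Y.dl (τ' (q + 1) (q + 2)) (σ (q + 1)).2 (σ (q + 2)).2)
            = Y.b (τ' (q + 1) (q + 2)) * Y.cen (τ' (q + 1) (q + 2)) := by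
          have e0 : (fun σ : ℕ → Bool × Ω => Y.mEv kI kS [] (fun i => (σ i).2) * Y.dl (τ' (q + 1) (q + 2)) (σ (q + 1)).2 (σ (q + 2)).2)
              = fun σ => Y.dl (τ' (q + 1) (q + 2)) (σ (q + 1)).2 (σ (q + 2)).2 := by
            funext σ
            simp [LedSys.mEv]
          rw [e0]
          unfold LedSys.act LedSys.cen
          rw [hp]
          unfold LedSys.act LedSys.dl
          have hm := hY.mean (fun _ => 1) 1 2 (ledPair Y.N (τ' (q + 1) (q + 2))) led_t_prof1 led_t_one_mem (led_a_pair_isTr (by omega))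
          exact (ledExp hm).smul _ _
        rw [e1, abs_mul, abs_mul, abs_of_nonneg (led_a_b_nonneg Y hY _)]
        calc _ ≤ 1 * (Cb * cm) := mul_le_mul hc1 (mul_le_mul (hbb _) (hcm _ h0) (abs_nonneg _) hCb) (mul_nonneg (led_a_b_nonneg Y hY _) (abs_nonneg _)) zero_le_one
          _ = _ := one_mul _
      · have e0 : Y.coefM kU q u τ' = 0 := by
          unfold LedSys.coefM
          rw [if_neg (fun h => h0 h.2.2.2)]
        rw [e0, zero_mul, abs_zero]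
        positivity)
  rw [hY.ms_top] at key
  have e8 : ((2 : ℝ) * 1) ^ 3 = 8 := by norm_num
  rw [e8] at key
  exact key


/-- `𝓛(1, u) = O(1/n)`: a noncoincident deleted overlap has the mean `S - ν[s s']/n`.      OWNER helper244.
PLAN: `led_a_pair`, `cvy_act`, definition of `cvS`; total variation of three labels (`tr_absK_le`), `|κ| ≤ 2`, `b ≤ C`, `1/n ≤ sv² x⁶`. -/
theorem cve_L0 (c C ρ : ℝ) (Cp : ℕ → ℝ) (hc : 0 < c) (hρ : 0 < ρ) (Qd : ℕ) :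
    ∃ C0 : ℝ, 0 ≤ C0 ∧ ∀ (I : CavIn) (m0 : ℕ), CveHyp c C ρ Cp 0 C 1 I m0 → ∀ kI : ℕ, kI ≤ I.js → ∀ u : ℕ, u ≠ 0 → u ≤ Qd + 1 →
        |(cvySys m0 I.P).LM kI I.js (I.jU + 1) [] u| ≤ C0 * I.sv * I.x ^ 2 := by
  refine ⟨8 * (((Qd : ℝ) + 4) ^ 3) * |C|, by positivity, fun I m0 hI kI hkI u _ hu => ?_⟩
  have hY := cvy_ok m0 I.P hI.ok.adm
  have hx0 := hI.ok.x0
  have hsv0 := hI.ok.sv0
  have hjs : I.js ≤ (cvySys m0 I.P).N := (hI.star.jsU.trans hI.star.jUN.le)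
  have hcm : ∀ r, r ≤ (cvySys m0 I.P).N → |(cvySys m0 I.P).cen r| ≤ I.sv ^ 2 * I.x ^ 6 := fun r hr => by
    rw [cvn_cen m0 I.P hI.ok.adm r hr]
    have h0 := cvn_S_nonneg m0 I.P r
    have h1 : cvS (m0 + 1) I.P r ≤ 1 := hY.S_le r
    have hm : (0 : ℝ) < (m0 : ℝ) + 1 := by positivity
    rw [neg_div, abs_neg, abs_of_nonneg (div_nonneg h0 hm.le)]
    exact (div_le_div_of_nonneg_right h1 hm.le).trans (cvn_inv_n I m0 hI.hn hI.ok)
  have hbb : ∀ r, (cvySys m0 I.P).b r ≤ |C| := fun r => ((cvn_bh_le I m0 hI.ok).1 r).trans (le_abs_self C)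
  have key := cve_L0_abs (cvySys m0 I.P) hY hbb hcm hkI hjs (I.jU + 1) u
  refine key.trans ?_
  have hq : ((max (cvtTopM []) (u + 1) : ℕ) : ℝ) ≤ (Qd : ℝ) + 2 := by
    have : max (cvtTopM []) (u + 1) ≤ Qd + 2 := max_le (by simp [cvtTopM]) (by omega)
    exact_mod_cast this
  have hq0 : (0 : ℝ) ≤ ((max (cvtTopM []) (u + 1) : ℕ) : ℝ) := Nat.cast_nonneg _
  have hprod : (∏ i ∈ Finset.range 3, (((max (cvtTopM []) (u + 1) : ℕ) : ℝ) + i)) ≤ ((Qd : ℝ) + 4) ^ 3 := by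
    rw [Finset.prod_range_succ, Finset.prod_range_succ, Finset.prod_range_one]
    set t : ℝ := ((max (cvtTopM []) (u + 1) : ℕ) : ℝ)
    have a1 : t + ((0 : ℕ) : ℝ) ≤ (Qd : ℝ) + 4 := by push_cast; linarith
    have a2 : t + ((1 : ℕ) : ℝ) ≤ (Qd : ℝ) + 4 := by push_cast; linarith
    have a3 : t + ((2 : ℕ) : ℝ) ≤ (Qd : ℝ) + 4 := by push_cast; linarith
    have b1 : 0 ≤ t + ((0 : ℕ) : ℝ) := by positivity
    have b2 : 0 ≤ t + ((1 : ℕ) : ℝ) := by positivity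
    have b3 : 0 ≤ t + ((2 : ℕ) : ℝ) := by positivity
    calc (t + ((0 : ℕ) : ℝ)) * (t + ((1 : ℕ) : ℝ)) * (t + ((2 : ℕ) : ℝ)) ≤ ((Qd : ℝ) + 4) * ((Qd : ℝ) + 4) * ((Qd : ℝ) + 4) :=
          mul_le_mul (mul_le_mul a1 a2 b2 (by positivity)) a3 b3 (by positivity)
      _ = _ := by ring
  have hsx : I.sv ^ 2 * I.x ^ 6 ≤ I.sv * I.x ^ 2 := by
    have hs1 : I.sv ≤ 1 := hI.hsv
    have hx1 : I.x ≤ 1 := hI.hx
    have h4 : I.x ^ 4 ≤ 1 := pow_le_one₀ hx0.le hx1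
    have h5 : I.sv * I.x ^ 4 ≤ 1 := by
      calc I.sv * I.x ^ 4 ≤ 1 * 1 := mul_le_mul hs1 h4 (by positivity) zero_le_one
        _ = 1 := one_mul 1
    calc I.sv ^ 2 * I.x ^ 6 = (I.sv * I.x ^ 4) * (I.sv * I.x ^ 2) := by ring
      _ ≤ 1 * (I.sv * I.x ^ 2) := mul_le_mul_of_nonneg_right h5 (by positivity)
      _ = _ := one_mul _
  calc 8 * (∏ i ∈ Finset.range 3, (((max (cvtTopM []) (u + 1) : ℕ) : ℝ) + i)) * (|C| * (I.sv ^ 2 * I.x ^ 6))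
      ≤ 8 * (((Qd : ℝ) + 4) ^ 3) * (|C| * (I.sv * I.x ^ 2)) := by
        refine mul_le_mul (mul_le_mul_of_nonneg_left hprod (by norm_num)) (mul_le_mul_of_nonneg_left hsx (abs_nonneg _)) (by positivity) (by positivity)
    _ = _ := by ring

/-- exact scaling of the size of a monomial -/
theorem cve_msz_smul (s w x : ℝ) (m : CvtMon) : cvtMsz (s * w) (s * x) m = s ^ m.length * cvtMsz w x m := by
  induction m with
  | nil => simp
  | cons e m ih =>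
    have h1 : cvtEsz (s * w) (s * x) e = s * cvtEsz w x e := by
      unfold cvtEsz
      split_ifs <;> rfl
    rw [cvtMsz_cons, cvtMsz_cons, ih, List.length_cons, pow_succ, h1]
    ring

/-- a monomial without initial edge does not see the weight of the initial tooth -/
theorem cve_msz_noini (w x x' : ℝ) (m : CvtMon) (h : m.countP (fun e => decide (e.1 = 0 ∨ e.2 = 0)) ≤ 0) : cvtMsz w x m = cvtMsz w x' m := by
  induction m with
  | nil => rfl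
  | cons e m ih =>
    by_cases he : e.1 = 0 ∨ e.2 = 0
    · rw [List.countP_cons_of_pos (by simpa using he)] at h
      omega
    · rw [List.countP_cons_of_neg (by simpa using he)] at h
      rw [cvtMsz_cons, cvtMsz_cons, ih h]
      unfold cvtEsz
      rw [if_neg he, if_neg he]

/-- a restored factor is a centred FULL overlap -/
theorem cve_eFl_eq (m0 : ℕ) (P : SkStp) (τ : ℕ → ℕ → ℕ) (σ : ℕ → Bool × SkCfg m0) (e : ℕ × ℕ) :
    (cvySys m0 P).eFl (1 / ((m0 : ℝ) + 1)) τ σ e = skOv (cvyJoin (σ e.1)) (cvyJoin (σ e.2)) - cvS (m0 + 1) P (τ e.1 e.2) := by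
  have h := lil_ov (σ e.1) (σ e.2)
  have e1 : skOv (cvyJoin (σ e.1)) (cvyJoin (σ e.2)) = skOv (lilJoin (σ e.1)) (lilJoin (σ e.2)) := rfl
  rw [e1, h]
  show liR (σ e.1).2 (σ e.2).2 + 1 / ((m0 : ℝ) + 1) * (ledSg (σ e.1).1 * ledSg (σ e.2).1) - cvS (m0 + 1) P (τ e.1 e.2) = _
  ring

/-- **site symmetry on a monomial in the restored overlaps** -/
theorem cve_sym (m0 : ℕ) (P : SkStp) (hP : SkAdm 1 P) {q : ℕ} {τ : ℕ → ℕ → ℕ} (hτ : IsTr P.length q τ) {a f : ℕ} (ha : a < q) (hf : f < q)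
    (μ : CvtMon) (hμ : cvtTopM μ ≤ q) :
    (cvySys m0 P).act q τ (fun σ => ledSg (σ a).1 * ledSg (σ f).1 * (cvySys m0 P).gFl (1 / ((m0 : ℝ) + 1)) τ μ σ)
      = (cvySys m0 P).act q τ fun σ => skOv (cvyJoin (σ a)) (cvyJoin (σ f)) * (cvySys m0 P).gFl (1 / ((m0 : ℝ) + 1)) τ μ σ := by
  set G : (ℕ → ℕ → ℝ) → ℝ := fun R => (μ.map fun e => R e.1 e.2 - cvS (m0 + 1) P (τ e.1 e.2)).prod with hGd
  have hG : ∀ R R' : ℕ → ℕ → ℝ, (∀ x y, x < q → y < q → R x y = R' x y) → G R = G R' := by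
    intro R R' h
    simp only [hGd]
    congr 1
    refine List.map_congr_left fun e he => ?_
    have := cvt_lt_topM he
    rw [h _ _ (by omega) (by omega)]
  have hfl : ∀ σ : ℕ → Bool × SkCfg m0, (cvySys m0 P).gFl (1 / ((m0 : ℝ) + 1)) τ μ σ = G fun x y => skOv (cvyJoin (σ x)) (cvyJoin (σ y)) := by
    intro σ
    unfold LedSys.gFl
    simp only [hGd]
    congr 1
    exact List.map_congr_left fun e _ => cve_eFl_eq m0 P τ σ e
  have h1 := cvy_act m0 P hP q τ hτ (fun σ => skSp (σ a) 0 * skSp (σ f) 0 * G fun x y => skOv (σ x) (σ y)) (by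
    intro σ σ' h
    show skSp (σ a) 0 * skSp (σ f) 0 * _ = skSp (σ' a) 0 * skSp (σ' f) 0 * _
    rw [h a ha, h f hf, hG (fun x y => skOv (σ x) (σ y)) (fun x y => skOv (σ' x) (σ' y)) fun x y hx hy => by rw [h x hx, h y hy]])
  have h2 := cvy_act m0 P hP q τ hτ (fun σ => skOv (σ a) (σ f) * G fun x y => skOv (σ x) (σ y)) (by
    intro σ σ' h
    show skOv (σ a) (σ f) * _ = skOv (σ' a) (σ' f) * _
    rw [h a ha, h f hf, hG (fun x y => skOv (σ x) (σ y)) (fun x y => skOv (σ' x) (σ' y)) fun x y hx hy => by rw [h x hx, h y hy]])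
  have h3 := cvy_site_sym m0 P hP q τ hτ a f ha hf G hG
  simp only [hfl]
  exact h1.trans (h3.trans h2.symm)

/-- **the left side of (25), explicit error** -/
theorem cve_lhs_abs (m0 : ℕ) (P : SkStp) (hP : SkAdm 1 P) (r : ℕ) {kI kS q : ℕ} (hIS : kI ≤ kS) (hSN : kS ≤ P.length) {a f : ℕ} (ha : a < q) (hf : f < q)
    (ha0 : a ≠ 0) (hf0 : f ≠ 0) (haf : a ≠ f) (μ : CvtMon) (hμ : cvtTopM μ ≤ q) (hloop : ∀ e ∈ μ, e.1 ≠ e.2) (hlen : μ.length + 1 ≤ 2 * r)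
    {w y y0 : ℝ} (hy0 : 0 < y0) (hyw : y0 ≤ w) (hyy : y0 ≤ y) (hε : 1 / ((m0 : ℝ) + 1) ≤ y0)
    (hS : (cvySys m0 P).mom r kS ≤ w ^ (2 * r)) (hI : (cvySys m0 P).mom r kI ≤ y ^ (2 * r)) :
    |(cvySys m0 P).cveA kI kS q a f μ - (cvySys m0 P).nuM kI kS ((a, f) :: μ) - (cvySys m0 P).S kS * (cvySys m0 P).nuM kI kS μ|
      ≤ (2 + w) * cvtMsz w y μ * 2 ^ (μ.length + 1) * (1 / ((m0 : ℝ) + 1) / y0) := by
  have hY := cvy_ok m0 P hP
  set Y := cvySys m0 P with hYd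
  have hSN' : kS ≤ Y.N := hSN
  set τ := cvtStar Y.N kI kS with hτd
  have hτ : IsTr Y.N q τ := cvt_star_isTr hIS hSN' q
  have hmean := hY.mean (fun _ => 1) 1 q τ led_t_prof1 led_t_one_mem hτ
  set ε : ℝ := 1 / ((m0 : ℝ) + 1) with hεd
  have hε0 : 0 ≤ ε := by positivity
  have hw0 : 0 ≤ w := hy0.le.trans hyw
  have hy' : 0 ≤ y := hy0.le.trans hyy
  have hesμ : ∀ e ∈ μ, e.1 < q ∧ e.2 < q ∧ e.1 ≠ e.2 ∧ 0 ≤ cvtEsz w y e ∧ Y.mom r (τ e.1 e.2) ≤ cvtEsz w y e ^ (2 * r) := by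
    intro e he
    have hlt := cvt_lt_topM he
    refine ⟨by omega, by omega, hloop e he, cvtEsz_nonneg hw0 hy' e, ?_⟩
    show Y.mom r (cvtStar Y.N kI kS e.1 e.2) ≤ cvtEsz w y e ^ (2 * r)
    unfold cvtStar cvtEsz
    rw [if_neg (hloop e he)]
    split_ifs
    · exact hI
    · exact hS
  have hτaf : τ a f = kS := by
    show cvtStar Y.N kI kS a f = kS
    unfold cvtStar
    rw [if_neg haf, if_neg (by simp [ha0, hf0])]
  have hesaf : ∀ e ∈ (a, f) :: μ, e.1 < q ∧ e.2 < q ∧ e.1 ≠ e.2 ∧ 0 ≤ cvtEsz w y e ∧ Y.mom r (τ e.1 e.2) ≤ cvtEsz w y e ^ (2 * r) := by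
    intro e he
    rcases List.mem_cons.1 he with rfl | he
    · refine ⟨ha, hf, haf, cvtEsz_nonneg hw0 hy' _, ?_⟩
      rw [cvtEsz_star w y ha0 hf0, hτaf]
      exact hS
    · exact hesμ e he
  have hloop' : ∀ e ∈ (a, f) :: μ, e.1 ≠ e.2 := fun e he => (hesaf e he).2.2.1
  -- step 1: restoration under the spectator `s_a s_f`
  have s1 := h25_gfl Y hY r hε0 hτ μ (cvtEsz w y) [((fun σ => ledSg (σ a).1 * ledSg (σ f).1), 1)] (by simpa [add_comm] using hlen) (by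
    intro p hp
    rw [List.mem_singleton] at hp
    subst hp
    refine ⟨zero_le_one, ?_⟩
    exact h25_mom_of_le (ledExp hmean) r fun σ => by rw [abs_mul, led_a_sg, led_a_sg]; norm_num) hesμ
  simp only [List.map_cons, List.map_nil, List.prod_cons, List.prod_nil, mul_one, one_mul] at s1
  have eA : Y.cveA kI kS q a f μ = Y.act q τ fun σ => ledSg (σ a).1 * ledSg (σ f).1 * Y.gFl 0 τ μ σ := by
    unfold LedSys.cveA
    congr 1
    funext σ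
    rw [← h25_mEv_eq Y μ hloop (fun e _ => rfl) σ]
    rfl
  -- step 2: site symmetry
  have s2 : Y.act q τ (fun σ => ledSg (σ a).1 * ledSg (σ f).1 * Y.gFl ε τ μ σ)
      = Y.act q τ (Y.gFl ε τ ((a, f) :: μ)) + Y.S kS * Y.act q τ (Y.gFl ε τ μ) := by
    rw [cve_sym m0 P hP hτ ha hf μ hμ]
    have e : (fun σ : ℕ → Bool × SkCfg m0 => skOv (cvyJoin (σ a)) (cvyJoin (σ f)) * Y.gFl ε τ μ σ)
        = fun σ => Y.gFl ε τ ((a, f) :: μ) σ + Y.S kS * Y.gFl ε τ μ σ := by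
      funext σ
      rw [h25_gFl_cons, cve_eFl_eq m0 P τ σ (a, f), hτaf]
      show _ = (_ - cvS (m0 + 1) P kS) * _ + cvS (m0 + 1) P kS * _
      ring
    rw [e]
    exact (hmean.add _ _).trans (by rw [hmean.smul]; rfl)
  -- steps 3, 4: restoration without spectators
  have s3 := h25_gfl0 Y hY r hε0 hτ ((a, f) :: μ) (cvtEsz w y) (by simpa using hlen) hesaf
  have s4 := h25_gfl0 Y hY r hε0 hτ μ (cvtEsz w y) (by omega) hesμ
  have e3 : Y.act q τ (Y.gFl 0 τ ((a, f) :: μ)) = Y.nuM kI kS ((a, f) :: μ) := by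
    rw [← led_t_nuQ_eq Y hY hIS hSN' ((a, f) :: μ) (cvtTopM_cons_le ha hf hμ)]
    unfold LedSys.nuQ
    congr 1
    funext σ
    exact (h25_mEv_eq Y _ hloop' (fun e _ => rfl) σ).symm
  have e4 : Y.act q τ (Y.gFl 0 τ μ) = Y.nuM kI kS μ := by
    rw [← led_t_nuQ_eq Y hY hIS hSN' μ hμ]
    unfold LedSys.nuQ
    congr 1
    funext σ
    exact (h25_mEv_eq Y _ hloop (fun e _ => rfl) σ).symm
  rw [e3] at s3
  rw [e4] at s4
  rw [← eA, s2] at s1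
  -- numbers
  have hge : ∀ e : ℕ × ℕ, y0 ≤ cvtEsz w y e := by
    intro e
    unfold cvtEsz
    split_ifs
    · exact hyy
    · exact hyw
  have n4 := h25_num hε0 hy0 hε (μ.map (cvtEsz w y)) (by
    intro A hA
    obtain ⟨e, -, rfl⟩ := List.mem_map.1 hA
    exact hge e)
  have n3 := h25_num hε0 hy0 hε (((a, f) :: μ).map (cvtEsz w y)) (by
    intro A hA
    obtain ⟨e, -, rfl⟩ := List.mem_map.1 hA
    exact hge e)
  simp only [List.map_map, Function.comp_def, List.length_map] at n3 n4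
  have hm4 : (μ.map (cvtEsz w y)).prod = cvtMsz w y μ := rfl
  have hm3 : (((a, f) :: μ).map (cvtEsz w y)).prod = w * cvtMsz w y μ := by
    rw [List.map_cons, List.prod_cons, cvtEsz_star w y ha0 hf0]
    rfl
  rw [hm4] at n4 s4 s1
  rw [hm3] at n3 s3
  have hM0 : 0 ≤ cvtMsz w y μ := cvtMsz_nonneg hw0 hy' μ
  set t : ℝ := ε / y0 with ht
  have ht0 : 0 ≤ t := div_nonneg hε0 hy0.le
  set M := cvtMsz w y μ
  have hS0 := hY.S_nonneg kS
  have hS1 := hY.S_le kS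
  have p4 : M * ((2 : ℝ) ^ μ.length - 1) * t ≤ M * 2 ^ (μ.length + 1) * t := by
    refine mul_le_mul_of_nonneg_right (mul_le_mul_of_nonneg_left ?_ hM0) ht0
    have : (0 : ℝ) ≤ 2 ^ μ.length := by positivity
    rw [pow_succ]
    linarith
  have p3 : w * M * ((2 : ℝ) ^ ((a, f) :: μ).length - 1) * t ≤ w * M * 2 ^ (μ.length + 1) * t := by
    refine mul_le_mul_of_nonneg_right (mul_le_mul_of_nonneg_left ?_ (mul_nonneg hw0 hM0)) ht0
    rw [List.length_cons]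
    linarith
  set E4 := (μ.map fun e => cvtEsz w y e + ε).prod - M
  set E3 := (((a, f) :: μ).map fun e => cvtEsz w y e + ε).prod - w * M
  have q4 : E4 ≤ M * 2 ^ (μ.length + 1) * t := n4.trans p4
  have q3 : E3 ≤ w * M * 2 ^ (μ.length + 1) * t := n3.trans p3
  have hE4 : 0 ≤ E4 := (abs_nonneg _).trans s4
  have a1 := abs_le.1 s1
  have a3 := abs_le.1 s3
  have a4 := abs_le.1 s4
  have k1 : Y.S kS * E4 ≤ E4 := mul_le_of_le_one_left hE4 hS1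
  have k2 : Y.S kS * (Y.act q τ (Y.gFl ε τ μ) - Y.nuM kI kS μ) ≤ E4 := (mul_le_mul_of_nonneg_left a4.2 hS0).trans k1
  have k3 : -E4 ≤ Y.S kS * (Y.act q τ (Y.gFl ε τ μ) - Y.nuM kI kS μ) := by
    have := mul_le_mul_of_nonneg_left a4.1 hS0
    linarith
  have k4 : Y.S kS * (Y.act q τ (Y.gFl ε τ μ) - Y.nuM kI kS μ) = Y.S kS * Y.act q τ (Y.gFl ε τ μ) - Y.S kS * Y.nuM kI kS μ := by ring
  have fin : (2 + w) * M * 2 ^ (μ.length + 1) * t = 2 * (M * 2 ^ (μ.length + 1) * t) + w * M * 2 ^ (μ.length + 1) * t := by ring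
  rw [fin, abs_le]
  constructor <;> linarith [a1.1, a1.2, a3.1, a3.2]

/-- **G2 = the left side**: site symmetry + restoration of the deleted overlaps.      OWNER helper244.
`μ⁻ → μ^{full}` (restoration lemma `h25_gfl` of 150), `cvy_act`, `cvy_site_sym` (`ν[s_a s_f G(R)] = ν[R_af G(R)]`), back; `1/n ≤ sv² x⁶`. -/
theorem cve_lhs (c C ρ : ℝ) (Cp : ℕ → ℝ) (_hc : 0 < c) (_hρ : 0 < ρ) (Nd Qd : ℕ) :
    ∃ (kM : ℕ) (CL : ℝ), 0 ≤ CL ∧ ∀ (I : CavIn) (m0 : ℕ),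
      CveHyp c C ρ Cp kM C 1 I m0 → ∀ kI Ii : ℕ, CveTg I kI Ii → ∀ (a f : ℕ) (μ : CvtMon), CveMon Nd Qd Ii a f μ →
        |(cvySys m0 I.P).cveA kI I.js (Qd + 2) a f μ - (cvySys m0 I.P).nuM kI I.js ((a, f) :: μ)
            - (cvySys m0 I.P).S I.js * (cvySys m0 I.P).nuM kI I.js μ|
          ≤ CL * I.sv * (I.W * I.x ^ 2 * cvtMsz I.W I.x μ) := by
  set r : ℕ := Nd + 1 with hr
  set s : ℝ := max (cvnSt Cp r) (cvnCx C Cp r) with hs
  have hs1 : 1 ≤ s := le_trans (by unfold cvnSt; linarith [abs_nonneg (Cp r)]) (le_max_left _ _)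
  have hs0 : 0 ≤ s := by linarith
  refine ⟨r, (2 + s * |C|) * s ^ Nd * 2 ^ (Nd + 1), by positivity, fun I m0 hI kI Ii hT a f μ hμ => ?_⟩
  have hx0 := hI.ok.x0
  have hW0 : 0 < I.W := lt_of_lt_of_le hx0 hI.ok.xW
  have hsv0 := hI.ok.sv0
  have hkI : kI ≤ I.js := CveTg.le hT hI.star
  have hf0 : f ≠ 0 := by have := cvtTopM_pos μ; have := hμ.top; omega
  have hinv := cvn_inv_n I m0 hI.hn hI.ok
  have hx5 : I.x ^ 5 ≤ 1 := pow_le_one₀ hx0.le hI.hx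
  have hsv2 : I.sv ^ 2 ≤ I.sv := by
    calc I.sv ^ 2 = I.sv * I.sv := by ring
      _ ≤ I.sv * 1 := mul_le_mul_of_nonneg_left hI.hsv hsv0.le
      _ = I.sv := mul_one _
  have hεx : 1 / ((m0 : ℝ) + 1) ≤ I.x := by
    refine hinv.trans ?_
    calc I.sv ^ 2 * I.x ^ 6 = (I.sv ^ 2 * I.x ^ 5) * I.x := by ring
      _ ≤ 1 * I.x := mul_le_mul_of_nonneg_right (mul_le_one₀ (hsv2.trans hI.hsv) (by positivity) hx5) hx0.le
      _ = I.x := one_mul _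
  have hmS : (cvySys m0 I.P).mom r I.js ≤ (s * I.W) ^ (2 * r) := by
    refine (cvn_momS I m0 hI.hn hI.ok hI.star hI.hx hI.hsv le_rfl).trans (pow_le_pow_left₀ ?_ ?_ _)
    · unfold cvnSt; positivity
    · have h1 : cvnSt Cp r * I.sv ≤ s * 1 := mul_le_mul (le_max_left _ _) hI.hsv hsv0.le hs0
      calc cvnSt Cp r * I.sv * I.W ≤ s * 1 * I.W := mul_le_mul_of_nonneg_right h1 hW0.le
        _ = s * I.W := by ring
  have core : ∀ yy : ℝ, I.x ≤ yy → (cvySys m0 I.P).mom r kI ≤ (s * yy) ^ (2 * r) → cvtMsz I.W yy μ = cvtMsz I.W I.x μ →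
      |(cvySys m0 I.P).cveA kI I.js (Qd + 2) a f μ - (cvySys m0 I.P).nuM kI I.js ((a, f) :: μ)
            - (cvySys m0 I.P).S I.js * (cvySys m0 I.P).nuM kI I.js μ|
          ≤ (2 + s * |C|) * s ^ Nd * 2 ^ (Nd + 1) * I.sv * (I.W * I.x ^ 2 * cvtMsz I.W I.x μ) := by
    intro yy hyy hmI hbl
    have h := cve_lhs_abs m0 I.P hI.ok.adm r hkI (cve_js_le hI.star m0) (a := a) (f := f) (q := Qd + 2) (by have := hμ.ok.rt; omega)
      (by have := hμ.le; omega) hμ.ok.a_ne hf0 hμ.ne.symm μ (by have := hμ.ok.top; omega) hμ.ok.loop (by have := hμ.ok.len; omega)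
      (w := s * I.W) (y := s * yy) (y0 := I.x) hx0 (by nlinarith [hI.ok.xW]) (by nlinarith) hεx hmS hmI
    refine h.trans ?_
    rw [cve_msz_smul, hbl]
    have hM0 : 0 ≤ cvtMsz I.W I.x μ := cvtMsz_nonneg hW0.le hx0.le μ
    have b1 : 2 + s * I.W ≤ 2 + s * |C| := by
      have : I.W ≤ |C| := hI.ok.WC.trans (le_abs_self C)
      linarith [mul_le_mul_of_nonneg_left this hs0]
    have b2 : s ^ μ.length ≤ s ^ Nd := pow_le_pow_right₀ hs1 hμ.ok.len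
    have b3 : (2 : ℝ) ^ (μ.length + 1) ≤ 2 ^ (Nd + 1) := pow_le_pow_right₀ (by norm_num) (by have := hμ.ok.len; omega)
    have b4 : 1 / ((m0 : ℝ) + 1) / I.x ≤ I.sv * (I.W * I.x ^ 2) := by
      rw [div_le_iff₀ hx0]
      refine hinv.trans ?_
      have h1 : I.x ^ 6 ≤ I.W * I.x ^ 2 * I.x := by
        have h2 : I.x ^ 3 ≤ I.x := by
          calc I.x ^ 3 = I.x ^ 2 * I.x := by ring
            _ ≤ 1 * I.x := mul_le_mul_of_nonneg_right (pow_le_one₀ hx0.le hI.hx) hx0.le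
            _ = I.x := one_mul _
        calc I.x ^ 6 = I.x ^ 3 * (I.x ^ 2 * I.x) := by ring
          _ ≤ I.W * (I.x ^ 2 * I.x) := mul_le_mul_of_nonneg_right (h2.trans hI.ok.xW) (by positivity)
          _ = _ := by ring
      calc I.sv ^ 2 * I.x ^ 6 ≤ I.sv * (I.W * I.x ^ 2 * I.x) := mul_le_mul hsv2 h1 (by positivity) hsv0.le
        _ = _ := by ring
    have hε0 : 0 ≤ 1 / ((m0 : ℝ) + 1) / I.x := by positivity
    calc (2 + s * I.W) * (s ^ μ.length * cvtMsz I.W I.x μ) * 2 ^ (μ.length + 1) * (1 / ((m0 : ℝ) + 1) / I.x)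
        ≤ (2 + s * |C|) * (s ^ Nd * cvtMsz I.W I.x μ) * 2 ^ (Nd + 1) * (I.sv * (I.W * I.x ^ 2)) := by
          refine mul_le_mul (mul_le_mul (mul_le_mul b1 (mul_le_mul_of_nonneg_right b2 hM0) (by positivity) (by positivity)) b3 (by positivity)
            (by positivity)) b4 hε0 (by positivity)
      _ = _ := by ring
  rcases hT with ⟨hB, -⟩ | ⟨rfl, rfl⟩
  · refine core I.x le_rfl ?_ rfl
    refine (cvn_momI I m0 hI.hn hI.ok hI.hx hI.hsv (j := kI) (by have := hI.ok.jBX; omega) (by omega) le_rfl).trans (pow_le_pow_left₀ ?_ ?_ _)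
    · have hC0 := cvn_C_pos I hI.ok
      unfold cvnCx; positivity
    · exact mul_le_mul_of_nonneg_right (le_max_right _ _) hx0.le
  · exact core I.W hI.ok.xW hmS (cve_msz_noini _ _ _ μ hμ.ok.ini)

/-- `ν[Δ_12]` on the star table = the centre of the pair -/
theorem cve_nu12 {Ω : Type} (Y : LedSys Ω) (hY : Y.Ok) {kS : ℕ} (h2 : kS ≤ Y.N) : Y.nuM kS kS [(1, 2)] = Y.cen kS := by
  have hτ := cvt_star_isTr (le_refl kS) h2 3
  have h := led_a_pair Y hY led_t_prof1 led_t_one_mem hτ (show 1 < 3 by omega) (show 2 < 3 by omega) (by omega)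
    (fun u v => Y.R u.2 v.2 - Y.S kS)
  have e1 : Y.nuM kS kS [(1, 2)] = Y.nu (fun _ => 1) 1 3 (cvtStar Y.N kS kS) fun σ => Y.R (σ 1).2 (σ 2).2 - Y.S kS := by
    unfold LedSys.nuM LedSys.nuQ LedSys.act LedSys.mEv LedSys.eDl
    have : cvtTopM [(1, 2)] = 3 := by simp [cvtTopM]
    rw [this]
    simp
  rw [e1, h]
  have e2 : cvtStar Y.N kS kS 1 2 = kS := by simp [cvtStar]
  rw [e2]
  rfl

/-- **the numbers**.      OWNER helper56 (`Cav/Num`), `χ` from helper205. -/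
theorem cve_num (c C ρ : ℝ) (Cp : ℕ → ℝ) (hc : 0 < c) (hρ : 0 < ρ) (Nd Qd : ℕ) :
    ∃ (kM : ℕ) (Cn : ℝ), 0 ≤ Cn ∧ ∀ (I : CavIn) (m0 : ℕ), CveHyp c C ρ Cp kM C 1 I m0 →
      (0 ≤ (cvySys m0 I.P).chi (I.jU + 1) ∧ (cvySys m0 I.P).chi (I.jU + 1) ≤ 1) ∧
      (0 ≤ (cvySys m0 I.P).b I.js ∧ (cvySys m0 I.P).b I.js ≤ Cn) ∧
      |(cvySys m0 I.P).K I.js| ≤ Cn * I.W ∧
      |(cvySys m0 I.P).nuM I.js I.js [(1, 2)]| ≤ Cn * I.sv * (I.W * I.x ^ 2) ∧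
      ∀ kI Ii : ℕ, CveTg I kI Ii → ∀ (a : ℕ) (μ : CvtMon), CvtOk Nd Qd Ii a μ → |(cvySys m0 I.P).nuM kI I.js μ| ≤ Cn * cvtMsz I.W I.x μ := by
  set r : ℕ := Nd + 1 with hr
  set s : ℝ := cvnSt Cp r + cvnCx C Cp r with hs
  have hSt1 : 1 ≤ cvnSt Cp r := by unfold cvnSt; have := abs_nonneg (Cp r); linarith
  set Cn : ℝ := |C| + |cvnCo C Cp 1| + |Cp 1| * (|C| + 1) + (|s| + 1) ^ Nd with hCn
  have hCn0 : 0 ≤ Cn := by positivity
  refine ⟨r, Cn, hCn0, fun I m0 hI => ?_⟩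
  have hok := hI.ok
  have hst := hI.star
  have hn := hI.hn
  have hx1 := hI.hx
  have hs1 := hI.hsv
  have hY := cvy_ok m0 I.P hok.adm
  have hx0 := hok.x0
  have hW0 := cvn_W_pos I hok
  have hsv0 := hok.sv0
  have hC0 := cvn_C_pos I hok
  have hr1 : 1 ≤ r := by omega
  have hjsN : I.js ≤ I.P.length := hst.jsU.trans hst.jUN.le
  have hp0 : 0 ≤ (|s| + 1) ^ Nd := by positivity
  refine ⟨⟨(cvs_x_chi_pos m0 hok.adm hst.jUN).le, cvs_x_chi_le m0 hok.adm hst.jUN⟩, ⟨cvn_b_nonneg I.P hok.adm I.js, ?_⟩, ?_, ?_, ?_⟩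
  · have h1 := (cvn_bh_le I m0 hok).1 I.js
    have h2 := le_abs_self C
    have h3 : 0 ≤ |cvnCo C Cp 1| + |Cp 1| * (|C| + 1) := by positivity
    linarith
  · have h1 := (cvn_low_W I m0 hn hok hst hx1 hs1 (Nat.le_succ_of_le hst.jsU) le_rfl hr1).2
    have h0 : 0 ≤ (cvySys m0 I.P).K I.js :=
      add_nonneg (cvn_h_nonneg I.P hok.adm I.js) (mul_nonneg (cvn_b_nonneg I.P hok.adm I.js) (hY.S_nonneg I.js))
    rw [abs_of_nonneg h0]
    refine h1.trans (mul_le_mul_of_nonneg_right ?_ hW0.le)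
    have h2 := le_abs_self (cvnCo C Cp 1)
    have h3 : 0 ≤ |C| + |Cp 1| * (|C| + 1) := by positivity
    linarith
  · rw [cve_nu12 _ hY hjsN, cvn_cen m0 I.P hok.adm I.js hjsN]
    have hraw := cvn_raw_W I hok hst (Nat.le_succ_of_le hst.jsU) hr1
    rw [hn] at hraw
    have h4 := cvn_S_le m0 I.P hok.adm I.js hjsN 1 le_rfl _ hraw
    have hw : 0 ≤ |Cp 1| * (C + 1) * I.W := by positivity
    rw [abs_of_nonneg hw] at h4
    have h5 := cvn_inv_n I m0 hn hok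
    have hm : (0 : ℝ) < (m0 : ℝ) + 1 := by positivity
    have e : |-cvS (m0 + 1) I.P I.js / ((m0 : ℝ) + 1)| = |cvS (m0 + 1) I.P I.js| * (1 / ((m0 : ℝ) + 1)) := by
      rw [abs_div, abs_neg, abs_of_pos hm]
      ring
    rw [e]
    have h6 : I.sv ^ 2 * I.x ^ 6 ≤ I.sv * I.x ^ 2 := by
      have a1 : I.x ^ 4 ≤ 1 := pow_le_one₀ hx0.le hx1
      have a2 : I.sv * I.x ^ 4 ≤ 1 := by
        calc I.sv * I.x ^ 4 ≤ 1 * 1 := by gcongr
          _ = 1 := by norm_num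
      calc I.sv ^ 2 * I.x ^ 6 = (I.sv * I.x ^ 2) * (I.sv * I.x ^ 4) := by ring
        _ ≤ (I.sv * I.x ^ 2) * 1 := mul_le_mul_of_nonneg_left a2 (by positivity)
        _ = I.sv * I.x ^ 2 := mul_one _
    have h7 : |Cp 1| * (C + 1) ≤ Cn := by
      rw [abs_of_pos hC0] at hCn
      have h3 : 0 ≤ |cvnCo C Cp 1| := abs_nonneg _
      rw [hCn]
      linarith
    calc |cvS (m0 + 1) I.P I.js| * (1 / ((m0 : ℝ) + 1)) ≤ (|Cp 1| * (C + 1) * I.W) * (I.sv * I.x ^ 2) :=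
          mul_le_mul h4 (h5.trans h6) (by positivity) hw
      _ = |Cp 1| * (C + 1) * (I.sv * (I.W * I.x ^ 2)) := by ring
      _ ≤ Cn * (I.sv * (I.W * I.x ^ 2)) := mul_le_mul_of_nonneg_right h7 (by positivity)
      _ = Cn * I.sv * (I.W * I.x ^ 2) := by ring
  · intro kI Ii hT a μ hμ
    have hkI : kI ≤ I.js := CveTg.le hT hst
    have hCx0 : 0 ≤ cvnCx C Cp r := by unfold cvnCx; positivity
    have hs0 : 0 ≤ s := by rw [hs]; linarith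
    have hmS0 := cvn_momS I m0 hn hok hst hx1 hs1 (le_refl r)
    have hmS : (cvySys m0 I.P).mom r I.js ≤ (s * I.W) ^ (2 * r) := by
      refine hmS0.trans (pow_le_pow_left₀ (by positivity) ?_ _)
      have a1 : cvnSt Cp r * I.sv ≤ cvnSt Cp r * 1 := mul_le_mul_of_nonneg_left hs1 (by linarith)
      have a2 : cvnSt Cp r * I.sv ≤ s := by rw [hs]; linarith
      exact mul_le_mul_of_nonneg_right a2 hW0.le
    have hlen : μ.length + 1 ≤ 2 * r := by have := hμ.len; omega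
    have hfin : s ^ μ.length * cvtMsz I.W I.x μ ≤ Cn * cvtMsz I.W I.x μ := by
      refine mul_le_mul_of_nonneg_right ?_ (cvtMsz_nonneg hW0.le hx0.le μ)
      have b1 : s ^ μ.length ≤ (|s| + 1) ^ μ.length := pow_le_pow_left₀ hs0 (by have := le_abs_self s; linarith) _
      have b2 : (|s| + 1) ^ μ.length ≤ (|s| + 1) ^ Nd := pow_le_pow_right₀ (by have := abs_nonneg s; linarith) hμ.len
      have b3 : 0 ≤ |C| + |cvnCo C Cp 1| + |Cp 1| * (|C| + 1) := by positivity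
      linarith
    rcases hT with ⟨hkB, rfl⟩ | ⟨rfl, rfl⟩
    · have hmI0 := cvn_momI I m0 hn hok hx1 hs1 (show kI ≤ I.jX + 1 from (hkB.trans hok.jBX).trans (Nat.le_succ _)) hr1 (le_refl r)
      have hmI : (cvySys m0 I.P).mom r kI ≤ (s * I.x) ^ (2 * r) := by
        refine hmI0.trans (pow_le_pow_left₀ (by positivity) ?_ _)
        exact mul_le_mul_of_nonneg_right (by rw [hs]; linarith) hx0.le
      have h := led_a_nu _ hY hkI hjsN r (by positivity) (by positivity) hmS hmI μ hμ.loop hlen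
      rw [cve_msz_smul] at h
      exact h.trans hfin
    · have h := led_a_nu _ hY hkI hjsN r (w := s * I.W) (x := s * I.W) (by positivity) (by positivity) hmS hmS μ hμ.loop hlen
      rw [cve_msz_noini _ _ (s * I.x) μ hμ.ini, cve_msz_smul] at h
      exact h.trans hfin

/-! ## 4. the glue -/

/-- **the bound of `X(μ)`**, from the four leaves -/
theorem cve_X (c C ρ : ℝ) (Cp : ℕ → ℝ) (hc : 0 < c) (hρ : 0 < ρ) (Nd Qd : ℕ) :
    ∃ (kM : ℕ) (CX θ w0 : ℝ), 0 ≤ CX ∧ 0 < θ ∧ θ ≤ 1 ∧ 0 < w0 ∧ ∀ ε : ℝ, 0 < ε → ∃ δ : ℝ, 0 < δ ∧ δ ≤ 1 ∧ δ ≤ ε ∧ ∀ (I : CavIn) (m0 : ℕ),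
      CveHyp c C ρ Cp kM w0 δ I m0 → ∀ kI Ii : ℕ, CveTg I kI Ii → ∀ (a f : ℕ) (μ : CvtMon), CveMon Nd Qd Ii a f μ →
        |cveX ((cvySys m0 I.P).nuM kI I.js) ((cvySys m0 I.P).LM kI I.js (I.jU + 1)) ((cvySys m0 I.P).b I.js) ((cvySys m0 I.P).chi (I.jU + 1))
            ((cvySys m0 I.P).K I.js) ((cvySys m0 I.P).S I.js) ((cvySys m0 I.P).Gam I.js) a f μ|
          ≤ CX * (ε + (cvD I.n I.P kI / I.x) ^ θ) * (I.W * I.x ^ 2 * cvtMsz I.W I.x μ) := by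
  obtain ⟨k24, C24, θ, w0, hC24, hθ0, hθ1, hw0, H24⟩ := cve_24 c C ρ Cp hc hρ Nd Qd
  obtain ⟨kL, CL, hCL, HL⟩ := cve_lhs c C ρ Cp hc hρ Nd Qd
  obtain ⟨k3, C3, hC3, H3⟩ := cve_E3 c C ρ Cp hc hρ Nd Qd
  obtain ⟨k4, C4, hC4, H4⟩ := cve_E4 c C ρ Cp hc hρ Nd Qd
  refine ⟨max (max k24 kL) (max k3 k4), C24 + CL + C3 + C4, θ, w0, by positivity, hθ0, hθ1, hw0, fun ε hε => ?_⟩
  obtain ⟨δ, hδ, H24⟩ := H24 ε hε
  refine ⟨min δ (min 1 ε), lt_min hδ (lt_min one_pos hε), (min_le_right _ _).trans (min_le_left _ _),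
    (min_le_right _ _).trans (min_le_right _ _), fun I m0 hI kI Ii hT a f μ hμ => ?_⟩
  have hδ1 : min δ (min 1 ε) ≤ 1 := (min_le_right _ _).trans (min_le_left _ _)
  have hδε : min δ (min 1 ε) ≤ ε := (min_le_right _ _).trans (min_le_right _ _)
  have h24 := H24 I m0 (hI.mono ((le_max_left _ _).trans (le_max_left _ _)) le_rfl (min_le_left _ _)) kI Ii hT a f μ hμ
  have hL := HL I m0 (hI.weak ((le_max_right _ _).trans (le_max_left _ _)) hδ1) kI Ii hT a f μ hμ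
  have h3 := H3 I m0 (hI.weak ((le_max_left _ _).trans (le_max_right _ _)) hδ1) kI Ii hT a f μ hμ
  have h4 := H4 I m0 (hI.weak ((le_max_right _ _).trans (le_max_right _ _)) hδ1) kI Ii hT a f μ hμ
  have hX := cve_alg_X _ _ _ _ _ _ _ a f μ _ _ _ _ _ _ _ h24 hL h3 h4
  refine hX.trans ?_
  have hx0 := hI.ok.x0
  have hW0 : 0 < I.W := lt_of_lt_of_le hx0 hI.ok.xW
  have hp : 0 ≤ cvtMsz I.W I.x μ := cvtMsz_nonneg hW0.le hx0.le μ
  have hZ : 0 ≤ I.W * I.x ^ 2 * cvtMsz I.W I.x μ := by positivity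
  have hd : 0 ≤ (cvD I.n I.P kI / I.x) ^ θ := Real.rpow_nonneg (div_nonneg (Real.sqrt_nonneg _) hx0.le) _
  have hsv : I.sv ≤ ε + (cvD I.n I.P kI / I.x) ^ θ := by have := hI.hsv.trans hδε; linarith
  have a1 : CL * I.sv * (I.W * I.x ^ 2 * cvtMsz I.W I.x μ) ≤ CL * (ε + (cvD I.n I.P kI / I.x) ^ θ) * (I.W * I.x ^ 2 * cvtMsz I.W I.x μ) :=
    mul_le_mul_of_nonneg_right (mul_le_mul_of_nonneg_left hsv hCL) hZ
  have a2 : C3 * I.sv * (I.W * I.x ^ 2 * cvtMsz I.W I.x μ) ≤ C3 * (ε + (cvD I.n I.P kI / I.x) ^ θ) * (I.W * I.x ^ 2 * cvtMsz I.W I.x μ) :=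
    mul_le_mul_of_nonneg_right (mul_le_mul_of_nonneg_left hsv hC3) hZ
  have a3 : C4 * I.sv * (I.W * I.x ^ 2 * cvtMsz I.W I.x μ) ≤ C4 * (ε + (cvD I.n I.P kI / I.x) ^ θ) * (I.W * I.x ^ 2 * cvtMsz I.W I.x μ) :=
    mul_le_mul_of_nonneg_right (mul_le_mul_of_nonneg_left hsv hC4) hZ
  have e : (C24 + CL + C3 + C4) * (ε + (cvD I.n I.P kI / I.x) ^ θ) * (I.W * I.x ^ 2 * cvtMsz I.W I.x μ)
      = C24 * (ε + (cvD I.n I.P kI / I.x) ^ θ) * (I.W * I.x ^ 2 * cvtMsz I.W I.x μ)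
        + CL * (ε + (cvD I.n I.P kI / I.x) ^ θ) * (I.W * I.x ^ 2 * cvtMsz I.W I.x μ)
        + C3 * (ε + (cvD I.n I.P kI / I.x) ^ θ) * (I.W * I.x ^ 2 * cvtMsz I.W I.x μ)
        + C4 * (ε + (cvD I.n I.P kI / I.x) ^ θ) * (I.W * I.x ^ 2 * cvtMsz I.W I.x μ) := by ring
  rw [e]
  linarith

/-- **EQUATION (25) PER MONOMIAL** = the field `h25` of `CvtIn.Ok` at `cvySys`.      TEX[PE:lem:cavity-replacements] -/
theorem cve_h25 (c C ρ : ℝ) (Cp : ℕ → ℝ) (hc : 0 < c) (hρ : 0 < ρ) (Nd Qd : ℕ) :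
    ∃ (kM : ℕ) (C25 θ w0 : ℝ), 0 ≤ C25 ∧ 0 < θ ∧ θ ≤ 1 ∧ 0 < w0 ∧ ∀ ε : ℝ, 0 < ε → ∃ δ : ℝ, 0 < δ ∧ ∀ (I : CavIn) (m0 : ℕ), I.n = m0 + 1 →
      I.Ok c C ρ Cp kM → I.Star c C Cp kM → I.W ≤ w0 → I.x ≤ δ → I.sv ≤ δ → I.et ≤ δ →
      ∀ kI Ii : ℕ, (kI ≤ I.jB ∧ Ii = 1 ∨ kI = I.js ∧ Ii = 0) →
      ∀ (a f : ℕ) (μ : CvtMon), CvtOk Nd Qd Ii a μ → cvtTopM μ ≤ f → f ≠ a → f ≤ Qd + 1 →
        |cvtF25 ((cvySys m0 I.P).nuM kI I.js) ((cvySys m0 I.P).LM kI I.js (I.jU + 1)) ((cvySys m0 I.P).b I.js) ((cvySys m0 I.P).chi (I.jU + 1))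
            ((cvySys m0 I.P).K I.js) a f μ|
          ≤ C25 * (ε + (cvD I.n I.P kI / I.x) ^ θ) * (I.W * I.x ^ 2 * cvtMsz I.W I.x μ) := by
  obtain ⟨kX, CX, θ, w0, hCX, hθ0, hθ1, hw0, HX⟩ := cve_X c C ρ Cp hc hρ Nd Qd
  obtain ⟨C0, hC0, H0⟩ := cve_L0 c C ρ Cp hc hρ Qd
  obtain ⟨kn, Cn, hCn, Hn⟩ := cve_num c C ρ Cp hc hρ Nd Qd
  refine ⟨max kX kn, CX + Cn * CX + 2 * (Cn * Cn * C0), θ, w0, by positivity, hθ0, hθ1, hw0, fun ε hε => ?_⟩
  obtain ⟨δ, hδ, hδ1, hδε, HX⟩ := HX ε hε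
  refine ⟨δ, hδ, fun I m0 hn hok hst hW hx hsv het kI Ii hT a f μ hμ hf hfa hfQ => ?_⟩
  have hI : CveHyp c C ρ Cp (max kX kn) w0 δ I m0 := ⟨hn, hok, hst, hW, hx, hsv, het⟩
  have hM : CveMon Nd Qd Ii a f μ := ⟨hμ, hf, hfa, hfQ⟩
  have hkI : kI ≤ I.js := CveTg.le hT hst
  have hY := cvy_ok m0 I.P hok.adm
  have hXμ := HX I m0 (hI.mono (le_max_left _ _) le_rfl le_rfl) kI Ii hT a f μ hM
  have hX0 := HX I m0 (hI.mono (le_max_left _ _) le_rfl le_rfl) kI Ii hT a f [] hM.nil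
  obtain ⟨⟨hχ0, hχ1⟩, -, hK, -, hν⟩ := Hn I m0 (hI.weak (le_max_right _ _) hδ1)
  have hν := hν kI Ii hT a μ hμ
  have hf0 : f ≠ 0 := by have := cvtTopM_pos μ; omega
  have hLa := H0 I m0 (hI.weak (Nat.zero_le _) hδ1) kI hkI a hμ.a_ne hμ.rt
  have hLf := H0 I m0 (hI.weak (Nat.zero_le _) hδ1) kI hkI f hf0 hfQ
  rw [cve_alg_id _ _ _ _ _ ((cvySys m0 I.P).S I.js) ((cvySys m0 I.P).Gam I.js) a f μ (cve_nu_nil _ hY hkI (cve_js_le hst m0))]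
  have hx0 := hok.x0
  have hW0 : 0 < I.W := lt_of_lt_of_le hx0 hok.xW
  have hp : 0 ≤ cvtMsz I.W I.x μ := cvtMsz_nonneg hW0.le hx0.le μ
  have hd : 0 ≤ (cvD I.n I.P kI / I.x) ^ θ := Real.rpow_nonneg (div_nonneg (Real.sqrt_nonneg _) hx0.le) _
  set E : ℝ := ε + (cvD I.n I.P kI / I.x) ^ θ with hE
  have hE0 : 0 ≤ E := by positivity
  have hsvE : I.sv ≤ E := by have := hsv.trans hδε; linarith
  have hsv0 := hok.sv0
  set p : ℝ := cvtMsz I.W I.x μ with hpdef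
  have hnil : cvtMsz I.W I.x [] = 1 := by simp [cvtMsz]
  rw [hnil, mul_one] at hX0
  set X1 := cveX ((cvySys m0 I.P).nuM kI I.js) ((cvySys m0 I.P).LM kI I.js (I.jU + 1)) ((cvySys m0 I.P).b I.js) ((cvySys m0 I.P).chi (I.jU + 1))
    ((cvySys m0 I.P).K I.js) ((cvySys m0 I.P).S I.js) ((cvySys m0 I.P).Gam I.js) a f μ
  set X0 := cveX ((cvySys m0 I.P).nuM kI I.js) ((cvySys m0 I.P).LM kI I.js (I.jU + 1)) ((cvySys m0 I.P).b I.js) ((cvySys m0 I.P).chi (I.jU + 1))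
    ((cvySys m0 I.P).K I.js) ((cvySys m0 I.P).S I.js) ((cvySys m0 I.P).Gam I.js) a f []
  set ν := (cvySys m0 I.P).nuM kI I.js μ
  set χ := (cvySys m0 I.P).chi (I.jU + 1)
  set K := (cvySys m0 I.P).K I.js
  set La := (cvySys m0 I.P).LM kI I.js (I.jU + 1) [] a
  set Lf := (cvySys m0 I.P).LM kI I.js (I.jU + 1) [] f
  have b1 : |ν * X0| ≤ Cn * p * (CX * E * (I.W * I.x ^ 2)) := by
    rw [abs_mul]
    exact mul_le_mul hν hX0 (abs_nonneg _) (by positivity)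
  have b2 : |χ * K * (La + Lf)| ≤ 1 * (Cn * I.W) * (2 * (C0 * E * I.x ^ 2)) := by
    rw [abs_mul, abs_mul, abs_of_nonneg hχ0]
    have h1 : |La + Lf| ≤ 2 * (C0 * E * I.x ^ 2) := by
      have h2 : C0 * I.sv * I.x ^ 2 ≤ C0 * E * I.x ^ 2 := mul_le_mul_of_nonneg_right (mul_le_mul_of_nonneg_left hsvE hC0) (by positivity)
      have := abs_add_le La Lf
      linarith
    exact mul_le_mul (mul_le_mul hχ1 hK (abs_nonneg _) zero_le_one) h1 (abs_nonneg _) (by positivity)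
  have b3 : |ν * (χ * K * (La + Lf))| ≤ Cn * p * (1 * (Cn * I.W) * (2 * (C0 * E * I.x ^ 2))) := by
    rw [abs_mul]
    exact mul_le_mul hν b2 (abs_nonneg _) (by positivity)
  have t1 := abs_sub (X1 - ν * X0) (ν * (χ * K * (La + Lf)))
  have t2 := abs_sub X1 (ν * X0)
  have e : (CX + Cn * CX + 2 * (Cn * Cn * C0)) * E * (I.W * I.x ^ 2 * p)
      = CX * E * (I.W * I.x ^ 2 * p) + Cn * p * (CX * E * (I.W * I.x ^ 2)) + Cn * p * (1 * (Cn * I.W) * (2 * (C0 * E * I.x ^ 2))) := by ring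
  rw [e]
  linarith

/-- **(24) AT `P = 1` AFTER THE REPLACEMENTS** = the field `hcal` of `CvtIn.Cal` at `cvySys` (star-only record, `kI = js`).      TEX[PE:lem:cavity-calibration] -/
theorem cve_hcal (c C ρ : ℝ) (Cp : ℕ → ℝ) (hc : 0 < c) (hρ : 0 < ρ) :
    ∃ (kM : ℕ) (Cc w0 : ℝ), 0 ≤ Cc ∧ 0 < w0 ∧ ∀ ε : ℝ, 0 < ε → ∃ δ : ℝ, 0 < δ ∧ ∀ (I : CavIn) (m0 : ℕ), I.n = m0 + 1 →
      I.Ok c C ρ Cp kM → I.Star c C Cp kM → I.W ≤ w0 → I.x ≤ δ → I.sv ≤ δ → I.et ≤ δ →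
        |(cvySys m0 I.P).S I.js - (cvySys m0 I.P).Gam I.js - (cvySys m0 I.P).b I.js * (cvySys m0 I.P).chi (I.jU + 1)
            * ((cvySys m0 I.P).LM I.js I.js (I.jU + 1) [(1, 2)] 1 + (cvySys m0 I.P).LM I.js I.js (I.jU + 1) [(1, 2)] 2)|
          ≤ Cc * ε * (I.W * I.x ^ 2) := by
  obtain ⟨kX, CX, θ, w0, hCX, hθ0, hθ1, hw0, HX⟩ := cve_X c C ρ Cp hc hρ 0 1
  obtain ⟨C0, hC0, H0⟩ := cve_L0 c C ρ Cp hc hρ 1
  obtain ⟨kn, Cn, hCn, Hn⟩ := cve_num c C ρ Cp hc hρ 0 1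
  refine ⟨max kX kn, 2 * CX + (1 + Cn) * Cn + 2 * (Cn * C0), w0, by positivity, hw0, fun ε hε => ?_⟩
  obtain ⟨δ, hδ, hδ1, hδε, HX⟩ := HX ε hε
  refine ⟨min δ (ε ^ θ⁻¹), lt_min hδ (Real.rpow_pos_of_pos hε _), fun I m0 hn hok hst hW hx hsv het => ?_⟩
  have hI : CveHyp c C ρ Cp (max kX kn) w0 δ I m0 :=
    ⟨hn, hok, hst, hW, hx.trans (min_le_left _ _), hsv.trans (min_le_left _ _), het.trans (min_le_left _ _)⟩
  have hT : CveTg I I.js 0 := Or.inr ⟨rfl, rfl⟩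
  have hM : CveMon 0 1 0 1 2 [] :=
    ⟨⟨by simp, le_rfl, by omega, by omega, by simp, by simp, cvt_root_nil 1⟩, by show 1 ≤ 2; omega, by omega, by omega⟩
  have hY := cvy_ok m0 I.P hok.adm
  have hX0 := HX I m0 (hI.mono (le_max_left _ _) le_rfl le_rfl) I.js 0 hT 1 2 [] hM
  obtain ⟨⟨hχ0, hχ1⟩, ⟨hb0, hb1⟩, hK, hν12, -⟩ := Hn I m0 (hI.weak (le_max_right _ _) hδ1)
  have hL1 := H0 I m0 (hI.weak (Nat.zero_le _) hδ1) I.js le_rfl 1 (by omega) (by omega)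
  have hL2 := H0 I m0 (hI.weak (Nat.zero_le _) hδ1) I.js le_rfl 2 (by omega) (by omega)
  have hν0 := cve_nu_nil _ hY (le_refl I.js) (cve_js_le hst m0)
  have hx0 := hok.x0
  have hW0 : 0 < I.W := lt_of_lt_of_le hx0 hok.xW
  have hsv0 := hok.sv0
  have hsvε : I.sv ≤ ε := (hsv.trans (min_le_left _ _)).trans hδε
  have hnil : cvtMsz I.W I.x [] = 1 := by simp [cvtMsz]
  rw [hnil, mul_one] at hX0
  -- the target term is small at the good cut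
  have hd0 : 0 ≤ cvD I.n I.P I.js / I.x := div_nonneg (Real.sqrt_nonneg _) hx0.le
  have hd1 : cvD I.n I.P I.js / I.x ≤ ε ^ θ⁻¹ := by
    refine le_trans ?_ (hsv.trans (min_le_right _ _))
    rw [div_le_iff₀ hx0]
    refine hst.Dst.trans ?_
    rw [div_le_iff₀ hW0]
    have : I.sv * I.x * I.x ≤ I.sv * I.x * I.W := mul_le_mul_of_nonneg_left hok.xW (by positivity)
    nlinarith
  have hd2 : (cvD I.n I.P I.js / I.x) ^ θ ≤ ε := by
    have := Real.rpow_le_rpow hd0 hd1 hθ0.le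
    rwa [Real.rpow_inv_rpow hε.le hθ0.ne'] at this
  have hZ : 0 ≤ I.W * I.x ^ 2 := by positivity
  have hX1 : |cveX ((cvySys m0 I.P).nuM I.js I.js) ((cvySys m0 I.P).LM I.js I.js (I.jU + 1)) ((cvySys m0 I.P).b I.js) ((cvySys m0 I.P).chi (I.jU + 1))
      ((cvySys m0 I.P).K I.js) ((cvySys m0 I.P).S I.js) ((cvySys m0 I.P).Gam I.js) 1 2 []| ≤ CX * (2 * ε) * (I.W * I.x ^ 2) :=
    hX0.trans (mul_le_mul_of_nonneg_right (mul_le_mul_of_nonneg_left (by linarith) hCX) hZ)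
  unfold cveX at hX1
  rw [hν0] at hX1
  set S := (cvySys m0 I.P).S I.js
  set Γ := (cvySys m0 I.P).Gam I.js
  set b := (cvySys m0 I.P).b I.js
  set χ := (cvySys m0 I.P).chi (I.jU + 1)
  set K := (cvySys m0 I.P).K I.js
  set ν := (cvySys m0 I.P).nuM I.js I.js [(1, 2)]
  set L1 := (cvySys m0 I.P).LM I.js I.js (I.jU + 1) [] 1
  set L2 := (cvySys m0 I.P).LM I.js I.js (I.jU + 1) [] 2
  set M1 := (cvySys m0 I.P).LM I.js I.js (I.jU + 1) [(1, 2)] 1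
  set M2 := (cvySys m0 I.P).LM I.js I.js (I.jU + 1) [(1, 2)] 2
  have b1 : |(1 - b * χ ^ 2) * ν| ≤ (1 + Cn) * (Cn * ε * (I.W * I.x ^ 2)) := by
    rw [abs_mul]
    have h1 : |1 - b * χ ^ 2| ≤ 1 + Cn := by
      have h2 : 0 ≤ b * χ ^ 2 := by positivity
      have h3 : b * χ ^ 2 ≤ Cn * 1 := mul_le_mul hb1 (pow_le_one₀ hχ0 hχ1) (by positivity) hCn
      rw [abs_le]
      constructor <;> linarith
    have h4 : |ν| ≤ Cn * ε * (I.W * I.x ^ 2) :=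
      hν12.trans (mul_le_mul_of_nonneg_right (mul_le_mul_of_nonneg_left hsvε hCn) hZ)
    exact mul_le_mul h1 h4 (abs_nonneg _) (by positivity)
  have b2 : |χ * K * (L1 + L2)| ≤ 1 * (Cn * I.W) * (2 * (C0 * ε * I.x ^ 2)) := by
    rw [abs_mul, abs_mul, abs_of_nonneg hχ0]
    have h1 : |L1 + L2| ≤ 2 * (C0 * ε * I.x ^ 2) := by
      have h2 : C0 * I.sv * I.x ^ 2 ≤ C0 * ε * I.x ^ 2 := mul_le_mul_of_nonneg_right (mul_le_mul_of_nonneg_left hsvε hC0) (by positivity)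
      have := abs_add_le L1 L2
      linarith
    exact mul_le_mul (mul_le_mul hχ1 hK (abs_nonneg _) zero_le_one) h1 (abs_nonneg _) (by positivity)
  have e : S - Γ - b * χ * (M1 + M2)
      = ((1 - b * χ ^ 2) * ν + (S - Γ) * 1 - χ * K * (L1 + L2) - b * χ * (M1 + M2)) - (1 - b * χ ^ 2) * ν + χ * K * (L1 + L2) := by ring
  rw [e]
  have t1 := abs_add_le (((1 - b * χ ^ 2) * ν + (S - Γ) * 1 - χ * K * (L1 + L2) - b * χ * (M1 + M2)) - (1 - b * χ ^ 2) * ν) (χ * K * (L1 + L2))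
  have t2 := abs_sub ((1 - b * χ ^ 2) * ν + (S - Γ) * 1 - χ * K * (L1 + L2) - b * χ * (M1 + M2)) ((1 - b * χ ^ 2) * ν)
  have e2 : (2 * CX + (1 + Cn) * Cn + 2 * (Cn * C0)) * ε * (I.W * I.x ^ 2)
      = CX * (2 * ε) * (I.W * I.x ^ 2) + (1 + Cn) * (Cn * ε * (I.W * I.x ^ 2)) + 1 * (Cn * I.W) * (2 * (C0 * ε * I.x ^ 2)) := by ring
  rw [e2]
  linarith

end Claimed.Agent.R286
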