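import Claimed.Agent.R286.Cav.LedDefs
import Claimed.Agent.R286.Fd.TrKit9b

/-!
# Row 286 (S0533), unit Cav, file LedComb9      (owner / prover helper9; architect of the statements: helper204)
PROOFS of three statements of `Cav/LedComb.lean` (pure combinatorics of the signed weights): `led_dens1`, `led_dens2`, `led_entry`,
under the names `tk9_led_dens1`, `tk9_led_dens2`, `tk9_led_entry` (`ledTot` is written out).   No sorry.
Tools: linearity of `trAbsK`, `tk9_fork2_density` (two prescribed new fork depths cost `dm dm`).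
-/

set_option autoImplicit false

namespace Claimed.Agent.R286

open Finset

/-! ### linearity of the total variation sums -/

theorem tk9_abs_sum {α : Type} (ms : ℕ → ℝ) (N q : ℕ) (τ : ℕ → ℕ → ℕ) (s : Finset α) (c : α → ℝ)
    (Φ : α → (ℕ → ℕ → ℕ) → ℝ) :
    trAbs ms N q τ (fun τ' => ∑ i ∈ s, c i * Φ i τ') = ∑ i ∈ s, c i * trAbs ms N q τ (Φ i) := by
  unfold trAbs
  simp_rw [Finset.mul_sum]
  calc ∑ x ∈ range q, ∑ j ∈ range (N + 2), ∑ i ∈ s, |trWt ms N q τ x j| * (c i * Φ i (trAtt N q τ x j))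
      = ∑ x ∈ range q, ∑ i ∈ s, ∑ j ∈ range (N + 2), |trWt ms N q τ x j| * (c i * Φ i (trAtt N q τ x j)) :=
        Finset.sum_congr rfl fun x _ => Finset.sum_comm
    _ = ∑ i ∈ s, ∑ x ∈ range q, ∑ j ∈ range (N + 2), |trWt ms N q τ x j| * (c i * Φ i (trAtt N q τ x j)) :=
        Finset.sum_comm
    _ = _ := Finset.sum_congr rfl fun i _ => Finset.sum_congr rfl fun x _ => Finset.sum_congr rfl fun j _ => by ring

theorem tk9_absK_sum {α : Type} (ms : ℕ → ℝ) (N : ℕ) (s : Finset α) (c : α → ℝ) (Φ : α → (ℕ → ℕ → ℕ) → ℝ) (k : ℕ) :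
    ∀ (q : ℕ) (τ : ℕ → ℕ → ℕ),
    trAbsK ms N k q τ (fun τ' => ∑ i ∈ s, c i * Φ i τ') = ∑ i ∈ s, c i * trAbsK ms N k q τ (Φ i) := by
  induction k with
  | zero => intro q τ; rfl
  | succ k ih =>
    intro q τ
    simp only [trAbsK]
    simp_rw [ih]
    exact tk9_abs_sum ms N q τ s c fun i τ' => trAbsK ms N k (q + 1) τ' (Φ i)

theorem tk9_absK_nonneg {N : ℕ} {ms : ℕ → ℝ} (k : ℕ) (Φ : (ℕ → ℕ → ℕ) → ℝ) (h : ∀ τ', 0 ≤ Φ τ') :
    ∀ (q : ℕ) (τ : ℕ → ℕ → ℕ), 0 ≤ trAbsK ms N k q τ Φ := by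
  induction k with
  | zero => intro q τ; exact h τ
  | succ k ih =>
    intro q τ
    simp only [trAbsK, trAbs]
    exact Finset.sum_nonneg fun x _ => Finset.sum_nonneg fun j _ => mul_nonneg (abs_nonneg _) (ih _ _)

/-- total variation of a test with values in `[0,1]` -/
theorem tk9_absK_le_one {N q : ℕ} {τ : ℕ → ℕ → ℕ} {ms : ℕ → ℝ} (hτ : IsTr N q τ) (hms : IsMs N ms) (ha : ms N ≤ 1) (k : ℕ)
    (Ψ : (ℕ → ℕ → ℕ) → ℝ) (hΨ : ∀ τ', 0 ≤ Ψ τ' ∧ Ψ τ' ≤ 1) :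
    trAbsK ms N k q τ Ψ ≤ 2 ^ k * ∏ i ∈ Finset.range k, ((q : ℝ) + i) := by
  have habs : (fun τ' => |Ψ τ'|) = Ψ := funext fun τ' => abs_of_nonneg (hΨ τ').1
  have := tk9_absK_le hτ hms k Ψ 1 (fun τ' _ => by rw [abs_of_nonneg (hΨ τ').1]; exact (hΨ τ').2)
  rw [habs, mul_one] at this
  refine le_trans this ?_
  apply mul_le_mul_of_nonneg_right _ (by positivity)
  exact pow_le_pow_left₀ (by have := hms.nonneg N; positivity) (by linarith) k

theorem tk9_mem_forks {q : ℕ} {τ : ℕ → ℕ → ℕ} {j : ℕ} : j ∈ ledForks q τ ↔ ∃ u v, u < q ∧ v < q ∧ τ u v = j := by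
  unfold ledForks
  simp only [Finset.mem_image, Finset.mem_product, Finset.mem_range, Prod.exists]
  constructor
  · rintro ⟨u, v, ⟨hu, hv⟩, h⟩; exact ⟨u, v, hu, hv, h⟩
  · rintro ⟨u, v, hu, hv, h⟩; exact ⟨u, v, ⟨hu, hv⟩, h⟩

theorem tk9_not_mem_forks {q : ℕ} {τ : ℕ → ℕ → ℕ} {j : ℕ} (h : j ∉ ledForks q τ) : ∀ u v, u < q → v < q → τ u v ≠ j :=
  fun u v hu hv he => h (tk9_mem_forks.2 ⟨u, v, hu, hv, he⟩)

/-- weight of a split depth: Lebesgue weight, `+ 1` at an old fork -/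
noncomputable def tk9W (ms : ℕ → ℝ) (q : ℕ) (τ : ℕ → ℕ → ℕ) (j : ℕ) : ℝ :=
  (ms j - trPm ms j) + if j ∈ ledForks q τ then 1 else 0

theorem tk9_W_nonneg {N : ℕ} {ms : ℕ → ℝ} (hms : IsMs N ms) (q : ℕ) (τ : ℕ → ℕ → ℕ) {j : ℕ} (hj : j ≤ N) :
    0 ≤ tk9W ms q τ j := by
  unfold tk9W
  have := tk9_pm_le hms hj
  split_ifs <;> linarith

/-- `∑ W f = ∫ f dm + atoms` -/
theorem tk9_W_sum (ms : ℕ → ℝ) (q : ℕ) (τ : ℕ → ℕ → ℕ) (k0 k1 : ℕ) (f : ℕ → ℝ) :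
    ∑ j ∈ Finset.Ico k0 k1, tk9W ms q τ j * f j
      = ∑ j ∈ Finset.Ico k0 k1, (ms j - trPm ms j) * f j + ledAt q τ k0 k1 f := by
  unfold tk9W ledAt
  simp_rw [add_mul]
  rw [Finset.sum_add_distrib]
  congr 1
  simp_rw [ite_mul, one_mul, zero_mul]
  rw [← Finset.sum_filter]
  apply Finset.sum_congr _ fun _ _ => rfl
  ext j
  simp only [Finset.mem_filter, Finset.mem_Ico]
  tauto

/-- one prescribed fork depth -/
theorem tk9_fork1 (q k : ℕ) : ∃ C : ℝ, 0 ≤ C ∧ ∀ (N : ℕ) (τ : ℕ → ℕ → ℕ) (ms : ℕ → ℝ), IsTr N q τ → IsMs N ms → ms N ≤ 1 →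
    ∀ j, j ≤ N → ∀ Ψ : (ℕ → ℕ → ℕ) → ℝ, (∀ τ', 0 ≤ Ψ τ' ∧ Ψ τ' ≤ 1) →
      (∀ τ', (∀ u v, u < q + k → v < q + k → τ' u v ≠ j) → Ψ τ' = 0) →
      trAbsK ms N k q τ Ψ ≤ C * tk9W ms q τ j := by
  obtain ⟨C, hC, h⟩ := tk9_fork_density k q 1
  refine ⟨C + 2 ^ k * ∏ i ∈ Finset.range k, ((q : ℝ) + i), by positivity, ?_⟩
  intro N τ ms hτ hms ha j hj Ψ hΨ h0
  have hd : 0 ≤ ms j - trPm ms j := sub_nonneg.2 (tk9_pm_le hms hj)
  have hT : (0 : ℝ) ≤ 2 ^ k * ∏ i ∈ Finset.range k, ((q : ℝ) + i) := by positivity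
  unfold tk9W
  by_cases hf : j ∈ ledForks q τ
  · rw [if_pos hf]
    have := tk9_absK_le_one hτ hms ha k Ψ hΨ
    nlinarith
  · rw [if_neg hf, add_zero]
    have := h N τ ms hτ hms ha j hj (tk9_not_mem_forks hf) Ψ hΨ h0
    nlinarith

theorem tk9_ind_sum (k0 k1 t : ℕ) (f : ℕ → ℝ) :
    (if k0 ≤ t ∧ t < k1 then f t else 0) = ∑ j ∈ Finset.Ico k0 k1, f j * (if t = j then 1 else 0) := by
  simp_rw [mul_ite, mul_one, mul_zero]
  rw [Finset.sum_ite_eq]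
  simp only [Finset.mem_Ico]

/-- `led_dens1` of `Cav/LedComb` -/
theorem tk9_led_dens1 (q k : ℕ) : ∃ C : ℝ, 0 ≤ C ∧ ∀ (N : ℕ) (τ : ℕ → ℕ → ℕ) (ms : ℕ → ℝ), IsTr N q τ → IsMs N ms → ms N ≤ 1 →
    ∀ x y k0 k1 : ℕ, x < q + k → q ≤ y → y < q + k → x ≠ y → k1 ≤ N + 1 → ∀ f : ℕ → ℝ, (∀ j, 0 ≤ f j) →
      trAbsK ms N k q τ (fun τ' => if k0 ≤ τ' x y ∧ τ' x y < k1 then f (τ' x y) else 0)
        ≤ C * (∑ j ∈ Finset.Ico k0 k1, (ms j - trPm ms j) * f j + ledAt q τ k0 k1 f) := by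
  obtain ⟨C, hC, h⟩ := tk9_fork1 q k
  refine ⟨C, hC, ?_⟩
  intro N τ ms hτ hms ha x y k0 k1 hx _ hy _ hk1 f hf
  simp_rw [tk9_ind_sum]
  rw [tk9_absK_sum, ← tk9_W_sum, Finset.mul_sum]
  refine Finset.sum_le_sum fun j hj => ?_
  rw [Finset.mem_Ico] at hj
  have := h N τ ms hτ hms ha j (by omega) (fun τ' => if τ' x y = j then 1 else 0)
    (fun τ' => by split_ifs <;> norm_num) (fun τ' h' => by rw [if_neg (h' x y hx hy)])
  calc f j * trAbsK ms N k q τ (fun τ' => if τ' x y = j then 1 else 0)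
      ≤ f j * (C * tk9W ms q τ j) := mul_le_mul_of_nonneg_left this (hf j)
    _ = C * (tk9W ms q τ j * f j) := by ring

/-- weight of a node without fork -/
theorem tk9_wt_nofork {N q : ℕ} {τ : ℕ → ℕ → ℕ} {ms : ℕ → ℝ} (hτ : IsTr N q τ) (hms : IsMs N ms) {x j : ℕ} (hx : x < q)
    (hj : j ≤ N) (hf : ∀ u v, u < q → v < q → τ u v ≠ j) : |trWt ms N q τ x j| ≤ ms j - trPm ms j := by
  have hδ : 0 ≤ ms j - trPm ms j := sub_nonneg.2 (tk9_pm_le hms hj)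
  have hne : j ≠ N + 1 := by omega
  unfold trWt
  rw [tk9_deg_one hτ hx hj hf]
  simp only [if_neg hne]
  split_ifs
  · rw [Nat.cast_one, one_mul, abs_sub_comm, abs_of_nonneg hδ]
  · rw [abs_zero]; exact hδ

/-- two prescribed NEW fork depths cost `dm dm` -/
theorem tk9_fork2_density (k : ℕ) : ∀ (q : ℕ), ∃ C : ℝ, 0 ≤ C ∧ ∀ (N : ℕ) (τ : ℕ → ℕ → ℕ) (ms : ℕ → ℝ),
    IsTr N q τ → IsMs N ms → ms N ≤ 1 → ∀ j₁ j₂, j₁ ≤ N → j₂ ≤ N → j₁ ≠ j₂ →
    (∀ u v, u < q → v < q → τ u v ≠ j₁) → (∀ u v, u < q → v < q → τ u v ≠ j₂) →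
    ∀ Ψ : (ℕ → ℕ → ℕ) → ℝ, (∀ τ', 0 ≤ Ψ τ' ∧ Ψ τ' ≤ 1) →
      (∀ τ', (∀ u v, u < q + k → v < q + k → τ' u v ≠ j₁) → Ψ τ' = 0) →
      (∀ τ', (∀ u v, u < q + k → v < q + k → τ' u v ≠ j₂) → Ψ τ' = 0) →
      trAbsK ms N k q τ Ψ ≤ C * ((ms j₁ - trPm ms j₁) * (ms j₂ - trPm ms j₂)) := by
  induction k with
  | zero =>
    intro q
    refine ⟨0, le_rfl, ?_⟩
    intro N τ ms _ _ _ j₁ j₂ _ _ _ hf₁ _ Ψ _ h0 _
    simp only [trAbsK, zero_mul]
    exact le_of_eq (h0 τ hf₁)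
  | succ k ih =>
    intro q
    obtain ⟨C', hC', ih⟩ := ih (q + 1)
    obtain ⟨C₁, hC₁, h1⟩ := tk9_fork_density k (q + 1) 1
    refine ⟨2 * q * C' + 2 * q * C₁, by positivity, ?_⟩
    intro N τ ms hτ hms ha j₁ j₂ hj₁ hj₂ hne hf₁ hf₂ Ψ hΨ h01 h02
    obtain ⟨δ₁, hδ₁⟩ : ∃ δ, δ = ms j₁ - trPm ms j₁ := ⟨_, rfl⟩
    obtain ⟨δ₂, hδ₂⟩ : ∃ δ, δ = ms j₂ - trPm ms j₂ := ⟨_, rfl⟩
    have hp₁ : 0 ≤ δ₁ := by rw [hδ₁]; exact sub_nonneg.2 (tk9_pm_le hms hj₁)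
    have hp₂ : 0 ≤ δ₂ := by rw [hδ₂]; exact sub_nonneg.2 (tk9_pm_le hms hj₂)
    rw [← hδ₁, ← hδ₂]
    have e : q + (k + 1) = q + 1 + k := by ring
    have key : ∀ x j', x < q → j' ≤ N + 1 →
        |trWt ms N q τ x j'| * trAbsK ms N k (q + 1) (trAtt N q τ x j') Ψ
          ≤ |trWt ms N q τ x j'| * (C' * (δ₁ * δ₂)) + ((if j' = j₁ then C₁ * (δ₁ * δ₂) else 0)
              + (if j' = j₂ then C₁ * (δ₁ * δ₂) else 0)) := by
      intro x j' hx hj'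
      have hT := tk9_att_isTr hτ hx hj'
      have h3 : 0 ≤ |trWt ms N q τ x j'| * (C' * (δ₁ * δ₂)) := by positivity
      have h5 : 0 ≤ C₁ * (δ₁ * δ₂) := by positivity
      by_cases hjj₁ : j' = j₁
      · subst hjj₁
        rw [if_pos rfl, if_neg hne]
        have hw := tk9_wt_nofork hτ hms hx hj₁ hf₁
        rw [← hδ₁] at hw
        have hG := h1 N _ ms hT hms ha j₂ hj₂ (tk9_att_nofork hx hj₂ hne hf₂) Ψ hΨ (fun τ' h => h02 τ' (by rwa [e]))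
        rw [← hδ₂] at hG
        have h4 : |trWt ms N q τ x j'| * trAbsK ms N k (q + 1) (trAtt N q τ x j') Ψ ≤ δ₁ * (C₁ * δ₂) :=
          le_trans (mul_le_mul_of_nonneg_left hG (abs_nonneg _)) (mul_le_mul_of_nonneg_right hw (by positivity))
        nlinarith
      · by_cases hjj₂ : j' = j₂
        · subst hjj₂
          rw [if_neg hjj₁, if_pos rfl]
          have hw := tk9_wt_nofork hτ hms hx hj₂ hf₂
          rw [← hδ₂] at hw
          have hG := h1 N _ ms hT hms ha j₁ hj₁ (tk9_att_nofork hx hj₁ hjj₁ hf₁) Ψ hΨ (fun τ' h => h01 τ' (by rwa [e]))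
          rw [← hδ₁] at hG
          have h4 : |trWt ms N q τ x j'| * trAbsK ms N k (q + 1) (trAtt N q τ x j') Ψ ≤ δ₂ * (C₁ * δ₁) :=
            le_trans (mul_le_mul_of_nonneg_left hG (abs_nonneg _)) (mul_le_mul_of_nonneg_right hw (by positivity))
          nlinarith
        · rw [if_neg hjj₁, if_neg hjj₂, add_zero, add_zero]
          apply mul_le_mul_of_nonneg_left _ (abs_nonneg _)
          rw [hδ₁, hδ₂]
          exact ih N _ ms hT hms ha j₁ j₂ hj₁ hj₂ hne (tk9_att_nofork hx hj₁ hjj₁ hf₁) (tk9_att_nofork hx hj₂ hjj₂ hf₂)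
            Ψ hΨ (fun τ' h => h01 τ' (by rwa [e])) (fun τ' h => h02 τ' (by rwa [e]))
    simp only [trAbsK, trAbs]
    calc ∑ x ∈ Finset.range q, ∑ j' ∈ Finset.range (N + 2),
          |trWt ms N q τ x j'| * trAbsK ms N k (q + 1) (trAtt N q τ x j') Ψ
        ≤ ∑ x ∈ Finset.range q, ∑ j' ∈ Finset.range (N + 2),
          (|trWt ms N q τ x j'| * (C' * (δ₁ * δ₂)) + ((if j' = j₁ then C₁ * (δ₁ * δ₂) else 0)
              + (if j' = j₂ then C₁ * (δ₁ * δ₂) else 0))) := by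
          refine Finset.sum_le_sum fun x hx => Finset.sum_le_sum fun j' hj' => ?_
          rw [Finset.mem_range] at hx hj'
          exact key x j' hx (by omega)
      _ = (∑ x ∈ Finset.range q, ∑ j' ∈ Finset.range (N + 2), |trWt ms N q τ x j'|) * (C' * (δ₁ * δ₂))
            + q * (C₁ * (δ₁ * δ₂) + C₁ * (δ₁ * δ₂)) := by
          simp_rw [Finset.sum_add_distrib, Finset.sum_mul]
          congr 1
          simp_rw [Finset.sum_ite_eq']
          rw [if_pos (by rw [Finset.mem_range]; omega), if_pos (by rw [Finset.mem_range]; omega)]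
          simp only [Finset.sum_const, Finset.card_range, nsmul_eq_mul]
          ring
      _ ≤ (2 * q * 1) * (C' * (δ₁ * δ₂)) + q * (C₁ * (δ₁ * δ₂) + C₁ * (δ₁ * δ₂)) := by
          have h5 : ∑ x ∈ Finset.range q, ∑ j' ∈ Finset.range (N + 2), |trWt ms N q τ x j'| ≤ 2 * q * 1 :=
            le_trans (tk9_tv_le hτ hms) (mul_le_mul_of_nonneg_left ha (by positivity))
          have h6 : 0 ≤ C' * (δ₁ * δ₂) := by positivity
          have := mul_le_mul_of_nonneg_right h5 h6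
          linarith
      _ = (2 * q * C' + 2 * q * C₁) * (δ₁ * δ₂) := by ring

theorem tk9_W_ge_one {N : ℕ} {ms : ℕ → ℝ} (hms : IsMs N ms) {q : ℕ} {τ : ℕ → ℕ → ℕ} {j : ℕ} (hj : j ≤ N)
    (h : j ∈ ledForks q τ) : 1 ≤ tk9W ms q τ j := by
  unfold tk9W
  rw [if_pos h]
  have := tk9_pm_le hms hj
  linarith

theorem tk9_W_of_not {ms : ℕ → ℝ} {q : ℕ} {τ : ℕ → ℕ → ℕ} {j : ℕ} (h : j ∉ ledForks q τ) :
    tk9W ms q τ j = ms j - trPm ms j := by
  unfold tk9W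
  rw [if_neg h, add_zero]

/-- two prescribed distinct fork depths -/
theorem tk9_fork2 (q k : ℕ) : ∃ C : ℝ, 0 ≤ C ∧ ∀ (N : ℕ) (τ : ℕ → ℕ → ℕ) (ms : ℕ → ℝ), IsTr N q τ → IsMs N ms → ms N ≤ 1 →
    ∀ j₁ j₂, j₁ ≤ N → j₂ ≤ N → j₁ ≠ j₂ → ∀ Ψ : (ℕ → ℕ → ℕ) → ℝ, (∀ τ', 0 ≤ Ψ τ' ∧ Ψ τ' ≤ 1) →
      (∀ τ', (∀ u v, u < q + k → v < q + k → τ' u v ≠ j₁) → Ψ τ' = 0) →
      (∀ τ', (∀ u v, u < q + k → v < q + k → τ' u v ≠ j₂) → Ψ τ' = 0) →
      trAbsK ms N k q τ Ψ ≤ C * (tk9W ms q τ j₁ * tk9W ms q τ j₂) := by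
  obtain ⟨C₁, hC₁, h1⟩ := tk9_fork1 q k
  obtain ⟨C₂, hC₂, h2⟩ := tk9_fork2_density k q
  refine ⟨C₁ + C₂, by positivity, ?_⟩
  intro N τ ms hτ hms ha j₁ j₂ hj₁ hj₂ hne Ψ hΨ h01 h02
  have w₁ := tk9_W_nonneg hms q τ hj₁
  have w₂ := tk9_W_nonneg hms q τ hj₂
  by_cases hf₁ : j₁ ∈ ledForks q τ
  · have a1 := tk9_W_ge_one hms hj₁ hf₁
    have := h1 N τ ms hτ hms ha j₂ hj₂ Ψ hΨ h02
    have b1 : C₁ * tk9W ms q τ j₂ ≤ C₁ * (tk9W ms q τ j₁ * tk9W ms q τ j₂) := by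
      apply mul_le_mul_of_nonneg_left _ hC₁
      nlinarith
    have b2 : 0 ≤ C₂ * (tk9W ms q τ j₁ * tk9W ms q τ j₂) := by positivity
    linarith
  · by_cases hf₂ : j₂ ∈ ledForks q τ
    · have a1 := tk9_W_ge_one hms hj₂ hf₂
      have := h1 N τ ms hτ hms ha j₁ hj₁ Ψ hΨ h01
      have b1 : C₁ * tk9W ms q τ j₁ ≤ C₁ * (tk9W ms q τ j₁ * tk9W ms q τ j₂) := by
        apply mul_le_mul_of_nonneg_left _ hC₁
        nlinarith
      have b2 : 0 ≤ C₂ * (tk9W ms q τ j₁ * tk9W ms q τ j₂) := by positivity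
      linarith
    · have := h2 N τ ms hτ hms ha j₁ j₂ hj₁ hj₂ hne (tk9_not_mem_forks hf₁) (tk9_not_mem_forks hf₂) Ψ hΨ h01 h02
      rw [← tk9_W_of_not hf₁, ← tk9_W_of_not hf₂] at this
      have b2 : 0 ≤ C₁ * (tk9W ms q τ j₁ * tk9W ms q τ j₂) := by positivity
      linarith

/-- `led_dens2` of `Cav/LedComb` -/
theorem tk9_led_dens2 (q k : ℕ) : ∃ C : ℝ, 0 ≤ C ∧ ∀ (N : ℕ) (τ : ℕ → ℕ → ℕ) (ms : ℕ → ℝ), IsTr N q τ → IsMs N ms → ms N ≤ 1 →
    ∀ x₁ y₁ x₂ y₂ k0 k1 : ℕ, x₁ < q + k → q ≤ y₁ → y₁ < q + k → x₁ ≠ y₁ → x₂ < q + k → q ≤ y₂ → y₂ < q + k → x₂ ≠ y₂ →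
      k1 ≤ N + 1 → ∀ f : ℕ → ℝ, (∀ j, 0 ≤ f j) →
      trAbsK ms N k q τ (fun τ' => (if k0 ≤ τ' x₁ y₁ ∧ τ' x₁ y₁ < k1 then f (τ' x₁ y₁) else 0)
          * (if k0 ≤ τ' x₂ y₂ ∧ τ' x₂ y₂ < k1 then f (τ' x₂ y₂) else 0))
        ≤ C * ((∑ j ∈ Finset.Ico k0 k1, (ms j - trPm ms j) * f j + ledAt q τ k0 k1 f) ^ 2
            + (∑ j ∈ Finset.Ico k0 k1, (ms j - trPm ms j) * f j ^ 2 + ledAt q τ k0 k1 fun j => f j ^ 2)) := by
  obtain ⟨C₁, hC₁, h1⟩ := tk9_fork1 q k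
  obtain ⟨C₂, hC₂, h2⟩ := tk9_fork2 q k
  refine ⟨C₁ + C₂, by positivity, ?_⟩
  intro N τ ms hτ hms ha x₁ y₁ x₂ y₂ k0 k1 hx₁ _ hy₁ _ hx₂ _ hy₂ _ hk1 f hf
  have e : ∀ τ' : ℕ → ℕ → ℕ, (if k0 ≤ τ' x₁ y₁ ∧ τ' x₁ y₁ < k1 then f (τ' x₁ y₁) else 0)
          * (if k0 ≤ τ' x₂ y₂ ∧ τ' x₂ y₂ < k1 then f (τ' x₂ y₂) else 0)
      = ∑ j₁ ∈ Finset.Ico k0 k1, f j₁ * ∑ j₂ ∈ Finset.Ico k0 k1, f j₂ *
          ((if τ' x₁ y₁ = j₁ then 1 else 0) * (if τ' x₂ y₂ = j₂ then 1 else 0)) := by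
    intro τ'
    rw [tk9_ind_sum, tk9_ind_sum, Finset.sum_mul]
    refine Finset.sum_congr rfl fun j₁ _ => ?_
    rw [mul_assoc, Finset.mul_sum]
    congr 1
    refine Finset.sum_congr rfl fun j₂ _ => ?_
    ring
  simp_rw [e]
  rw [tk9_absK_sum]
  simp_rw [tk9_absK_sum]
  rw [← tk9_W_sum, ← tk9_W_sum]
  have key : ∀ j₁ ∈ Finset.Ico k0 k1, ∀ j₂ ∈ Finset.Ico k0 k1,
      f j₂ * trAbsK ms N k q τ (fun τ' => (if τ' x₁ y₁ = j₁ then (1 : ℝ) else 0) * (if τ' x₂ y₂ = j₂ then 1 else 0))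
        ≤ C₂ * (tk9W ms q τ j₁ * (tk9W ms q τ j₂ * f j₂)) + (if j₁ = j₂ then C₁ * (tk9W ms q τ j₂ * f j₂) else 0) := by
    intro j₁ hj₁ j₂ hj₂
    rw [Finset.mem_Ico] at hj₁ hj₂
    have w₁ := tk9_W_nonneg hms q τ (j := j₁) (by omega)
    have w₂ := tk9_W_nonneg hms q τ (j := j₂) (by omega)
    have hΨ : ∀ τ' : ℕ → ℕ → ℕ, 0 ≤ (if τ' x₁ y₁ = j₁ then (1 : ℝ) else 0) * (if τ' x₂ y₂ = j₂ then 1 else 0) ∧
        (if τ' x₁ y₁ = j₁ then (1 : ℝ) else 0) * (if τ' x₂ y₂ = j₂ then 1 else 0) ≤ 1 := by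
      intro τ'; split_ifs <;> norm_num
    have h01 : ∀ τ' : ℕ → ℕ → ℕ, (∀ u v, u < q + k → v < q + k → τ' u v ≠ j₁) →
        (if τ' x₁ y₁ = j₁ then (1 : ℝ) else 0) * (if τ' x₂ y₂ = j₂ then 1 else 0) = 0 := by
      intro τ' h'; rw [if_neg (h' x₁ y₁ hx₁ hy₁), zero_mul]
    have h02 : ∀ τ' : ℕ → ℕ → ℕ, (∀ u v, u < q + k → v < q + k → τ' u v ≠ j₂) →
        (if τ' x₁ y₁ = j₁ then (1 : ℝ) else 0) * (if τ' x₂ y₂ = j₂ then 1 else 0) = 0 := by
      intro τ' h'; rw [if_neg (h' x₂ y₂ hx₂ hy₂), mul_zero]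
    by_cases hjj : j₁ = j₂
    · rw [if_pos hjj]
      have := h1 N τ ms hτ hms ha j₂ (by omega) _ hΨ h02
      have a := mul_le_mul_of_nonneg_left this (hf j₂)
      have b : 0 ≤ C₂ * (tk9W ms q τ j₁ * (tk9W ms q τ j₂ * f j₂)) := by have := hf j₂; positivity
      nlinarith
    · rw [if_neg hjj, add_zero]
      have := h2 N τ ms hτ hms ha j₁ j₂ (by omega) (by omega) hjj _ hΨ h01 h02
      have a := mul_le_mul_of_nonneg_left this (hf j₂)
      nlinarith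
  calc ∑ j₁ ∈ Finset.Ico k0 k1, f j₁ * ∑ j₂ ∈ Finset.Ico k0 k1, f j₂ *
        trAbsK ms N k q τ (fun τ' => (if τ' x₁ y₁ = j₁ then (1 : ℝ) else 0) * (if τ' x₂ y₂ = j₂ then 1 else 0))
      ≤ ∑ j₁ ∈ Finset.Ico k0 k1, f j₁ * ∑ j₂ ∈ Finset.Ico k0 k1,
          (C₂ * (tk9W ms q τ j₁ * (tk9W ms q τ j₂ * f j₂)) + (if j₁ = j₂ then C₁ * (tk9W ms q τ j₂ * f j₂) else 0)) :=
        Finset.sum_le_sum fun j₁ hj₁ => mul_le_mul_of_nonneg_left (Finset.sum_le_sum fun j₂ hj₂ => key j₁ hj₁ j₂ hj₂) (hf j₁)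
    _ = C₂ * (∑ j ∈ Finset.Ico k0 k1, tk9W ms q τ j * f j) ^ 2 + C₁ * ∑ j ∈ Finset.Ico k0 k1, tk9W ms q τ j * f j ^ 2 := by
        simp_rw [Finset.sum_add_distrib, mul_add]
        rw [Finset.sum_add_distrib]
        congr 1
        · rw [sq, Finset.sum_mul_sum, Finset.mul_sum]
          refine Finset.sum_congr rfl fun j₁ _ => ?_
          rw [Finset.mul_sum, Finset.mul_sum]
          refine Finset.sum_congr rfl fun j₂ _ => ?_
          ring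
        · rw [Finset.mul_sum]
          refine Finset.sum_congr rfl fun j₁ hj₁ => ?_
          rw [Finset.sum_ite_eq, if_pos hj₁]
          ring
    _ ≤ _ := by
        have a : 0 ≤ (∑ j ∈ Finset.Ico k0 k1, tk9W ms q τ j * f j) ^ 2 := sq_nonneg _
        have b : 0 ≤ ∑ j ∈ Finset.Ico k0 k1, tk9W ms q τ j * f j ^ 2 := by
          refine Finset.sum_nonneg fun j hj => ?_
          rw [Finset.mem_Ico] at hj
          exact mul_nonneg (tk9_W_nonneg hms q τ (by omega)) (sq_nonneg _)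
        nlinarith

/-- absolute weight of the node of depth `j` above `a` -/
theorem tk9_node_abs {N q : ℕ} {τ : ℕ → ℕ → ℕ} {ms : ℕ → ℝ} (hτ : IsTr N q τ) (hms : IsMs N ms) {a j : ℕ} (ha : a < q)
    (hj : j ≤ N) :
    ∑ y ∈ (Finset.range q).filter (fun y => j ≤ τ a y), |trWt ms N q τ y j| = trDeg q τ j a * ms j - trPm ms j := by
  have hne : j ≠ N + 1 := by omega
  have e : ∀ y ∈ (Finset.range q).filter (fun y => j ≤ τ a y), |trWt ms N q τ y j|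
      = if trIsMin τ j y then trDeg q τ j y * ms j - trPm ms j else 0 := by
    intro y hy
    rw [Finset.mem_filter, Finset.mem_range] at hy
    rw [abs_of_nonpos (tk9_wt_nonpos hτ hms hy.1 hj)]
    simp only [trWt, if_neg hne]
    split_ifs <;> ring
  rw [Finset.sum_congr rfl e, tk9_node_sum hτ ha (by omega) (fun y => trDeg q τ j y * ms j - trPm ms j)]
  intro c hc h
  rw [tk9_deg_congr hτ ha hc h]

theorem tk9_sum_lt (n k : ℕ) (h : k ≤ n) (g : ℕ → ℝ) :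
    ∑ j ∈ Finset.range n, (if j < k then g j else 0) = ∑ j ∈ Finset.range k, g j := by
  rw [← Finset.sum_filter]
  apply Finset.sum_congr _ fun _ _ => rfl
  ext j
  simp only [Finset.mem_filter, Finset.mem_range]
  omega

theorem tk9_at_range (q : ℕ) (τ : ℕ → ℕ → ℕ) (kU : ℕ) (f : ℕ → ℝ) :
    ∑ j ∈ Finset.range kU, (if j ∈ ledForks q τ then f j else 0) = ledAt q τ 0 kU f := by
  unfold ledAt
  rw [← Finset.sum_filter]
  apply Finset.sum_congr _ fun _ _ => rfl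
  ext j
  simp only [Finset.mem_filter, Finset.mem_range]
  constructor
  · rintro ⟨a, b⟩; exact ⟨b, Nat.zero_le _, a⟩
  · rintro ⟨a, -, b⟩; exact ⟨b, a⟩

/-- `led_entry` of `Cav/LedComb` -/
theorem tk9_led_entry (q : ℕ) : ∃ C : ℝ, 0 ≤ C ∧ ∀ (N : ℕ) (τ : ℕ → ℕ → ℕ) (ms : ℕ → ℝ), IsTr N q τ → IsMs N ms → ms N ≤ 1 →
    ∀ a kU : ℕ, a < q → kU ≤ N → ∀ f : ℕ → ℝ, (∀ j, 0 ≤ f j) →
      trAbs ms N q τ (fun τ' => if ∀ o, o < q → τ' o q < kU then f (τ' a q) else 0)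
        ≤ C * (∑ j ∈ Finset.range kU, (ms j - trPm ms j) * f j + trPm ms kU * ledAt q τ 0 kU f) := by
  refine ⟨1 + 2 * q, by positivity, ?_⟩
  intro N τ ms hτ hms _ a kU ha hkU f hf
  obtain ⟨A, hA⟩ : ∃ A, A = ledAt q τ 0 kU f := ⟨_, rfl⟩
  have hA0 : 0 ≤ A := by
    rw [hA]; unfold ledAt; exact Finset.sum_nonneg fun j _ => hf j
  have hU0 : 0 ≤ trPm ms kU := tk9_pm_nonneg hms kU
  rw [← hA]
  have hq0 : (0 : ℝ) ≤ q := Nat.cast_nonneg q
  -- termwise bound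
  have key : ∀ x j, x < q → j ≤ N + 1 →
      |trWt ms N q τ x j| * (if ∀ o, o < q → trAtt N q τ x j o q < kU then f (trAtt N q τ x j a q) else 0)
        ≤ (if j < kU then (if j ≤ τ a x then |trWt ms N q τ x j| * f j else 0) else 0)
          + (if j < kU then |trWt ms N q τ x j| * A else 0) := by
    intro x j hx hj
    have hat : ∀ o, o < q → trAtt N q τ x j o q = min j (τ o x) := by
      intro o ho
      simp only [trAtt, if_neg (Nat.ne_of_lt ho), if_true]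
    have hc : (∀ o, o < q → trAtt N q τ x j o q < kU) ↔ j < kU := by
      constructor
      · intro H
        have := H x hx
        rw [hat x hx, hτ.diag x hx] at this
        omega
      · intro H o ho
        rw [hat o ho]
        omega
    by_cases hjk : j < kU
    · rw [if_pos (hc.2 hjk), if_pos hjk, if_pos hjk, hat a ha]
      by_cases hja : j ≤ τ a x
      · rw [if_pos hja, min_eq_left hja]
        have : 0 ≤ |trWt ms N q τ x j| * A := by positivity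
        linarith
      · rw [if_neg hja, zero_add, min_eq_right (by omega)]
        apply mul_le_mul_of_nonneg_left _ (abs_nonneg _)
        rw [hA]
        unfold ledAt
        exact Finset.single_le_sum (f := f) (fun i _ => hf i)
          (by rw [Finset.mem_filter]; exact ⟨tk9_mem_forks.2 ⟨a, x, ha, hx, rfl⟩, Nat.zero_le _, by omega⟩)
    · rw [if_neg (fun h => hjk (hc.1 h)), if_neg hjk, if_neg hjk, mul_zero, add_zero]
  -- first sum
  have s1 : ∑ x ∈ Finset.range q, ∑ j ∈ Finset.range kU, (if j ≤ τ a x then |trWt ms N q τ x j| * f j else 0)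
      ≤ ∑ j ∈ Finset.range kU, (ms j - trPm ms j) * f j + q * trPm ms kU * A := by
    rw [Finset.sum_comm]
    have : ∀ j ∈ Finset.range kU, ∑ x ∈ Finset.range q, (if j ≤ τ a x then |trWt ms N q τ x j| * f j else 0)
        ≤ (ms j - trPm ms j) * f j + q * trPm ms kU * (if j ∈ ledForks q τ then f j else 0) := by
      intro j hj
      rw [Finset.mem_range] at hj
      rw [← Finset.sum_filter, ← Finset.sum_mul, tk9_node_abs hτ hms ha (by omega)]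
      by_cases hjf : j ∈ ledForks q τ
      · rw [if_pos hjf]
        have hd : (trDeg q τ j a : ℝ) ≤ q := by
          have := Finset.card_filter_le (Finset.range q) (fun y => j ≤ τ a y ∧ trIsMin τ (j + 1) y)
          rw [Finset.card_range] at this
          unfold trDeg
          exact_mod_cast this
        have hm : ms j ≤ trPm ms kU := by
          unfold trPm
          rw [if_neg (by omega)]
          exact hms.mono _ _ (by omega) (by omega)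
        have hm0 := hms.nonneg j
        have h1 : (trDeg q τ j a : ℝ) * ms j ≤ ms j + q * trPm ms kU := by nlinarith
        have := mul_le_mul_of_nonneg_right h1 (hf j)
        nlinarith
      · rw [if_neg hjf, tk9_deg_one hτ ha (by omega) (tk9_not_mem_forks hjf)]
        simp
    refine le_trans (Finset.sum_le_sum this) (le_of_eq ?_)
    rw [Finset.sum_add_distrib, ← Finset.mul_sum, tk9_at_range, hA]
  -- second sum
  have s2 : ∑ x ∈ Finset.range q, ∑ j ∈ Finset.range kU, |trWt ms N q τ x j| * A ≤ q * trPm ms kU * A := by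
    simp_rw [← Finset.sum_mul]
    rw [tk9_abs_below hτ hms (by omega)]
    have hn : (((Finset.range q).filter fun x => trIsMin τ kU x).card : ℝ) ≤ q := by
      have := Finset.card_filter_le (Finset.range q) (fun x => trIsMin τ kU x)
      rw [Finset.card_range] at this
      exact_mod_cast this
    exact mul_le_mul_of_nonneg_right (mul_le_mul_of_nonneg_right hn hU0) hA0
  have hX : 0 ≤ ∑ j ∈ Finset.range kU, (ms j - trPm ms j) * f j := by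
    refine Finset.sum_nonneg fun j hj => ?_
    rw [Finset.mem_range] at hj
    exact mul_nonneg (sub_nonneg.2 (tk9_pm_le hms (by omega))) (hf j)
  unfold trAbs
  calc _ ≤ ∑ x ∈ Finset.range q, ∑ j ∈ Finset.range (N + 2),
        ((if j < kU then (if j ≤ τ a x then |trWt ms N q τ x j| * f j else 0) else 0)
          + (if j < kU then |trWt ms N q τ x j| * A else 0)) := by
        refine Finset.sum_le_sum fun x hx => Finset.sum_le_sum fun j hj => ?_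
        rw [Finset.mem_range] at hx hj
        exact key x j hx (by omega)
    _ = ∑ x ∈ Finset.range q, ∑ j ∈ Finset.range kU, (if j ≤ τ a x then |trWt ms N q τ x j| * f j else 0)
          + ∑ x ∈ Finset.range q, ∑ j ∈ Finset.range kU, |trWt ms N q τ x j| * A := by
        simp_rw [Finset.sum_add_distrib, tk9_sum_lt (N + 2) kU (by omega)]
    _ ≤ (∑ j ∈ Finset.range kU, (ms j - trPm ms j) * f j + q * trPm ms kU * A) + q * trPm ms kU * A := add_le_add s1 s2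
    _ ≤ _ := by
        have : 0 ≤ trPm ms kU * A := mul_nonneg hU0 hA0
        nlinarith

theorem tk9_led9_eqns_cite : True := by
  have := @tk9W.eq_1
  trivial

end Claimed.Agent.R286
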