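import Claimed.Agent.R286.Cav.LedDefs
import Claimed.Agent.R286.Fd.TrA4
import Claimed.Agent.R286.Cav.LedComb9

/-!
# Row 286 (S0533), unit Cav, file LedComb      (architect: helper204; OWNER / PROVER: helper210; dens1, dens2, entry proved by helper9 in LedComb9; 0 sorry)      PURE COMBINATORICS of the signed weights, on `Fd/TrA*`

The five facts on the attachment weights which the ledger lemma uses beyond `Fd/TrA1-5`.   `dm_j = ms j - trPm ms j`;   `ledAt q τ k0 k1 f` = sum of `f` over the OLD fork depths in `[k0, k1)`.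
* `led_dens1` : one pair (one label new): `TV[f(split)] ≤ C (∫ f dm + atoms)`                                   (PE Lemma 2.8 as it is used at l.489-497)
* `led_dens2` : two pairs: `TV[f(split₁) f(split₂)] ≤ C ((∫ f dm + atoms)² + ∫ f² dm + atoms of f²)`            (l.536-539: two errors on one fork)
* `led_push`  : the signed law of the split depth of (old `a`, new label) does not depend on the tree           (l.321-326 "the scalar row sum is independent of other observed labels")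
* `led_entry` : first entry into an EMPTY block below the cut `kU`: density, and atoms of weight `≤ C U`         (l.608-624)
* `led_marg2` : marginalisation consistency down to the two labels `a, b`                                        (l.600-603: `c_2 μ_0[P]` = the same sum with `K K`)
-/

set_option autoImplicit false

namespace Claimed.Agent.R286

open Finset

/-- `∫_{[k0,k1)} f dm` + old atoms -/
def ledTot (ms : ℕ → ℝ) (q : ℕ) (τ : ℕ → ℕ → ℕ) (k0 k1 : ℕ) (f : ℕ → ℝ) : ℝ :=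
  ∑ j ∈ Finset.Ico k0 k1, (ms j - trPm ms j) * f j + ledAt q τ k0 k1 f

theorem led_dens1 (q k : ℕ) : ∃ C : ℝ, 0 ≤ C ∧ ∀ (N : ℕ) (τ : ℕ → ℕ → ℕ) (ms : ℕ → ℝ), IsTr N q τ → IsMs N ms → ms N ≤ 1 →
    ∀ x y k0 k1 : ℕ, x < q + k → q ≤ y → y < q + k → x ≠ y → k1 ≤ N + 1 → ∀ f : ℕ → ℝ, (∀ j, 0 ≤ f j) →
      trAbsK ms N k q τ (fun τ' => if k0 ≤ τ' x y ∧ τ' x y < k1 then f (τ' x y) else 0) ≤ C * ledTot ms q τ k0 k1 f := by
  simpa only [ledTot] using tk9_led_dens1 q k

theorem led_dens2 (q k : ℕ) : ∃ C : ℝ, 0 ≤ C ∧ ∀ (N : ℕ) (τ : ℕ → ℕ → ℕ) (ms : ℕ → ℝ), IsTr N q τ → IsMs N ms → ms N ≤ 1 →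
    ∀ x₁ y₁ x₂ y₂ k0 k1 : ℕ, x₁ < q + k → q ≤ y₁ → y₁ < q + k → x₁ ≠ y₁ → x₂ < q + k → q ≤ y₂ → y₂ < q + k → x₂ ≠ y₂ →
      k1 ≤ N + 1 → ∀ f : ℕ → ℝ, (∀ j, 0 ≤ f j) →
      trAbsK ms N k q τ (fun τ' => (if k0 ≤ τ' x₁ y₁ ∧ τ' x₁ y₁ < k1 then f (τ' x₁ y₁) else 0)
          * (if k0 ≤ τ' x₂ y₂ ∧ τ' x₂ y₂ < k1 then f (τ' x₂ y₂) else 0))
        ≤ C * (ledTot ms q τ k0 k1 f ^ 2 + ledTot ms q τ k0 k1 fun j => f j ^ 2) := by
  simpa only [ledTot] using tk9_led_dens2 q k

/-- the labels `< p` are kept, the others are shifted by `r` -/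
def ledSh (p r x : ℕ) : ℕ := if x < p then x else x + r

/-- **restriction of a signed sum to the first `p` old leaves** (iterated marginalisation consistency) -/
theorem led_marg_sh {N : ℕ} {ms : ℕ → ℝ} (p k : ℕ) (G : (ℕ → ℕ → ℕ) → ℝ)
    (hG : ∀ τ₁ τ₂ : ℕ → ℕ → ℕ, (∀ y z, y < p + k → z < p + k → τ₁ y z = τ₂ y z) → G τ₁ = G τ₂) (r : ℕ) :
    ∀ τ : ℕ → ℕ → ℕ, IsTr N (p + r) τ →
      trSumK ms N k (p + r) τ (fun τ' => G fun x y => τ' (ledSh p r x) (ledSh p r y)) = trSumK ms N k p τ G := by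
  induction r with
  | zero =>
    intro τ _
    have : ∀ x, ledSh p 0 x = x := fun x => by unfold ledSh; split_ifs <;> rfl
    simp only [this, Nat.add_zero]
  | succ r ih =>
    intro τ hτ
    have hτ' : IsTr N (p + r + 1) τ := hτ
    have h1 := tr_sumK_del (ms := ms) hτ' (Nat.le_add_right p r) k
      (fun τ'' => G fun x y => τ'' (ledSh p r x) (ledSh p r y)) (by
        intro τ₁ τ₂ h
        refine hG _ _ fun y z hy hz => h _ _ ?_ ?_
        · unfold ledSh; split_ifs <;> omega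
        · unfold ledSh; split_ifs <;> omega)
    have h2 : (fun τ' : ℕ → ℕ → ℕ => G fun x y => τ' (ledSh p (r + 1) x) (ledSh p (r + 1) y))
        = fun τ' => G fun x y => trDel p τ' (ledSh p r x) (ledSh p r y) := by
      funext τ'
      congr 1
      funext x y
      have e : ∀ x, (if ledSh p r x < p then ledSh p r x else ledSh p r x + 1) = ledSh p (r + 1) x := by
        intro x
        unfold ledSh
        by_cases hx : x < p
        · simp [hx]
        · have : ¬ x + r < p := by omega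
          simp only [if_neg hx, if_neg this]; omega
      unfold trDel
      rw [e, e]
    have hdel : IsTr N (p + r) (trDel p τ) := by
      have : IsTr N (p + 1 + r) τ := by
        have e : p + 1 + r = p + (r + 1) := by omega
        rw [e]; exact hτ
      exact tr_del_isTr this
    rw [show p + (r + 1) = p + r + 1 from rfl, h2, h1, ih _ hdel]
    refine tr_sumK_tree_congr (fun y z hy hz => ?_) k G hG
    unfold trDel
    rw [if_pos hy, if_pos hz]

theorem led_push {N q : ℕ} {τ : ℕ → ℕ → ℕ} {ms : ℕ → ℝ} (hτ : IsTr N q τ) {a : ℕ} (ha : a < q) (G : ℕ → ℝ) :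
    trSum ms N q τ (fun τ' => G (τ' a q)) = ∑ j ∈ Finset.range (N + 1), (trPm ms j - ms j) * G j + ms N * G (N + 1) := by
  obtain ⟨r, rfl⟩ : ∃ r, q = 1 + r := ⟨q - 1, by omega⟩
  -- move `a` to the position `0`
  have he : ∀ y, 1 + r ≤ y → Equiv.swap 0 a y = y := fun y hy =>
    Equiv.swap_apply_of_ne_of_ne (by omega) (by omega)
  have h1 := tr_sumK_relabel (ms := ms) hτ 1 (fun τ' => G (τ' a (1 + r)))
    (fun τ₁ τ₂ h => by rw [h a (1 + r) (by omega) (by omega)]) (Equiv.swap 0 a) he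
  have h1' : trSum ms N (1 + r) τ (fun τ' => G (τ' a (1 + r)))
      = trSumK ms N 1 (1 + r) (fun y z => τ (Equiv.swap 0 a y) (Equiv.swap 0 a z)) fun τ' => G (τ' 0 (1 + r)) := by
    have e1 : (Equiv.swap 0 a).symm a = 0 := by simp
    have e2 : (Equiv.swap 0 a).symm (1 + r) = 1 + r := by
      rw [Equiv.symm_swap]; exact he _ le_rfl
    beta_reduce at h1
    rw [e1, e2] at h1
    exact h1.symm
  have hτe : IsTr N (1 + r) (fun y z => τ (Equiv.swap 0 a y) (Equiv.swap 0 a z)) :=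
    tr_comap_isTr hτ _ fun x hx => by
      by_cases h0 : x = 0
      · rw [h0, Equiv.swap_apply_left]; exact ha
      · by_cases h2 : x = a
        · rw [h2, Equiv.swap_apply_right]; omega
        · rw [Equiv.swap_apply_of_ne_of_ne h0 h2]; exact hx
  have h2 := led_marg_sh (N := N) (ms := ms) 1 1 (fun τ' => G (τ' 0 1))
    (fun τ₁ τ₂ h => by rw [h 0 1 (by omega) (by omega)]) r _ hτe
  have e3 : ledSh 1 r 0 = 0 := by simp [ledSh]
  have e4 : ledSh 1 r 1 = 1 + r := by simp [ledSh]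
  beta_reduce at h2
  rw [e3, e4] at h2
  rw [h1', h2]
  -- one leaf
  set τ₀ : ℕ → ℕ → ℕ := fun y z => τ (Equiv.swap 0 a y) (Equiv.swap 0 a z) with hτ₀
  have hd : τ₀ 0 0 = N + 1 := hτe.diag 0 (by omega)
  show trSum ms N 1 τ₀ (fun τ' => G (τ' 0 1)) = _
  unfold trSum
  rw [Finset.sum_range_one, Finset.sum_range_succ]
  have hmin : ∀ j, trIsMin τ₀ j 0 := fun j y hy => absurd hy (Nat.not_lt_zero y)
  have hatt : ∀ j, j ≤ N + 1 → trAtt N 1 τ₀ 0 j 0 1 = j := by
    intro j hj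
    have : trAtt N 1 τ₀ 0 j 0 1 = min j (τ₀ 0 0) := by simp [trAtt]
    rw [this, hd]
    exact min_eq_left hj
  congr 1
  · refine Finset.sum_congr rfl fun j hj => ?_
    have hj' : j < N + 1 := Finset.mem_range.1 hj
    beta_reduce
    rw [hatt j hj'.le]
    congr 1
    unfold trWt
    rw [if_pos (hmin j), if_neg (by omega)]
    have : trDeg 1 τ₀ j 0 = 1 := by
      unfold trDeg
      rw [Finset.range_one, Finset.filter_singleton, if_pos ⟨by rw [hd]; omega, hmin _⟩, Finset.card_singleton]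
    rw [this]; simp
  · beta_reduce
    rw [hatt (N + 1) le_rfl]
    unfold trWt
    rw [if_pos (hmin _), if_pos rfl]

theorem led_entry (q : ℕ) : ∃ C : ℝ, 0 ≤ C ∧ ∀ (N : ℕ) (τ : ℕ → ℕ → ℕ) (ms : ℕ → ℝ), IsTr N q τ → IsMs N ms → ms N ≤ 1 →
    ∀ a kU : ℕ, a < q → kU ≤ N → ∀ f : ℕ → ℝ, (∀ j, 0 ≤ f j) →
      trAbs ms N q τ (fun τ' => if ∀ o, o < q → τ' o q < kU then f (τ' a q) else 0)
        ≤ C * (∑ j ∈ Finset.range kU, (ms j - trPm ms j) * f j + trPm ms kU * ledAt q τ 0 kU f) := by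
  simpa only [ledTot] using tk9_led_entry q

/-- the labels `0, 1, 2 + i` are read as `a, b, q + i` -/
def ledEm (q a b x : ℕ) : ℕ := if x = 0 then a else if x = 1 then b else q + (x - 2)

theorem led_marg2 {N q : ℕ} {τ : ℕ → ℕ → ℕ} {ms : ℕ → ℝ} (hτ : IsTr N q τ) {a b : ℕ} (ha : a < q) (hb : b < q) (hab : a ≠ b) (k : ℕ)
    (G : (ℕ → ℕ → ℕ) → ℝ)
    (hG : ∀ τ₁ τ₂ : ℕ → ℕ → ℕ, (∀ y z, y < 2 + k → z < 2 + k → τ₁ y z = τ₂ y z) → G τ₁ = G τ₂) :
    trSumK ms N k q τ (fun τ' => G fun x y => τ' (ledEm q a b x) (ledEm q a b y)) = trSumK ms N k 2 (ledPair N (τ a b)) G := by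
  obtain ⟨r, rfl⟩ : ∃ r, q = 2 + r := ⟨q - 2, by omega⟩
  -- a permutation with `e 0 = a`, `e 1 = b`
  set c : ℕ := Equiv.swap 0 a b with hc
  have hc0 : c ≠ 0 := by
    intro h
    have : Equiv.swap 0 a b = Equiv.swap 0 a a := by rw [← hc, h, Equiv.swap_apply_right]
    exact hab ((Equiv.swap 0 a).injective this).symm
  have hcq : c < 2 + r := by
    rw [hc]
    by_cases h0 : b = 0
    · rw [h0, Equiv.swap_apply_left]; exact ha
    · rw [Equiv.swap_apply_of_ne_of_ne h0 (Ne.symm hab)]; exact hb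
  set e : Equiv.Perm ℕ := Equiv.swap 0 a * Equiv.swap 1 c with hedef
  have e0 : e 0 = a := by
    have i1 : Equiv.swap 1 c 0 = 0 := Equiv.swap_apply_of_ne_of_ne (by omega) (Ne.symm hc0)
    rw [hedef, Equiv.Perm.mul_apply, i1, Equiv.swap_apply_left]
  have e1 : e 1 = b := by
    rw [hedef, Equiv.Perm.mul_apply, Equiv.swap_apply_left, hc, Equiv.swap_apply_self]
  have he : ∀ y, 2 + r ≤ y → e y = y := by
    intro y hy
    have i1 : Equiv.swap 1 c y = y := Equiv.swap_apply_of_ne_of_ne (by omega) (by omega)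
    have i2 : Equiv.swap 0 a y = y := Equiv.swap_apply_of_ne_of_ne (by omega) (by omega)
    rw [hedef, Equiv.Perm.mul_apply, i1, i2]
  have helt : ∀ x, x < 2 + r → e x < 2 + r := fun x hx => tr5_perm_lt e he hx
  have hEm : ∀ x, e.symm (ledEm (2 + r) a b x) = ledSh 2 r x := by
    intro x
    rw [Equiv.symm_apply_eq]
    unfold ledEm ledSh
    by_cases h0 : x = 0
    · subst h0; simp [e0]
    · by_cases h1 : x = 1
      · subst h1; simp [e1]
      · rw [if_neg h0, if_neg h1, if_neg (by omega), he _ (by omega)]; omega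
  have h1 := tr_sumK_relabel (ms := ms) hτ k (fun τ' => G fun x y => τ' (ledEm (2 + r) a b x) (ledEm (2 + r) a b y))
    (by
      intro τ₁ τ₂ h
      refine hG _ _ fun y z hy hz => h _ _ ?_ ?_
      · unfold ledEm; split_ifs <;> omega
      · unfold ledEm; split_ifs <;> omega) e he
  simp only [hEm] at h1
  have hτe : IsTr N (2 + r) (fun y z => τ (e y) (e z)) := tr_comap_isTr hτ _ helt
  rw [← h1, led_marg_sh 2 k G hG r _ hτe]
  refine tr_sumK_tree_congr (fun y z hy hz => ?_) k G hG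
  have hy' : y = 0 ∨ y = 1 := by omega
  have hz' : z = 0 ∨ z = 1 := by omega
  unfold ledPair
  rcases hy' with rfl | rfl <;> rcases hz' with rfl | rfl
  · simp only [e0]; rw [if_pos trivial]; exact hτ.diag a ha
  · simp only [e0, e1]; rw [if_neg (by omega)]
  · simp only [e0, e1]; rw [if_neg (by omega)]; exact hτ.symm b a hb ha
  · simp only [e1]; rw [if_pos trivial]; exact hτ.diag b hb

theorem led_comb_eqns_cite : True := by
  have := @ledTot.eq_1
  have := @ledSh.eq_1
  have := @ledEm.eq_1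
  trivial

end Claimed.Agent.R286
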