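import Claimed.Agent.R286.Cav.LedDefs
import Claimed.Agent.R286.Fd.TrA1
import Claimed.Agent.R286.Gk.Taylor

/-!
# Row 286 (S0533), unit Cav, file LedCalc      (owner helper193; prefix `ledt_`; 0 sorry)      CONVENTION-FREE CALCULUS KIT for the proof of `led_main`

Independent of `LedTerms` (no `tm`, no `ins`): usable by LedTay (201), LedRet (116), LedSc (193), LedKit (32).
1. calculus through the signed sums: `ledt_sumK_hasDerivAt`, `ledt_sumK_continuousOn` (only extensions `τ'` of `τ` which are trees matter), `ledt_sumK_add`, `ledt_sumK_smul`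
2. profiles: `ledt_prof : LedProf (ledLam k l)`, `ledt_prof_one`, `ledt_lam_one`, `ledt_seg : ledSeg (ledLam k 0) (ledLam k 1) θ = ledLam k θ`
3. abstract chains of derivatives on `[0,1]` (continuous on `Icc`, `HasDerivAt` on `Ioo`): `LedtCh w`;
   `ledtW α u g j = α_j - ∑_r C(j,r) g_r u_{j-r}` and **`ledt_W_chain`** (Leibniz: the combinations form a chain);
   **`ledt_chain_zero`** (a chain which starts with `0` vanishes: `F(l,0) = 0` differentiated), **`ledt_chain_taylor`** (sup form), `LedtCh.sub/.add/.const_mul/.shift`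
4. marginals from `LedSys.Ok`: `ledt_pair_isTr`, `ledt_prune` (k labels), **`ledt_marg2`** (`ν[f(σ_a, σ_b)]` = the pair tree `ledPair N (τ a b)`)
5. signs: `ledt_sg_not`, `ledt_sg_sq`, `ledt_sg_abs`
A complete Taylor skeleton on these tools (recursive `ins`): origin/helper193:notes/R286/LedTay193.lean.
-/

set_option autoImplicit false

namespace Claimed.Agent.R286

open Finset

/-! ### calculus through the signed sums -/

theorem ledt_sumK_hasDerivAt {N : ℕ} {ms : ℕ → ℝ} (k : ℕ) {q : ℕ} {τ : ℕ → ℕ → ℕ} (hτ : IsTr N q τ)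
    (Φ : ℝ → (ℕ → ℕ → ℕ) → ℝ) (Φ' : (ℕ → ℕ → ℕ) → ℝ) (θ : ℝ)
    (h : ∀ τ', IsTr N (q + k) τ' → (∀ y z, y < q → z < q → τ' y z = τ y z) → HasDerivAt (fun x => Φ x τ') (Φ' τ') θ) :
    HasDerivAt (fun x => trSumK ms N k q τ (Φ x)) (trSumK ms N k q τ Φ') θ := by
  induction k generalizing q τ with
  | zero => exact h τ hτ fun _ _ _ _ => rfl
  | succ k ih =>
    simp only [trSumK]
    unfold trSum
    refine HasDerivAt.fun_sum fun x hx => HasDerivAt.fun_sum fun j hj => ?_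
    have hx' := Finset.mem_range.mp hx
    have hj' := Finset.mem_range.mp hj
    refine HasDerivAt.const_mul _ (ih (tr_att_isTr hτ hx' (by omega)) fun τ' h1 h2 => ?_)
    refine h τ' (by rw [show q + (k + 1) = q + 1 + k by omega]; exact h1) fun y z hy hz => ?_
    rw [h2 y z (by omega) (by omega), tr_att_old hy hz]

theorem ledt_sumK_continuousOn {N : ℕ} {ms : ℕ → ℝ} (k : ℕ) {q : ℕ} {τ : ℕ → ℕ → ℕ} (hτ : IsTr N q τ)
    (Φ : ℝ → (ℕ → ℕ → ℕ) → ℝ) (s : Set ℝ)
    (h : ∀ τ', IsTr N (q + k) τ' → (∀ y z, y < q → z < q → τ' y z = τ y z) → ContinuousOn (fun x => Φ x τ') s) :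
    ContinuousOn (fun x => trSumK ms N k q τ (Φ x)) s := by
  induction k generalizing q τ with
  | zero => exact h τ hτ fun _ _ _ _ => rfl
  | succ k ih =>
    simp only [trSumK]
    unfold trSum
    refine continuousOn_finsetSum _ fun x hx => continuousOn_finsetSum _ fun j hj => ?_
    have hx' := Finset.mem_range.mp hx
    have hj' := Finset.mem_range.mp hj
    refine ContinuousOn.mul continuousOn_const (ih (tr_att_isTr hτ hx' (by omega)) fun τ' h1 h2 => ?_)
    refine h τ' (by rw [show q + (k + 1) = q + 1 + k by omega]; exact h1) fun y z hy hz => ?_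
    rw [h2 y z (by omega) (by omega), tr_att_old hy hz]

theorem ledt_sumK_add {N : ℕ} {ms : ℕ → ℝ} (k : ℕ) (q : ℕ) (τ : ℕ → ℕ → ℕ) (Φ Ψ : (ℕ → ℕ → ℕ) → ℝ) :
    trSumK ms N k q τ (fun τ' => Φ τ' + Ψ τ') = trSumK ms N k q τ Φ + trSumK ms N k q τ Ψ := by
  induction k generalizing q τ with
  | zero => rfl
  | succ k ih =>
    simp only [trSumK, ih]
    unfold trSum
    simp only [mul_add, Finset.sum_add_distrib]

theorem ledt_sumK_smul {N : ℕ} {ms : ℕ → ℝ} (k : ℕ) (q : ℕ) (τ : ℕ → ℕ → ℕ) (c : ℝ) (Φ : (ℕ → ℕ → ℕ) → ℝ) :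
    trSumK ms N k q τ (fun τ' => c * Φ τ') = c * trSumK ms N k q τ Φ := by
  induction k generalizing q τ with
  | zero => rfl
  | succ k ih =>
    simp only [trSumK, ih]
    unfold trSum
    simp only [Finset.mul_sum]
    refine Finset.sum_congr rfl fun x _ => Finset.sum_congr rfl fun j _ => by ring

/-! ### profiles -/

theorem ledt_prof (k : ℕ) {l : ℝ} (hl : l ∈ Set.Icc (0 : ℝ) 1) : LedProf (ledLam k l) := by
  refine ⟨fun r => ?_, fun r => ?_, fun r s hrs => ?_⟩
  · unfold ledLam; split_ifs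
    · exact hl.1
    · exact zero_le_one
  · unfold ledLam; split_ifs
    · exact hl.2
    · exact le_rfl
  · unfold ledLam
    split_ifs with h1 h2 h2
    · exact le_rfl
    · exact hl.2
    · omega
    · exact le_rfl

theorem ledt_prof_one : LedProf (fun _ => (1 : ℝ)) :=
  ⟨fun _ => zero_le_one, fun _ => le_rfl, fun _ _ _ => le_rfl⟩

theorem ledt_lam_one (k : ℕ) : ledLam k 1 = fun _ => (1 : ℝ) := by
  funext r; unfold ledLam; split_ifs <;> rfl

theorem ledt_seg (k : ℕ) (θ : ℝ) : ledSeg (ledLam k 0) (ledLam k 1) θ = ledLam k θ := by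
  funext r; unfold ledSeg ledLam; split_ifs <;> ring

/-! ### abstract calculus -/

/-- chains of derivatives on `[0,1]` -/
structure LedtCh (w : ℕ → ℝ → ℝ) : Prop where
  cont : ∀ j, ContinuousOn (w j) (Set.Icc (0 : ℝ) 1)
  deriv : ∀ j, ∀ θ ∈ Set.Ioo (0 : ℝ) 1, HasDerivAt (w j) (w (j + 1) θ) θ

/-- the Leibniz combinations `α_j - ∑_r C(j,r) g_r u_{j-r}` -/
def ledtW (α u g : ℕ → ℝ → ℝ) (j : ℕ) (x : ℝ) : ℝ :=
  α j x - ∑ r ∈ Finset.range (j + 1), (j.choose r : ℝ) * g r x * u (j - r) x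

theorem ledt_eqns_cite3 : True := by
  have := @ledtW.eq_1
  trivial

theorem ledt_leib_sum (g u : ℕ → ℝ) (j : ℕ) :
    ∑ r ∈ Finset.range (j + 1), (j.choose r : ℝ) * (g (r + 1) * u (j - r) + g r * u (j - r + 1))
      = ∑ r ∈ Finset.range (j + 2), ((j + 1).choose r : ℝ) * g r * u (j + 1 - r) := by
  have h1 : ∑ r ∈ Finset.range (j + 1), (j.choose r : ℝ) * (g (r + 1) * u (j - r))
      = ∑ r ∈ Finset.range (j + 2), (if r = 0 then 0 else ((j.choose (r - 1) : ℝ)) * g r * u (j + 1 - r)) := by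
    rw [Finset.sum_range_succ' _ (j + 1)]
    simp only [if_true, add_zero]
    refine Finset.sum_congr rfl fun r _ => ?_
    rw [if_neg (by omega), Nat.add_sub_cancel, show j + 1 - (r + 1) = j - r by omega]
    ring
  have h2 : ∑ r ∈ Finset.range (j + 1), (j.choose r : ℝ) * (g r * u (j - r + 1))
      = ∑ r ∈ Finset.range (j + 2), (j.choose r : ℝ) * g r * u (j + 1 - r) := by
    rw [Finset.sum_range_succ _ (j + 1), Nat.choose_succ_self]
    simp only [Nat.cast_zero, zero_mul, add_zero]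
    refine Finset.sum_congr rfl fun r hr => ?_
    have := Finset.mem_range.mp hr
    rw [show j + 1 - r = j - r + 1 by omega]
    ring
  simp only [mul_add, Finset.sum_add_distrib]
  rw [h1, h2, ← Finset.sum_add_distrib]
  refine Finset.sum_congr rfl fun r _ => ?_
  rcases r with _ | r
  · simp
  · rw [if_neg (by omega), Nat.add_sub_cancel, Nat.choose_succ_succ]
    push_cast
    ring

theorem ledt_W_chain {α u g : ℕ → ℝ → ℝ} (hα : LedtCh α) (hu : LedtCh u) (hg : LedtCh g) : LedtCh (ledtW α u g) := by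
  refine ⟨fun j => ?_, fun j θ hθ => ?_⟩
  · unfold ledtW
    refine (hα.cont j).sub (continuousOn_finsetSum _ fun r _ => ?_)
    exact (continuousOn_const.mul (hg.cont r)).mul (hu.cont (j - r))
  · have h1 : HasDerivAt (fun x => ∑ r ∈ Finset.range (j + 1), (j.choose r : ℝ) * g r x * u (j - r) x)
        (∑ r ∈ Finset.range (j + 1), (j.choose r : ℝ) * (g (r + 1) θ * u (j - r) θ + g r θ * u (j - r + 1) θ)) θ := by
      refine HasDerivAt.fun_sum fun r _ => ?_
      have := ((hg.deriv r θ hθ).mul (hu.deriv (j - r) θ hθ)).const_mul (j.choose r : ℝ)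
      refine (this.congr_of_eventuallyEq ?_)
      exact Filter.Eventually.of_forall fun x => by simp [mul_assoc]
    rw [ledt_leib_sum (fun r => g r θ) (fun r => u r θ) j] at h1
    exact (hα.deriv j θ hθ).sub h1

/-- a chain which starts with the zero function vanishes -/
theorem ledt_chain_zero {w : ℕ → ℝ → ℝ} (hw : LedtCh w) (h0 : ∀ θ ∈ Set.Ioo (0 : ℝ) 1, w 0 θ = 0) (j : ℕ) :
    ∀ θ ∈ Set.Ioo (0 : ℝ) 1, w j θ = 0 := by
  induction j with
  | zero => exact h0
  | succ j ih =>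
    intro θ hθ
    have h1 := hw.deriv j θ hθ
    have h2 : HasDerivAt (w j) 0 θ := by
      refine (hasDerivAt_const θ (0 : ℝ)).congr_of_eventuallyEq ?_
      filter_upwards [isOpen_Ioo.mem_nhds hθ] with x hx
      exact ih x hx
    exact h1.unique h2

theorem ledt_chain_taylor {w : ℕ → ℝ → ℝ} (hw : LedtCh w) (k : ℕ) {M : ℝ} (hM : ∀ θ ∈ Set.Ioo (0 : ℝ) 1, |w (k + 1) θ| ≤ M) :
    |w 0 1 - ∑ j ∈ range (k + 1), w j 0 / (j.factorial : ℝ)| ≤ M / ((k + 1).factorial : ℝ) :=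
  ght_taylor_bound_one w k (fun j _ => hw.cont j) (fun j _ => hw.deriv j) hM

/-- shift of a chain -/
theorem LedtCh.shift {w : ℕ → ℝ → ℝ} (hw : LedtCh w) (i : ℕ) : LedtCh fun j => w (i + j) :=
  ⟨fun j => hw.cont _, fun j θ hθ => hw.deriv (i + j) θ hθ⟩

theorem LedtCh.sub {w v : ℕ → ℝ → ℝ} (hw : LedtCh w) (hv : LedtCh v) : LedtCh fun j x => w j x - v j x :=
  ⟨fun j => (hw.cont j).sub (hv.cont j), fun j θ hθ => (hw.deriv j θ hθ).sub (hv.deriv j θ hθ)⟩

theorem LedtCh.add {w v : ℕ → ℝ → ℝ} (hw : LedtCh w) (hv : LedtCh v) : LedtCh fun j x => w j x + v j x :=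
  ⟨fun j => (hw.cont j).add (hv.cont j), fun j θ hθ => (hw.deriv j θ hθ).add (hv.deriv j θ hθ)⟩

theorem LedtCh.const_mul {w : ℕ → ℝ → ℝ} (hw : LedtCh w) (c : ℝ) : LedtCh fun j x => c * w j x :=
  ⟨fun j => continuousOn_const.mul (hw.cont j), fun j θ hθ => (hw.deriv j θ hθ).const_mul c⟩

variable {Ω : Type} {Y : LedSys Ω}

/-! ### marginals -/

theorem ledt_pair_isTr {N r : ℕ} (hr : r ≤ N + 1) (q : ℕ) : IsTr N q (ledPair N r) := by
  refine ⟨fun x y _ _ => ?_, fun x _ => ?_, fun x y _ _ => ?_, fun x y z _ _ _ => ?_⟩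
  · unfold ledPair; split_ifs <;> omega
  · simp [ledPair]
  · unfold ledPair
    by_cases h : x = y
    · rw [if_pos h, if_pos h.symm]
    · rw [if_neg h, if_neg (fun h' => h h'.symm)]
  · unfold ledPair
    by_cases h1 : x = y <;> by_cases h2 : y = z <;> by_cases h3 : x = z <;> simp [h1, h2, h3] <;> omega

theorem ledt_prune (hY : Y.Ok) {lam : ℕ → ℝ} (hlam : LedProf lam) {t : ℝ} (ht : t ∈ Set.Icc (0 : ℝ) 1) {q : ℕ} (k : ℕ)
    {τ : ℕ → ℕ → ℕ} (hτ : IsTr Y.N (q + k) τ) {J : (ℕ → Bool × Ω) → ℝ} (hJ : TrUses q J) :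
    Y.nu lam t (q + k) τ J = Y.nu lam t q τ J := by
  induction k with
  | zero => rfl
  | succ k ih =>
    have h1 : IsTr Y.N (q + k) τ := tr_isTr_mono hτ (by omega)
    have h2 : TrUses (q + k) J := fun σ σ' h => hJ σ σ' fun i hi => h i (by omega)
    rw [← ih h1]
    exact hY.prune lam t (q + k) τ J hlam ht hτ h2

/-- the marginal of two distinct labels -/
theorem ledt_marg2 (hY : Y.Ok) {lam : ℕ → ℝ} (hlam : LedProf lam) {t : ℝ} (ht : t ∈ Set.Icc (0 : ℝ) 1) {q : ℕ}
    {τ : ℕ → ℕ → ℕ} (hτ : IsTr Y.N q τ) {a b : ℕ} (ha : a < q) (hb : b < q) (hab : a ≠ b) (f : Bool × Ω → Bool × Ω → ℝ) :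
    Y.nu lam t q τ (fun σ => f (σ a) (σ b)) = Y.nu lam t 2 (ledPair Y.N (τ a b)) fun σ => f (σ 0) (σ 1) := by
  obtain ⟨k, rfl⟩ : ∃ k, q = 2 + k := ⟨q - 2, by omega⟩
  obtain ⟨c, hc⟩ : ∃ c, c = Equiv.swap 0 a b := ⟨_, rfl⟩
  obtain ⟨e, he⟩ : ∃ e : Equiv.Perm ℕ, e = Equiv.swap 0 a * Equiv.swap 1 c := ⟨_, rfl⟩
  have hc0 : c ≠ 0 := by
    intro h
    have : Equiv.swap 0 a b = Equiv.swap 0 a a := by rw [← hc, h, Equiv.swap_apply_right]
    exact hab ((Equiv.swap 0 a).injective this).symm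
  have hclt : c < 2 + k := by
    rw [hc]
    by_cases h1 : b = 0
    · rw [h1, Equiv.swap_apply_left]; exact ha
    · by_cases h2 : b = a
      · exact absurd h2.symm hab
      · rw [Equiv.swap_apply_of_ne_of_ne h1 h2]; exact hb
  have e0 : e 0 = a := by
    have i1 : Equiv.swap 1 c 0 = 0 := Equiv.swap_apply_of_ne_of_ne (by omega) (fun h => hc0 h.symm)
    rw [he, Equiv.Perm.mul_apply, i1, Equiv.swap_apply_left]
  have e1 : e 1 = b := by
    rw [he, Equiv.Perm.mul_apply, Equiv.swap_apply_left, hc, Equiv.swap_apply_self]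
  have efix : ∀ x, 2 + k ≤ x → e x = x := by
    intro x hx
    have i1 : Equiv.swap 1 c x = x := Equiv.swap_apply_of_ne_of_ne (by omega) (by omega)
    have i2 : Equiv.swap 0 a x = x := Equiv.swap_apply_of_ne_of_ne (by omega) (by omega)
    rw [he, Equiv.Perm.mul_apply, i1, i2]
  have elt : ∀ x, x < 2 + k → e x < 2 + k := by
    intro x hx
    by_contra h
    have h1 := efix (e x) (by omega)
    have h2 := e.injective h1
    omega
  have hP : TrUses (2 + k) fun σ : ℕ → Bool × Ω => f (σ a) (σ b) := fun σ σ' h => by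
    show f (σ a) (σ b) = f (σ' a) (σ' b)
    rw [h a ha, h b hb]
  have h1 := hY.perm lam t (2 + k) τ (fun σ => f (σ a) (σ b)) e hlam ht hτ hP efix
  rw [← h1]
  have s0 : e.symm a = 0 := by rw [← e0, Equiv.symm_apply_apply]
  have s1 : e.symm b = 1 := by rw [← e1, Equiv.symm_apply_apply]
  simp only [s0, s1]
  have hτe : IsTr Y.N (2 + k) fun x y => τ (e x) (e y) := tr_comap_isTr hτ e elt
  have hP2 : TrUses 2 fun σ : ℕ → Bool × Ω => f (σ 0) (σ 1) := fun σ σ' h => by
    show f (σ 0) (σ 1) = f (σ' 0) (σ' 1)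
    rw [h 0 (by omega), h 1 (by omega)]
  rw [ledt_prune hY hlam ht k hτe hP2]
  refine hY.congr lam t 2 _ _ _ fun x y hx hy => ?_
  have hx' : x = 0 ∨ x = 1 := by omega
  have hy' : y = 0 ∨ y = 1 := by omega
  rcases hx' with rfl | rfl <;> rcases hy' with rfl | rfl
  · simp [ledPair, e0, hτ.diag a ha]
  · simp [ledPair, e0, e1]
  · simp [ledPair, e0, e1, hτ.symm b a hb ha]
  · simp [ledPair, e1, hτ.diag b hb]

theorem ledt_sg_not (s : Bool) : ledSg (!s) = - ledSg s := by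
  cases s <;> simp [ledSg]

theorem ledt_sg_sq (s : Bool) : ledSg s * ledSg s = 1 := by
  cases s <;> simp [ledSg]

theorem ledt_sg_abs (s : Bool) : |ledSg s| = 1 := by
  cases s <;> simp [ledSg]

end Claimed.Agent.R286
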