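import Claimed.Agent.R286.Cav.LedTerms
import Claimed.Agent.R286.Cav.LedCalc
import Claimed.Agent.R286.Fd.TrKit9
import Claimed.Agent.R286.Fd.TrA4

/-!
# Row 286 (S0533), unit Cav, file LedSc      (owner helper193; prefix `ledsc_`; 0 sorry)      THE SCALAR PARITY TABLE of `nuS (ledLam kU 0)`

PE cavity.tex l.311-345, 558-606: the scalar site law without revelation below the cut: the blocks of the cut (`x ~ y` iff `kU ≤ τ x y`) are independent and flip symmetric.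
`ledSp L s` = product of the signs `ledSg (s x)`, `x ∈ L`  (`ledsc_sp2/sp4/sp6`: the left associated products; `ledsc_sp_perm`, `ledsc_sp_cons`).
* `ledsc_split` (independence over a block-closed predicate), `ledsc_peel` (the block of `x0`), `ledsc_odd` (an odd number of spins in a block `⟹ 0`)
* (2)  `ledsc_two  : [x y] = if kU ≤ τ x y then γ (τ x y) else 0`, `ledsc_two'` (`= γ (τ x y)`), `ledsc_gam_low`, `ledsc_gam_top`, `ledsc_gam_abs`, `ledsc_nuS_abs`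
* (4)  `ledsc_four : [a b c d] = pr2 a b c d + pr2 a b d c`   if `c ≁ d`;   `pr2 a b c d = 1[a ~ c, b ~ d] γ_ac γ_bd`
* (6h) `ledsc_six_high : [a b c d e f] = hi3 .. c d e f + hi3 .. d c e f`   if `a ≁ b`, `c ≁ d`, `e ~ f`;
       `hi3 a b c d e f = 1[a ~ c, b ~ d] (γ_ac γ_bd γ_ef + 1[a ~ e, a ~ f] κ4(a c e f) γ_bd + 1[b ~ e, b ~ f] γ_ac κ4(b d e f))`
* (6l) `ledsc_six_low : [a b c d e f] = tri8 a b c d e f`   if `a ≁ b`, `c ≁ d`, `e ≁ f`;   `tri a b x y z w = 1[a ~ x, y ~ z, w ~ b] γ_ax γ_yz γ_wb`, `tri8` = the eight paths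
-/

set_option autoImplicit false

namespace Claimed.Agent.R286

open Finset

/-- product of the site signs of the labels of a list -/
def ledSp (L : List ℕ) (s : ℕ → Bool) : ℝ := (L.map fun x => ledSg (s x)).prod

theorem ledsc_eqns_cite : True := by
  have := @ledSp.eq_1
  trivial

theorem ledsc_sp_nil (s : ℕ → Bool) : ledSp [] s = 1 := rfl

theorem ledsc_sp_cons (x : ℕ) (L : List ℕ) (s : ℕ → Bool) : ledSp (x :: L) s = ledSg (s x) * ledSp L s := by
  simp [ledSp]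

theorem ledsc_sp_filter (A : ℕ → Prop) [DecidablePred A] (L : List ℕ) (s : ℕ → Bool) :
    ledSp L s = ledSp (L.filter fun x => decide (A x)) s * ledSp (L.filter fun x => decide (¬ A x)) s := by
  induction L with
  | nil => simp [ledSp]
  | cons x L ih =>
    by_cases h : A x
    · rw [List.filter_cons_of_pos (by simpa using h), List.filter_cons_of_neg (by simpa using h), ledsc_sp_cons, ledsc_sp_cons, ih]
      ring
    · rw [List.filter_cons_of_neg (by simpa using h), List.filter_cons_of_pos (by simpa using h), ledsc_sp_cons, ledsc_sp_cons, ih]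
      ring

theorem ledsc_sp_congr (L : List ℕ) (s s' : ℕ → Bool) (h : ∀ x ∈ L, s x = s' x) : ledSp L s = ledSp L s' := by
  induction L with
  | nil => rfl
  | cons x L ih =>
    rw [ledsc_sp_cons, ledsc_sp_cons, h x (by simp), ih fun y hy => h y (by simp [hy])]

theorem ledsc_sp_perm {L L' : List ℕ} (h : L.Perm L') (s : ℕ → Bool) : ledSp L s = ledSp L' s := by
  unfold ledSp
  exact (h.map _).prod_eq

theorem ledsc_sp_abs (L : List ℕ) (s : ℕ → Bool) : |ledSp L s| = 1 := by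
  induction L with
  | nil => simp [ledSp]
  | cons x L ih => rw [ledsc_sp_cons, abs_mul, ledt_sg_abs, ih, one_mul]

variable {Ω : Type} {Y : LedSys Ω}

theorem ledsc_sp_flip (τ : ℕ → ℕ → ℕ) (k x : ℕ) (σ : ℕ → Bool × Ω) (L : List ℕ) :
    ledSp L (fun i => (ledFlip τ k x σ i).1)
      = (-1) ^ (L.filter fun y => decide (k ≤ τ x y)).length * ledSp L fun i => (σ i).1 := by
  induction L with
  | nil => simp [ledSp]
  | cons y L ih =>
    rw [ledsc_sp_cons, ledsc_sp_cons, ih]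
    by_cases h : k ≤ τ x y
    · rw [List.filter_cons_of_pos (by simpa using h), List.length_cons, pow_succ]
      have : (ledFlip τ k x σ y).1 = !(σ y).1 := by unfold ledFlip; rw [if_pos h]
      rw [this, ledt_sg_not]; ring
    · rw [List.filter_cons_of_neg (by simpa using h)]
      have : (ledFlip τ k x σ y).1 = (σ y).1 := by unfold ledFlip; rw [if_neg h]
      rw [this]; ring

theorem ledsc_lam0 (kU : ℕ) : ∀ r, r < kU → ledLam kU 0 r = 0 := fun r hr => by simp [ledLam, hr]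

theorem ledsc_prof0 (kU : ℕ) : LedProf (ledLam kU 0) := ledt_prof kU (by simp)

/-- **independence of the blocks** of the cut for the scalar law without low revelation -/
theorem ledsc_split (hY : Y.Ok) {kU q : ℕ} (hU : kU ≤ Y.N) {τ : ℕ → ℕ → ℕ} (hτ : IsTr Y.N q τ) (A : ℕ → Prop) [DecidablePred A]
    (hA : ∀ x y, x < q → y < q → A x → ¬ A y → τ x y < kU) (L : List ℕ) (hL : ∀ x ∈ L, x < q) :
    Y.nuS (ledLam kU 0) q τ (ledSp L)
      = Y.nuS (ledLam kU 0) q τ (ledSp (L.filter fun x => decide (A x))) * Y.nuS (ledLam kU 0) q τ (ledSp (L.filter fun x => decide (¬ A x))) := by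
  have h := hY.indep (ledLam kU 0) q τ kU A (ledSp (L.filter fun x => decide (A x))) (ledSp (L.filter fun x => decide (¬ A x)))
    (ledsc_prof0 kU) hτ (by omega) (ledsc_lam0 kU) hA
    (fun s s' hs => ledsc_sp_congr _ s s' fun x hx => by
      rw [List.mem_filter] at hx
      exact hs x (hL x hx.1) (by simpa using hx.2))
    (fun s s' hs => ledsc_sp_congr _ s s' fun x hx => by
      rw [List.mem_filter] at hx
      exact hs x (hL x hx.1) (by simpa using hx.2))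
  unfold LedSys.nuS
  rw [← h]
  congr 1
  funext σ
  exact ledsc_sp_filter A L _

/-- **parity**: an odd number of spins in one block -/
theorem ledsc_odd (hY : Y.Ok) {kU q : ℕ} {τ : ℕ → ℕ → ℕ} (hτ : IsTr Y.N q τ) (L : List ℕ) (hL : ∀ x ∈ L, x < q) {x0 : ℕ} (hx0 : x0 < q)
    (hodd : Odd (L.filter fun y => decide (kU ≤ τ x0 y)).length) : Y.nuS (ledLam kU 0) q τ (ledSp L) = 0 := by
  have hU : TrUses q fun σ : ℕ → Bool × Ω => ledSp L fun i => (σ i).1 := fun σ σ' h =>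
    ledsc_sp_congr L _ _ fun x hx => by rw [h x (hL x hx)]
  have h := hY.flip (ledLam kU 0) 0 q τ (fun σ => ledSp L fun i => (σ i).1) kU x0 (ledsc_prof0 kU) (by simp) hτ hU hx0 (ledsc_lam0 kU)
  simp only [ledsc_sp_flip, hodd.neg_one_pow] at h
  rw [(hY.mean (ledLam kU 0) 0 q τ (ledsc_prof0 kU) (by simp) hτ).smul] at h
  unfold LedSys.nuS
  linarith

theorem ledsc_nuS_one (hY : Y.Ok) {lam : ℕ → ℝ} (hlam : LedProf lam) {q : ℕ} {τ : ℕ → ℕ → ℕ} (hτ : IsTr Y.N q τ) :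
    Y.nuS lam q τ (fun _ => 1) = 1 := (hY.mean lam 0 q τ hlam (by simp) hτ).one

theorem ledsc_nuS_nil (hY : Y.Ok) {lam : ℕ → ℝ} (hlam : LedProf lam) {q : ℕ} {τ : ℕ → ℕ → ℕ} (hτ : IsTr Y.N q τ) :
    Y.nuS lam q τ (ledSp []) = 1 := ledsc_nuS_one hY hlam hτ

/-- `γ = 1` at coincident labels -/
theorem ledsc_gam_top (hY : Y.Ok) (kU : ℕ) : Y.gam kU (Y.N + 1) = 1 := by
  have hτ : IsTr Y.N 2 (ledPair Y.N (Y.N + 1)) := ledt_pair_isTr le_rfl 2
  have h := hY.coinc (ledLam kU 0) 0 2 (ledPair Y.N (Y.N + 1)) (fun σ => ledSg (σ 0).1 * ledSg (σ 1).1) 0 1 (ledsc_prof0 kU) (by simp) hτ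
    (by omega) (by omega) (by simp [ledPair])
  unfold LedSys.gam LedSys.gS LedSys.nuS
  rw [h]
  have e : (fun σ : ℕ → Bool × Ω => ledSg (Function.update σ 1 (σ 0) 0).1 * ledSg (Function.update σ 1 (σ 0) 1).1) = fun _ => 1 := by
    funext σ
    simp [Function.update, ledt_sg_sq]
  rw [e]
  exact (hY.mean _ 0 2 _ (ledsc_prof0 kU) (by simp) hτ).one

/-- **two spins** -/
theorem ledsc_two (hY : Y.Ok) {kU q : ℕ} (hU : kU ≤ Y.N) {τ : ℕ → ℕ → ℕ} (hτ : IsTr Y.N q τ) {x y : ℕ} (hx : x < q) (hy : y < q) :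
    Y.nuS (ledLam kU 0) q τ (ledSp [x, y]) = if kU ≤ τ x y then Y.gam kU (τ x y) else 0 := by
  by_cases hxy : x = y
  · subst hxy
    rw [hτ.diag x hx, if_pos (by omega), ledsc_gam_top hY]
    have e : ledSp [x, x] = fun _ => 1 := by
      funext s; simp [ledSp, ledt_sg_sq]
    rw [e]; exact ledsc_nuS_one hY (ledsc_prof0 kU) hτ
  · split_ifs with h
    · have h2 := ledt_marg2 hY (ledsc_prof0 kU) (t := 0) (by simp) hτ hx hy hxy (fun u v => ledSg u.1 * ledSg v.1)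
      unfold LedSys.gam LedSys.gS LedSys.nuS
      rw [← h2]
      congr 1
      funext σ
      simp [ledSp]
    · refine ledsc_odd hY hτ _ (by simp [hx, hy]) hx ?_
      rw [List.filter_cons_of_pos (by simp [hτ.diag x hx]; omega), List.filter_cons_of_neg (by simpa using h)]
      simp

theorem ledsc_gam_low (hY : Y.Ok) {kU r : ℕ} (hU : kU ≤ Y.N) (hr : r < kU) : Y.gam kU r = 0 := by
  have hτ : IsTr Y.N 2 (ledPair Y.N r) := ledt_pair_isTr (by omega) 2
  have h := ledsc_two hY hU hτ (x := 0) (y := 1) (by omega) (by omega)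
  have e : ledPair Y.N r 0 1 = r := by simp [ledPair]
  rw [e, if_neg (by omega)] at h
  have e2 : (fun s : ℕ → Bool => ledSg (s 0) * ledSg (s 1)) = ledSp [0, 1] := by
    funext s
    simp [ledSp]
  unfold LedSys.gam LedSys.gS
  rw [e2]
  exact h

theorem ledsc_two' (hY : Y.Ok) {kU q : ℕ} (hU : kU ≤ Y.N) {τ : ℕ → ℕ → ℕ} (hτ : IsTr Y.N q τ) {x y : ℕ} (hx : x < q) (hy : y < q) :
    Y.nuS (ledLam kU 0) q τ (ledSp [x, y]) = Y.gam kU (τ x y) := by
  rw [ledsc_two hY hU hτ hx hy]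
  split_ifs with h
  · rfl
  · exact (ledsc_gam_low hY hU (by omega)).symm

theorem ledsc_sp2 (a b : ℕ) : ledSp [a, b] = fun s => ledSg (s a) * ledSg (s b) := by
  funext s; simp only [ledsc_sp_cons, ledsc_sp_nil]; ring

theorem ledsc_sp6 (a b c d e f : ℕ) :
    ledSp [a, b, c, d, e, f] = fun s => ledSg (s a) * ledSg (s b) * ledSg (s c) * ledSg (s d) * ledSg (s e) * ledSg (s f) := by
  funext s; simp only [ledsc_sp_cons, ledsc_sp_nil]; ring

theorem ledsc_nuS_abs (hY : Y.Ok) {lam : ℕ → ℝ} (hlam : LedProf lam) {q : ℕ} {τ : ℕ → ℕ → ℕ} (hτ : IsTr Y.N q τ) (f : (ℕ → Bool) → ℝ) {M : ℝ}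
    (hf : ∀ s, |f s| ≤ M) : |Y.nuS lam q τ f| ≤ M := by
  have hm := hY.mean lam 0 q τ hlam (by simp) hτ
  have h1 : 0 ≤ Y.nu lam 0 q τ (fun σ => M + (-1) * f fun i => (σ i).1) := hm.nonneg _ fun σ => by
    have := (abs_le.mp (hf fun i => (σ i).1)).2; linarith
  have h2 : 0 ≤ Y.nu lam 0 q τ (fun σ => M + 1 * f fun i => (σ i).1) := hm.nonneg _ fun σ => by
    have := (abs_le.mp (hf fun i => (σ i).1)).1; linarith
  have hc : Y.nu lam 0 q τ (fun _ => M) = M := by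
    have := hm.smul M (fun _ => 1)
    simpa [hm.one] using this
  rw [hm.add, hm.smul, hc] at h1 h2
  unfold LedSys.nuS
  rw [abs_le]
  constructor <;> linarith

theorem ledsc_gam_abs (hY : Y.Ok) {kU r : ℕ} (hr : r ≤ Y.N + 1) : |Y.gam kU r| ≤ 1 := by
  unfold LedSys.gam LedSys.gS
  refine ledsc_nuS_abs hY (ledsc_prof0 kU) (ledt_pair_isTr hr 2) _ fun s => ?_
  rw [abs_mul, ledt_sg_abs, ledt_sg_abs, one_mul]

/-- blocks of the cut: symmetry and transitivity -/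
theorem ledsc_blk_symm {N q k : ℕ} {τ : ℕ → ℕ → ℕ} (hτ : IsTr N q τ) {x y : ℕ} (hx : x < q) (hy : y < q) (h : k ≤ τ x y) : k ≤ τ y x := by
  rw [hτ.symm y x hy hx]; exact h

theorem ledsc_blk_trans {N q k : ℕ} {τ : ℕ → ℕ → ℕ} (hτ : IsTr N q τ) {x y z : ℕ} (hx : x < q) (hy : y < q) (hz : z < q)
    (h1 : k ≤ τ x y) (h2 : k ≤ τ y z) : k ≤ τ x z := le_trans (le_min h1 h2) (hτ.ultra x y z hx hy hz)

/-- peeling the block of `x0` -/
theorem ledsc_peel (hY : Y.Ok) {kU q : ℕ} (hU : kU ≤ Y.N) {τ : ℕ → ℕ → ℕ} (hτ : IsTr Y.N q τ) {x0 : ℕ} (hx0 : x0 < q) (L : List ℕ) (hL : ∀ x ∈ L, x < q) :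
    Y.nuS (ledLam kU 0) q τ (ledSp L)
      = Y.nuS (ledLam kU 0) q τ (ledSp (L.filter fun x => decide (kU ≤ τ x0 x)))
        * Y.nuS (ledLam kU 0) q τ (ledSp (L.filter fun x => decide (¬ kU ≤ τ x0 x))) :=
  ledsc_split hY hU hτ (fun x => kU ≤ τ x0 x) (fun x y hx hy h1 h2 => by
    by_contra h3
    exact h2 (ledsc_blk_trans hτ hx0 hx hy h1 (by omega))) L hL

/-- the pairing of `(a, b)` with `(c, d)` -/
def LedSys.pr2 (Y : LedSys Ω) (kU : ℕ) (τ : ℕ → ℕ → ℕ) (a b c d : ℕ) : ℝ :=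
  if kU ≤ τ a c ∧ kU ≤ τ b d then Y.gam kU (τ a c) * Y.gam kU (τ b d) else 0

theorem ledsc_eqns_cite2 : True := by
  have := @LedSys.pr2.eq_1
  trivial

/-- **four spins**, `(c, d)` a low pair -/
theorem ledsc_four (hY : Y.Ok) {kU q : ℕ} (hU : kU ≤ Y.N) {τ : ℕ → ℕ → ℕ} (hτ : IsTr Y.N q τ) {a b c d : ℕ}
    (ha : a < q) (hb : b < q) (hc : c < q) (hd : d < q) (hcd : τ c d < kU) :
    Y.nuS (ledLam kU 0) q τ (ledSp [a, b, c, d]) = Y.pr2 kU τ a b c d + Y.pr2 kU τ a b d c := by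
  have hL : ∀ x ∈ [a, b, c, d], x < q := by simp [ha, hb, hc, hd]
  have haa : kU ≤ τ a a := by rw [hτ.diag a ha]; omega
  have ncd : ¬ kU ≤ τ c d := by omega
  have ndc : ¬ kU ≤ τ d c := fun h => ncd (ledsc_blk_symm hτ hd hc h)
  unfold LedSys.pr2
  by_cases h1 : kU ≤ τ a c
  · have h2 : ¬ kU ≤ τ a d := fun h => ncd (ledsc_blk_trans hτ hc ha hd (ledsc_blk_symm hτ ha hc h1) h)
    by_cases h3 : kU ≤ τ a b
    · have h4 : ¬ kU ≤ τ b d := fun h => h2 (ledsc_blk_trans hτ ha hb hd h3 h)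
      rw [if_neg (fun h => h4 h.2), if_neg (fun h => h2 h.1), add_zero]
      refine ledsc_odd hY hτ _ hL ha ?_
      simp [List.filter, haa, h1, h2, h3]
      decide
    · rw [ledsc_peel hY hU hτ ha _ hL]
      simp only [List.filter, haa, h1, h2, h3, decide_true, decide_false, not_true_eq_false, not_false_eq_true]
      rw [ledsc_two hY hU hτ ha hc, ledsc_two hY hU hτ hb hd]
      by_cases h4 : kU ≤ τ b d <;> simp [h1, h4]
  · by_cases h2 : kU ≤ τ a d
    · by_cases h3 : kU ≤ τ a b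
      · have h4 : ¬ kU ≤ τ b c := fun h => h1 (ledsc_blk_trans hτ ha hb hc h3 h)
        rw [if_neg (fun h => h1 h.1), if_neg (fun h => h4 h.2), add_zero]
        refine ledsc_odd hY hτ _ hL ha ?_
        simp [List.filter, haa, h1, h2, h3]
        decide
      · rw [ledsc_peel hY hU hτ ha _ hL]
        simp only [List.filter, haa, h1, h2, h3, decide_true, decide_false, not_true_eq_false, not_false_eq_true]
        rw [ledsc_two hY hU hτ ha hd, ledsc_two hY hU hτ hb hc]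
        by_cases h4 : kU ≤ τ b c <;> simp [h2, h4]
    · rw [if_neg (fun h => h1 h.1), if_neg (fun h => h2 h.1), add_zero]
      by_cases h3 : kU ≤ τ a b
      · -- block of c
        have hcc : kU ≤ τ c c := by rw [hτ.diag c hc]; omega
        have h5 : ¬ kU ≤ τ c a := fun h => h1 (ledsc_blk_symm hτ hc ha h)
        have h6 : ¬ kU ≤ τ c b := fun h => h5 (ledsc_blk_trans hτ hc hb ha h (ledsc_blk_symm hτ ha hb h3))
        refine ledsc_odd hY hτ _ hL hc ?_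
        simp [List.filter, hcc, h5, h6, ncd]
      · refine ledsc_odd hY hτ _ hL ha ?_
        simp [List.filter, haa, h1, h2, h3]

theorem ledsc_sp4 (a c e f : ℕ) : ledSp [a, c, e, f] = fun s => ledSg (s a) * ledSg (s c) * ledSg (s e) * ledSg (s f) := by
  funext s; simp [ledSp]; ring

theorem ledsc_kap4 (kU q : ℕ) (τ : ℕ → ℕ → ℕ) (a c e f : ℕ) :
    Y.nuS (ledLam kU 0) q τ (ledSp [a, c, e, f]) = Y.kap4 kU q τ a c e f + Y.gam kU (τ a c) * Y.gam kU (τ e f) := by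
  rw [ledsc_sp4]; unfold LedSys.kap4; ring

/-- the value of six spins when `c` is in the block of `a`, `d` in the block of `b`, `(e, f)` a high pair -/
noncomputable def LedSys.hi3 (Y : LedSys Ω) (kU q : ℕ) (τ : ℕ → ℕ → ℕ) (a b c d e f : ℕ) : ℝ :=
  if kU ≤ τ a c ∧ kU ≤ τ b d then
    Y.gam kU (τ a c) * Y.gam kU (τ b d) * Y.gam kU (τ e f)
      + (if kU ≤ τ a e ∧ kU ≤ τ a f then Y.kap4 kU q τ a c e f * Y.gam kU (τ b d) else 0)
      + (if kU ≤ τ b e ∧ kU ≤ τ b f then Y.gam kU (τ a c) * Y.kap4 kU q τ b d e f else 0)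
  else 0

theorem ledsc_eqns_cite3 : True := by
  have := @LedSys.hi3.eq_1
  trivial

theorem ledsc_six_core (hY : Y.Ok) {kU q : ℕ} (hU : kU ≤ Y.N) {τ : ℕ → ℕ → ℕ} (hτ : IsTr Y.N q τ) {a b c d e f : ℕ}
    (ha : a < q) (hb : b < q) (hc : c < q) (hd : d < q) (he : e < q) (hf : f < q)
    (hab : τ a b < kU) (hac : kU ≤ τ a c) (hbd : kU ≤ τ b d) (hef : kU ≤ τ e f) :
    Y.nuS (ledLam kU 0) q τ (ledSp [a, b, c, d, e, f]) = Y.hi3 kU q τ a b c d e f := by
  have hL : ∀ x ∈ [a, b, c, d, e, f], x < q := by simp [ha, hb, hc, hd, he, hf]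
  have haa : kU ≤ τ a a := by rw [hτ.diag a ha]; omega
  have hbb : kU ≤ τ b b := by rw [hτ.diag b hb]; omega
  have nab : ¬ kU ≤ τ a b := by omega
  have nba : ¬ kU ≤ τ b a := fun h => nab (ledsc_blk_symm hτ hb ha h)
  have nad : ¬ kU ≤ τ a d := fun h => nab (ledsc_blk_trans hτ ha hd hb h (ledsc_blk_symm hτ hb hd hbd))
  have nbc : ¬ kU ≤ τ b c := fun h => nba (ledsc_blk_trans hτ hb hc ha h (ledsc_blk_symm hτ ha hc hac))
  unfold LedSys.hi3
  rw [if_pos ⟨hac, hbd⟩]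
  by_cases h1 : kU ≤ τ a e
  · have h2 : kU ≤ τ a f := ledsc_blk_trans hτ ha he hf h1 hef
    have h3 : ¬ kU ≤ τ b e := fun h => nab (ledsc_blk_trans hτ ha he hb h1 (ledsc_blk_symm hτ hb he h))
    rw [ledsc_peel hY hU hτ ha _ hL]
    simp only [List.filter, haa, nab, hac, nad, h1, h2, decide_true, decide_false, not_true_eq_false, not_false_eq_true]
    rw [ledsc_kap4, ledsc_two hY hU hτ hb hd]
    simp [hbd, h3]
    ring
  · have h2 : ¬ kU ≤ τ a f := fun h => h1 (ledsc_blk_trans hτ ha hf he h (ledsc_blk_symm hτ he hf hef))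
    by_cases h3 : kU ≤ τ b e
    · have h4 : kU ≤ τ b f := ledsc_blk_trans hτ hb he hf h3 hef
      rw [ledsc_peel hY hU hτ hb _ hL]
      simp only [List.filter, hbb, nba, nbc, hbd, h3, h4, decide_true, decide_false, not_true_eq_false, not_false_eq_true]
      rw [ledsc_kap4, ledsc_two hY hU hτ ha hc]
      simp [hac, h1]
      ring
    · have h4 : ¬ kU ≤ τ b f := fun h => h3 (ledsc_blk_trans hτ hb hf he h (ledsc_blk_symm hτ he hf hef))
      rw [ledsc_peel hY hU hτ ha _ hL]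
      simp only [List.filter, haa, nab, hac, nad, h1, h2, decide_true, decide_false, not_true_eq_false, not_false_eq_true]
      rw [ledsc_peel hY hU hτ hb [b, d, e, f] (by simp [hb, hd, he, hf])]
      simp only [List.filter, hbb, hbd, h3, h4, decide_true, decide_false, not_true_eq_false, not_false_eq_true]
      rw [ledsc_two hY hU hτ ha hc, ledsc_two hY hU hτ hb hd, ledsc_two hY hU hτ he hf]
      simp [hac, hbd, hef]
      ring

theorem ledsc_six_van (hY : Y.Ok) {kU q : ℕ} (hU : kU ≤ Y.N) {τ : ℕ → ℕ → ℕ} (hτ : IsTr Y.N q τ) {a b c d e f : ℕ}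
    (ha : a < q) (hb : b < q) (hc : c < q) (hd : d < q) (he : e < q) (hf : f < q)
    (hab : τ a b < kU) (hcd : τ c d < kU) (hef : kU ≤ τ e f)
    (h1 : ¬ (kU ≤ τ a c ∧ kU ≤ τ b d)) (h2 : ¬ (kU ≤ τ a d ∧ kU ≤ τ b c)) :
    Y.nuS (ledLam kU 0) q τ (ledSp [a, b, c, d, e, f]) = 0 := by
  have hL : ∀ x ∈ [a, b, c, d, e, f], x < q := by simp [ha, hb, hc, hd, he, hf]
  have haa : kU ≤ τ a a := by rw [hτ.diag a ha]; omega
  have hbb : kU ≤ τ b b := by rw [hτ.diag b hb]; omega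
  have nab : ¬ kU ≤ τ a b := by omega
  have nba : ¬ kU ≤ τ b a := fun h => nab (ledsc_blk_symm hτ hb ha h)
  have ncd : ¬ kU ≤ τ c d := by omega
  -- a label `x` whose block contains exactly one of `a, b, c, d`
  have key : ∀ x, x < q → Odd ([a, b, c, d].filter fun y => decide (kU ≤ τ x y)).length →
      Y.nuS (ledLam kU 0) q τ (ledSp [a, b, c, d, e, f]) = 0 := by
    intro x hx hodd
    refine ledsc_odd hY hτ _ hL hx ?_
    have e1 : [a, b, c, d, e, f] = [a, b, c, d] ++ [e, f] := rfl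
    rw [e1, List.filter_append, List.length_append]
    by_cases h : kU ≤ τ x e
    · have h' : kU ≤ τ x f := ledsc_blk_trans hτ hx he hf h hef
      have : ([e, f].filter fun y => decide (kU ≤ τ x y)).length = 2 := by simp [List.filter, h, h']
      rw [this]
      exact hodd.add_even (by decide)
    · have h' : ¬ kU ≤ τ x f := fun h'' => h (ledsc_blk_trans hτ hx hf he h'' (ledsc_blk_symm hτ he hf hef))
      have : ([e, f].filter fun y => decide (kU ≤ τ x y)).length = 0 := by simp [List.filter, h, h']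
      rw [this]
      simpa using hodd
  by_cases hac : kU ≤ τ a c
  · have nad : ¬ kU ≤ τ a d := fun h => ncd (ledsc_blk_trans hτ hc ha hd (ledsc_blk_symm hτ ha hc hac) h)
    have nbd : ¬ kU ≤ τ b d := fun h => h1 ⟨hac, h⟩
    have nbc : ¬ kU ≤ τ b c := fun h => nba (ledsc_blk_trans hτ hb hc ha h (ledsc_blk_symm hτ ha hc hac))
    refine key b hb ?_
    simp [List.filter, hbb, nba, nbc, nbd]
  · by_cases had : kU ≤ τ a d
    · have nbc : ¬ kU ≤ τ b c := fun h => h2 ⟨had, h⟩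
      have nbd : ¬ kU ≤ τ b d := fun h => nba (ledsc_blk_trans hτ hb hd ha h (ledsc_blk_symm hτ ha hd had))
      refine key b hb ?_
      simp [List.filter, hbb, nba, nbc, nbd]
    · refine key a ha ?_
      simp [List.filter, haa, nab, hac, had]

/-- **six spins**: `(a, b)`, `(c, d)` low pairs, `(e, f)` a high pair -/
theorem ledsc_six_high (hY : Y.Ok) {kU q : ℕ} (hU : kU ≤ Y.N) {τ : ℕ → ℕ → ℕ} (hτ : IsTr Y.N q τ) {a b c d e f : ℕ}
    (ha : a < q) (hb : b < q) (hc : c < q) (hd : d < q) (he : e < q) (hf : f < q)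
    (hab : τ a b < kU) (hcd : τ c d < kU) (hef : kU ≤ τ e f) :
    Y.nuS (ledLam kU 0) q τ (ledSp [a, b, c, d, e, f]) = Y.hi3 kU q τ a b c d e f + Y.hi3 kU q τ a b d c e f := by
  have ncd : ¬ kU ≤ τ c d := by omega
  by_cases h1 : kU ≤ τ a c ∧ kU ≤ τ b d
  · have h2 : ¬ (kU ≤ τ a d ∧ kU ≤ τ b c) := fun h =>
      ncd (ledsc_blk_trans hτ hc ha hd (ledsc_blk_symm hτ ha hc h1.1) h.1)
    rw [ledsc_six_core hY hU hτ ha hb hc hd he hf hab h1.1 h1.2 hef]
    have : Y.hi3 kU q τ a b d c e f = 0 := by unfold LedSys.hi3; rw [if_neg h2]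
    rw [this, add_zero]
  · by_cases h2 : kU ≤ τ a d ∧ kU ≤ τ b c
    · have e1 : ledSp [a, b, c, d, e, f] = ledSp [a, b, d, c, e, f] := by
        funext s
        exact ledsc_sp_perm (by
          refine List.Perm.cons a (List.Perm.cons b ?_)
          exact List.Perm.swap d c _) s
      rw [e1, ledsc_six_core hY hU hτ ha hb hd hc he hf hab h2.1 h2.2 hef]
      have : Y.hi3 kU q τ a b c d e f = 0 := by unfold LedSys.hi3; rw [if_neg h1]
      rw [this, zero_add]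
    · rw [ledsc_six_van hY hU hτ ha hb hc hd he hf hab hcd hef h1 h2]
      unfold LedSys.hi3
      rw [if_neg h1, if_neg h2, add_zero]

/-- the path `A - D - B'`: `x` in the block of `a`, `y, z` in one block, `w` in the block of `b` -/
def LedSys.tri (Y : LedSys Ω) (kU : ℕ) (τ : ℕ → ℕ → ℕ) (a b x y z w : ℕ) : ℝ :=
  if kU ≤ τ a x ∧ kU ≤ τ y z ∧ kU ≤ τ w b then Y.gam kU (τ a x) * Y.gam kU (τ y z) * Y.gam kU (τ w b) else 0

/-- the eight paths through the pairs `(c, d)`, `(e, f)` -/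
def LedSys.tri8 (Y : LedSys Ω) (kU : ℕ) (τ : ℕ → ℕ → ℕ) (a b c d e f : ℕ) : ℝ :=
  Y.tri kU τ a b c d e f + Y.tri kU τ a b c d f e + Y.tri kU τ a b d c e f + Y.tri kU τ a b d c f e
    + Y.tri kU τ a b e f c d + Y.tri kU τ a b e f d c + Y.tri kU τ a b f e c d + Y.tri kU τ a b f e d c

theorem ledsc_eqns_cite4 : True := by
  have := @LedSys.tri.eq_1
  have := @LedSys.tri8.eq_1
  trivial

theorem ledsc_tri_zero {kU : ℕ} {τ : ℕ → ℕ → ℕ} {a b x y z w : ℕ} (h : ¬ (kU ≤ τ a x ∧ kU ≤ τ y z ∧ kU ≤ τ w b)) :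
    Y.tri kU τ a b x y z w = 0 := by
  unfold LedSys.tri; rw [if_neg h]

theorem ledsc_six_low_core (hY : Y.Ok) {kU q : ℕ} (hU : kU ≤ Y.N) {τ : ℕ → ℕ → ℕ} (hτ : IsTr Y.N q τ) {a b x y z w : ℕ}
    (ha : a < q) (hb : b < q) (hx : x < q) (hy : y < q) (hz : z < q) (hw : w < q)
    (hab : τ a b < kU) (hxy : τ x y < kU) (hzw : τ z w < kU) (hax : kU ≤ τ a x) :
    Y.nuS (ledLam kU 0) q τ (ledSp [a, b, x, y, z, w]) = Y.tri8 kU τ a b x y z w := by
  have hL : ∀ u ∈ [a, b, x, y, z, w], u < q := by simp [ha, hb, hx, hy, hz, hw]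
  have S := @ledsc_blk_symm Y.N q kU τ hτ
  have T := @ledsc_blk_trans Y.N q kU τ hτ
  have haa : kU ≤ τ a a := by rw [hτ.diag a ha]; omega
  have nab : ¬ kU ≤ τ a b := by omega
  have nxy : ¬ kU ≤ τ x y := by omega
  have nzw : ¬ kU ≤ τ z w := by omega
  have nay : ¬ kU ≤ τ a y := fun h => nxy (T hx ha hy (S ha hx hax) h)
  have nxb : ¬ kU ≤ τ x b := fun h => nab (T ha hx hb hax h)
  -- the six other paths vanish
  have v1 : Y.tri kU τ a b y x z w = 0 := ledsc_tri_zero fun h => nay h.1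
  have v2 : Y.tri kU τ a b y x w z = 0 := ledsc_tri_zero fun h => nay h.1
  have v3 : Y.tri kU τ a b z w x y = 0 := ledsc_tri_zero fun h =>
    nzw (T hz ha hw (S ha hz h.1) (T ha hx hw hax (S hw hx h.2.1)))
  have v4 : Y.tri kU τ a b z w y x = 0 := ledsc_tri_zero fun h => nxb h.2.2
  have v5 : Y.tri kU τ a b w z x y = 0 := ledsc_tri_zero fun h =>
    nzw (T hz hx hw h.2.1 (T hx ha hw (S ha hx hax) h.1))
  have v6 : Y.tri kU τ a b w z y x = 0 := ledsc_tri_zero fun h => nxb h.2.2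
  unfold LedSys.tri8
  rw [v1, v2, v3, v4, v5, v6]
  simp only [add_zero]
  by_cases h1 : kU ≤ τ a z
  · have h2 : ¬ kU ≤ τ a w := fun h => nzw (T hz ha hw (S ha hz h1) h)
    rw [ledsc_tri_zero (fun h => nxy (T hx ha hy (S ha hx hax) (T ha hz hy h1 (S hy hz h.2.1)))),
      ledsc_tri_zero (fun h => nab (T ha hz hb h1 h.2.2)), add_zero]
    refine ledsc_odd hY hτ _ hL ha ?_
    simp [List.filter, haa, nab, hax, nay, h1, h2]
    decide
  · by_cases h2 : kU ≤ τ a w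
    · rw [ledsc_tri_zero (fun h => nab (T ha hw hb h2 h.2.2)),
        ledsc_tri_zero (fun h => nxy (T hx ha hy (S ha hx hax) (T ha hw hy h2 (S hy hw h.2.1)))), add_zero]
      refine ledsc_odd hY hτ _ hL ha ?_
      simp [List.filter, haa, nab, hax, nay, h1, h2]
      decide
    · rw [ledsc_peel hY hU hτ ha _ hL]
      simp only [List.filter, haa, nab, hax, nay, h1, h2, decide_true, decide_false, not_true_eq_false, not_false_eq_true]
      rw [ledsc_two hY hU hτ ha hx, if_pos hax, ledsc_four hY hU hτ hb hy hz hw hzw]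
      unfold LedSys.pr2 LedSys.tri
      have e1 : τ w b = τ b w := hτ.symm w b hw hb
      have e2 : τ z b = τ b z := hτ.symm z b hz hb
      rw [e1, e2]
      by_cases c1 : kU ≤ τ b z <;> by_cases c2 : kU ≤ τ y w <;> by_cases c3 : kU ≤ τ b w <;> by_cases c4 : kU ≤ τ y z <;>
        simp [c1, c2, c3, c4, hax] <;> ring

theorem ledsc_tri8_swap1 (kU : ℕ) (τ : ℕ → ℕ → ℕ) (a b c d e f : ℕ) : Y.tri8 kU τ a b d c e f = Y.tri8 kU τ a b c d e f := by
  unfold LedSys.tri8; ring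

theorem ledsc_tri8_swap2 (kU : ℕ) (τ : ℕ → ℕ → ℕ) (a b c d e f : ℕ) : Y.tri8 kU τ a b c d f e = Y.tri8 kU τ a b c d e f := by
  unfold LedSys.tri8; ring

theorem ledsc_tri8_swap3 (kU : ℕ) (τ : ℕ → ℕ → ℕ) (a b c d e f : ℕ) : Y.tri8 kU τ a b e f c d = Y.tri8 kU τ a b c d e f := by
  unfold LedSys.tri8; ring

/-- **six spins**: three low pairs -/
theorem ledsc_six_low (hY : Y.Ok) {kU q : ℕ} (hU : kU ≤ Y.N) {τ : ℕ → ℕ → ℕ} (hτ : IsTr Y.N q τ) {a b c d e f : ℕ}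
    (ha : a < q) (hb : b < q) (hc : c < q) (hd : d < q) (he : e < q) (hf : f < q)
    (hab : τ a b < kU) (hcd : τ c d < kU) (hef : τ e f < kU) :
    Y.nuS (ledLam kU 0) q τ (ledSp [a, b, c, d, e, f]) = Y.tri8 kU τ a b c d e f := by
  have hdc : τ d c < kU := by rw [hτ.symm d c hd hc]; exact hcd
  have hfe : τ f e < kU := by rw [hτ.symm f e hf he]; exact hef
  by_cases h1 : kU ≤ τ a c
  · exact ledsc_six_low_core hY hU hτ ha hb hc hd he hf hab hcd hef h1
  by_cases h2 : kU ≤ τ a d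
  · have e1 : ledSp [a, b, c, d, e, f] = ledSp [a, b, d, c, e, f] := by
      funext s; simp only [ledsc_sp_cons, ledsc_sp_nil]; ring
    rw [e1, ledsc_six_low_core hY hU hτ ha hb hd hc he hf hab hdc hef h2, ledsc_tri8_swap1]
  by_cases h3 : kU ≤ τ a e
  · have e1 : ledSp [a, b, c, d, e, f] = ledSp [a, b, e, f, c, d] := by
      funext s; simp only [ledsc_sp_cons, ledsc_sp_nil]; ring
    rw [e1, ledsc_six_low_core hY hU hτ ha hb he hf hc hd hab hef hcd h3, ledsc_tri8_swap3]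
  by_cases h4 : kU ≤ τ a f
  · have e1 : ledSp [a, b, c, d, e, f] = ledSp [a, b, f, e, c, d] := by
      funext s; simp only [ledsc_sp_cons, ledsc_sp_nil]; ring
    rw [e1, ledsc_six_low_core hY hU hτ ha hb hf he hc hd hab hfe hcd h4, ledsc_tri8_swap3, ledsc_tri8_swap2]
  · have haa : kU ≤ τ a a := by rw [hτ.diag a ha]; omega
    have nab : ¬ kU ≤ τ a b := by omega
    unfold LedSys.tri8
    rw [ledsc_tri_zero (fun h => h1 h.1), ledsc_tri_zero (fun h => h1 h.1), ledsc_tri_zero (fun h => h2 h.1),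
      ledsc_tri_zero (fun h => h2 h.1), ledsc_tri_zero (fun h => h3 h.1), ledsc_tri_zero (fun h => h3 h.1),
      ledsc_tri_zero (fun h => h4 h.1), ledsc_tri_zero (fun h => h4 h.1)]
    simp only [add_zero]
    refine ledsc_odd hY hτ _ (by simp [ha, hb, hc, hd, he, hf]) ha ?_
    simp [List.filter, haa, nab, h1, h2, h3, h4]

/-! ### G1: bounded kernels -/

theorem ledsc_mean_abs {X : Type} {μ : (X → ℝ) → ℝ} (hm : LedMean μ) (f : X → ℝ) {M : ℝ} (hf : ∀ x, |f x| ≤ M) : |μ f| ≤ M := by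
  have h1 : 0 ≤ μ (fun x => M + (-1) * f x) := hm.nonneg _ fun x => by
    have := (abs_le.mp (hf x)).2; linarith
  have h2 : 0 ≤ μ (fun x => M + 1 * f x) := hm.nonneg _ fun x => by
    have := (abs_le.mp (hf x)).1; linarith
  have hc : μ (fun _ => M) = M := by
    have := hm.smul M (fun _ => 1)
    simpa [hm.one] using this
  rw [hm.add, hm.smul, hc] at h1 h2
  rw [abs_le]
  constructor <;> linarith

theorem ledsc_facs_abs (fs : List (LedFac Ω)) {B : ℝ} (hB : 0 ≤ B) (h : ∀ f ∈ fs, ∀ j x y, |f.2.2 j x y| ≤ B)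
    (τ : ℕ → ℕ → ℕ) (σ : ℕ → Bool × Ω) : |ledFacs fs τ σ| ≤ B ^ fs.length := by
  induction fs with
  | nil => simp [ledFacs]
  | cons f fs ih =>
    have e : ledFacs (f :: fs) τ σ = f.2.2 (τ f.1 f.2.1) (σ f.1) (σ f.2.1) * ledFacs fs τ σ := by
      simp [ledFacs]
    rw [e, abs_mul, List.length_cons, pow_succ, mul_comm (B ^ fs.length)]
    exact mul_le_mul (h f (by simp) _ _ _) (ih fun g hg => h g (by simp [hg])) (abs_nonneg _) hB

theorem ledsc_pairs_len (q : ℕ) (Vs : List (LedKer Ω)) : (ledPairs q Vs).length = Vs.length := by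
  induction Vs generalizing q with
  | nil => simp [ledPairs]
  | cons V Vs ih => simp [ledPairs, ih]

theorem ledsc_pairs_mem {q : ℕ} {Vs : List (LedKer Ω)} {f : LedFac Ω} (h : f ∈ ledPairs q Vs) : f.2.2 ∈ Vs := by
  induction Vs generalizing q with
  | nil => simp [ledPairs] at h
  | cons V Vs ih =>
    simp only [ledPairs, List.mem_cons] at h
    rcases h with rfl | h
    · simp
    · exact List.mem_cons_of_mem _ (ih h)

/-- bounded test, bounded coefficient, bounded kernels -/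
theorem ledsc_tm_bdd (hY : Y.Ok) {lam : ℕ → ℝ} {t : ℝ} (hlam : LedProf lam) (ht : t ∈ Set.Icc (0 : ℝ) 1) {q : ℕ} {τ : ℕ → ℕ → ℕ}
    (hτ : IsTr Y.N q τ) (k : ℕ) (κ : (ℕ → ℕ → ℕ) → ℝ) (J : (ℕ → Bool × Ω) → ℝ) (fs : List (LedFac Ω)) {A M B : ℝ}
    (hκ : ∀ τ', |κ τ'| ≤ A) (hJ : ∀ σ, |J σ| ≤ M) (hB : 0 ≤ B) (hfs : ∀ f ∈ fs, ∀ j x y, |f.2.2 j x y| ≤ B) :
    |Y.tm lam t q τ k κ J fs| ≤ 2 ^ k * (∏ i ∈ Finset.range k, ((q : ℝ) + i)) * (A * (M * B ^ fs.length)) := by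
  have hA : 0 ≤ A := le_trans (abs_nonneg _) (hκ τ)
  unfold LedSys.tm
  refine (tr_sumK_le k _).trans ?_
  have h := tk9_absK_le hτ hY.ms_ok k
    (fun τ' => κ τ' * Y.nu lam t (q + k) τ' fun σ => J σ * ledFacs fs τ' σ) (A * (M * B ^ fs.length)) fun τ' hτ' => by
      rw [abs_mul]
      refine mul_le_mul (hκ τ') ?_ (abs_nonneg _) hA
      refine ledsc_mean_abs (hY.mean lam t (q + k) τ' hlam ht hτ') _ fun σ => ?_
      rw [abs_mul]
      exact mul_le_mul (hJ σ) (ledsc_facs_abs fs hB hfs τ' σ) (abs_nonneg _) (le_trans (abs_nonneg _) (hJ σ))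
  rw [hY.ms_top, mul_one] at h
  exact h

theorem ledsc_K_nonneg (hY : Y.Ok) (r : ℕ) : 0 ≤ Y.K r := by
  unfold LedSys.K
  have h1 : 0 ≤ Y.h r := by rw [← hY.h_zero]; exact hY.h_mono (Nat.zero_le r)
  have h2 : 0 ≤ Y.b r := by rw [← hY.b_zero]; exact hY.b_mono (Nat.zero_le r)
  have := mul_nonneg h2 (hY.S_nonneg r)
  linarith

theorem ledsc_kLow_abs (hY : Y.Ok) {kU : ℕ} {om : ℝ} (hom : 0 ≤ om) (h : ∀ j, j < kU → Y.K j ≤ om) (j : ℕ) (x y : Bool × Ω) :
    |Y.kLow kU 0 j x y| ≤ 1 / 2 * om := by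
  unfold LedSys.kLow
  split_ifs with hj
  · unfold LedSys.kRow
    rw [zero_mul, add_zero, abs_mul, abs_mul, abs_mul, ledt_sg_abs, ledt_sg_abs, abs_of_nonneg (ledsc_K_nonneg hY j)]
    have := h j hj
    norm_num
    linarith
  · rw [abs_zero]; positivity

/-- **G1** (PE l.485): `g^{(i)} = O(ω^i)`. -/
theorem ledsc_G1 (i : ℕ) (Cb : ℝ) : ∃ C : ℝ, 0 ≤ C ∧ ∀ (Ω : Type) (X : LedCtx Ω) (r : ℕ), X.Ok r Cb →
    ∀ l ∈ Set.Icc (0 : ℝ) 1, |X.Y.gD X.kU X.kS i l| ≤ C * X.om ^ i := by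
  refine ⟨2 ^ (2 * i) * (∏ j ∈ Finset.range (2 * i), (((2 : ℕ) : ℝ) + j)) * (1 / 2) ^ i, by positivity, fun Ω X r h l hl => ?_⟩
  have hY := h.sys
  have hom : 0 ≤ X.om := by
    have h0 := (h.low 0 (by have := h.kS_lt; omega)).2
    exact le_trans (ledsc_K_nonneg hY 0) h0
  have hS : X.kS ≤ X.Y.N + 1 := by have := h.kS_lt; have := h.kU_le; omega
  have hb := ledsc_tm_bdd hY (ledt_prof X.kU hl) (show (0 : ℝ) ∈ Set.Icc (0 : ℝ) 1 by simp) (ledt_pair_isTr hS 2)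
    (2 * (List.replicate i (X.Y.kLow X.kU 0)).length) (fun _ => 1) (fun σ => ledSg (σ 0).1 * ledSg (σ 1).1)
    (ledPairs 2 (List.replicate i (X.Y.kLow X.kU 0))) (A := 1) (M := 1) (B := 1 / 2 * X.om) (fun _ => by simp)
    (fun σ => by rw [abs_mul, ledt_sg_abs, ledt_sg_abs, one_mul]) (by positivity) (fun f hf j x y => by
      have := List.eq_of_mem_replicate (ledsc_pairs_mem hf)
      rw [this]
      exact ledsc_kLow_abs hY hom (fun j hj => (h.low j hj).2) j x y)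
  rw [ledsc_pairs_len, List.length_replicate] at hb
  unfold LedSys.gD LedSys.ins
  rw [List.length_replicate]
  refine hb.trans (le_of_eq ?_)
  rw [mul_pow]
  ring

/-!
## TOOLS FOR `led_I3` (193, handed over to 217 at 04:15Z when 193 was drafted to row 291).      PLAN of the rest:
 `ledi_core` : `ins lam0 0 q τ (s_a s_b P) [ledVG kU G, ledVG kU G] = 2 * tm lam0 0 q τ 4 (kapT kU q a b) P [(q,q+1,ledKG G),(q+2,q+3,ledKG G)]`  (`G` symmetric, `τ a b < kU`):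
   (i) `ledi_pt` under `tr_sumK_congr`: LHS `= tm .. (fun τ' => ledC2 kU q τ' * tri8 ..) J0 fsK`;  (ii) `ledi_tm_add` : 8 terms `F x y z w := tm (ledC2 * tri .. x y z w) J0 fsK`;
   (iii) `F x y z w = F (e x) (e y) (e z) (e w)` for `e = swap q (q+1), swap (q+2) (q+3), swap q (q+2) * swap (q+1) (q+3)` by `ledi_tm_perm` + `ledi_tm_congr` (symmetry of `τ'`, of `G`);
   (iv) `ledC2 * tri .. q (q+1) (q+2) (q+3) = 1/4 * kapT` on trees (block logic: `lrt_blk` + omega), `ledi_tm_smul`.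
 `led_I3` : `G = Q` (`ledi_kLow_one`, `ledi_kQ`) gives the first term; `G = K` on the pair tree (`ledi_kLow_zero`, `ledi_kK`, `P = 1`) gives `gD 2 0`;
   `tm .. kapT J0 [kK, kK] = ν[J0] * (pair tree tm)` by `lrt_prune` + `led_marg2`;  `gD 0 0 = gam kS = 0` (`ledsc_gam_low`);  `ins J0 [kLow] = 0` (`ledsc_two` at a low pair after `factor`).
-/

/-! ### 1. relabelling of the new labels of a term -/

theorem ledi_facs_cons (f : LedFac Ω) (fs : List (LedFac Ω)) (τ : ℕ → ℕ → ℕ) (σ : ℕ → Bool × Ω) :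
    ledFacs (f :: fs) τ σ = f.2.2 (τ f.1 f.2.1) (σ f.1) (σ f.2.1) * ledFacs fs τ σ := by
  simp [ledFacs]

theorem ledi_facs_nil (τ : ℕ → ℕ → ℕ) (σ : ℕ → Bool × Ω) : ledFacs ([] : List (LedFac Ω)) τ σ = 1 := rfl

/-- the product of the factors reads the table and the configuration at the labels of the factors only -/
theorem ledi_facs_congr (fs : List (LedFac Ω)) {Q : ℕ} (hfs : ∀ f ∈ fs, f.1 < Q ∧ f.2.1 < Q) {τ₁ τ₂ : ℕ → ℕ → ℕ}
    {σ₁ σ₂ : ℕ → Bool × Ω} (hτ : ∀ y z, y < Q → z < Q → τ₁ y z = τ₂ y z) (hσ : ∀ i, i < Q → σ₁ i = σ₂ i) :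
    ledFacs fs τ₁ σ₁ = ledFacs fs τ₂ σ₂ := by
  induction fs with
  | nil => rfl
  | cons f fs ih =>
    have h := hfs f (by simp)
    rw [ledi_facs_cons, ledi_facs_cons, ih fun g hg => hfs g (by simp [hg]), hτ _ _ h.1 h.2, hσ _ h.1, hσ _ h.2]

theorem ledi_facs_map (fs : List (LedFac Ω)) (e : Equiv.Perm ℕ) (τ : ℕ → ℕ → ℕ) (σ : ℕ → Bool × Ω) :
    ledFacs (fs.map fun f => (e f.1, e f.2.1, f.2.2)) τ (fun i => σ (e.symm i)) = ledFacs fs (fun y z => τ (e y) (e z)) σ := by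
  induction fs with
  | nil => rfl
  | cons f fs ih =>
    rw [List.map_cons, ledi_facs_cons, ledi_facs_cons, ih]
    simp

/-- **relabelling of the new labels** -/
theorem ledi_tm_perm (hY : Y.Ok) {lam : ℕ → ℝ} {t : ℝ} (hlam : LedProf lam) (ht : t ∈ Set.Icc (0 : ℝ) 1) {q : ℕ} {τ : ℕ → ℕ → ℕ}
    (hτ : IsTr Y.N q τ) (k : ℕ) (κ : (ℕ → ℕ → ℕ) → ℝ) (J : (ℕ → Bool × Ω) → ℝ) (fs : List (LedFac Ω))
    (hκ : ∀ τ₁ τ₂ : ℕ → ℕ → ℕ, (∀ y z, y < q + k → z < q + k → τ₁ y z = τ₂ y z) → κ τ₁ = κ τ₂)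
    (hJ : TrUses q J) (hfs : ∀ f ∈ fs, f.1 < q + k ∧ f.2.1 < q + k)
    (e : Equiv.Perm ℕ) (he : ∀ y, y < q ∨ q + k ≤ y → e y = y) :
    Y.tm lam t q τ k κ J fs
      = Y.tm lam t q τ k (fun τ' => κ fun y z => τ' (e y) (e z)) J (fs.map fun f => (e f.1, e f.2.1, f.2.2)) := by
  have he2 : ∀ y, q + k ≤ y → e y = y := fun y hy => he y (Or.inr hy)
  unfold LedSys.tm
  rw [tr_sumK_perm hτ k _ (fun τ₁ τ₂ h => by
    rw [hκ τ₁ τ₂ h, hY.congr lam t (q + k) τ₁ τ₂ _ h]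
    congr 2
    funext σ
    rw [ledi_facs_congr fs hfs h fun _ _ => rfl]) e he]
  refine tr_sumK_congr hτ k _ _ fun τ' hτ' _ => ?_
  congr 1
  have hU : TrUses (q + k) fun σ => J σ * ledFacs (fs.map fun f => (e f.1, e f.2.1, f.2.2)) τ' σ := by
    intro σ σ' h
    beta_reduce
    rw [hJ σ σ' fun i hi => h i (by omega)]
    congr 1
    refine ledi_facs_congr _ (Q := q + k) (fun f hf => ?_) (fun _ _ _ _ => rfl) h
    rw [List.mem_map] at hf
    obtain ⟨g, hg, rfl⟩ := hf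
    exact ⟨tr5_perm_lt e he2 (hfs g hg).1, tr5_perm_lt e he2 (hfs g hg).2⟩
  rw [← hY.perm lam t (q + k) τ' _ e hlam ht hτ' hU he2]
  congr 1
  funext σ
  rw [ledi_facs_map]
  congr 1
  refine hJ _ _ fun i hi => ?_
  have : e.symm i = i := by rw [Equiv.symm_apply_eq, he i (Or.inl hi)]
  rw [this]

/-! ### 2. linearity and congruence of a term in its coefficient -/

theorem ledi_tm_congr {lam : ℕ → ℝ} {t : ℝ} {q : ℕ} {τ : ℕ → ℕ → ℕ} (hτ : IsTr Y.N q τ) (k : ℕ) {κ κ' : (ℕ → ℕ → ℕ) → ℝ}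
    {J J' : (ℕ → Bool × Ω) → ℝ} {fs fs' : List (LedFac Ω)}
    (h : ∀ τ', IsTr Y.N (q + k) τ' → (∀ y z, y < q → z < q → τ' y z = τ y z) →
      κ τ' = κ' τ' ∧ ∀ σ, J σ * ledFacs fs τ' σ = J' σ * ledFacs fs' τ' σ) :
    Y.tm lam t q τ k κ J fs = Y.tm lam t q τ k κ' J' fs' := by
  unfold LedSys.tm
  refine tr_sumK_congr hτ k _ _ fun τ' hτ' hold => ?_
  obtain ⟨h1, h2⟩ := h τ' hτ' hold
  rw [h1]
  congr 2
  funext σ
  exact h2 σ

theorem ledi_tm_add (lam : ℕ → ℝ) (t : ℝ) (q : ℕ) (τ : ℕ → ℕ → ℕ) (k : ℕ) (κ κ' : (ℕ → ℕ → ℕ) → ℝ) (J : (ℕ → Bool × Ω) → ℝ)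
    (fs : List (LedFac Ω)) :
    Y.tm lam t q τ k (fun τ' => κ τ' + κ' τ') J fs = Y.tm lam t q τ k κ J fs + Y.tm lam t q τ k κ' J fs := by
  unfold LedSys.tm
  rw [← ledt_sumK_add]
  congr 1
  funext τ'
  ring

theorem ledi_tm_smul (lam : ℕ → ℝ) (t : ℝ) (q : ℕ) (τ : ℕ → ℕ → ℕ) (k : ℕ) (c : ℝ) (κ : (ℕ → ℕ → ℕ) → ℝ) (J : (ℕ → Bool × Ω) → ℝ)
    (fs : List (LedFac Ω)) :
    Y.tm lam t q τ k (fun τ' => c * κ τ') J fs = c * Y.tm lam t q τ k κ J fs := by
  unfold LedSys.tm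
  rw [← ledt_sumK_smul]
  congr 1
  funext τ'
  ring

theorem ledi_mean_zero {X : Type} {μ : (X → ℝ) → ℝ} (h : LedMean μ) : μ (fun _ => 0) = 0 := by
  have := h.smul 0 (fun _ => 0)
  simpa using this

/-! ### 3. spin x rest kernels -/

/-- `(1/2) s s' G` on the pairs of different blocks -/
noncomputable def ledVG (kU : ℕ) (G : ℕ → Ω → Ω → ℝ) : LedKer Ω :=
  fun r x y => if r < kU then 1 / 2 * (ledSg x.1 * ledSg y.1 * G r x.2 y.2) else 0

/-- the rest kernel `G` -/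
def ledKG (G : ℕ → Ω → Ω → ℝ) : LedKer Ω := fun r x y => G r x.2 y.2

theorem ledi_eqns_cite : True := by
  have := @ledVG.eq_1
  have := @ledKG.eq_1
  trivial

theorem ledi_kLow_one (kU : ℕ) : Y.kLow kU 1 = ledVG kU Y.Q := by
  funext r x y
  unfold LedSys.kLow ledVG LedSys.kRow LedSys.Q LedSys.K LedSys.dl
  split_ifs <;> ring

theorem ledi_kLow_zero (kU : ℕ) : Y.kLow kU 0 = ledVG kU fun r _ _ => Y.K r := by
  funext r x y
  unfold LedSys.kLow ledVG LedSys.kRow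
  split_ifs <;> ring

theorem ledi_kQ : Y.kQ = ledKG Y.Q := rfl

theorem ledi_kK : Y.kK = ledKG fun r _ _ => Y.K r := rfl

/-- both new pairs are low -/
noncomputable def ledC2 (kU q : ℕ) (τ' : ℕ → ℕ → ℕ) : ℝ := if τ' q (q + 1) < kU ∧ τ' (q + 2) (q + 3) < kU then 1 / 4 else 0

theorem ledi_eqns_cite2 : True := by
  have := @ledC2.eq_1
  trivial

/-- **pointwise factorisation** of two low insertions at `l = t = 0` -/
theorem ledi_pt (hY : Y.Ok) {kU q : ℕ} (hU : kU ≤ Y.N) {τ' : ℕ → ℕ → ℕ} (hτ' : IsTr Y.N (q + 4) τ') {a b : ℕ} (ha : a < q) (hb : b < q)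
    (hab : τ' a b < kU) (P : (ℕ → Ω) → ℝ) (G : ℕ → Ω → Ω → ℝ) :
    Y.nu (ledLam kU 0) 0 (q + 4) τ' (fun σ => ledSg (σ a).1 * ledSg (σ b).1 * P (ledRs σ)
        * ledFacs [(q, q + 1, ledVG kU G), (q + 2, q + 3, ledVG kU G)] τ' σ)
      = ledC2 kU q τ' * Y.tri8 kU τ' a b q (q + 1) (q + 2) (q + 3)
        * Y.nu (ledLam kU 0) 0 (q + 4) τ' fun σ => P (ledRs σ) * ledFacs [(q, q + 1, ledKG G), (q + 2, q + 3, ledKG G)] τ' σ := by
  have hm := hY.mean (ledLam kU 0) 0 (q + 4) τ' (ledsc_prof0 kU) (by simp) hτ'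
  unfold ledC2
  split_ifs with hc
  · have e : (fun σ : ℕ → Bool × Ω => ledSg (σ a).1 * ledSg (σ b).1 * P (ledRs σ)
        * ledFacs [(q, q + 1, ledVG kU G), (q + 2, q + 3, ledVG kU G)] τ' σ)
        = fun σ => 1 / 4 * (ledSp [a, b, q, q + 1, q + 2, q + 3] (fun i => (σ i).1)
          * (fun ω : ℕ → Ω => P ω * (G (τ' q (q + 1)) (ω q) (ω (q + 1)) * (G (τ' (q + 2) (q + 3)) (ω (q + 2)) (ω (q + 3)) * 1)))
              fun i => (σ i).2) := by
      funext σ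
      have hr : ledRs σ = fun i => (σ i).2 := rfl
      simp only [ledi_facs_cons, ledi_facs_nil, ledVG, if_pos hc.1, if_pos hc.2, ledsc_sp_cons, ledsc_sp_nil, hr]
      ring
    rw [e, hm.smul, hY.factor (ledLam kU 0) (q + 4) τ' (ledSp [a, b, q, q + 1, q + 2, q + 3])
      (fun ω : ℕ → Ω => P ω * (G (τ' q (q + 1)) (ω q) (ω (q + 1)) * (G (τ' (q + 2) (q + 3)) (ω (q + 2)) (ω (q + 3)) * 1)))
      (ledsc_prof0 kU) hτ']
    have h6 := ledsc_six_low hY hU hτ' (a := a) (b := b) (c := q) (d := q + 1) (e := q + 2) (f := q + 3) (by omega) (by omega)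
      (by omega) (by omega) (by omega) (by omega) hab hc.1 hc.2
    unfold LedSys.nuS at h6
    rw [h6]
    have e2 : (fun σ : ℕ → Bool × Ω => P (ledRs σ) * ledFacs [(q, q + 1, ledKG G), (q + 2, q + 3, ledKG G)] τ' σ)
        = fun σ => (fun ω : ℕ → Ω => P ω * (G (τ' q (q + 1)) (ω q) (ω (q + 1)) * (G (τ' (q + 2) (q + 3)) (ω (q + 2)) (ω (q + 3)) * 1)))
              fun i => (σ i).2 := by
      funext σ
      have hr : ledRs σ = fun i => (σ i).2 := rfl
      simp only [ledi_facs_cons, ledi_facs_nil, ledKG, hr]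
    rw [e2]
    ring
  · have e : (fun σ : ℕ → Bool × Ω => ledSg (σ a).1 * ledSg (σ b).1 * P (ledRs σ)
        * ledFacs [(q, q + 1, ledVG kU G), (q + 2, q + 3, ledVG kU G)] τ' σ) = fun _ => 0 := by
      funext σ
      simp only [ledi_facs_cons, ledi_facs_nil, ledVG]
      by_cases h1 : τ' q (q + 1) < kU
      · have h2 : ¬ τ' (q + 2) (q + 3) < kU := fun h2 => hc ⟨h1, h2⟩
        rw [if_neg h2]; ring
      · rw [if_neg h1]; ring
    rw [e, ledi_mean_zero hm]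
    ring

end Claimed.Agent.R286
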