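import Claimed.Agent.R286.Cav.LedTerms
import Claimed.Agent.R286.Cav.LedComb
import Claimed.Agent.R286.Fd.TrA6

/-!
# Row 286 (S0533), unit Cav, file LedRet      (owner: helper116; prefix `lrt_`)

Identification of the retained terms of the ledger lemma at `l = t = 0` (PE cavity.tex l.555-606): leaves I1, I2, I3 of `Cav/LedLeaves`.
§0 linearity of the signed sums, of the means; profiles.      §1 relabelling / marginalisation of `nu` along any injective map of labels (`lrt_comap`).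
§2 the scalar site law at `l = 0`: odd block => 0, independence over blocks, pair marginal, tables of 4 and 6 spins.
§3 unfolding of `ins`, `lrt_nu_perm`, symmetrisation `lrt_sym`, one low insertion `lrt_A1`.      §4 `c₁` (`lrt_c1`), `gD 0 0 = 0`, `gD 1 0 = K c₁`, **I1** `lrt_I1`.
§5 one low + one high insertion `lrt_A2`, decoupling `lrt_A4`, **I2** `lrt_I2`.      0 sorry.
-/

set_option autoImplicit false
set_option linter.unusedSimpArgs false

namespace Claimed.Agent.R286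

open Finset

variable {Ω : Type}

/-! ### 0. linearity -/

theorem lrt_sumK_add (ms : ℕ → ℝ) (N k : ℕ) : ∀ (q : ℕ) (τ : ℕ → ℕ → ℕ) (Φ Ψ : (ℕ → ℕ → ℕ) → ℝ),
    trSumK ms N k q τ (fun τ' => Φ τ' + Ψ τ') = trSumK ms N k q τ Φ + trSumK ms N k q τ Ψ := by
  induction k with
  | zero => intro q τ Φ Ψ; rfl
  | succ k ih =>
    intro q τ Φ Ψ
    simp only [trSumK, trSum, ih, mul_add, Finset.sum_add_distrib]

theorem lrt_sumK_smul (ms : ℕ → ℝ) (N k : ℕ) : ∀ (q : ℕ) (τ : ℕ → ℕ → ℕ) (c : ℝ) (Φ : (ℕ → ℕ → ℕ) → ℝ),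
    trSumK ms N k q τ (fun τ' => c * Φ τ') = c * trSumK ms N k q τ Φ := by
  induction k with
  | zero => intro q τ c Φ; rfl
  | succ k ih =>
    intro q τ c Φ
    simp only [trSumK, trSum, ih, Finset.mul_sum]
    refine Finset.sum_congr rfl fun x _ => Finset.sum_congr rfl fun j _ => by ring

theorem lrt_sumK_sub (ms : ℕ → ℝ) (N k q : ℕ) (τ : ℕ → ℕ → ℕ) (Φ Ψ : (ℕ → ℕ → ℕ) → ℝ) :
    trSumK ms N k q τ (fun τ' => Φ τ' - Ψ τ') = trSumK ms N k q τ Φ - trSumK ms N k q τ Ψ := by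
  have h := lrt_sumK_add ms N k q τ Φ (fun τ' => -1 * Ψ τ')
  rw [lrt_sumK_smul] at h
  rw [show (fun τ' => Φ τ' - Ψ τ') = fun τ' => Φ τ' + -1 * Ψ τ' from funext fun τ' => by ring, h]
  ring

theorem lrt_sumK_zero (ms : ℕ → ℝ) (N k q : ℕ) (τ : ℕ → ℕ → ℕ) : trSumK ms N k q τ (fun _ => 0) = 0 := by
  have h := lrt_sumK_smul ms N k q τ 0 (fun _ => 0)
  simpa using h

theorem lrt_mean_zero {X : Type} {μ : (X → ℝ) → ℝ} (h : LedMean μ) : μ (fun _ => 0) = 0 := by
  have := h.smul 0 (fun _ => 0)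
  simpa using this

theorem lrt_mean_neg {X : Type} {μ : (X → ℝ) → ℝ} (h : LedMean μ) (f : X → ℝ) : μ (fun x => -f x) = -μ f := by
  have := h.smul (-1) f
  simpa using this

theorem lrt_mean_sub {X : Type} {μ : (X → ℝ) → ℝ} (h : LedMean μ) (f g : X → ℝ) : μ (fun x => f x - g x) = μ f - μ g := by
  have h1 := h.add f (fun x => -g x)
  rw [lrt_mean_neg h] at h1
  rw [show (fun x => f x - g x) = fun x => f x + -g x from funext fun x => by ring, h1]
  ring

theorem lrt_mean_const {X : Type} {μ : (X → ℝ) → ℝ} (h : LedMean μ) (c : ℝ) : μ (fun _ => c) = c := by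
  have := h.smul c (fun _ => 1)
  rw [h.one] at this
  simpa using this

theorem lrt_mean_mul_right {X : Type} {μ : (X → ℝ) → ℝ} (h : LedMean μ) (c : ℝ) (f : X → ℝ) : μ (fun x => f x * c) = μ f * c := by
  have := h.smul c f
  rw [show (fun x => f x * c) = fun x => c * f x from funext fun x => by ring, this]
  ring

theorem lrt_prof (k : ℕ) {l : ℝ} (h0 : 0 ≤ l) (h1 : l ≤ 1) : LedProf (ledLam k l) := by
  refine ⟨fun r => ?_, fun r => ?_, fun r r' hr => ?_⟩
  · unfold ledLam; split_ifs <;> linarith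
  · unfold ledLam; split_ifs <;> linarith
  · unfold ledLam
    split_ifs with h h' h'
    · exact le_rfl
    · exact h1
    · omega
    · exact le_rfl

theorem lrt_prof0 (k : ℕ) : LedProf (ledLam k 0) := lrt_prof k le_rfl zero_le_one

theorem lrt_lam_one (k : ℕ) : ledLam k 1 = fun _ => 1 := by
  funext r; unfold ledLam; split_ifs <;> rfl

theorem lrt_zero_mem : (0 : ℝ) ∈ Set.Icc (0 : ℝ) 1 := ⟨le_rfl, zero_le_one⟩

/-! ### 1. relabelling -/

/-- an injective map of the labels `< k` into the labels `< q` extends to a permutation which fixes the labels `≥ q` -/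
theorem lrt_perm_ext (q : ℕ) (e : ℕ → ℕ) : ∀ k : ℕ, (∀ i, i < k → e i < q) → (∀ i j, i < k → j < k → e i = e j → i = j) →
    ∃ π : Equiv.Perm ℕ, (∀ x, q ≤ x → π x = x) ∧ ∀ i, i < k → π i = e i := by
  intro k
  induction k with
  | zero => intro _ _; exact ⟨1, fun _ _ => rfl, fun i hi => absurd hi (by omega)⟩
  | succ k ih =>
    intro he hinj
    obtain ⟨π, hfix, hπ⟩ := ih (fun i hi => he i (by omega)) fun i j hi hj => hinj i j (by omega) (by omega)
    have hjk : k ≤ π.symm (e k) := by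
      by_contra hlt
      have h1 := hπ (π.symm (e k)) (by omega)
      rw [Equiv.apply_symm_apply] at h1
      have := hinj k (π.symm (e k)) (by omega) (by omega) h1
      omega
    have hjq : π.symm (e k) < q := by
      by_contra hge
      have h1 := hfix (π.symm (e k)) (by omega)
      rw [Equiv.apply_symm_apply] at h1
      have := he k (by omega)
      omega
    have hkq : k < q := by omega
    refine ⟨π * Equiv.swap k (π.symm (e k)), fun x hx => ?_, fun i hi => ?_⟩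
    · rw [Equiv.Perm.mul_apply, Equiv.swap_apply_of_ne_of_ne (by omega) (by omega)]
      exact hfix x hx
    · rw [Equiv.Perm.mul_apply]
      rcases Nat.lt_succ_iff_lt_or_eq.mp hi with h | h
      · rw [Equiv.swap_apply_of_ne_of_ne (by omega) (by omega)]
        exact hπ i h
      · rw [h, Equiv.swap_apply_left, Equiv.apply_symm_apply]

/-- iterated pruning -/
theorem lrt_prune (Y : LedSys Ω) (hY : Y.Ok) {lam : ℕ → ℝ} {t : ℝ} (hl : LedProf lam) (ht : t ∈ Set.Icc (0 : ℝ) 1) {q : ℕ}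
    {P : (ℕ → Bool × Ω) → ℝ} (hP : TrUses q P) : ∀ (k : ℕ) {τ : ℕ → ℕ → ℕ}, IsTr Y.N (q + k) τ →
    Y.nu lam t (q + k) τ P = Y.nu lam t q τ P := by
  intro k
  induction k with
  | zero => intro τ _; rfl
  | succ k ih =>
    intro τ hτ
    rw [← ih (tr_isTr_mono hτ (by omega))]
    exact hY.prune lam t (q + k) τ P hl ht hτ fun σ σ' h => hP σ σ' fun i hi => h i (by omega)

/-- **marginalisation along an injective map of labels** -/
theorem lrt_comap (Y : LedSys Ω) (hY : Y.Ok) {lam : ℕ → ℝ} {t : ℝ} (hl : LedProf lam) (ht : t ∈ Set.Icc (0 : ℝ) 1) {q k : ℕ}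
    {τ : ℕ → ℕ → ℕ} (hτ : IsTr Y.N q τ) (e : ℕ → ℕ) (he : ∀ i, i < k → e i < q)
    (hinj : ∀ i j, i < k → j < k → e i = e j → i = j) {P : (ℕ → Bool × Ω) → ℝ} (hP : TrUses k P) :
    Y.nu lam t q τ (fun σ => P fun i => σ (e i)) = Y.nu lam t k (fun x y => τ (e x) (e y)) P := by
  obtain ⟨π, hfix, hπ⟩ := lrt_perm_ext q e k he hinj
  have hkq : k ≤ q := by
    by_contra hlt
    have h1 : π q = q := hfix q le_rfl
    have h2 := hπ q (by omega)
    have h3 := he q (by omega)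
    omega
  have hU : TrUses q (fun σ : ℕ → Bool × Ω => P fun i => σ (e i)) := fun σ σ' h => hP _ _ fun i hi => h _ (he i hi)
  have h1 := hY.perm lam t q τ (fun σ => P fun i => σ (e i)) π hl ht hτ hU hfix
  rw [← h1]
  have h2 : (fun σ : ℕ → Bool × Ω => (fun σ : ℕ → Bool × Ω => P fun i => σ (e i)) fun i => σ (π.symm i)) = P := by
    funext σ
    refine hP _ _ fun i hi => ?_
    show σ (π.symm (e i)) = σ i
    rw [← hπ i hi, Equiv.symm_apply_apply]
  rw [h2]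
  have hτπ : IsTr Y.N q (fun x y => τ (π x) (π y)) := tr_comap_isTr hτ π fun x hx => tr5_perm_lt π hfix hx
  obtain ⟨m, rfl⟩ := Nat.exists_eq_add_of_le hkq
  rw [lrt_prune Y hY hl ht hP m hτπ]
  exact hY.congr lam t k _ _ P fun x y hx hy => by rw [hπ x hx, hπ y hy]

/-! ### 2. the scalar site law at `l = 0` -/

theorem lrt_sg_not (s : Bool) : ledSg (!s) = -ledSg s := by
  cases s <;> simp [ledSg]

theorem lrt_sg_sq (s : Bool) : ledSg s * ledSg s = 1 := by
  cases s <;> simp [ledSg]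

/-- names of the blocks of depth `k` -/
theorem lrt_blk {N p : ℕ} {τ : ℕ → ℕ → ℕ} (hτ : IsTr N p τ) {k : ℕ} (hk : k ≤ N + 1) (x y : ℕ) (hx : x < p) (hy : y < p) :
    k ≤ τ x y ↔ tra2Rp τ k x = tra2Rp τ k y := by
  obtain ⟨a1, a2, a3⟩ := tra2_rp_spec hτ hx hk
  have hr : tra2Rp τ k x < p := lt_of_le_of_lt a1 hx
  constructor
  · intro h
    refine (tra2_rp_eq hτ hy hr hk ?_ a3).symm
    have u := hτ.ultra (tra2Rp τ k x) x y hr hx hy
    rw [hτ.symm _ _ hr hx] at u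
    omega
  · intro h
    obtain ⟨b1, b2, b3⟩ := tra2_rp_spec hτ hy hk
    rw [← h] at b2
    have u := hτ.ultra x (tra2Rp τ k x) y hx hr hy
    rw [hτ.symm _ _ hr hy] at u
    omega

/-- general parity: a test which is odd under the flip of a block has mean `0` -/
theorem lrt_flip_zero (Y : LedSys Ω) (hY : Y.Ok) {lam : ℕ → ℝ} {t : ℝ} (hl : LedProf lam) (ht : t ∈ Set.Icc (0 : ℝ) 1) {p : ℕ}
    {τ : ℕ → ℕ → ℕ} (hτ : IsTr Y.N p τ) {k x : ℕ} (hx : x < p) (hk : ∀ r, r < k → lam r = 0) {P : (ℕ → Bool × Ω) → ℝ}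
    (hP : TrUses p P) (hodd : ∀ σ, P (ledFlip τ k x σ) = -P σ) : Y.nu lam t p τ P = 0 := by
  have h1 := hY.flip lam t p τ P k x hl ht hτ hP hx hk
  rw [show (fun σ => P (ledFlip τ k x σ)) = fun σ => -P σ from funext hodd, lrt_mean_neg (hY.mean lam t p τ hl ht hτ)] at h1
  linarith

theorem lrt_lam0 (kU r : ℕ) (h : r < kU) : ledLam kU 0 r = 0 := by
  unfold ledLam; rw [if_pos h]

section scalar

variable (Y : LedSys Ω) (hY : Y.Ok) {kU p : ℕ} (hkU : kU ≤ Y.N) {τ : ℕ → ℕ → ℕ} (hτ : IsTr Y.N p τ) {β : ℕ → ℕ}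
  (hβ : ∀ x y, x < p → y < p → (kU ≤ τ x y ↔ β x = β y))

include hY hτ hβ

/-- odd block -/
theorem lrt_s_odd {x : ℕ} (hx : x < p) {f : (ℕ → Bool) → ℝ} (hf : TrUses p f)
    (hodd : ∀ s, f (fun i => if β x = β i then !(s i) else s i) = -f s) : Y.nuS (ledLam kU 0) p τ f = 0 := by
  refine lrt_flip_zero Y hY (lrt_prof0 kU) lrt_zero_mem hτ hx (lrt_lam0 kU) (fun σ σ' h => hf _ _ fun i hi => by rw [h i hi]) ?_
  intro σ
  rw [← hodd]
  refine hf _ _ fun i hi => ?_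
  unfold ledFlip
  by_cases h : kU ≤ τ x i
  · rw [if_pos h, if_pos ((hβ x i hx hi).mp h)]
  · rw [if_neg h, if_neg fun h' => h ((hβ x i hx hi).mpr h')]

include hkU in
/-- independence of the block of `x` from the other blocks -/
theorem lrt_s_ind (x : ℕ) {f g : (ℕ → Bool) → ℝ}
    (hf : ∀ s s' : ℕ → Bool, (∀ i, i < p → β x = β i → s i = s' i) → f s = f s')
    (hg : ∀ s s' : ℕ → Bool, (∀ i, i < p → β x ≠ β i → s i = s' i) → g s = g s') :
    Y.nuS (ledLam kU 0) p τ (fun s => f s * g s) = Y.nuS (ledLam kU 0) p τ f * Y.nuS (ledLam kU 0) p τ g := by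
  refine hY.indep (ledLam kU 0) p τ kU (fun i => β x = β i) f g (lrt_prof0 kU) hτ (by omega) (lrt_lam0 kU) ?_ hf hg
  intro y z hy hz h1 h2
  by_contra h3
  exact h2 (h1.trans ((hβ y z hy hz).mp (not_lt.mp h3)))

omit hβ

/-- pair marginal -/
theorem lrt_s_pair {x y : ℕ} (hx : x < p) (hy : y < p) (hxy : x ≠ y) :
    Y.nuS (ledLam kU 0) p τ (fun s => ledSg (s x) * ledSg (s y)) = Y.gam kU (τ x y) := by
  have h := lrt_comap Y hY (lrt_prof0 kU) lrt_zero_mem hτ (fun i => if i = 0 then x else y) (k := 2)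
    (fun i _ => by split_ifs <;> assumption)
    (fun i j hi hj h => by split_ifs at h <;> omega)
    (P := fun σ => ledSg (σ 0).1 * ledSg (σ 1).1)
    (fun σ σ' h => by show ledSg (σ 0).1 * ledSg (σ 1).1 = ledSg (σ' 0).1 * ledSg (σ' 1).1; rw [h 0 (by omega), h 1 (by omega)])
  simp only [if_true, one_ne_zero, if_false] at h
  unfold LedSys.gam LedSys.gS LedSys.nuS
  rw [h]
  refine hY.congr _ _ _ _ _ _ fun u v hu hv => ?_
  unfold ledPair
  have hu' : u = 0 ∨ u = 1 := by omega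
  have hv' : v = 0 ∨ v = 1 := by omega
  rcases hu' with rfl | rfl <;> rcases hv' with rfl | rfl <;> simp [hτ.diag x hx, hτ.diag y hy, hτ.symm y x hy hx]

/-- site and rest factor at `t = 0` -/
theorem lrt_fac (f : (ℕ → Bool) → ℝ) (g : (ℕ → Ω) → ℝ) :
    Y.nu (ledLam kU 0) 0 p τ (fun σ => f (fun i => (σ i).1) * g (ledRs σ))
      = Y.nuS (ledLam kU 0) p τ f * Y.nu (ledLam kU 0) 0 p τ fun σ => g (ledRs σ) :=
  hY.factor (ledLam kU 0) p τ f g (lrt_prof0 kU) hτ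

include hβ hkU

/-- **four spins**, `c`, `d` in different blocks -/
theorem lrt_sc4 {a b c d : ℕ} (ha : a < p) (hb : b < p) (hc : c < p) (hd : d < p) (hac : a ≠ c) (had : a ≠ d) (hbc : b ≠ c)
    (hbd : b ≠ d) (hcd : β c ≠ β d) :
    Y.nuS (ledLam kU 0) p τ (fun s => ledSg (s a) * ledSg (s b) * ledSg (s c) * ledSg (s d))
      = (if β a = β c ∧ β b = β d then Y.gam kU (τ a c) * Y.gam kU (τ b d) else 0)
        + (if β a = β d ∧ β b = β c then Y.gam kU (τ a d) * Y.gam kU (τ b c) else 0) := by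
  have hU : TrUses p (fun s : ℕ → Bool => ledSg (s a) * ledSg (s b) * ledSg (s c) * ledSg (s d)) := fun s s' h => by
    simp only [h a ha, h b hb, h c hc, h d hd]
  by_cases h1 : β a = β c ∧ β b = β d
  · rw [if_pos h1, if_neg (by omega), add_zero]
    have h := lrt_s_ind Y hY hkU hτ hβ a (f := fun s => ledSg (s a) * ledSg (s c)) (g := fun s => ledSg (s b) * ledSg (s d))
      (fun s s' h => by simp only [h a ha rfl, h c hc h1.1]) (fun s s' h => by simp only [h b hb (by omega), h d hd (by omega)])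
    rw [lrt_s_pair Y hY hτ ha hc hac, lrt_s_pair Y hY hτ hb hd hbd] at h
    rw [← h]; congr 1; funext s; ring
  by_cases h2 : β a = β d ∧ β b = β c
  · rw [if_neg h1, if_pos h2, zero_add]
    have h := lrt_s_ind Y hY hkU hτ hβ a (f := fun s => ledSg (s a) * ledSg (s d)) (g := fun s => ledSg (s b) * ledSg (s c))
      (fun s s' h => by simp only [h a ha rfl, h d hd h2.1]) (fun s s' h => by simp only [h b hb (by omega), h c hc (by omega)])
    rw [lrt_s_pair Y hY hτ ha hd had, lrt_s_pair Y hY hτ hb hc hbc] at h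
    rw [← h]; congr 1; funext s; ring
  rw [if_neg h1, if_neg h2, add_zero]
  by_cases h3 : β a = β c
  · refine lrt_s_odd Y hY hτ hβ hd hU fun s => ?_
    simp (disch := omega) only [if_pos, if_neg, if_true, lrt_sg_not]; ring
  by_cases h4 : β a = β d
  · refine lrt_s_odd Y hY hτ hβ hc hU fun s => ?_
    simp (disch := omega) only [if_pos, if_neg, if_true, lrt_sg_not]; ring
  by_cases h5 : β a = β b
  · refine lrt_s_odd Y hY hτ hβ hc hU fun s => ?_
    simp (disch := omega) only [if_pos, if_neg, if_true, lrt_sg_not]; ring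
  · refine lrt_s_odd Y hY hτ hβ ha hU fun s => ?_
    simp (disch := omega) only [if_pos, if_neg, if_true, lrt_sg_not]; ring

/-- **six spins, one high pair**: `a`, `b` in different blocks, `c`, `d` in different blocks, `e`, `f` in one block -/
theorem lrt_sc6h {a b c d e f : ℕ} (ha : a < p) (hb : b < p) (hc : c < p) (hd : d < p) (he : e < p) (hf : f < p)
    (hac : a ≠ c) (had : a ≠ d) (hbc : b ≠ c) (hbd : b ≠ d) (hef' : e ≠ f) (hab : β a ≠ β b) (hcd : β c ≠ β d) (hef : β e = β f) :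
    Y.nuS (ledLam kU 0) p τ (fun s => ledSg (s a) * ledSg (s b) * ledSg (s c) * ledSg (s d) * ledSg (s e) * ledSg (s f))
      = (if β a = β c ∧ β b = β d then Y.gam kU (τ a c) * Y.gam kU (τ b d) * Y.gam kU (τ e f)
            + (if β a = β e then Y.kap4 kU p τ a c e f * Y.gam kU (τ b d) else 0)
            + (if β b = β e then Y.gam kU (τ a c) * Y.kap4 kU p τ b d e f else 0) else 0)
        + (if β a = β d ∧ β b = β c then Y.gam kU (τ a d) * Y.gam kU (τ b c) * Y.gam kU (τ e f)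
            + (if β a = β e then Y.kap4 kU p τ a d e f * Y.gam kU (τ b c) else 0)
            + (if β b = β e then Y.gam kU (τ a d) * Y.kap4 kU p τ b c e f else 0) else 0) := by
  have hU : TrUses p (fun s : ℕ → Bool => ledSg (s a) * ledSg (s b) * ledSg (s c) * ledSg (s d) * ledSg (s e) * ledSg (s f)) :=
    fun s s' h => by simp only [h a ha, h b hb, h c hc, h d hd, h e he, h f hf]
  -- the generic computation, for `c ∈ A`, `d ∈ B'`
  have key : ∀ c d : ℕ, c < p → d < p → a ≠ c → b ≠ d → β a = β c → β b = β d →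
      Y.nuS (ledLam kU 0) p τ (fun s => ledSg (s a) * ledSg (s b) * ledSg (s c) * ledSg (s d) * ledSg (s e) * ledSg (s f))
        = Y.gam kU (τ a c) * Y.gam kU (τ b d) * Y.gam kU (τ e f)
            + (if β a = β e then Y.kap4 kU p τ a c e f * Y.gam kU (τ b d) else 0)
            + (if β b = β e then Y.gam kU (τ a c) * Y.kap4 kU p τ b d e f else 0) := by
    intro c d hc hd hac hbd h1 h2
    by_cases h3 : β a = β e
    · rw [if_pos h3, if_neg (by omega), add_zero]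
      have h := lrt_s_ind Y hY hkU hτ hβ a (f := fun s => ledSg (s a) * ledSg (s c) * ledSg (s e) * ledSg (s f))
        (g := fun s => ledSg (s b) * ledSg (s d))
        (fun s s' h => by simp only [h a ha rfl, h c hc h1, h e he h3, h f hf (by omega)])
        (fun s s' h => by simp only [h b hb (by omega), h d hd (by omega)])
      rw [lrt_s_pair Y hY hτ hb hd hbd] at h
      unfold LedSys.kap4
      rw [sub_mul, ← h]
      rw [show (fun s : ℕ → Bool => ledSg (s a) * ledSg (s b) * ledSg (s c) * ledSg (s d) * ledSg (s e) * ledSg (s f))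
        = fun s => ledSg (s a) * ledSg (s c) * ledSg (s e) * ledSg (s f) * (ledSg (s b) * ledSg (s d)) from funext fun s => by ring]
      ring
    by_cases h4 : β b = β e
    · rw [if_neg h3, if_pos h4, add_zero]
      have h := lrt_s_ind Y hY hkU hτ hβ b (f := fun s => ledSg (s b) * ledSg (s d) * ledSg (s e) * ledSg (s f))
        (g := fun s => ledSg (s a) * ledSg (s c))
        (fun s s' h => by simp only [h b hb rfl, h d hd h2, h e he h4, h f hf (by omega)])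
        (fun s s' h => by simp only [h a ha (by omega), h c hc (by omega)])
      rw [lrt_s_pair Y hY hτ ha hc hac] at h
      unfold LedSys.kap4
      rw [mul_sub, mul_comm (Y.gam kU (τ a c)) (Y.nuS _ _ _ _), ← h]
      rw [show (fun s : ℕ → Bool => ledSg (s a) * ledSg (s b) * ledSg (s c) * ledSg (s d) * ledSg (s e) * ledSg (s f))
        = fun s => ledSg (s b) * ledSg (s d) * ledSg (s e) * ledSg (s f) * (ledSg (s a) * ledSg (s c)) from funext fun s => by ring]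
      ring
    · rw [if_neg h3, if_neg h4, add_zero, add_zero]
      have h := lrt_s_ind Y hY hkU hτ hβ a (f := fun s => ledSg (s a) * ledSg (s c))
        (g := fun s => ledSg (s b) * ledSg (s d) * (ledSg (s e) * ledSg (s f)))
        (fun s s' h => by simp only [h a ha rfl, h c hc h1])
        (fun s s' h => by simp only [h b hb (by omega), h d hd (by omega), h e he h3, h f hf (by omega)])
      have h' := lrt_s_ind Y hY hkU hτ hβ b (f := fun s => ledSg (s b) * ledSg (s d)) (g := fun s => ledSg (s e) * ledSg (s f))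
        (fun s s' h => by simp only [h b hb rfl, h d hd h2])
        (fun s s' h => by simp only [h e he h4, h f hf (by omega)])
      rw [h', lrt_s_pair Y hY hτ ha hc hac, lrt_s_pair Y hY hτ hb hd hbd, lrt_s_pair Y hY hτ he hf hef'] at h
      rw [mul_assoc, ← h]
      congr 1; funext s; ring
  by_cases h1 : β a = β c ∧ β b = β d
  · rw [if_pos h1, if_neg (show ¬(β a = β d ∧ β b = β c) by omega), add_zero]
    exact key c d hc hd hac hbd h1.1 h1.2
  by_cases h2 : β a = β d ∧ β b = β c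
  · rw [if_neg h1, if_pos h2, zero_add, ← key d c hd hc had hbc h2.1 h2.2]
    congr 1; funext s; ring
  rw [if_neg h1, if_neg h2, add_zero]
  by_cases h3 : β a = β c ∨ β a = β d
  · by_cases h4 : β b = β e
    · refine lrt_s_odd Y hY hτ hβ hb hU fun s => ?_
      simp (disch := omega) only [if_pos, if_neg, if_true, lrt_sg_not]; ring
    · refine lrt_s_odd Y hY hτ hβ hb hU fun s => ?_
      simp (disch := omega) only [if_pos, if_neg, if_true, lrt_sg_not]; ring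
  · by_cases h4 : β a = β e
    · refine lrt_s_odd Y hY hτ hβ ha hU fun s => ?_
      simp (disch := omega) only [if_pos, if_neg, if_true, lrt_sg_not]; ring
    · refine lrt_s_odd Y hY hτ hβ ha hU fun s => ?_
      simp (disch := omega) only [if_pos, if_neg, if_true, lrt_sg_not]; ring

/-- **six spins, three low pairs**: generic case, `x` is the only partner of `a` -/
theorem lrt_sc6l_key {a b x x' y y' : ℕ} (ha : a < p) (hb : b < p) (hx : x < p) (hx' : x' < p) (hy : y < p) (hy' : y' < p)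
    (n1 : a ≠ x) (n2 : b ≠ y) (n3 : b ≠ y') (n4 : x' ≠ y) (n5 : x' ≠ y') (hab : β a ≠ β b) (hxx : β x ≠ β x') (hyy : β y ≠ β y')
    (h1 : β a = β x) (h2 : β a ≠ β y) (h3 : β a ≠ β y') :
    Y.nuS (ledLam kU 0) p τ (fun s => ledSg (s a) * ledSg (s x) * (ledSg (s b) * ledSg (s x') * ledSg (s y) * ledSg (s y')))
      = (if β a = β x ∧ β x' = β y ∧ β y' = β b then Y.gam kU (τ a x) * Y.gam kU (τ x' y) * Y.gam kU (τ y' b) else 0)
        + (if β a = β x ∧ β x' = β y' ∧ β y = β b then Y.gam kU (τ a x) * Y.gam kU (τ x' y') * Y.gam kU (τ y b) else 0) := by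
  have h := lrt_s_ind Y hY hkU hτ hβ a (f := fun s => ledSg (s a) * ledSg (s x))
    (g := fun s => ledSg (s b) * ledSg (s x') * ledSg (s y) * ledSg (s y'))
    (fun s s' h => by simp only [h a ha rfl, h x hx h1])
    (fun s s' h => by simp only [h b hb hab, h x' hx' (by omega), h y hy h2, h y' hy' h3])
  rw [h, lrt_s_pair Y hY hτ ha hx n1, lrt_sc4 Y hY hkU hτ hβ hb hx' hy hy' n2 n3 n4 n5 hyy, hτ.symm y' b hy' hb, hτ.symm y b hy hb]
  split_ifs <;> first | (exfalso; omega) | ring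

/-- **six spins, three low pairs** -/
theorem lrt_sc6l {a b c d e f : ℕ} (ha : a < p) (hb : b < p) (hc : c < p) (hd : d < p) (he : e < p) (hf : f < p)
    (hac : a ≠ c) (had : a ≠ d) (hae : a ≠ e) (haf : a ≠ f) (hbc : b ≠ c) (hbd : b ≠ d) (hbe : b ≠ e) (hbf : b ≠ f)
    (hce : c ≠ e) (hcf : c ≠ f) (hde : d ≠ e) (hdf : d ≠ f) (hab : β a ≠ β b) (hcd : β c ≠ β d) (hef : β e ≠ β f) :
    Y.nuS (ledLam kU 0) p τ (fun s => ledSg (s a) * ledSg (s b) * ledSg (s c) * ledSg (s d) * ledSg (s e) * ledSg (s f))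
      = (((if β a = β c ∧ β d = β e ∧ β f = β b then Y.gam kU (τ a c) * Y.gam kU (τ d e) * Y.gam kU (τ f b) else 0)
          + (if β a = β d ∧ β c = β e ∧ β f = β b then Y.gam kU (τ a d) * Y.gam kU (τ c e) * Y.gam kU (τ f b) else 0))
        + ((if β a = β c ∧ β d = β f ∧ β e = β b then Y.gam kU (τ a c) * Y.gam kU (τ d f) * Y.gam kU (τ e b) else 0)
          + (if β a = β d ∧ β c = β f ∧ β e = β b then Y.gam kU (τ a d) * Y.gam kU (τ c f) * Y.gam kU (τ e b) else 0)))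
        + (((if β a = β e ∧ β f = β c ∧ β d = β b then Y.gam kU (τ a e) * Y.gam kU (τ f c) * Y.gam kU (τ d b) else 0)
          + (if β a = β f ∧ β e = β c ∧ β d = β b then Y.gam kU (τ a f) * Y.gam kU (τ e c) * Y.gam kU (τ d b) else 0))
        + ((if β a = β e ∧ β f = β d ∧ β c = β b then Y.gam kU (τ a e) * Y.gam kU (τ f d) * Y.gam kU (τ c b) else 0)
          + (if β a = β f ∧ β e = β d ∧ β c = β b then Y.gam kU (τ a f) * Y.gam kU (τ e d) * Y.gam kU (τ c b) else 0))) := by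
  have hU : TrUses p (fun s : ℕ → Bool => ledSg (s a) * ledSg (s b) * ledSg (s c) * ledSg (s d) * ledSg (s e) * ledSg (s f)) :=
    fun s s' h => by simp only [h a ha, h b hb, h c hc, h d hd, h e he, h f hf]
  by_cases h1 : β a = β c
  · by_cases h3 : β a = β e ∨ β a = β f
    · rw [lrt_s_odd Y hY hτ hβ ha hU fun s => by
        rcases h3 with h3 | h3 <;> simp (disch := omega) only [if_pos, if_neg, if_true, lrt_sg_not] <;> ring]
      simp (disch := omega) only [if_neg, add_zero]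
    · have h := lrt_sc6l_key Y hY hkU hτ hβ ha hb hc hd he hf hac hbe hbf hde hdf hab hcd hef h1 (by omega) (by omega)
      rw [show (fun s : ℕ → Bool => ledSg (s a) * ledSg (s b) * ledSg (s c) * ledSg (s d) * ledSg (s e) * ledSg (s f))
        = fun s => ledSg (s a) * ledSg (s c) * (ledSg (s b) * ledSg (s d) * ledSg (s e) * ledSg (s f)) from funext fun s => by ring, h]
      rw [if_neg (show ¬(β a = β d ∧ β c = β e ∧ β f = β b) by omega), if_neg (show ¬(β a = β d ∧ β c = β f ∧ β e = β b) by omega),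
        if_neg (show ¬(β a = β e ∧ β f = β c ∧ β d = β b) by omega), if_neg (show ¬(β a = β f ∧ β e = β c ∧ β d = β b) by omega),
        if_neg (show ¬(β a = β e ∧ β f = β d ∧ β c = β b) by omega), if_neg (show ¬(β a = β f ∧ β e = β d ∧ β c = β b) by omega)]
      ring
  by_cases h2 : β a = β d
  · by_cases h3 : β a = β e ∨ β a = β f
    · rw [lrt_s_odd Y hY hτ hβ ha hU fun s => by
        rcases h3 with h3 | h3 <;> simp (disch := omega) only [if_pos, if_neg, if_true, lrt_sg_not] <;> ring]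
      simp (disch := omega) only [if_neg, add_zero]
    · have h := lrt_sc6l_key Y hY hkU hτ hβ ha hb hd hc he hf had hbe hbf hce hcf hab (Ne.symm hcd) hef h2 (by omega) (by omega)
      rw [show (fun s : ℕ → Bool => ledSg (s a) * ledSg (s b) * ledSg (s c) * ledSg (s d) * ledSg (s e) * ledSg (s f))
        = fun s => ledSg (s a) * ledSg (s d) * (ledSg (s b) * ledSg (s c) * ledSg (s e) * ledSg (s f)) from funext fun s => by ring, h]
      rw [if_neg (show ¬(β a = β c ∧ β d = β e ∧ β f = β b) by omega), if_neg (show ¬(β a = β c ∧ β d = β f ∧ β e = β b) by omega),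
        if_neg (show ¬(β a = β e ∧ β f = β c ∧ β d = β b) by omega), if_neg (show ¬(β a = β f ∧ β e = β c ∧ β d = β b) by omega),
        if_neg (show ¬(β a = β e ∧ β f = β d ∧ β c = β b) by omega), if_neg (show ¬(β a = β f ∧ β e = β d ∧ β c = β b) by omega)]
      ring
  by_cases h3 : β a = β e
  · have h := lrt_sc6l_key Y hY hkU hτ hβ ha hb he hf hc hd hae hbc hbd (Ne.symm hcf) (Ne.symm hdf) hab hef hcd h3 h1 h2
    rw [show (fun s : ℕ → Bool => ledSg (s a) * ledSg (s b) * ledSg (s c) * ledSg (s d) * ledSg (s e) * ledSg (s f))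
      = fun s => ledSg (s a) * ledSg (s e) * (ledSg (s b) * ledSg (s f) * ledSg (s c) * ledSg (s d)) from funext fun s => by ring, h]
    rw [if_neg (show ¬(β a = β c ∧ β d = β e ∧ β f = β b) by omega), if_neg (show ¬(β a = β c ∧ β d = β f ∧ β e = β b) by omega),
      if_neg (show ¬(β a = β d ∧ β c = β e ∧ β f = β b) by omega), if_neg (show ¬(β a = β d ∧ β c = β f ∧ β e = β b) by omega),
      if_neg (show ¬(β a = β f ∧ β e = β c ∧ β d = β b) by omega), if_neg (show ¬(β a = β f ∧ β e = β d ∧ β c = β b) by omega)]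
    ring
  by_cases h4 : β a = β f
  · have h := lrt_sc6l_key Y hY hkU hτ hβ ha hb hf he hc hd haf hbc hbd (Ne.symm hce) (Ne.symm hde) hab (Ne.symm hef) hcd h4 h1 h2
    rw [show (fun s : ℕ → Bool => ledSg (s a) * ledSg (s b) * ledSg (s c) * ledSg (s d) * ledSg (s e) * ledSg (s f))
      = fun s => ledSg (s a) * ledSg (s f) * (ledSg (s b) * ledSg (s e) * ledSg (s c) * ledSg (s d)) from funext fun s => by ring, h]
    rw [if_neg (show ¬(β a = β c ∧ β d = β e ∧ β f = β b) by omega), if_neg (show ¬(β a = β c ∧ β d = β f ∧ β e = β b) by omega),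
      if_neg (show ¬(β a = β d ∧ β c = β e ∧ β f = β b) by omega), if_neg (show ¬(β a = β d ∧ β c = β f ∧ β e = β b) by omega),
      if_neg (show ¬(β a = β e ∧ β f = β c ∧ β d = β b) by omega), if_neg (show ¬(β a = β e ∧ β f = β d ∧ β c = β b) by omega)]
    ring
  · rw [lrt_s_odd Y hY hτ hβ ha hU fun s => by
      simp (disch := omega) only [if_pos, if_neg, if_true, lrt_sg_not]; ring]
    simp (disch := omega) only [if_neg, add_zero]

end scalar

/-! ### 3. unfolding, symmetrisation -/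

theorem lrt_ins0 (Y : LedSys Ω) (lam : ℕ → ℝ) (t : ℝ) (q : ℕ) (τ : ℕ → ℕ → ℕ) (J : (ℕ → Bool × Ω) → ℝ) :
    Y.ins lam t q τ J [] = Y.nu lam t q τ J := by
  simp [LedSys.ins, LedSys.tm, ledPairs, ledFacs, trSumK]

theorem lrt_ins1 (Y : LedSys Ω) (lam : ℕ → ℝ) (t : ℝ) (q : ℕ) (τ : ℕ → ℕ → ℕ) (J : (ℕ → Bool × Ω) → ℝ) (V : LedKer Ω) :
    Y.ins lam t q τ J [V] = trSumK Y.ms Y.N 2 q τ fun τ' => Y.nu lam t (q + 2) τ' fun σ => J σ * V (τ' q (q + 1)) (σ q) (σ (q + 1)) := by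
  simp [LedSys.ins, LedSys.tm, ledPairs, ledFacs]

theorem lrt_ins2 (Y : LedSys Ω) (lam : ℕ → ℝ) (t : ℝ) (q : ℕ) (τ : ℕ → ℕ → ℕ) (J : (ℕ → Bool × Ω) → ℝ) (V₁ V₂ : LedKer Ω) :
    Y.ins lam t q τ J [V₁, V₂] = trSumK Y.ms Y.N 4 q τ fun τ' => Y.nu lam t (q + 4) τ' fun σ =>
      J σ * (V₁ (τ' q (q + 1)) (σ q) (σ (q + 1)) * V₂ (τ' (q + 2) (q + 3)) (σ (q + 2)) (σ (q + 3))) := by
  simp [LedSys.ins, LedSys.tm, ledPairs, ledFacs]

/-- relabelling of a tree number, in the convenient direction -/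
theorem lrt_nu_perm (Y : LedSys Ω) (hY : Y.Ok) {lam : ℕ → ℝ} {t : ℝ} (hl : LedProf lam) (ht : t ∈ Set.Icc (0 : ℝ) 1) {p : ℕ}
    {τ : ℕ → ℕ → ℕ} (hτ : IsTr Y.N p τ) (e : Equiv.Perm ℕ) (he : ∀ x, p ≤ x → e x = x) {F : (ℕ → Bool × Ω) → ℝ} (hF : TrUses p F) :
    Y.nu lam t p (fun y z => τ (e y) (e z)) F = Y.nu lam t p τ fun σ => F fun i => σ (e i) := by
  have hU : TrUses p (fun σ : ℕ → Bool × Ω => F fun i => σ (e i)) := fun σ σ' h => hF _ _ fun i hi => h _ (tr5_perm_lt e he hi)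
  rw [← hY.perm lam t p τ (fun σ => F fun i => σ (e i)) e hl ht hτ hU he]
  congr 1
  funext σ
  simp

/-- symmetrisation: `T` invariant under the relabelling `e`, supported by `χ + χ ∘ e` -/
theorem lrt_sym {N q : ℕ} {τ : ℕ → ℕ → ℕ} {ms : ℕ → ℝ} (hτ : IsTr N q τ) (k : ℕ) (T χ : (ℕ → ℕ → ℕ) → ℝ)
    (hT : ∀ τ₁ τ₂ : ℕ → ℕ → ℕ, (∀ y z, y < q + k → z < q + k → τ₁ y z = τ₂ y z) → T τ₁ = T τ₂)
    (hχ : ∀ τ₁ τ₂ : ℕ → ℕ → ℕ, (∀ y z, y < q + k → z < q + k → τ₁ y z = τ₂ y z) → χ τ₁ = χ τ₂)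
    (e : Equiv.Perm ℕ) (he : ∀ y, y < q ∨ q + k ≤ y → e y = y)
    (h1 : ∀ τ', IsTr N (q + k) τ' → (∀ y z, y < q → z < q → τ' y z = τ y z) → T (fun y z => τ' (e y) (e z)) = T τ')
    (h2 : ∀ τ', IsTr N (q + k) τ' → (∀ y z, y < q → z < q → τ' y z = τ y z) →
      T τ' = T τ' * χ τ' + T τ' * χ (fun y z => τ' (e y) (e z))) :
    trSumK ms N k q τ T = 2 * trSumK ms N k q τ fun τ' => T τ' * χ τ' := by
  have hp := tr_sumK_perm (ms := ms) hτ k (fun τ' => T τ' * χ τ') (fun τ₁ τ₂ h => by rw [hT τ₁ τ₂ h, hχ τ₁ τ₂ h]) e he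
  calc trSumK ms N k q τ T = trSumK ms N k q τ (fun τ' => T τ' * χ τ' + T τ' * χ (fun y z => τ' (e y) (e z))) :=
        tr_sumK_congr hτ k _ _ h2
    _ = trSumK ms N k q τ (fun τ' => T τ' * χ τ') + trSumK ms N k q τ (fun τ' => T τ' * χ (fun y z => τ' (e y) (e z))) :=
        lrt_sumK_add _ _ _ _ _ _ _
    _ = trSumK ms N k q τ (fun τ' => T τ' * χ τ')
          + trSumK ms N k q τ (fun τ' => T (fun y z => τ' (e y) (e z)) * χ (fun y z => τ' (e y) (e z))) := by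
        congr 1
        exact tr_sumK_congr hτ k _ _ fun τ' h h' => by rw [h1 τ' h h']
    _ = 2 * trSumK ms N k q τ fun τ' => T τ' * χ τ' := by rw [← hp]; ring

/-- two labels which follow `a` resp. `b` beyond the cut split where `a` and `b` split -/
theorem lrt_split_val {N p : ℕ} {τ : ℕ → ℕ → ℕ} (hτ : IsTr N p τ) {a b c d k : ℕ} (ha : a < p) (hb : b < p) (hc : c < p) (hd : d < p)
    (h1 : k ≤ τ a c) (h2 : k ≤ τ b d) (h3 : τ a b < k) : τ c d = τ a b := by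
  have u1 := hτ.ultra c a d hc ha hd
  have u2 := hτ.ultra a b d ha hb hd
  have u3 := hτ.ultra a c b ha hc hb
  have u4 := hτ.ultra c d b hc hd hb
  rw [hτ.symm c a hc ha] at u1
  rw [hτ.symm d b hd hb] at u4
  omega

/-- low kernel with a general rest factor -/
noncomputable def lrtLow (kU : ℕ) (W : ℕ → Ω → Ω → ℝ) : LedKer Ω :=
  fun r x y => (if r < kU then 1 / 2 else 0) * (ledSg x.1 * ledSg y.1 * W r x.2 y.2)

theorem lrt_kLow_one (Y : LedSys Ω) (kU : ℕ) : Y.kLow kU 1 = lrtLow kU Y.Q := by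
  funext r x y
  unfold LedSys.kLow lrtLow LedSys.kRow LedSys.K LedSys.dl LedSys.Q
  split_ifs <;> ring

theorem lrt_kLow_zero (Y : LedSys Ω) (kU : ℕ) : Y.kLow kU 0 = lrtLow kU fun r _ _ => Y.K r := by
  funext r x y
  unfold LedSys.kLow lrtLow LedSys.kRow
  split_ifs <;> ring

theorem lrt_kE_zero (Y : LedSys Ω) (kU r : ℕ) (x y : Bool × Ω) :
    Y.kE kU 0 r x y = (if kU ≤ r ∧ r ≤ Y.N then 1 / 2 else 0) * (ledSg x.1 * ledSg y.1 * Y.dl r x.2 y.2) := by
  unfold LedSys.kE LedSys.kErr ledLam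
  split_ifs <;> first | (exfalso; omega) | ring

/-- the term with one low insertion on the pair `(q, q + 1)` and an extra factor `E` -/
noncomputable def lrtT (Y : LedSys Ω) (kU q k a b : ℕ) (P : (ℕ → Ω) → ℝ) (W : ℕ → Ω → Ω → ℝ)
    (E : (ℕ → ℕ → ℕ) → (ℕ → Bool × Ω) → ℝ) (τ' : ℕ → ℕ → ℕ) : ℝ :=
  Y.nu (ledLam kU 0) 0 (q + k) τ' fun σ =>
    ledSg (σ a).1 * ledSg (σ b).1 * P (ledRs σ) * (lrtLow kU W (τ' q (q + 1)) (σ q) (σ (q + 1)) * E τ' σ)

section ret

variable (Y : LedSys Ω) (hY : Y.Ok) {kU kS q : ℕ} (hkU : kU ≤ Y.N) {τ : ℕ → ℕ → ℕ} (hτ : IsTr Y.N q τ) {a b : ℕ} (ha : a < q) (hb : b < q)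
  (hab : τ a b = kS) (hkS : kS < kU) {P : (ℕ → Ω) → ℝ} (hP : TrUses q P) {W : ℕ → Ω → Ω → ℝ} (hW : ∀ r ω ω', W r ω ω' = W r ω' ω)

include hY in
/-- locality of the term -/
theorem lrt_T_loc {k : ℕ} (hk : 2 ≤ k) {E : (ℕ → ℕ → ℕ) → (ℕ → Bool × Ω) → ℝ}
    (hE : ∀ τ₁ τ₂ : ℕ → ℕ → ℕ, (∀ y z, y < q + k → z < q + k → τ₁ y z = τ₂ y z) → E τ₁ = E τ₂)
    (τ₁ τ₂ : ℕ → ℕ → ℕ) (h : ∀ y z, y < q + k → z < q + k → τ₁ y z = τ₂ y z) :
    lrtT Y kU q k a b P W E τ₁ = lrtT Y kU q k a b P W E τ₂ := by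
  unfold lrtT
  rw [hE τ₁ τ₂ h, h q (q + 1) (by omega) (by omega)]
  exact hY.congr _ _ _ _ _ _ h

include hY ha hb hP hW in
/-- invariance of the term under the exchange of the two labels of the low pair -/
theorem lrt_T_inv {k : ℕ} (hk : 2 ≤ k) {E : (ℕ → ℕ → ℕ) → (ℕ → Bool × Ω) → ℝ}
    (hEu : ∀ τ', TrUses (q + k) (E τ'))
    (hEi : ∀ τ' σ, E (fun y z => τ' (Equiv.swap q (q + 1) y) (Equiv.swap q (q + 1) z)) (fun i => σ (Equiv.swap q (q + 1) i)) = E τ' σ)
    {τ' : ℕ → ℕ → ℕ} (hτ' : IsTr Y.N (q + k) τ') :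
    lrtT Y kU q k a b P W E (fun y z => τ' (Equiv.swap q (q + 1) y) (Equiv.swap q (q + 1) z)) = lrtT Y kU q k a b P W E τ' := by
  have hs : ∀ i, i < q → Equiv.swap q (q + 1) i = i := fun i hi => Equiv.swap_apply_of_ne_of_ne (by omega) (by omega)
  unfold lrtT
  rw [lrt_nu_perm Y hY (lrt_prof0 kU) lrt_zero_mem hτ' (Equiv.swap q (q + 1))
    (fun x hx => Equiv.swap_apply_of_ne_of_ne (by omega) (by omega))]
  · congr 1
    funext σ
    beta_reduce
    rw [hEi, hs a ha, hs b hb, Equiv.swap_apply_left, Equiv.swap_apply_right, hτ'.symm (q + 1) q (by omega) (by omega),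
      hP (ledRs fun i => σ (Equiv.swap q (q + 1) i)) (ledRs σ) fun i hi => by unfold ledRs; beta_reduce; rw [hs i hi]]
    unfold lrtLow
    rw [hW]
    ring
  · intro σ σ' h
    beta_reduce
    rw [hEu _ σ σ' h, h a (by omega), h b (by omega), h q (by omega), h (q + 1) (by omega),
      hP (ledRs σ) (ledRs σ') fun i hi => by unfold ledRs; rw [h i (by omega)]]

include hY in
/-- one low insertion: site and rest factor -/
theorem lrt_T1_fac {τ' : ℕ → ℕ → ℕ} (hτ' : IsTr Y.N (q + 2) τ') :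
    lrtT Y kU q 2 a b P W (fun _ _ => 1) τ' = (if τ' q (q + 1) < kU then 1 / 2 else 0) *
      (Y.nuS (ledLam kU 0) (q + 2) τ' (fun s => ledSg (s a) * ledSg (s b) * ledSg (s q) * ledSg (s (q + 1))) *
        Y.nu (ledLam kU 0) 0 (q + 2) τ' fun σ => P (ledRs σ) * W (τ' q (q + 1)) (σ q).2 (σ (q + 1)).2) := by
  unfold lrtT
  rw [show (fun σ : ℕ → Bool × Ω => ledSg (σ a).1 * ledSg (σ b).1 * P (ledRs σ) * (lrtLow kU W (τ' q (q + 1)) (σ q) (σ (q + 1)) * 1))
    = fun σ => (if τ' q (q + 1) < kU then 1 / 2 else 0) *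
      ((fun s : ℕ → Bool => ledSg (s a) * ledSg (s b) * ledSg (s q) * ledSg (s (q + 1))) (fun i => (σ i).1) *
      (fun ω : ℕ → Ω => P ω * W (τ' q (q + 1)) (ω q) (ω (q + 1))) (ledRs σ)) from funext fun σ => by
        unfold lrtLow ledRs; ring]
  rw [(hY.mean _ _ _ _ (lrt_prof0 kU) lrt_zero_mem hτ').smul,
    lrt_fac Y hY hτ' (fun s : ℕ → Bool => ledSg (s a) * ledSg (s b) * ledSg (s q) * ledSg (s (q + 1)))
      (fun ω : ℕ → Ω => P ω * W (τ' q (q + 1)) (ω q) (ω (q + 1)))]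
  rfl

include hY hkU ha hb hab hkS in
/-- one low insertion, termwise -/
theorem lrt_T1_term {τ' : ℕ → ℕ → ℕ} (hτ' : IsTr Y.N (q + 2) τ') (hag : ∀ y z, y < q → z < q → τ' y z = τ y z) :
    lrtT Y kU q 2 a b P W (fun _ _ => 1) τ' * (if kU ≤ τ' a q then 1 else 0)
        = 1 / 2 * (Y.kapC kU q a b τ' * Y.nu (ledLam kU 0) 0 (q + 2) τ' fun σ => P (ledRs σ) * W kS (σ q).2 (σ (q + 1)).2) ∧
      lrtT Y kU q 2 a b P W (fun _ _ => 1) τ' = lrtT Y kU q 2 a b P W (fun _ _ => 1) τ' * (if kU ≤ τ' a q then 1 else 0)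
        + lrtT Y kU q 2 a b P W (fun _ _ => 1) τ' * (if kU ≤ τ' a (q + 1) then 1 else 0) := by
  have hβ := lrt_blk hτ' (show kU ≤ Y.N + 1 by omega)
  set β := tra2Rp τ' kU with hβdef
  have hab' : τ' a b = kS := by rw [hag a b ha hb, hab]
  have nab : β a ≠ β b := fun h => by have := (hβ a b (by omega) (by omega)).mpr h; omega
  rw [lrt_T1_fac Y hY hτ']
  unfold LedSys.kapC
  by_cases hcd : τ' q (q + 1) < kU
  · have ncd : β q ≠ β (q + 1) := fun h => by have := (hβ q (q + 1) (by omega) (by omega)).mpr h; omega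
    rw [if_pos hcd, lrt_sc4 Y hY hkU hτ' hβ (show a < q + 2 by omega) (show b < q + 2 by omega) (show q < q + 2 by omega)
      (show q + 1 < q + 2 by omega) (by omega) (by omega) (by omega) (by omega) ncd]
    simp only [hβ a q (by omega) (by omega), hβ a (q + 1) (by omega) (by omega), hβ b (q + 1) (by omega) (by omega)]
    by_cases h1 : β a = β q ∧ β b = β (q + 1)
    · have hv : τ' q (q + 1) = kS := by
        rw [← hab']
        exact lrt_split_val hτ' (by omega) (by omega) (by omega) (by omega) ((hβ a q (by omega) (by omega)).mpr h1.1)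
          ((hβ b (q + 1) (by omega) (by omega)).mpr h1.2) (by omega)
      rw [hv, if_pos h1, if_neg (show ¬(β a = β (q + 1) ∧ β b = β q) by omega), if_pos h1.1, if_neg (show ¬β a = β (q + 1) by omega)]
      constructor <;> ring
    · rw [if_neg h1]
      by_cases h2 : β a = β (q + 1) ∧ β b = β q
      · rw [if_pos h2, if_pos h2.1, if_neg (show ¬β a = β q by omega)]
        constructor <;> ring
      · rw [if_neg h2]
        constructor <;> ring
  · have ncd : β q = β (q + 1) := (hβ q (q + 1) (by omega) (by omega)).mp (by omega)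
    simp only [hβ a q (by omega) (by omega), hβ b (q + 1) (by omega) (by omega)]
    rw [if_neg hcd, if_neg (show ¬(β a = β q ∧ β b = β (q + 1)) by omega)]
    constructor <;> ring

include hY hkU hτ ha hb hab hkS hP hW in
/-- **one low insertion at `l = t = 0`** (PE l.558-566) -/
theorem lrt_A1 : Y.ins (ledLam kU 0) 0 q τ (fun σ => ledSg (σ a).1 * ledSg (σ b).1 * P (ledRs σ)) [lrtLow kU W]
    = trSumK Y.ms Y.N 2 q τ fun τ' =>
        Y.kapC kU q a b τ' * Y.nu (ledLam kU 0) 0 (q + 2) τ' fun σ => P (ledRs σ) * W kS (σ q).2 (σ (q + 1)).2 := by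
  rw [lrt_ins1, show (fun τ' : ℕ → ℕ → ℕ => Y.nu (ledLam kU 0) 0 (q + 2) τ' fun σ =>
      ledSg (σ a).1 * ledSg (σ b).1 * P (ledRs σ) * lrtLow kU W (τ' q (q + 1)) (σ q) (σ (q + 1)))
    = lrtT Y kU q 2 a b P W (fun _ _ => 1) from funext fun τ' => by unfold lrtT; simp only [mul_one]]
  rw [lrt_sym hτ 2 (lrtT Y kU q 2 a b P W (fun _ _ => 1)) (fun τ' => if kU ≤ τ' a q then 1 else 0)
    (lrt_T_loc Y hY le_rfl fun _ _ _ => rfl) (fun τ₁ τ₂ h => by rw [h a q (by omega) (by omega)]) (Equiv.swap q (q + 1))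
    (fun y hy => Equiv.swap_apply_of_ne_of_ne (by omega) (by omega))
    (fun τ' hτ' _ => lrt_T_inv Y hY ha hb hP hW le_rfl (fun _ _ _ _ => rfl) (fun _ _ => rfl) hτ')
    (fun τ' hτ' hag => by
      beta_reduce
      rw [Equiv.swap_apply_of_ne_of_ne (show a ≠ q by omega) (show a ≠ q + 1 by omega), Equiv.swap_apply_left]
      exact (lrt_T1_term Y hY hkU ha hb hab hkS hτ' hag).2)]
  rw [tr_sumK_congr hτ 2 _ _ fun τ' hτ' hag => (lrt_T1_term Y hY hkU ha hb hab hkS (P := P) (W := W) hτ' hag).1, lrt_sumK_smul]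
  ring

end ret

/-! ### 4. the constant `c₁`, the derivatives of `g` at `0` -/

theorem lrt_pair_isTr {N r : ℕ} (hr : r ≤ N + 1) : IsTr N 2 (ledPair N r) := by
  refine ⟨fun x y _ _ => ?_, fun x _ => ?_, fun x y _ _ => ?_, fun x y z _ _ _ => ?_⟩
  · unfold ledPair; split_ifs <;> omega
  · unfold ledPair; rw [if_pos rfl]
  · unfold ledPair; split_ifs <;> omega
  · unfold ledPair; split_ifs <;> omega

/-- `c₁ = ∑_{c ∈ A, d ∈ B'} γ_{ac} γ_{bd}` on the tree of the two labels `a`, `b` -/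
def lrtC1 (Y : LedSys Ω) (kU kS : ℕ) : ℝ := trSumK Y.ms Y.N 2 2 (ledPair Y.N kS) (Y.kapC kU 2 0 1)

/-- the sum of the first coefficient does not depend on the observed tree -/
theorem lrt_c1 (Y : LedSys Ω) {kU kS q : ℕ} {τ : ℕ → ℕ → ℕ} (hτ : IsTr Y.N q τ) {a b : ℕ} (ha : a < q) (hb : b < q) (hne : a ≠ b)
    (hab : τ a b = kS) : trSumK Y.ms Y.N 2 q τ (Y.kapC kU q a b) = lrtC1 Y kU kS := by
  have h := led_marg2 (ms := Y.ms) hτ ha hb hne 2 (Y.kapC kU 2 0 1) (fun τ₁ τ₂ h => by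
    unfold LedSys.kapC
    rw [h 0 2 (by omega) (by omega), h 1 (2 + 1) (by omega) (by omega)])
  rw [hab] at h
  rw [lrtC1, ← h]
  congr 1

theorem lrt_gam_low (Y : LedSys Ω) (hY : Y.Ok) {kU kS : ℕ} (hkU : kU ≤ Y.N) (hkS : kS < kU) : Y.gam kU kS = 0 := by
  have hτ : IsTr Y.N 2 (ledPair Y.N kS) := lrt_pair_isTr (by omega)
  have hβ := lrt_blk hτ (show kU ≤ Y.N + 1 by omega)
  have n01 : tra2Rp (ledPair Y.N kS) kU 1 ≠ tra2Rp (ledPair Y.N kS) kU 0 := fun h => by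
    have := (hβ 1 0 (by omega) (by omega)).mpr h
    simp [ledPair] at this
    omega
  unfold LedSys.gam LedSys.gS
  refine lrt_s_odd Y hY hτ hβ (show 1 < 2 by omega) (fun s s' h => by simp only [h 0 (by omega), h 1 (by omega)]) fun s => ?_
  simp only [if_neg n01, if_true, lrt_sg_not]; ring

theorem lrt_gD0 (Y : LedSys Ω) (hY : Y.Ok) {kU kS : ℕ} (hkU : kU ≤ Y.N) (hkS : kS < kU) : Y.gD kU kS 0 0 = 0 := by
  unfold LedSys.gD
  rw [List.replicate_zero, lrt_ins0]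
  exact lrt_gam_low Y hY hkU hkS

theorem lrt_gD1 (Y : LedSys Ω) (hY : Y.Ok) {kU kS : ℕ} (hkU : kU ≤ Y.N) (hkS : kS < kU) :
    Y.gD kU kS 1 0 = Y.K kS * lrtC1 Y kU kS := by
  have hτ : IsTr Y.N 2 (ledPair Y.N kS) := lrt_pair_isTr (by omega)
  unfold LedSys.gD
  rw [List.replicate_one, lrt_kLow_zero, show (fun σ : ℕ → Bool × Ω => ledSg (σ 0).1 * ledSg (σ 1).1)
    = fun σ => ledSg (σ 0).1 * ledSg (σ 1).1 * (fun _ : ℕ → Ω => (1 : ℝ)) (ledRs σ) from funext fun σ => by ring]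
  rw [lrt_A1 Y hY hkU hτ (show 0 < 2 by omega) (show 1 < 2 by omega) (by simp [ledPair]) hkS (P := fun _ => 1)
    (W := fun r _ _ => Y.K r) (fun _ _ _ => rfl) (fun _ _ _ => rfl)]
  rw [lrtC1, ← lrt_sumK_smul]
  refine tr_sumK_congr hτ 2 _ _ fun τ' hτ' _ => ?_
  rw [lrt_mean_const (hY.mean _ _ _ _ (lrt_prof0 kU) lrt_zero_mem hτ')]
  ring

theorem lrt_Q_symm (Y : LedSys Ω) (hY : Y.Ok) (r : ℕ) (ω ω' : Ω) : Y.Q r ω ω' = Y.Q r ω' ω := by
  unfold LedSys.Q; rw [hY.R_symm]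

theorem lrt_Q_eq (Y : LedSys Ω) (r : ℕ) (ω ω' : Ω) : Y.Q r ω ω' = Y.dl r ω ω' + Y.K r := by
  unfold LedSys.Q LedSys.dl LedSys.K; ring

/-- a test on the old labels, under an extension of the tree -/
theorem lrt_old (Y : LedSys Ω) (hY : Y.Ok) {lam : ℕ → ℝ} {t : ℝ} (hl : LedProf lam) (ht : t ∈ Set.Icc (0 : ℝ) 1) {q k : ℕ}
    {τ τ' : ℕ → ℕ → ℕ} (hτ' : IsTr Y.N (q + k) τ') (hag : ∀ y z, y < q → z < q → τ' y z = τ y z) {F : (ℕ → Bool × Ω) → ℝ}
    (hF : TrUses q F) : Y.nu lam t (q + k) τ' F = Y.nu lam t q τ F := by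
  rw [lrt_prune Y hY hl ht hF k hτ']
  exact hY.congr _ _ _ _ _ _ hag

theorem lrt_J0_uses (X : LedCtx Ω) (r : ℕ) (Cb : ℝ) (h : X.Ok r Cb) : TrUses X.q X.J0 := fun σ σ' hσ =>
  h.uses _ _ fun i hi => by unfold ledRs; rw [hσ i hi]

theorem lrt_ab_ne (X : LedCtx Ω) (r : ℕ) (Cb : ℝ) (h : X.Ok r Cb) : X.a ≠ X.b := fun hab => by
  have h1 := h.split
  rw [hab, h.tr.diag X.b h.b_lt] at h1
  have := h.kS_lt
  have := h.kU_le
  omega

/-- **I1** (PE l.558-566): `A(0) = C(0)`. -/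
theorem lrt_I1 (X : LedCtx Ω) (r : ℕ) (Cb : ℝ) (h : X.Ok r Cb) : X.FF 1 0 0 0 1 = X.CC 0 0 0 0 := by
  have hY := h.sys
  have hm := fun (p : ℕ) (τ' : ℕ → ℕ → ℕ) (hτ' : IsTr X.Y.N p τ') => hY.mean _ _ p τ' (lrt_prof0 X.kU) lrt_zero_mem hτ'
  have e1 : X.FF 1 0 0 0 1 = X.Y.ins (ledLam X.kU 0) 0 X.q X.τ X.J1 [X.Y.kLow X.kU 1]
      - (X.Y.gD X.kU X.kS 0 0 * X.Y.ins (ledLam X.kU 0) 0 X.q X.τ X.J0 [X.Y.kLow X.kU 1]
        + X.Y.gD X.kU X.kS 1 0 * X.Y.ins (ledLam X.kU 0) 0 X.q X.τ X.J0 []) := by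
    simp [LedCtx.FF, Finset.sum_range_succ, List.replicate]
  have e2 : X.CC 0 0 0 0 = trSumK X.Y.ms X.Y.N 2 X.q X.τ fun τ' => X.Y.kapC X.kU X.q X.a X.b τ' *
      X.Y.nu (ledLam X.kU 0) 0 (X.q + 2) τ' fun σ => X.P (ledRs σ) * X.Y.dl X.kS (σ X.q).2 (σ (X.q + 1)).2 := by
    simp [LedCtx.CC, LedSys.tm, ledPairs, ledFacs, LedCtx.J0]
  rw [e1, e2, lrt_gD0 X.Y hY h.kU_le h.kS_lt, lrt_gD1 X.Y hY h.kU_le h.kS_lt, lrt_ins0, lrt_kLow_one, zero_mul, zero_add]
  rw [show X.J1 = fun σ => ledSg (σ X.a).1 * ledSg (σ X.b).1 * X.P (ledRs σ) from rfl,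
    lrt_A1 X.Y hY h.kU_le h.tr h.a_lt h.b_lt h.split h.kS_lt h.uses (lrt_Q_symm X.Y hY),
    ← lrt_c1 X.Y h.tr h.a_lt h.b_lt (lrt_ab_ne X r Cb h) h.split, mul_assoc, mul_comm (trSumK _ _ _ _ _ _), ← mul_assoc,
    ← lrt_sumK_smul, ← lrt_sumK_sub]
  refine tr_sumK_congr h.tr 2 _ _ fun τ' hτ' hag => ?_
  rw [show (fun σ : ℕ → Bool × Ω => X.P (ledRs σ) * X.Y.Q X.kS (σ X.q).2 (σ (X.q + 1)).2)
    = fun σ => X.P (ledRs σ) * X.Y.dl X.kS (σ X.q).2 (σ (X.q + 1)).2 + X.Y.K X.kS * X.J0 σ from funext fun σ => by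
      rw [lrt_Q_eq]; unfold LedCtx.J0; ring]
  rw [(hm _ τ' hτ').add, (hm _ τ' hτ').smul, lrt_old X.Y hY (lrt_prof0 X.kU) lrt_zero_mem hτ' hag (lrt_J0_uses X r Cb h)]
  ring

/-! ### 5. one low and one high insertion (I2) -/

/-- the extra factor of I2: a high error on the pair `(q + 2, q + 3)` -/
noncomputable def lrtE (Y : LedSys Ω) (kU q : ℕ) (τ' : ℕ → ℕ → ℕ) (σ : ℕ → Bool × Ω) : ℝ :=
  Y.kE kU 0 (τ' (q + 2) (q + 3)) (σ (q + 2)) (σ (q + 3))

section ret2

variable (Y : LedSys Ω) (hY : Y.Ok) {kU kS q : ℕ} (hkU : kU ≤ Y.N) {τ : ℕ → ℕ → ℕ} (hτ : IsTr Y.N q τ) {a b : ℕ} (ha : a < q) (hb : b < q)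
  (hab : τ a b = kS) (hkS : kS < kU) {P : (ℕ → Ω) → ℝ} (hP : TrUses q P) {W : ℕ → Ω → Ω → ℝ} (hW : ∀ r ω ω', W r ω ω' = W r ω' ω)

include hY in
theorem lrt_T2_fac {τ' : ℕ → ℕ → ℕ} (hτ' : IsTr Y.N (q + 4) τ') :
    lrtT Y kU q 4 a b P W (lrtE Y kU q) τ' = (if τ' q (q + 1) < kU then 1 / 2 else 0) *
      ((if kU ≤ τ' (q + 2) (q + 3) ∧ τ' (q + 2) (q + 3) ≤ Y.N then 1 / 2 else 0) *
      (Y.nuS (ledLam kU 0) (q + 4) τ' (fun s => ledSg (s a) * ledSg (s b) * ledSg (s q) * ledSg (s (q + 1)) * ledSg (s (q + 2))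
          * ledSg (s (q + 3))) *
        Y.nu (ledLam kU 0) 0 (q + 4) τ' fun σ => P (ledRs σ) * W (τ' q (q + 1)) (σ q).2 (σ (q + 1)).2
          * Y.dl (τ' (q + 2) (q + 3)) (σ (q + 2)).2 (σ (q + 3)).2)) := by
  unfold lrtT
  rw [show (fun σ : ℕ → Bool × Ω => ledSg (σ a).1 * ledSg (σ b).1 * P (ledRs σ) *
        (lrtLow kU W (τ' q (q + 1)) (σ q) (σ (q + 1)) * lrtE Y kU q τ' σ))
    = fun σ => (if τ' q (q + 1) < kU then 1 / 2 else 0) * ((if kU ≤ τ' (q + 2) (q + 3) ∧ τ' (q + 2) (q + 3) ≤ Y.N then 1 / 2 else 0) *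
      ((fun s : ℕ → Bool => ledSg (s a) * ledSg (s b) * ledSg (s q) * ledSg (s (q + 1)) * ledSg (s (q + 2)) * ledSg (s (q + 3)))
          (fun i => (σ i).1) *
      (fun ω : ℕ → Ω => P ω * W (τ' q (q + 1)) (ω q) (ω (q + 1)) * Y.dl (τ' (q + 2) (q + 3)) (ω (q + 2)) (ω (q + 3))) (ledRs σ)))
    from funext fun σ => by unfold lrtLow lrtE ledRs; rw [lrt_kE_zero]; ring]
  rw [(hY.mean _ _ _ _ (lrt_prof0 kU) lrt_zero_mem hτ').smul, (hY.mean _ _ _ _ (lrt_prof0 kU) lrt_zero_mem hτ').smul,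
    lrt_fac Y hY hτ' (fun s : ℕ → Bool => ledSg (s a) * ledSg (s b) * ledSg (s q) * ledSg (s (q + 1)) * ledSg (s (q + 2)) * ledSg (s (q + 3)))
      (fun ω : ℕ → Ω => P ω * W (τ' q (q + 1)) (ω q) (ω (q + 1)) * Y.dl (τ' (q + 2) (q + 3)) (ω (q + 2)) (ω (q + 3)))]
  rfl

include hY in
/-- a rest test times a high error -/
theorem lrt_E_fac {τ' : ℕ → ℕ → ℕ} (hτ' : IsTr Y.N (q + 4) τ') (g : (ℕ → Ω) → ℝ) :
    Y.nu (ledLam kU 0) 0 (q + 4) τ' (fun σ => g (ledRs σ) * lrtE Y kU q τ' σ)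
      = (if kU ≤ τ' (q + 2) (q + 3) ∧ τ' (q + 2) (q + 3) ≤ Y.N then 1 / 2 else 0) * (Y.gam kU (τ' (q + 2) (q + 3)) *
        Y.nu (ledLam kU 0) 0 (q + 4) τ' fun σ => g (ledRs σ) * Y.dl (τ' (q + 2) (q + 3)) (σ (q + 2)).2 (σ (q + 3)).2) := by
  rw [show (fun σ : ℕ → Bool × Ω => g (ledRs σ) * lrtE Y kU q τ' σ)
    = fun σ => (if kU ≤ τ' (q + 2) (q + 3) ∧ τ' (q + 2) (q + 3) ≤ Y.N then 1 / 2 else 0) *
      ((fun s : ℕ → Bool => ledSg (s (q + 2)) * ledSg (s (q + 3))) (fun i => (σ i).1) *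
      (fun ω : ℕ → Ω => g ω * Y.dl (τ' (q + 2) (q + 3)) (ω (q + 2)) (ω (q + 3))) (ledRs σ))
    from funext fun σ => by unfold lrtE ledRs; rw [lrt_kE_zero]; ring]
  rw [(hY.mean _ _ _ _ (lrt_prof0 kU) lrt_zero_mem hτ').smul,
    lrt_fac Y hY hτ' (fun s : ℕ → Bool => ledSg (s (q + 2)) * ledSg (s (q + 3)))
      (fun ω : ℕ → Ω => g ω * Y.dl (τ' (q + 2) (q + 3)) (ω (q + 2)) (ω (q + 3))),
    lrt_s_pair Y hY hτ' (by omega) (by omega) (by omega)]
  rfl

include hY hkU ha hb hab hkS in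
/-- one low and one high insertion, termwise -/
theorem lrt_T2_term {τ' : ℕ → ℕ → ℕ} (hτ' : IsTr Y.N (q + 4) τ') (hag : ∀ y z, y < q → z < q → τ' y z = τ y z) :
    lrtT Y kU q 4 a b P W (lrtE Y kU q) τ' * (if kU ≤ τ' a q then 1 else 0)
        = 1 / 2 * (Y.kapC kU q a b τ' * Y.nu (ledLam kU 0) 0 (q + 4) τ' (fun σ =>
              P (ledRs σ) * W kS (σ q).2 (σ (q + 1)).2 * lrtE Y kU q τ' σ)
            + Y.coef2 kU q a b τ' * Y.nu (ledLam kU 0) 0 (q + 4) τ' fun σ =>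
              P (ledRs σ) * W kS (σ q).2 (σ (q + 1)).2 * Y.dl (τ' (q + 2) (q + 3)) (σ (q + 2)).2 (σ (q + 3)).2) ∧
      lrtT Y kU q 4 a b P W (lrtE Y kU q) τ' = lrtT Y kU q 4 a b P W (lrtE Y kU q) τ' * (if kU ≤ τ' a q then 1 else 0)
        + lrtT Y kU q 4 a b P W (lrtE Y kU q) τ' * (if kU ≤ τ' a (q + 1) then 1 else 0) := by
  have hβ := lrt_blk hτ' (show kU ≤ Y.N + 1 by omega)
  set β := tra2Rp τ' kU with hβdef
  have hab' : τ' a b = kS := by rw [hag a b ha hb, hab]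
  have nab : β a ≠ β b := fun h => by have := (hβ a b (by omega) (by omega)).mpr h; omega
  have hEf : Y.nu (ledLam kU 0) 0 (q + 4) τ' (fun σ => P (ledRs σ) * W kS (σ q).2 (σ (q + 1)).2 * lrtE Y kU q τ' σ)
      = (if kU ≤ τ' (q + 2) (q + 3) ∧ τ' (q + 2) (q + 3) ≤ Y.N then 1 / 2 else 0) * (Y.gam kU (τ' (q + 2) (q + 3)) *
        Y.nu (ledLam kU 0) 0 (q + 4) τ' fun σ => P (ledRs σ) * W kS (σ q).2 (σ (q + 1)).2
          * Y.dl (τ' (q + 2) (q + 3)) (σ (q + 2)).2 (σ (q + 3)).2) :=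
    lrt_E_fac Y hY hτ' (fun ω => P ω * W kS (ω q) (ω (q + 1)))
  rw [lrt_T2_fac Y hY hτ', hEf]
  unfold LedSys.kapC LedSys.coef2
  by_cases hcd : τ' q (q + 1) < kU
  · have ncd : β q ≠ β (q + 1) := fun h => by have := (hβ q (q + 1) (by omega) (by omega)).mpr h; omega
    by_cases hef : kU ≤ τ' (q + 2) (q + 3) ∧ τ' (q + 2) (q + 3) ≤ Y.N
    · have eef : β (q + 2) = β (q + 3) := (hβ (q + 2) (q + 3) (by omega) (by omega)).mp hef.1
      rw [if_pos hcd, if_pos hef, lrt_sc6h Y hY hkU hτ' hβ (show a < q + 4 by omega) (show b < q + 4 by omega) (show q < q + 4 by omega)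
        (show q + 1 < q + 4 by omega) (show q + 2 < q + 4 by omega) (show q + 3 < q + 4 by omega) (by omega) (by omega) (by omega)
        (by omega) (by omega) nab ncd eef]
      simp only [hβ a q (by omega) (by omega), hβ a (q + 1) (by omega) (by omega), hβ b (q + 1) (by omega) (by omega),
        hβ a (q + 2) (by omega) (by omega), hβ a (q + 3) (by omega) (by omega), hβ b (q + 2) (by omega) (by omega),
        hβ b (q + 3) (by omega) (by omega)]
      by_cases h1 : β a = β q ∧ β b = β (q + 1)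
      · have hv : τ' q (q + 1) = kS := by
          rw [← hab']
          exact lrt_split_val hτ' (by omega) (by omega) (by omega) (by omega) ((hβ a q (by omega) (by omega)).mpr h1.1)
            ((hβ b (q + 1) (by omega) (by omega)).mpr h1.2) (by omega)
        rw [hv]
        by_cases h3 : β a = β (q + 2)
        · simp (disch := omega) only [if_pos, if_neg]
          constructor <;> ring
        · by_cases h4 : β b = β (q + 2)
          · simp (disch := omega) only [if_pos, if_neg]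
            constructor <;> ring
          · simp (disch := omega) only [if_pos, if_neg]
            constructor <;> ring
      · by_cases h2 : β a = β (q + 1) ∧ β b = β q
        · by_cases h3 : β a = β (q + 2)
          · simp (disch := omega) only [if_pos, if_neg]
            constructor <;> ring
          · by_cases h4 : β b = β (q + 2)
            · simp (disch := omega) only [if_pos, if_neg]
              constructor <;> ring
            · simp (disch := omega) only [if_pos, if_neg]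
              constructor <;> ring
        · simp only [if_neg h1, if_neg h2, if_neg (show ¬(β a = β q ∧ β b = β (q + 1) ∧ τ' (q + 2) (q + 3) ≤ Y.N) by omega)]
          constructor <;> ring
    · rw [if_neg hef]
      have hz : (if kU ≤ τ' a q ∧ kU ≤ τ' b (q + 1) ∧ τ' (q + 2) (q + 3) ≤ Y.N then
          1 / 2 * ((if kU ≤ τ' a (q + 2) ∧ kU ≤ τ' a (q + 3) then
                Y.kap4 kU (q + 4) τ' a q (q + 2) (q + 3) * Y.gam kU (τ' b (q + 1)) else 0)
            + (if kU ≤ τ' b (q + 2) ∧ kU ≤ τ' b (q + 3) then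
                Y.gam kU (τ' a q) * Y.kap4 kU (q + 4) τ' b (q + 1) (q + 2) (q + 3) else 0))
          else 0) = 0 := by
        by_cases h5 : τ' (q + 2) (q + 3) ≤ Y.N
        · have nef : β (q + 2) ≠ β (q + 3) := fun h => by have := (hβ (q + 2) (q + 3) (by omega) (by omega)).mpr h; omega
          simp only [hβ a (q + 2) (by omega) (by omega), hβ a (q + 3) (by omega) (by omega), hβ b (q + 2) (by omega) (by omega),
            hβ b (q + 3) (by omega) (by omega)]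
          rw [if_neg (show ¬(β a = β (q + 2) ∧ β a = β (q + 3)) by omega), if_neg (show ¬(β b = β (q + 2) ∧ β b = β (q + 3)) by omega)]
          simp
        · rw [if_neg (by omega)]
      rw [hz]
      constructor <;> ring
  · have ncd : β q = β (q + 1) := (hβ q (q + 1) (by omega) (by omega)).mp (by omega)
    simp only [hβ a q (by omega) (by omega), hβ b (q + 1) (by omega) (by omega)]
    rw [if_neg hcd, if_neg (show ¬(β a = β q ∧ β b = β (q + 1)) by omega),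
      if_neg (show ¬(β a = β q ∧ β b = β (q + 1) ∧ τ' (q + 2) (q + 3) ≤ Y.N) by omega)]
    constructor <;> ring

include hY hkU hτ ha hb hab hkS hP hW in
/-- **one low and one high insertion at `l = t = 0`** (PE l.566-575) -/
theorem lrt_A2 : Y.ins (ledLam kU 0) 0 q τ (fun σ => ledSg (σ a).1 * ledSg (σ b).1 * P (ledRs σ)) [lrtLow kU W, Y.kE kU 0]
    = trSumK Y.ms Y.N 4 q τ (fun τ' => Y.kapC kU q a b τ' * Y.nu (ledLam kU 0) 0 (q + 4) τ' fun σ =>
          P (ledRs σ) * W kS (σ q).2 (σ (q + 1)).2 * lrtE Y kU q τ' σ)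
      + trSumK Y.ms Y.N 4 q τ (fun τ' => Y.coef2 kU q a b τ' * Y.nu (ledLam kU 0) 0 (q + 4) τ' fun σ =>
          P (ledRs σ) * W kS (σ q).2 (σ (q + 1)).2 * Y.dl (τ' (q + 2) (q + 3)) (σ (q + 2)).2 (σ (q + 3)).2) := by
  rw [lrt_ins2, show (fun τ' : ℕ → ℕ → ℕ => Y.nu (ledLam kU 0) 0 (q + 4) τ' fun σ =>
      ledSg (σ a).1 * ledSg (σ b).1 * P (ledRs σ) * (lrtLow kU W (τ' q (q + 1)) (σ q) (σ (q + 1))
        * Y.kE kU 0 (τ' (q + 2) (q + 3)) (σ (q + 2)) (σ (q + 3))))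
    = lrtT Y kU q 4 a b P W (lrtE Y kU q) from rfl]
  have hs : ∀ i, i ≠ q → i ≠ q + 1 → Equiv.swap q (q + 1) i = i := fun i h1 h2 => Equiv.swap_apply_of_ne_of_ne h1 h2
  rw [lrt_sym hτ 4 (lrtT Y kU q 4 a b P W (lrtE Y kU q)) (fun τ' => if kU ≤ τ' a q then 1 else 0)
    (lrt_T_loc Y hY (by omega) fun τ₁ τ₂ h => by funext σ; unfold lrtE; rw [h (q + 2) (q + 3) (by omega) (by omega)])
    (fun τ₁ τ₂ h => by rw [h a q (by omega) (by omega)]) (Equiv.swap q (q + 1))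
    (fun y hy => hs y (by omega) (by omega))
    (fun τ' hτ' _ => lrt_T_inv Y hY ha hb hP hW (by omega)
      (fun τ' σ σ' h => by unfold lrtE; rw [h (q + 2) (by omega), h (q + 3) (by omega)])
      (fun τ' σ => by unfold lrtE; beta_reduce; rw [hs (q + 2) (by omega) (by omega), hs (q + 3) (by omega) (by omega)]) hτ')
    (fun τ' hτ' hag => by
      beta_reduce
      rw [hs a (by omega) (by omega), Equiv.swap_apply_left]
      exact (lrt_T2_term Y hY hkU ha hb hab hkS hτ' hag).2)]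
  rw [tr_sumK_congr hτ 4 _ _ fun τ' hτ' hag => (lrt_T2_term Y hY hkU ha hb hab hkS (P := P) (W := W) hτ' hag).1, lrt_sumK_smul,
    lrt_sumK_add]
  ring

include hY hτ ha hb hab in
/-- **decoupling**: the pair `(c, d)` of the first coefficient is summed out -/
theorem lrt_A4 (hne : a ≠ b) {lam : ℕ → ℝ} {t : ℝ} (hl : LedProf lam) (ht : t ∈ Set.Icc (0 : ℝ) 1) {J : (ℕ → Bool × Ω) → ℝ}
    (hJ : TrUses q J) (V : LedKer Ω) :
    trSumK Y.ms Y.N 4 q τ (fun τ' => Y.kapC kU q a b τ' * Y.nu lam t (q + 4) τ' fun σ =>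
        J σ * V (τ' (q + 2) (q + 3)) (σ (q + 2)) (σ (q + 3)))
      = lrtC1 Y kU kS * Y.ins lam t q τ J [V] := by
  set e : Equiv.Perm ℕ := Equiv.swap q (q + 2) * Equiv.swap (q + 1) (q + 3) with he
  have e0 : ∀ i, i < q ∨ q + 4 ≤ i → e i = i := fun i hi => by
    simp only [he, Equiv.Perm.mul_apply, Equiv.swap_apply_def]; split_ifs <;> omega
  have e1 : e q = q + 2 := by
    simp only [he, Equiv.Perm.mul_apply, Equiv.swap_apply_def]; split_ifs <;> omega
  have e2 : e (q + 1) = q + 3 := by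
    simp only [he, Equiv.Perm.mul_apply, Equiv.swap_apply_def]; split_ifs <;> omega
  have e3 : e (q + 2) = q := by
    simp only [he, Equiv.Perm.mul_apply, Equiv.swap_apply_def]; split_ifs <;> omega
  have e4 : e (q + 3) = q + 1 := by
    simp only [he, Equiv.Perm.mul_apply, Equiv.swap_apply_def]; split_ifs <;> omega
  rw [tr_sumK_perm hτ 4 _ (fun τ₁ τ₂ h => by
    unfold LedSys.kapC
    rw [h a q (by omega) (by omega), h b (q + 1) (by omega) (by omega), h (q + 2) (q + 3) (by omega) (by omega)]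
    congr 1
    exact hY.congr _ _ _ _ _ _ h) e e0]
  have hG : ∀ τ', IsTr Y.N (q + 4) τ' → (∀ y z, y < q → z < q → τ' y z = τ y z) →
      Y.kapC kU q a b (fun y z => τ' (e y) (e z)) * Y.nu lam t (q + 4) (fun y z => τ' (e y) (e z)) (fun σ =>
        J σ * V (τ' (e (q + 2)) (e (q + 3))) (σ (q + 2)) (σ (q + 3)))
      = Y.kapC kU (q + 2) a b τ' * Y.nu lam t (q + 2) τ' fun σ => J σ * V (τ' q (q + 1)) (σ q) (σ (q + 1)) := by
    intro τ' hτ' _
    congr 1
    · unfold LedSys.kapC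
      beta_reduce
      rw [e0 a (by omega), e0 b (by omega), e1, e2]
    · rw [lrt_nu_perm Y hY hl ht hτ' e (fun x hx => e0 x (by omega)) (fun σ σ' h => by
        rw [hJ σ σ' fun i hi => h i (by omega), h (q + 2) (by omega), h (q + 3) (by omega)])]
      rw [e3, e4, ← lrt_prune Y hY hl ht (q := q + 2) (fun σ σ' h => by
        rw [hJ σ σ' fun i hi => h i (by omega), h q (by omega), h (q + 1) (by omega)]) 2 hτ']
      congr 1
      funext σ
      rw [hJ (fun i => σ (e i)) σ fun i hi => by rw [e0 i (by omega)]]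
      beta_reduce
      rw [e3, e4]
  rw [tr_sumK_congr hτ 4 _ _ hG, tr_sumK_add 2 2, lrt_ins1, ← lrt_sumK_smul]
  refine tr_sumK_congr hτ 2 _ _ fun τ₁ hτ₁ hag₁ => ?_
  rw [← lrt_c1 Y hτ₁ (show a < q + 2 by omega) (show b < q + 2 by omega) hne (by rw [hag₁ a b ha hb, hab]), mul_comm, ← lrt_sumK_smul]
  refine tr_sumK_congr hτ₁ 2 _ _ fun τ' hτ' hag => ?_
  rw [hag q (q + 1) (by omega) (by omega), hY.congr lam t (q + 2) τ' τ₁ _ hag]
  ring

end ret2

/-- **I2** (PE l.566-575): `A'(0) - C'(0)` = the connected high insertion under `μ_0`. -/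
theorem lrt_I2 (X : LedCtx Ω) (r : ℕ) (Cb : ℝ) (h : X.Ok r Cb) : X.FF 1 1 0 0 1 = X.CC 1 0 0 0 + X.HH 0 0 0 0 := by
  have hY := h.sys
  have hm := fun (p : ℕ) (τ' : ℕ → ℕ → ℕ) (hτ' : IsTr X.Y.N p τ') => hY.mean _ _ p τ' (lrt_prof0 X.kU) lrt_zero_mem hτ'
  have e1 : X.FF 1 1 0 0 1 = X.Y.ins (ledLam X.kU 0) 0 X.q X.τ X.J1 [X.Y.kLow X.kU 1, X.Y.kE X.kU 0]
      - (X.Y.gD X.kU X.kS 0 0 * X.Y.ins (ledLam X.kU 0) 0 X.q X.τ X.J0 [X.Y.kLow X.kU 1, X.Y.kE X.kU 0]
        + X.Y.gD X.kU X.kS 1 0 * X.Y.ins (ledLam X.kU 0) 0 X.q X.τ X.J0 [X.Y.kE X.kU 0]) := by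
    simp [LedCtx.FF, Finset.sum_range_succ, List.replicate]
  have e2 : X.CC 1 0 0 0 = trSumK X.Y.ms X.Y.N 4 X.q X.τ fun τ' => X.Y.kapC X.kU X.q X.a X.b τ' *
      X.Y.nu (ledLam X.kU 0) 0 (X.q + 4) τ' fun σ => X.P (ledRs σ) * X.Y.dl X.kS (σ X.q).2 (σ (X.q + 1)).2 * lrtE X.Y X.kU X.q τ' σ := by
    simp [LedCtx.CC, LedSys.tm, ledPairs, ledFacs, LedCtx.J0, lrtE, mul_assoc]
  have e3 : X.HH 0 0 0 0 = trSumK X.Y.ms X.Y.N 4 X.q X.τ fun τ' => X.Y.coef2 X.kU X.q X.a X.b τ' *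
      X.Y.nu (ledLam X.kU 0) 0 (X.q + 4) τ' fun σ => X.P (ledRs σ) * X.Y.Q X.kS (σ X.q).2 (σ (X.q + 1)).2
        * X.Y.dl (τ' (X.q + 2) (X.q + 3)) (σ (X.q + 2)).2 (σ (X.q + 3)).2 := by
    simp only [LedCtx.HH, LedSys.tm, ledPairs, ledFacs, LedCtx.J0, LedSys.kD, List.replicate, List.append_nil, List.map_cons,
      List.map_nil, List.prod_cons, List.prod_nil, mul_one, add_zero, mul_zero]
    congr 1
    funext τ'
    congr 2
    funext σ
    ring
  rw [e1, e2, e3, lrt_gD0 X.Y hY h.kU_le h.kS_lt, lrt_gD1 X.Y hY h.kU_le h.kS_lt, lrt_kLow_one, zero_mul, zero_add]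
  rw [show X.J1 = fun σ => ledSg (σ X.a).1 * ledSg (σ X.b).1 * X.P (ledRs σ) from rfl,
    lrt_A2 X.Y hY h.kU_le h.tr h.a_lt h.b_lt h.split h.kS_lt h.uses (lrt_Q_symm X.Y hY), mul_assoc,
    ← lrt_A4 X.Y hY h.tr h.a_lt h.b_lt h.split (lrt_ab_ne X r Cb h) (lrt_prof0 X.kU) lrt_zero_mem (lrt_J0_uses X r Cb h),
    ← lrt_sumK_smul, add_sub_right_comm, ← lrt_sumK_sub]
  refine congrArg (· + _) ?_
  refine tr_sumK_congr h.tr 4 _ _ fun τ' hτ' hag => ?_
  rw [show (fun σ : ℕ → Bool × Ω => X.P (ledRs σ) * X.Y.Q X.kS (σ X.q).2 (σ (X.q + 1)).2 * lrtE X.Y X.kU X.q τ' σ)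
    = fun σ => X.P (ledRs σ) * X.Y.dl X.kS (σ X.q).2 (σ (X.q + 1)).2 * lrtE X.Y X.kU X.q τ' σ
      + X.Y.K X.kS * (X.J0 σ * X.Y.kE X.kU 0 (τ' (X.q + 2) (X.q + 3)) (σ (X.q + 2)) (σ (X.q + 3))) from funext fun σ => by
      rw [lrt_Q_eq]; unfold LedCtx.J0 lrtE; ring]
  rw [(hm _ τ' hτ').add, (hm _ τ' hτ').smul]
  ring

end Claimed.Agent.R286
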