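import Claimed.Agent.R286.Cav.LedDefs
import Claimed.Agent.R286.Fd.TrCb
import Claimed.Agent.R286.Fd.TrA4

/-!
# Row 286 (S0533), unit Cav, file LedTbIns      (owner: helper191; prefix `ledi_`, `Ledi`)

TOOLBOX of the parametric ledger lemma `led_main` (PE Lemma 4.7), part 1: the INSERTION CALCULUS on `LedSys` (vocabulary of helper204, `Cav/LedDefs`).
* A. positive normalised functionals (`LedMean`): elementary rules, Hoelder with real exponents (`ledi_holder_prod`).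
* B. finite signed sums `trSumK`: linearity, continuity, bound by the total variation on the EXTENSIONS of the old table.
* C. `LedSys.sm lam t m q τ J` = signed sum over `m` new labels of the tree numbers of a test `J τ'` which sees the extended table;
     formula (2) for `sm` along a segment of profiles and in the mixing parameter (`ledi_sm_derivL`, `ledi_sm_derivT`), continuity.
* D. Taylor bounds on `[0,1]` for functions which are continuous on `[0,1]` and differentiable in `(0,1)` (`ledi_taylor1/2/3`).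
* E. PE Lemma 4.3 (bounded row changes) on `LedSys`: `ledi_transfer`.      TEX[PE:lem:cavity-row-change]
-/

set_option autoImplicit false

namespace Claimed.Agent.R286

open Finset

/-! ### A. positive normalised functionals -/

section mean

variable {X : Type} {μ : (X → ℝ) → ℝ}

theorem ledi_const (h : LedMean μ) (c : ℝ) : μ (fun _ => c) = c := by
  have := h.smul c (fun _ => 1)
  simpa [h.one] using this

theorem ledi_neg (h : LedMean μ) (f : X → ℝ) : μ (fun x => - f x) = - μ f := by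
  have := h.smul (-1) f
  simpa using this

theorem ledi_sub (h : LedMean μ) (f g : X → ℝ) : μ (fun x => f x - g x) = μ f - μ g := by
  have := h.add f (fun x => - g x)
  rw [ledi_neg h] at this
  simpa [sub_eq_add_neg] using this

theorem ledi_mono (h : LedMean μ) {f g : X → ℝ} (hfg : ∀ x, f x ≤ g x) : μ f ≤ μ g := by
  have := h.nonneg (fun x => g x - f x) fun x => sub_nonneg.2 (hfg x)
  rw [ledi_sub h] at this
  linarith

theorem ledi_abs_le (h : LedMean μ) (f : X → ℝ) : |μ f| ≤ μ fun x => |f x| := by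
  rw [abs_le]
  constructor
  · rw [neg_le, ← ledi_neg h]
    exact ledi_mono h fun x => neg_le_abs (f x)
  · exact ledi_mono h fun x => le_abs_self (f x)

theorem ledi_sum (h : LedMean μ) {ι : Type} (s : Finset ι) (f : ι → X → ℝ) :
    μ (fun x => ∑ i ∈ s, f i x) = ∑ i ∈ s, μ (f i) := by
  classical
  induction s using Finset.induction_on with
  | empty => simpa using ledi_const h 0
  | insert a s ha ih =>
    simp only [Finset.sum_insert ha]
    rw [h.add, ih]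

theorem ledi_mul_right (h : LedMean μ) (c : ℝ) (f : X → ℝ) : μ (fun x => f x * c) = μ f * c := by
  have := h.smul c f
  simpa [mul_comm] using this

/-- bound by the supremum of one factor -/
theorem ledi_le_sup (h : LedMean μ) {f g : X → ℝ} {M : ℝ} (hf : ∀ x, 0 ≤ f x) (hg : ∀ x, |g x| ≤ M) :
    |μ fun x => f x * g x| ≤ M * μ f := by
  refine (ledi_abs_le h _).trans ?_
  rw [← h.smul]
  refine ledi_mono h fun x => ?_
  rw [abs_mul, abs_of_nonneg (hf x), mul_comm]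
  exact mul_le_mul_of_nonneg_right (hg x) (hf x)

/-- normalised Hoelder: strictly positive bounds -/
theorem ledi_holder_pos (h : LedMean μ) {ι : Type} (s : Finset ι) (f : ι → X → ℝ) (p A : ι → ℝ)
    (hp : ∀ i ∈ s, 0 < p i) (hsum : ∑ i ∈ s, 1 / p i ≤ 1) (hA : ∀ i ∈ s, 0 < A i)
    (hf : ∀ i ∈ s, μ (fun x => |f i x| ^ p i) ≤ A i ^ p i) :
    μ (fun x => ∏ i ∈ s, |f i x|) ≤ ∏ i ∈ s, A i := by
  classical
  have hP : 0 < ∏ i ∈ s, A i := Finset.prod_pos hA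
  -- pointwise weighted AM-GM
  have key : ∀ x, ∏ i ∈ s, |f i x| ≤ (∏ i ∈ s, A i) * (∑ i ∈ s, 1 / p i * (|f i x| ^ p i / A i ^ p i) + (1 - ∑ i ∈ s, 1 / p i)) := by
    intro x
    have h1 := Real.geom_mean_le_arith_mean_weighted (insertNone s)
      (fun o => o.elim (1 - ∑ i ∈ s, 1 / p i) fun i => 1 / p i)
      (fun o => o.elim 1 fun i => |f i x| ^ p i / A i ^ p i)
      (by
        intro o ho
        cases o with
        | none => simpa using hsum
        | some i =>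
          have hi : i ∈ s := by simpa using ho
          have := hp i hi
          simp only [Option.elim_some]
          positivity)
      (by simp)
      (by
        intro o ho
        cases o with
        | none => simp
        | some i =>
          have hi : i ∈ s := by simpa using ho
          have := hA i hi
          simp only [Option.elim_some]
          positivity)
    simp only [Finset.prod_insertNone, Finset.sum_insertNone, Option.elim_none, Option.elim_some, Real.one_rpow, one_mul,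
      mul_one] at h1
    have h2 : ∏ i ∈ s, (|f i x| ^ p i / A i ^ p i) ^ (1 / p i) = (∏ i ∈ s, |f i x|) / ∏ i ∈ s, A i := by
      rw [← Finset.prod_div_distrib]
      refine Finset.prod_congr rfl fun i hi => ?_
      have hpi := hp i hi
      have hAi := hA i hi
      rw [← Real.div_rpow (abs_nonneg _) hAi.le, ← Real.rpow_mul (by positivity), mul_one_div, div_self hpi.ne', Real.rpow_one]
    rw [h2, div_le_iff₀ hP] at h1
    linarith
  refine (ledi_mono h key).trans ?_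
  rw [h.smul, h.add, ledi_const h, ledi_sum h]
  have h3 : ∑ i ∈ s, μ (fun x => 1 / p i * (|f i x| ^ p i / A i ^ p i)) ≤ ∑ i ∈ s, 1 / p i := by
    refine Finset.sum_le_sum fun i hi => ?_
    have hpi := hp i hi
    have hAi : 0 < A i ^ p i := Real.rpow_pos_of_pos (hA i hi) _
    rw [h.smul]
    have : μ (fun x => |f i x| ^ p i / A i ^ p i) ≤ 1 := by
      have e : (fun x => |f i x| ^ p i / A i ^ p i) = fun x => (A i ^ p i)⁻¹ * |f i x| ^ p i := by
        funext x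
        rw [div_eq_inv_mul]
      rw [e, h.smul, inv_mul_le_iff₀ hAi, mul_one]
      exact hf i hi
    calc 1 / p i * μ (fun x => |f i x| ^ p i / A i ^ p i) ≤ 1 / p i * 1 :=
          mul_le_mul_of_nonneg_left this (by positivity)
      _ = 1 / p i := mul_one _
  calc (∏ i ∈ s, A i) * (∑ i ∈ s, μ (fun x => 1 / p i * (|f i x| ^ p i / A i ^ p i)) + (1 - ∑ i ∈ s, 1 / p i))
      ≤ (∏ i ∈ s, A i) * 1 := mul_le_mul_of_nonneg_left (by linarith) hP.le
    _ = _ := mul_one _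

/-- **Hoelder** for a positive normalised functional, real exponents with `∑ 1/p_i ≤ 1` -/
theorem ledi_holder_prod (h : LedMean μ) {ι : Type} (s : Finset ι) (f : ι → X → ℝ) (p A : ι → ℝ)
    (hp : ∀ i ∈ s, 0 < p i) (hsum : ∑ i ∈ s, 1 / p i ≤ 1) (hA : ∀ i ∈ s, 0 ≤ A i)
    (hf : ∀ i ∈ s, μ (fun x => |f i x| ^ p i) ≤ A i ^ p i) :
    |μ fun x => ∏ i ∈ s, f i x| ≤ ∏ i ∈ s, A i := by
  have h0 : |μ fun x => ∏ i ∈ s, f i x| ≤ μ fun x => ∏ i ∈ s, |f i x| := by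
    refine (ledi_abs_le h _).trans (le_of_eq ?_)
    congr 1
    funext x
    exact Finset.abs_prod s _
  refine h0.trans ?_
  have h1 : ∀ η : ℝ, 0 < η → μ (fun x => ∏ i ∈ s, |f i x|) ≤ ∏ i ∈ s, (A i + η) := by
    intro η hη
    refine ledi_holder_pos h s f p (fun i => A i + η) hp hsum (fun i hi => by have := hA i hi; linarith) fun i hi => ?_
    refine (hf i hi).trans (Real.rpow_le_rpow (hA i hi) (by linarith) (hp i hi).le)
  have h2 : Filter.Tendsto (fun η : ℝ => ∏ i ∈ s, (A i + η)) (nhdsWithin 0 (Set.Ioi 0)) (nhds (∏ i ∈ s, (A i + 0))) := by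
    have : Continuous fun η : ℝ => ∏ i ∈ s, (A i + η) := by fun_prop
    exact (this.tendsto 0).mono_left nhdsWithin_le_nhds
  simp only [add_zero] at h2
  exact ge_of_tendsto h2 (Filter.eventually_of_mem self_mem_nhdsWithin fun η hη => h1 η hη)

end mean

/-! ### B. finite signed sums -/

section sums

variable {N : ℕ} {ms : ℕ → ℝ}

theorem ledi_sumK_add (k : ℕ) : ∀ (q : ℕ) (τ : ℕ → ℕ → ℕ) (Φ Ψ : (ℕ → ℕ → ℕ) → ℝ),
    trSumK ms N k q τ (fun τ' => Φ τ' + Ψ τ') = trSumK ms N k q τ Φ + trSumK ms N k q τ Ψ := by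
  induction k with
  | zero => intro q τ Φ Ψ; rfl
  | succ k ih =>
    intro q τ Φ Ψ
    simp only [trSumK, trSum, ih, mul_add, Finset.sum_add_distrib]

theorem ledi_sumK_smul (k : ℕ) (q : ℕ) (τ : ℕ → ℕ → ℕ) (c : ℝ) (Φ : (ℕ → ℕ → ℕ) → ℝ) :
    trSumK ms N k q τ (fun τ' => c * Φ τ') = c * trSumK ms N k q τ Φ :=
  (tcb_sumK_mul_left ms N k q τ c Φ).symm

theorem ledi_sumK_sub (k : ℕ) (q : ℕ) (τ : ℕ → ℕ → ℕ) (Φ Ψ : (ℕ → ℕ → ℕ) → ℝ) :
    trSumK ms N k q τ (fun τ' => Φ τ' - Ψ τ') = trSumK ms N k q τ Φ - trSumK ms N k q τ Ψ := by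
  have h := ledi_sumK_add (ms := ms) (N := N) k q τ Φ fun τ' => (-1) * Ψ τ'
  rw [ledi_sumK_smul] at h
  have e : (fun τ' => Φ τ' - Ψ τ') = fun τ' => Φ τ' + -1 * Ψ τ' := by
    funext τ'
    ring
  rw [e, h]
  ring

theorem ledi_sumK_zero (k : ℕ) (q : ℕ) (τ : ℕ → ℕ → ℕ) : trSumK ms N k q τ (fun _ => 0) = 0 := by
  have h := ledi_sumK_smul (ms := ms) (N := N) k q τ 0 fun _ => 0
  simpa using h

theorem ledi_sumK_fsum {ι : Type} (s : Finset ι) (k : ℕ) (q : ℕ) (τ : ℕ → ℕ → ℕ) (Φ : ι → (ℕ → ℕ → ℕ) → ℝ) :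
    trSumK ms N k q τ (fun τ' => ∑ i ∈ s, Φ i τ') = ∑ i ∈ s, trSumK ms N k q τ (Φ i) := by
  classical
  induction s using Finset.induction_on with
  | empty => simpa using ledi_sumK_zero k q τ
  | insert a s ha ih =>
    simp only [Finset.sum_insert ha]
    rw [ledi_sumK_add, ih]

theorem ledi_absK_add (k : ℕ) : ∀ (q : ℕ) (τ : ℕ → ℕ → ℕ) (Φ Ψ : (ℕ → ℕ → ℕ) → ℝ),
    trAbsK ms N k q τ (fun τ' => Φ τ' + Ψ τ') = trAbsK ms N k q τ Φ + trAbsK ms N k q τ Ψ := by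
  induction k with
  | zero => intro q τ Φ Ψ; rfl
  | succ k ih =>
    intro q τ Φ Ψ
    simp only [trAbsK, trAbs, ih, mul_add, Finset.sum_add_distrib]

theorem ledi_absK_smul (k : ℕ) : ∀ (q : ℕ) (τ : ℕ → ℕ → ℕ) (c : ℝ) (Φ : (ℕ → ℕ → ℕ) → ℝ),
    trAbsK ms N k q τ (fun τ' => c * Φ τ') = c * trAbsK ms N k q τ Φ := by
  induction k with
  | zero => intro q τ c Φ; rfl
  | succ k ih =>
    intro q τ c Φ
    simp only [trAbsK, trAbs, ih, Finset.mul_sum]
    refine Finset.sum_congr rfl fun x _ => Finset.sum_congr rfl fun j _ => ?_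
    ring

theorem ledi_absK_zero (k : ℕ) (q : ℕ) (τ : ℕ → ℕ → ℕ) : trAbsK ms N k q τ (fun _ => 0) = 0 := by
  have h := ledi_absK_smul (ms := ms) (N := N) k q τ 0 fun _ => 0
  simpa using h

theorem ledi_absK_fsum {ι : Type} (s : Finset ι) (k : ℕ) (q : ℕ) (τ : ℕ → ℕ → ℕ) (Φ : ι → (ℕ → ℕ → ℕ) → ℝ) :
    trAbsK ms N k q τ (fun τ' => ∑ i ∈ s, Φ i τ') = ∑ i ∈ s, trAbsK ms N k q τ (Φ i) := by
  classical
  induction s using Finset.induction_on with
  | empty => simpa using ledi_absK_zero k q τ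
  | insert a s ha ih =>
    simp only [Finset.sum_insert ha]
    rw [ledi_absK_add, ih]

/-- `τ'` is a table on `Q` labels which extends the table `τ` on `q` labels -/
structure LediExt (N q Q : ℕ) (τ τ' : ℕ → ℕ → ℕ) : Prop where
  tr : IsTr N Q τ'
  old : ∀ y z, y < q → z < q → τ' y z = τ y z

/-- monotonicity of the total variation sums on the extensions of the old table -/
theorem ledi_absK_mono {q : ℕ} {τ : ℕ → ℕ → ℕ} (hτ : IsTr N q τ) (k : ℕ) (Φ Ψ : (ℕ → ℕ → ℕ) → ℝ)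
    (h : ∀ τ', LediExt N q (q + k) τ τ' → Φ τ' ≤ Ψ τ') : trAbsK ms N k q τ Φ ≤ trAbsK ms N k q τ Ψ := by
  classical
  have e1 : trAbsK ms N k q τ Φ = trAbsK ms N k q τ fun τ' => if LediExt N q (q + k) τ τ' then Φ τ' else 0 :=
    tr_absK_congr hτ k _ _ fun τ' h1 h2 => by rw [if_pos ⟨h1, h2⟩]
  have e2 : trAbsK ms N k q τ Ψ = trAbsK ms N k q τ fun τ' => if LediExt N q (q + k) τ τ' then Ψ τ' else 0 :=
    tr_absK_congr hτ k _ _ fun τ' h1 h2 => by rw [if_pos ⟨h1, h2⟩]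
  rw [e1, e2]
  refine tr_absK_mono hτ k _ _ fun τ' _ => ?_
  split_ifs with h1
  · exact h τ' h1
  · exact le_rfl

/-- a signed sum is bounded by the total variation sum of any majorant on the extensions -/
theorem ledi_sumK_le_absK {q : ℕ} {τ : ℕ → ℕ → ℕ} (hτ : IsTr N q τ) (k : ℕ) (Φ Ψ : (ℕ → ℕ → ℕ) → ℝ)
    (h : ∀ τ', LediExt N q (q + k) τ τ' → |Φ τ'| ≤ Ψ τ') : |trSumK ms N k q τ Φ| ≤ trAbsK ms N k q τ Ψ :=
  (tr_sumK_le k Φ).trans (ledi_absK_mono hτ k _ _ h)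

/-- total variation of `k` labels -/
theorem ledi_absK_const {q : ℕ} {τ : ℕ → ℕ → ℕ} (hτ : IsTr N q τ) (hms : IsMs N ms) (k : ℕ) (M : ℝ) (hM : 0 ≤ M) :
    trAbsK ms N k q τ (fun _ => M) ≤ (2 * ms N) ^ k * (∏ i ∈ Finset.range k, ((q : ℝ) + i)) * M := by
  have h := tr_absK_le hτ hms k (fun _ => M) M fun _ _ => by rw [abs_of_nonneg hM]
  simpa [abs_of_nonneg hM] using h

/-- a signed sum of numbers which are bounded on the extensions of the old table -/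
theorem ledi_sumK_le_const {q : ℕ} {τ : ℕ → ℕ → ℕ} (hτ : IsTr N q τ) (hms : IsMs N ms) (k : ℕ) (Φ : (ℕ → ℕ → ℕ) → ℝ)
    (M : ℝ) (hM : 0 ≤ M) (h : ∀ τ', LediExt N q (q + k) τ τ' → |Φ τ'| ≤ M) :
    |trSumK ms N k q τ Φ| ≤ (2 * ms N) ^ k * (∏ i ∈ Finset.range k, ((q : ℝ) + i)) * M :=
  (ledi_sumK_le_absK hτ k Φ (fun _ => M) h).trans (ledi_absK_const hτ hms k M hM)

theorem ledi_sumK_congr {q : ℕ} {τ : ℕ → ℕ → ℕ} (hτ : IsTr N q τ) (k : ℕ) (Φ Ψ : (ℕ → ℕ → ℕ) → ℝ)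
    (h : ∀ τ', LediExt N q (q + k) τ τ' → Φ τ' = Ψ τ') : trSumK ms N k q τ Φ = trSumK ms N k q τ Ψ :=
  tr_sumK_congr hτ k Φ Ψ fun τ' h1 h2 => h τ' ⟨h1, h2⟩

/-- differentiation of a signed sum, term by term on the extensions -/
theorem ledi_sumK_hasDerivAt {q : ℕ} {τ : ℕ → ℕ → ℕ} (hτ : IsTr N q τ) (k : ℕ) (Φ : ℝ → (ℕ → ℕ → ℕ) → ℝ)
    (Φ' : (ℕ → ℕ → ℕ) → ℝ) (θ : ℝ) (h : ∀ τ', LediExt N q (q + k) τ τ' → HasDerivAt (fun s => Φ s τ') (Φ' τ') θ) :
    HasDerivAt (fun s => trSumK ms N k q τ (Φ s)) (trSumK ms N k q τ Φ') θ := by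
  classical
  have e1 : (fun s => trSumK ms N k q τ (Φ s))
      = fun s => trSumK ms N k q τ fun τ' => if LediExt N q (q + k) τ τ' then Φ s τ' else 0 := by
    funext s
    exact ledi_sumK_congr hτ k _ _ fun τ' h1 => by rw [if_pos h1]
  have e2 : trSumK ms N k q τ Φ' = trSumK ms N k q τ fun τ' => if LediExt N q (q + k) τ τ' then Φ' τ' else 0 :=
    ledi_sumK_congr hτ k _ _ fun τ' h1 => by rw [if_pos h1]
  rw [e1, e2, ← hasDerivWithinAt_univ]
  refine tcb_sumK_hasDeriv k hτ (fun s τ' => if LediExt N q (q + k) τ τ' then Φ s τ' else 0) _ fun τ' _ => ?_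
  rw [hasDerivWithinAt_univ]
  by_cases h1 : LediExt N q (q + k) τ τ'
  · simp only [if_pos h1]
    exact h τ' h1
  · simp only [if_neg h1]
    exact hasDerivAt_const _ _

theorem ledi_sum_continuousOn {q : ℕ} {τ : ℕ → ℕ → ℕ} (hτ : IsTr N q τ) (Φ : ℝ → (ℕ → ℕ → ℕ) → ℝ) (s : Set ℝ)
    (h : ∀ τ', IsTr N (q + 1) τ' → ContinuousOn (fun θ => Φ θ τ') s) :
    ContinuousOn (fun θ => trSum ms N q τ (Φ θ)) s := by
  unfold trSum
  refine continuousOn_finsetSum _ fun x hx => continuousOn_finsetSum _ fun j hj => ?_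
  refine ContinuousOn.mul continuousOn_const (h _ (tr_att_isTr hτ (Finset.mem_range.1 hx) ?_))
  have := Finset.mem_range.1 hj
  omega

theorem ledi_sumK_continuousOn0 (s : Set ℝ) (k : ℕ) : ∀ {q : ℕ} {τ : ℕ → ℕ → ℕ}, IsTr N q τ → ∀ (Φ : ℝ → (ℕ → ℕ → ℕ) → ℝ),
    (∀ τ', IsTr N (q + k) τ' → ContinuousOn (fun θ => Φ θ τ') s) →
    ContinuousOn (fun θ => trSumK ms N k q τ (Φ θ)) s := by
  induction k with
  | zero => intro q τ hτ Φ h; simpa [trSumK] using h τ hτ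
  | succ k ih =>
    intro q τ hτ Φ h
    simp only [trSumK]
    refine ledi_sum_continuousOn hτ (fun θ τ' => trSumK ms N k (q + 1) τ' (Φ θ)) s fun τ' hτ' => ?_
    refine ih hτ' Φ fun τ'' hτ'' => h τ'' ?_
    have e : q + 1 + k = q + (k + 1) := by omega
    rwa [e] at hτ''

/-- continuity of a signed sum, term by term on the extensions -/
theorem ledi_sumK_continuousOn {q : ℕ} {τ : ℕ → ℕ → ℕ} (hτ : IsTr N q τ) (k : ℕ) (Φ : ℝ → (ℕ → ℕ → ℕ) → ℝ) (s : Set ℝ)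
    (h : ∀ τ', LediExt N q (q + k) τ τ' → ContinuousOn (fun θ => Φ θ τ') s) :
    ContinuousOn (fun θ => trSumK ms N k q τ (Φ θ)) s := by
  classical
  have e1 : (fun s => trSumK ms N k q τ (Φ s))
      = fun s => trSumK ms N k q τ fun τ' => if LediExt N q (q + k) τ τ' then Φ s τ' else 0 := by
    funext s
    exact ledi_sumK_congr hτ k _ _ fun τ' h1 => by rw [if_pos h1]
  rw [e1]
  refine ledi_sumK_continuousOn0 s k hτ (fun s τ' => if LediExt N q (q + k) τ τ' then Φ s τ' else 0) fun τ' _ => ?_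
  by_cases h1 : LediExt N q (q + k) τ τ'
  · simp only [if_pos h1]
    exact h τ' h1
  · simp only [if_neg h1]
    exact continuousOn_const

theorem ledi_ext_trans {q Q Q' : ℕ} {τ τ' τ'' : ℕ → ℕ → ℕ} (h1 : LediExt N q Q τ τ') (h2 : LediExt N Q Q' τ' τ'') (hq : q ≤ Q) :
    LediExt N q Q' τ τ'' :=
  ⟨h2.tr, fun y z hy hz => by rw [h2.old y z (by omega) (by omega), h1.old y z hy hz]⟩

theorem ledi_ext_refl {q : ℕ} {τ : ℕ → ℕ → ℕ} (hτ : IsTr N q τ) : LediExt N q q τ τ := ⟨hτ, fun _ _ _ _ => rfl⟩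

end sums

/-! ### C. signed sums of tree numbers, formula (2) -/

/-- a family of tests indexed by tables which sees only the labels `< Q` (of the table and of the configurations) -/
structure LediLoc {X : Type} (Q : ℕ) (J : (ℕ → ℕ → ℕ) → (ℕ → X) → ℝ) : Prop where
  tab : ∀ τ₁ τ₂ : ℕ → ℕ → ℕ, (∀ y z, y < Q → z < Q → τ₁ y z = τ₂ y z) → J τ₁ = J τ₂
  use : ∀ τ', TrUses Q (J τ')

/-- multiplication of a test by the kernel `V` at the pair of labels `(c, d)` -/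
def lediMul {Ω : Type} (J : (ℕ → ℕ → ℕ) → (ℕ → Bool × Ω) → ℝ) (V : LedKer Ω) (c d : ℕ) :
    (ℕ → ℕ → ℕ) → (ℕ → Bool × Ω) → ℝ := fun τ' σ => J τ' σ * V (τ' c d) (σ c) (σ d)

theorem ledi_loc_mono {X : Type} {Q Q' : ℕ} {J : (ℕ → ℕ → ℕ) → (ℕ → X) → ℝ} (h : LediLoc Q J) (hQ : Q ≤ Q') : LediLoc Q' J :=
  ⟨fun τ₁ τ₂ h12 => h.tab τ₁ τ₂ fun y z hy hz => h12 y z (by omega) (by omega),
    fun τ' σ σ' hσ => h.use τ' σ σ' fun i hi => hσ i (by omega)⟩

theorem ledi_loc_mul {Ω : Type} {Q : ℕ} {J : (ℕ → ℕ → ℕ) → (ℕ → Bool × Ω) → ℝ} (h : LediLoc Q J) (V : LedKer Ω) {c d : ℕ}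
    (hc : c < Q) (hd : d < Q) : LediLoc Q (lediMul J V c d) :=
  ⟨fun τ₁ τ₂ h12 => by
      funext σ
      simp only [lediMul]
      rw [h.tab τ₁ τ₂ h12, h12 c d hc hd],
    fun τ' σ σ' hσ => by
      simp only [lediMul]
      rw [h.use τ' σ σ' hσ, hσ c hc, hσ d hd]⟩

theorem ledi_loc_const {X : Type} {Q : ℕ} {P : (ℕ → X) → ℝ} (h : TrUses Q P) : LediLoc Q fun _ => P :=
  ⟨fun _ _ _ => rfl, fun _ => h⟩

theorem ledi_uses_mono {X : Type} {Q Q' : ℕ} {P : (ℕ → X) → ℝ} (h : TrUses Q P) (hQ : Q ≤ Q') : TrUses Q' P :=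
  fun σ σ' hσ => h σ σ' fun i hi => hσ i (by omega)

namespace LedSys

variable {Ω : Type} (Y : LedSys Ω)

/-- signed sum over `m` new labels of the tree numbers of a test which sees the extended table -/
def sm (lam : ℕ → ℝ) (t : ℝ) (m q : ℕ) (τ : ℕ → ℕ → ℕ) (J : (ℕ → ℕ → ℕ) → (ℕ → Bool × Ω) → ℝ) : ℝ :=
  trSumK Y.ms Y.N m q τ fun τ' => Y.nu lam t (q + m) τ' (J τ')

/-- the kernel of the derivative along a segment of profiles -/
def kL (lam0 lam1 : ℕ → ℝ) (t : ℝ) : LedKer Ω := fun r x y => (lam1 r - lam0 r) * Y.kRow t r x y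

/-- the kernel of the derivative in the mixing parameter -/
def kT (lam : ℕ → ℝ) : LedKer Ω := fun r x y => lam r * Y.kErr r x y

end LedSys

theorem ledi_defs_eqns_cite : True := by
  have := @lediMul.eq_1
  have := @LedSys.sm.eq_1
  have := @LedSys.kL.eq_1
  have := @LedSys.kT.eq_1
  trivial

section calculus

variable {Ω : Type} {Y : LedSys Ω}

theorem ledi_seg_prof {lam0 lam1 : ℕ → ℝ} (h0 : LedProf lam0) (h1 : LedProf lam1) {θ : ℝ} (hθ : θ ∈ Set.Icc (0 : ℝ) 1) :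
    LedProf (ledSeg lam0 lam1 θ) := by
  have e : ∀ r, ledSeg lam0 lam1 θ r = (1 - θ) * lam0 r + θ * lam1 r := fun r => by unfold ledSeg; ring
  have a : 0 ≤ 1 - θ := by linarith [hθ.2]
  refine ⟨fun r => ?_, fun r => ?_, fun r r' hr => ?_⟩
  · rw [e]
    exact add_nonneg (mul_nonneg a (h0.nonneg r)) (mul_nonneg hθ.1 (h1.nonneg r))
  · rw [e]
    have := mul_le_mul_of_nonneg_left (h0.le_one r) a
    have := mul_le_mul_of_nonneg_left (h1.le_one r) hθ.1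
    linarith
  · rw [e, e]
    exact add_le_add (mul_le_mul_of_nonneg_left (h0.mono hr) a) (mul_le_mul_of_nonneg_left (h1.mono hr) hθ.1)

theorem ledi_seg_zero (lam0 lam1 : ℕ → ℝ) : ledSeg lam0 lam1 0 = lam0 := by
  funext r
  simp [ledSeg]

theorem ledi_seg_one (lam0 lam1 : ℕ → ℝ) : ledSeg lam0 lam1 1 = lam1 := by
  funext r
  simp [ledSeg]

theorem ledi_prof_one : LedProf fun _ => (1 : ℝ) := ⟨fun _ => zero_le_one, fun _ => le_rfl, fun _ _ _ => le_rfl⟩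

theorem ledi_lam_prof (k : ℕ) {l : ℝ} (hl : l ∈ Set.Icc (0 : ℝ) 1) : LedProf (ledLam k l) := by
  refine ⟨fun r => ?_, fun r => ?_, fun r r' hr => ?_⟩
  · unfold ledLam
    split_ifs
    · exact hl.1
    · exact zero_le_one
  · unfold ledLam
    split_ifs
    · exact hl.2
    · exact le_rfl
  · unfold ledLam
    split_ifs with h1 h2 h2
    · exact le_rfl
    · exact hl.2
    · omega
    · exact le_rfl

theorem ledi_lam_seg (k : ℕ) (l : ℝ) : ledSeg (ledLam k 0) (ledLam k 1) l = ledLam k l := by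
  funext r
  unfold ledSeg ledLam
  split_ifs <;> ring

/-- linearity of `sm` in the test -/
theorem ledi_sm_congr (lam : ℕ → ℝ) (t : ℝ) {m q : ℕ} {τ : ℕ → ℕ → ℕ} (hτ : IsTr Y.N q τ)
    (J J' : (ℕ → ℕ → ℕ) → (ℕ → Bool × Ω) → ℝ) (h : ∀ τ', LediExt Y.N q (q + m) τ τ' → J τ' = J' τ') :
    Y.sm lam t m q τ J = Y.sm lam t m q τ J' :=
  ledi_sumK_congr hτ m _ _ fun τ' hτ' => by rw [h τ' hτ']

theorem ledi_sm_add (hY : Y.Ok) {lam : ℕ → ℝ} {t : ℝ} (hl : LedProf lam) (ht : t ∈ Set.Icc (0 : ℝ) 1) {m q : ℕ} {τ : ℕ → ℕ → ℕ}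
    (hτ : IsTr Y.N q τ) (J J' : (ℕ → ℕ → ℕ) → (ℕ → Bool × Ω) → ℝ) :
    Y.sm lam t m q τ (fun τ' σ => J τ' σ + J' τ' σ) = Y.sm lam t m q τ J + Y.sm lam t m q τ J' := by
  unfold LedSys.sm
  rw [← ledi_sumK_add]
  exact ledi_sumK_congr hτ m _ _ fun τ' hτ' => (hY.mean lam t _ τ' hl ht hτ'.tr).add _ _

theorem ledi_sm_sub (hY : Y.Ok) {lam : ℕ → ℝ} {t : ℝ} (hl : LedProf lam) (ht : t ∈ Set.Icc (0 : ℝ) 1) {m q : ℕ} {τ : ℕ → ℕ → ℕ}
    (hτ : IsTr Y.N q τ) (J J' : (ℕ → ℕ → ℕ) → (ℕ → Bool × Ω) → ℝ) :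
    Y.sm lam t m q τ (fun τ' σ => J τ' σ - J' τ' σ) = Y.sm lam t m q τ J - Y.sm lam t m q τ J' := by
  unfold LedSys.sm
  rw [← ledi_sumK_sub]
  exact ledi_sumK_congr hτ m _ _ fun τ' hτ' => ledi_sub (hY.mean lam t _ τ' hl ht hτ'.tr) _ _

/-- a deterministic coefficient which sees the table -/
theorem ledi_sm_smul (hY : Y.Ok) {lam : ℕ → ℝ} {t : ℝ} (hl : LedProf lam) (ht : t ∈ Set.Icc (0 : ℝ) 1) {m q : ℕ} {τ : ℕ → ℕ → ℕ}
    (hτ : IsTr Y.N q τ) (w : (ℕ → ℕ → ℕ) → ℝ) (J : (ℕ → ℕ → ℕ) → (ℕ → Bool × Ω) → ℝ) :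
    Y.sm lam t m q τ (fun τ' σ => w τ' * J τ' σ) = trSumK Y.ms Y.N m q τ fun τ' => w τ' * Y.nu lam t (q + m) τ' (J τ') :=
  ledi_sumK_congr hτ m _ _ fun τ' hτ' => (hY.mean lam t _ τ' hl ht hτ'.tr).smul _ _

theorem ledi_sm_const_mul (hY : Y.Ok) {lam : ℕ → ℝ} {t : ℝ} (hl : LedProf lam) (ht : t ∈ Set.Icc (0 : ℝ) 1) {m q : ℕ}
    {τ : ℕ → ℕ → ℕ} (hτ : IsTr Y.N q τ) (c : ℝ) (J : (ℕ → ℕ → ℕ) → (ℕ → Bool × Ω) → ℝ) :
    Y.sm lam t m q τ (fun τ' σ => c * J τ' σ) = c * Y.sm lam t m q τ J := by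
  rw [ledi_sm_smul hY hl ht hτ (fun _ => c) J, ledi_sumK_smul]
  rfl

/-- composition: `m + k` new labels -/
theorem ledi_sm_split (lam : ℕ → ℝ) (t : ℝ) (m k q : ℕ) (τ : ℕ → ℕ → ℕ) (J : (ℕ → ℕ → ℕ) → (ℕ → Bool × Ω) → ℝ) :
    Y.sm lam t (m + k) q τ J = trSumK Y.ms Y.N m q τ fun τ' => Y.sm lam t k (q + m) τ' J := by
  unfold LedSys.sm
  rw [tr_sumK_add]
  simp only [Nat.add_assoc]

/-- **formula (2) for `sm` along a segment of profiles** -/
theorem ledi_sm_derivL (hY : Y.Ok) {lam0 lam1 : ℕ → ℝ} (h0 : LedProf lam0) (h1 : LedProf lam1) {t : ℝ}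
    (ht : t ∈ Set.Icc (0 : ℝ) 1) {m q : ℕ} {τ : ℕ → ℕ → ℕ} (hτ : IsTr Y.N q τ) {J : (ℕ → ℕ → ℕ) → (ℕ → Bool × Ω) → ℝ}
    (hJ : LediLoc (q + m) J) {θ : ℝ} (hθ : θ ∈ Set.Ioo (0 : ℝ) 1) :
    HasDerivAt (fun θ => Y.sm (ledSeg lam0 lam1 θ) t m q τ J)
      (1 / 2 * Y.sm (ledSeg lam0 lam1 θ) t (m + 2) q τ (lediMul J (Y.kL lam0 lam1 t) (q + m) (q + m + 1))) θ := by
  rw [ledi_sm_split, ← ledi_sumK_smul]
  refine ledi_sumK_hasDerivAt hτ m (fun θ τ' => Y.nu (ledSeg lam0 lam1 θ) t (q + m) τ' (J τ')) _ θ fun τ' hτ' => ?_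
  have hd := hY.derivL lam0 lam1 t (q + m) τ' (J τ') θ h0 h1 ht hτ'.tr (hJ.use τ') hθ
  convert hd using 2
  refine ledi_sumK_congr hτ'.tr 2 _ _ fun τ'' hτ'' => ?_
  congr 1
  funext σ
  simp only [lediMul, LedSys.kL]
  rw [hJ.tab τ'' τ' hτ''.old]

/-- **formula (2) for `sm` in the mixing parameter** -/
theorem ledi_sm_derivT (hY : Y.Ok) {lam : ℕ → ℝ} (hl : LedProf lam) {m q : ℕ} {τ : ℕ → ℕ → ℕ} (hτ : IsTr Y.N q τ)
    {J : (ℕ → ℕ → ℕ) → (ℕ → Bool × Ω) → ℝ} (hJ : LediLoc (q + m) J) {t : ℝ} (ht : t ∈ Set.Ioo (0 : ℝ) 1) :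
    HasDerivAt (fun t => Y.sm lam t m q τ J)
      (1 / 2 * Y.sm lam t (m + 2) q τ (lediMul J (Y.kT lam) (q + m) (q + m + 1))) t := by
  rw [ledi_sm_split, ← ledi_sumK_smul]
  refine ledi_sumK_hasDerivAt hτ m (fun t τ' => Y.nu lam t (q + m) τ' (J τ')) _ t fun τ' hτ' => ?_
  have hd := hY.derivT lam (q + m) τ' (J τ') t hl hτ'.tr (hJ.use τ') ht
  convert hd using 2
  refine ledi_sumK_congr hτ'.tr 2 _ _ fun τ'' hτ'' => ?_
  congr 1
  funext σ
  simp only [lediMul, LedSys.kT]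
  rw [hJ.tab τ'' τ' hτ''.old]

theorem ledi_sm_contL (hY : Y.Ok) {lam0 lam1 : ℕ → ℝ} (h0 : LedProf lam0) (h1 : LedProf lam1) {t : ℝ}
    (ht : t ∈ Set.Icc (0 : ℝ) 1) {m q : ℕ} {τ : ℕ → ℕ → ℕ} (hτ : IsTr Y.N q τ) {J : (ℕ → ℕ → ℕ) → (ℕ → Bool × Ω) → ℝ}
    (hJ : LediLoc (q + m) J) : ContinuousOn (fun θ => Y.sm (ledSeg lam0 lam1 θ) t m q τ J) (Set.Icc 0 1) :=
  ledi_sumK_continuousOn hτ m (fun θ τ' => Y.nu (ledSeg lam0 lam1 θ) t (q + m) τ' (J τ')) _ fun τ' hτ' =>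
    hY.contL lam0 lam1 t (q + m) τ' (J τ') h0 h1 ht hτ'.tr (hJ.use τ')

theorem ledi_sm_contT (hY : Y.Ok) {lam : ℕ → ℝ} (hl : LedProf lam) {m q : ℕ} {τ : ℕ → ℕ → ℕ} (hτ : IsTr Y.N q τ)
    {J : (ℕ → ℕ → ℕ) → (ℕ → Bool × Ω) → ℝ} (hJ : LediLoc (q + m) J) :
    ContinuousOn (fun t => Y.sm lam t m q τ J) (Set.Icc 0 1) :=
  ledi_sumK_continuousOn hτ m (fun t τ' => Y.nu lam t (q + m) τ' (J τ')) _ fun τ' hτ' =>
    hY.contT lam (q + m) τ' (J τ') hl hτ'.tr (hJ.use τ')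

end calculus

/-! ### D. Taylor bounds on `[0,1]` -/

section taylor

/-- integration of a bound `|g'| ≤ M x^k` from `g 0 = 0` -/
theorem ledi_int_bound {g g' : ℝ → ℝ} {M : ℝ} (k : ℕ) (hc : ContinuousOn g (Set.Icc 0 1))
    (hd : ∀ x ∈ Set.Ioo (0 : ℝ) 1, HasDerivAt g (g' x) x) (h0 : g 0 = 0)
    (hb : ∀ x ∈ Set.Ioo (0 : ℝ) 1, |g' x| ≤ M * x ^ k) :
    ∀ x ∈ Set.Icc (0 : ℝ) 1, |g x| ≤ M / (k + 1) * x ^ (k + 1) := by
  have hk : (0 : ℝ) < k + 1 := by positivity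
  have hpw : ∀ x : ℝ, HasDerivAt (fun x => M / (k + 1) * x ^ (k + 1)) (M * x ^ k) x := by
    intro x
    have h1 := (hasDerivAt_pow (k + 1) x).const_mul (M / (k + 1))
    refine h1.congr_deriv ?_
    simp only [Nat.add_sub_cancel]
    push_cast
    field_simp
  have hcp : ContinuousOn (fun x : ℝ => M / (k + 1) * x ^ (k + 1)) (Set.Icc 0 1) := by fun_prop
  have hint : interior (Set.Icc (0 : ℝ) 1) = Set.Ioo 0 1 := interior_Icc
  -- upper
  have hu : AntitoneOn (fun x => g x - M / (k + 1) * x ^ (k + 1)) (Set.Icc 0 1) := by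
    refine antitoneOn_of_deriv_nonpos (convex_Icc 0 1) (hc.sub hcp) ?_ ?_
    · intro x hx
      rw [hint] at hx
      exact ((hd x hx).fun_sub (hpw x)).differentiableAt.differentiableWithinAt
    · intro x hx
      rw [hint] at hx
      rw [((hd x hx).fun_sub (hpw x)).deriv]
      have := (abs_le.1 (hb x hx)).2
      linarith
  have hl : MonotoneOn (fun x => g x + M / (k + 1) * x ^ (k + 1)) (Set.Icc 0 1) := by
    refine monotoneOn_of_deriv_nonneg (convex_Icc 0 1) (hc.add hcp) ?_ ?_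
    · intro x hx
      rw [hint] at hx
      exact ((hd x hx).fun_add (hpw x)).differentiableAt.differentiableWithinAt
    · intro x hx
      rw [hint] at hx
      rw [((hd x hx).fun_add (hpw x)).deriv]
      have := (abs_le.1 (hb x hx)).1
      linarith
  intro x hx
  have z : (0 : ℝ) ∈ Set.Icc (0 : ℝ) 1 := ⟨le_rfl, zero_le_one⟩
  have a1 := hu z hx hx.1
  have a2 := hl z hx hx.1
  simp only [h0] at a1 a2
  rw [abs_le]
  constructor
  · have : (0 : ℝ) ^ (k + 1) = 0 := by simp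
    rw [this] at a2
    linarith
  · have : (0 : ℝ) ^ (k + 1) = 0 := by simp
    rw [this] at a1
    linarith

/-- first order -/
theorem ledi_taylor1 {f f1 : ℝ → ℝ} {M : ℝ} (hc : ContinuousOn f (Set.Icc 0 1))
    (hd : ∀ x ∈ Set.Ioo (0 : ℝ) 1, HasDerivAt f (f1 x) x) (hb : ∀ x ∈ Set.Ioo (0 : ℝ) 1, |f1 x| ≤ M) :
    ∀ x ∈ Set.Icc (0 : ℝ) 1, |f x - f 0| ≤ M * x := by
  intro x hx
  have h := ledi_int_bound (g := fun x => f x - f 0) (g' := f1) (M := M) 0 (hc.sub continuousOn_const)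
    (fun x hx => (hd x hx).sub_const _) (by simp) (fun x hx => by simpa using hb x hx) x hx
  simpa using h

/-- second order -/
theorem ledi_taylor2 {f f1 f2 : ℝ → ℝ} {M : ℝ} (hc : ContinuousOn f (Set.Icc 0 1))
    (hd : ∀ x ∈ Set.Ioo (0 : ℝ) 1, HasDerivAt f (f1 x) x) (hc1 : ContinuousOn f1 (Set.Icc 0 1))
    (hd1 : ∀ x ∈ Set.Ioo (0 : ℝ) 1, HasDerivAt f1 (f2 x) x) (hb : ∀ x ∈ Set.Ioo (0 : ℝ) 1, |f2 x| ≤ M) :
    ∀ x ∈ Set.Icc (0 : ℝ) 1, |f x - f 0 - f1 0 * x| ≤ M / 2 * x ^ 2 := by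
  intro x hx
  have h1 := ledi_taylor1 hc1 hd1 hb
  have h := ledi_int_bound (g := fun x => f x - f 0 - f1 0 * x) (g' := fun x => f1 x - f1 0) (M := M) 1
    ((hc.sub continuousOn_const).sub (by fun_prop))
    (fun x hx => by
      have := ((hd x hx).sub_const (f 0)).fun_sub ((hasDerivAt_id x).const_mul (f1 0))
      simpa using this)
    (by simp) (fun x hx => by simpa using h1 x ⟨hx.1.le, hx.2.le⟩) x hx
  norm_num at h
  exact h

/-- third order -/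
theorem ledi_taylor3 {f f1 f2 f3 : ℝ → ℝ} {M : ℝ} (hc : ContinuousOn f (Set.Icc 0 1))
    (hd : ∀ x ∈ Set.Ioo (0 : ℝ) 1, HasDerivAt f (f1 x) x) (hc1 : ContinuousOn f1 (Set.Icc 0 1))
    (hd1 : ∀ x ∈ Set.Ioo (0 : ℝ) 1, HasDerivAt f1 (f2 x) x) (hc2 : ContinuousOn f2 (Set.Icc 0 1))
    (hd2 : ∀ x ∈ Set.Ioo (0 : ℝ) 1, HasDerivAt f2 (f3 x) x) (hb : ∀ x ∈ Set.Ioo (0 : ℝ) 1, |f3 x| ≤ M) :
    ∀ x ∈ Set.Icc (0 : ℝ) 1, |f x - f 0 - f1 0 * x - f2 0 / 2 * x ^ 2| ≤ M / 6 * x ^ 3 := by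
  intro x hx
  have h1 := ledi_taylor2 hc1 hd1 hc2 hd2 hb
  have h := ledi_int_bound (g := fun x => f x - f 0 - f1 0 * x - f2 0 / 2 * x ^ 2) (g' := fun x => f1 x - f1 0 - f2 0 * x)
    (M := M / 2) 2
    (((hc.sub continuousOn_const).sub (by fun_prop)).sub (by fun_prop))
    (fun x hx => by
      have := (((hd x hx).sub_const (f 0)).fun_sub ((hasDerivAt_id' x).const_mul (f1 0))).fun_sub
        ((hasDerivAt_pow 2 x).const_mul (f2 0 / 2))
      refine this.congr_deriv ?_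
      simp
      ring)
    (by simp) (fun x hx => h1 x ⟨hx.1.le, hx.2.le⟩) x hx
  norm_num at h
  convert h using 2
  ring

/-- a function which vanishes on `(0,1)` has a vanishing derivative there -/
theorem ledi_deriv_zero {f f1 : ℝ → ℝ} (h0 : ∀ x ∈ Set.Ioo (0 : ℝ) 1, f x = 0)
    (hd : ∀ x ∈ Set.Ioo (0 : ℝ) 1, HasDerivAt f (f1 x) x) : ∀ x ∈ Set.Ioo (0 : ℝ) 1, f1 x = 0 := by
  intro x hx
  have h1 : f =ᶠ[nhds x] fun _ => 0 := by
    filter_upwards [isOpen_Ioo.mem_nhds hx] with y hy using h0 y hy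
  have h2 : HasDerivAt f 0 x := (hasDerivAt_const x (0 : ℝ)).congr_of_eventuallyEq h1
  exact (hd x hx).unique h2

/-- Gronwall on `[0,1]`, two sided -/
theorem ledi_gronwall {f f1 : ℝ → ℝ} {c : ℝ} (hc : ContinuousOn f (Set.Icc 0 1))
    (hd : ∀ x ∈ Set.Ioo (0 : ℝ) 1, HasDerivAt f (f1 x) x) (hb : ∀ x ∈ Set.Ioo (0 : ℝ) 1, |f1 x| ≤ c * f x) (hc0 : 0 ≤ c)
    {x y : ℝ} (hx : x ∈ Set.Icc (0 : ℝ) 1) (hy : y ∈ Set.Icc (0 : ℝ) 1) (hf : 0 ≤ f y) : f x ≤ Real.exp c * f y := by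
  have hint : interior (Set.Icc (0 : ℝ) 1) = Set.Ioo 0 1 := interior_Icc
  have he : ∀ (a x : ℝ), HasDerivAt (fun x => Real.exp (a * x)) (Real.exp (a * x) * a) x := by
    intro a x
    have := ((hasDerivAt_id x).const_mul a).exp
    simpa using this
  have hu : AntitoneOn (fun x => f x * Real.exp (-c * x)) (Set.Icc 0 1) := by
    refine antitoneOn_of_deriv_nonpos (convex_Icc 0 1) (hc.mul (by fun_prop)) ?_ ?_
    · intro x hx
      rw [hint] at hx
      exact ((hd x hx).fun_mul (he (-c) x)).differentiableAt.differentiableWithinAt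
    · intro x hx
      rw [hint] at hx
      rw [((hd x hx).fun_mul (he (-c) x)).deriv]
      have h1 := (abs_le.1 (hb x hx)).2
      have h2 := Real.exp_pos (-c * x)
      have : f1 x * Real.exp (-c * x) + f x * (Real.exp (-c * x) * -c) = (f1 x - c * f x) * Real.exp (-c * x) := by ring
      rw [this]
      exact mul_nonpos_of_nonpos_of_nonneg (by linarith) h2.le
  have hl : MonotoneOn (fun x => f x * Real.exp (c * x)) (Set.Icc 0 1) := by
    refine monotoneOn_of_deriv_nonneg (convex_Icc 0 1) (hc.mul (by fun_prop)) ?_ ?_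
    · intro x hx
      rw [hint] at hx
      exact ((hd x hx).fun_mul (he c x)).differentiableAt.differentiableWithinAt
    · intro x hx
      rw [hint] at hx
      rw [((hd x hx).fun_mul (he c x)).deriv]
      have h1 := (abs_le.1 (hb x hx)).1
      have h2 := Real.exp_pos (c * x)
      have : f1 x * Real.exp (c * x) + f x * (Real.exp (c * x) * c) = (f1 x + c * f x) * Real.exp (c * x) := by ring
      rw [this]
      exact mul_nonneg (by linarith) h2.le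
  rcases le_total x y with hxy | hxy
  · -- `f x e^{cx} ≤ f y e^{cy}`
    have h1 : f x * Real.exp (c * x) ≤ f y * Real.exp (c * y) := hl hx hy hxy
    have h2 : f x ≤ f y * Real.exp (c * y - c * x) := by
      rw [Real.exp_sub, ← mul_div_assoc, le_div_iff₀ (Real.exp_pos _)]
      exact h1
    have h3 : Real.exp (c * y - c * x) ≤ Real.exp c := by
      apply Real.exp_le_exp.2
      have := hx.1
      have := hy.2
      nlinarith
    calc f x ≤ f y * Real.exp (c * y - c * x) := h2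
      _ ≤ f y * Real.exp c := mul_le_mul_of_nonneg_left h3 hf
      _ = _ := mul_comm _ _
  · have h1 : f x * Real.exp (-c * x) ≤ f y * Real.exp (-c * y) := hu hy hx hxy
    have h2 : f x ≤ f y * Real.exp (-c * y - -c * x) := by
      rw [Real.exp_sub, ← mul_div_assoc, le_div_iff₀ (Real.exp_pos _)]
      exact h1
    have h3 : Real.exp (-c * y - -c * x) ≤ Real.exp c := by
      apply Real.exp_le_exp.2
      have := hy.1
      have := hx.2
      nlinarith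
    calc f x ≤ f y * Real.exp (-c * y - -c * x) := h2
      _ ≤ f y * Real.exp c := mul_le_mul_of_nonneg_left h3 hf
      _ = _ := mul_comm _ _

end taylor

end Claimed.Agent.R286
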