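import Claimed.Agent.R286.Cav.LedTayC
import Claimed.Agent.R286.Cav.LedSc
import Claimed.Agent.R286.Cav.LedComb
import Claimed.Agent.R286.Cav.LedTbIns
import Claimed.Agent.R286.Cav.LedRet

/-!
# Row 286 (S0533), unit Cav, file ScLow : THE SCALAR LOW EXPANSION `Γ(K_*) = χ² K_* + O(W³)`      (owner helper205; prefix `cvs_l_`, exit `cvs_low`; 0 sorry)

PE cavity.tex l.991-998 (proof of Lemma 4.10, "Susceptibility calibration"); field `hΓ` of `CvtIn.Cal` / `CavCal`.      ABSTRACT: any `LedSys` with `Y.Ok`.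
`g(l) = Y.gD kU kS 0 l = ν^s_l[s_0 s_1]` on the pair which shares `kS < kU` stages;   chain of derivatives `led_ch_gD` (201), Taylor `ledt_chain_taylor` (193).
* `cvs_l_g_one : g(1) = Γ`,   `cvs_l_g_zero : g(0) = 0` (parity),   `cvs_l_g_bdd` : the `i`-th derivative is `O(ω^i)`;
* **`cvs_l_g1`** : the first derivative at `0` is `χ² K_*`   (four spins `ledsc_four` + the row sum does not see the tree `led_push`: `cvs_l_push`, `cvs_l_sum1`, `cvs_l_sum2`);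
* **`cvs_l_g2`** : the second derivative at `0` is `O(U ω²)`: six spins `ledsc_six_low` = eight two-edge paths through a THIRD block (`cvs_l_tri8_le`: its first label, `2` or `3`,
  enters an EMPTY block of the cut), total variation of such an entry `≤ C U` (`led_entry` of 9/210: `cvs_l_entry`, `cvs_l_entryK`);
* **`cvs_low`** : `|Y.Gam kS - Y.chi kU ^ 2 * Y.K kS| ≤ C (ω³ + U ω²)`,   `ω ≥ K_j` (`j < kU`),   `U = trPm Y.ms kU` = mass of a block.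
-/

set_option autoImplicit false
set_option linter.unusedSimpArgs false
set_option linter.unusedVariables false

namespace Claimed.Agent.R286

open Finset

variable {Ω : Type} {Y : LedSys Ω}

/-! ### the frame: `g(0)`, `g(1)`, bounds of the derivatives -/

/-- `γ` restricted to the pairs of one block -/
def cvsG (Y : LedSys Ω) (kU j : ℕ) : ℝ := if kU ≤ j then Y.gam kU j else 0

theorem cvsG_eqns_cite : True := by
  have := @cvsG.eq_1
  trivial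

theorem cvs_l_G_abs (hY : Y.Ok) (kU : ℕ) {j : ℕ} (hj : j ≤ Y.N + 1) : |cvsG Y kU j| ≤ 1 := by
  unfold cvsG
  split_ifs
  · exact ledsc_gam_abs hY hj
  · simp

/-- the scalar row sum does not depend on the tree -/
theorem cvs_l_push (kU : ℕ) {q : ℕ} {τ : ℕ → ℕ → ℕ} (hτ : IsTr Y.N q τ) {a : ℕ} (ha : a < q) :
    trSum Y.ms Y.N q τ (fun τ' => cvsG Y kU (τ' a q)) = Y.chi kU := by
  rw [led_push hτ ha (cvsG Y kU)]
  have h1 := led_push (ms := Y.ms) (tk9_const_isTr Y.N 1) (a := 0) (by norm_num) (cvsG Y kU)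
  exact h1.symm

theorem cvs_l_ins_nil (lam : ℕ → ℝ) (t : ℝ) (q : ℕ) (τ : ℕ → ℕ → ℕ) (J : (ℕ → Bool × Ω) → ℝ) :
    Y.ins lam t q τ J [] = Y.nu lam t q τ J := by
  show 1 * Y.nu lam t (q + 0) τ (fun σ => J σ * 1) = _
  simp

/-- `g(1) = Γ` -/
theorem cvs_l_g_one (kU kS : ℕ) : Y.gD kU kS 0 1 = Y.Gam kS := by
  unfold LedSys.gD
  rw [List.replicate_zero, cvs_l_ins_nil, ledt_lam_one]
  rfl

/-- `g(0) = 0` -/
theorem cvs_l_g_zero (hY : Y.Ok) {kS kU : ℕ} (hS : kS < kU) (hU : kU ≤ Y.N) : Y.gD kU kS 0 0 = 0 := by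
  unfold LedSys.gD
  rw [List.replicate_zero, cvs_l_ins_nil]
  exact ledsc_gam_low hY hU hS

/-- the derivatives of `g` are `O(ω^i)` -/
theorem cvs_l_g_bdd (hY : Y.Ok) {kS kU : ℕ} (hS : kS ≤ Y.N + 1) {om : ℝ} (hom : 0 ≤ om) (h : ∀ j, j < kU → Y.K j ≤ om) (i : ℕ)
    {l : ℝ} (hl : l ∈ Set.Icc (0 : ℝ) 1) :
    |Y.gD kU kS i l| ≤ 2 ^ (2 * i) * (∏ j ∈ Finset.range (2 * i), (((2 : ℕ) : ℝ) + j)) * (1 / 2) ^ i * om ^ i := by
  have hb := ledsc_tm_bdd hY (ledt_prof kU hl) (show (0 : ℝ) ∈ Set.Icc (0 : ℝ) 1 by simp) (ledt_pair_isTr hS 2)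
    (2 * (List.replicate i (Y.kLow kU 0)).length) (fun _ => 1) (fun σ => ledSg (σ 0).1 * ledSg (σ 1).1)
    (ledPairs 2 (List.replicate i (Y.kLow kU 0))) (A := 1) (M := 1) (B := 1 / 2 * om) (fun _ => by simp)
    (fun σ => by rw [abs_mul, ledt_sg_abs, ledt_sg_abs, one_mul]) (by positivity) (fun f hf j x y => by
      have := List.eq_of_mem_replicate (ledsc_pairs_mem hf)
      rw [this]
      exact ledsc_kLow_abs hY hom h j x y)
  rw [ledsc_pairs_len, List.length_replicate] at hb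
  unfold LedSys.gD LedSys.ins
  rw [List.length_replicate]
  refine hb.trans (le_of_eq ?_)
  rw [mul_pow]
  ring

/-! ### the first coefficient -/

/-- four spins, one low insertion -/
theorem cvs_l_pt1 (hY : Y.Ok) {kS kU : ℕ} (hS : kS < kU) (hU : kU ≤ Y.N) {τ' : ℕ → ℕ → ℕ} (hτ' : IsTr Y.N 4 τ')
    (h01 : τ' 0 1 = kS) :
    Y.nu (ledLam kU 0) 0 4 τ' (fun σ => ledSg (σ 0).1 * ledSg (σ 1).1 * Y.kLow kU 0 (τ' 2 3) (σ 2) (σ 3))
      = 1 / 2 * Y.K kS * (cvsG Y kU (τ' 0 2) * cvsG Y kU (τ' 1 3) + cvsG Y kU (τ' 0 3) * cvsG Y kU (τ' 1 2)) := by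
  have hm := hY.mean (ledLam kU 0) 0 4 τ' (ledsc_prof0 kU) (by simp) hτ'
  have u1 := hτ'.ultra 0 2 3 (by norm_num) (by norm_num) (by norm_num)
  have u2 := hτ'.ultra 0 3 1 (by norm_num) (by norm_num) (by norm_num)
  have u3 := hτ'.ultra 2 0 1 (by norm_num) (by norm_num) (by norm_num)
  have u4 := hτ'.ultra 2 1 3 (by norm_num) (by norm_num) (by norm_num)
  have u5 := hτ'.ultra 0 3 2 (by norm_num) (by norm_num) (by norm_num)
  have u6 := hτ'.ultra 0 2 1 (by norm_num) (by norm_num) (by norm_num)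
  have u7 := hτ'.ultra 3 0 1 (by norm_num) (by norm_num) (by norm_num)
  have u8 := hτ'.ultra 3 1 2 (by norm_num) (by norm_num) (by norm_num)
  have s1 := hτ'.symm 2 0 (by norm_num) (by norm_num)
  have s2 := hτ'.symm 3 1 (by norm_num) (by norm_num)
  have s3 := hτ'.symm 3 0 (by norm_num) (by norm_num)
  have s4 := hτ'.symm 2 1 (by norm_num) (by norm_num)
  have s5 := hτ'.symm 3 2 (by norm_num) (by norm_num)
  by_cases hc : τ' 2 3 < kU
  · have e : (fun σ : ℕ → Bool × Ω => ledSg (σ 0).1 * ledSg (σ 1).1 * Y.kLow kU 0 (τ' 2 3) (σ 2) (σ 3))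
        = fun σ => (1 / 2 * Y.K (τ' 2 3)) * ledSp [0, 1, 2, 3] (fun i => (σ i).1) := by
      funext σ
      rw [ledsc_sp4]
      unfold LedSys.kLow LedSys.kRow
      rw [if_pos hc]
      ring
    rw [e, hm.smul]
    have h4 := ledsc_four hY hU hτ' (a := 0) (b := 1) (c := 2) (d := 3) (by norm_num) (by norm_num) (by norm_num) (by norm_num) hc
    have h4' : Y.nu (ledLam kU 0) 0 4 τ' (fun σ => ledSp [0, 1, 2, 3] fun i => (σ i).1)
        = Y.pr2 kU τ' 0 1 2 3 + Y.pr2 kU τ' 0 1 3 2 := h4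
    rw [h4']
    unfold LedSys.pr2 cvsG
    by_cases c1 : kU ≤ τ' 0 2 <;> by_cases c2 : kU ≤ τ' 1 3 <;> by_cases c3 : kU ≤ τ' 0 3 <;> by_cases c4 : kU ≤ τ' 1 2 <;>
      simp only [c1, c2, c3, c4, and_self, and_true, true_and, and_false, false_and, if_true, if_false, mul_zero, zero_mul,
        add_zero, zero_add]
    all_goals first
      | (exfalso; omega)
      | (have : τ' 2 3 = kS := by omega
         rw [this])
  · have e : (fun σ : ℕ → Bool × Ω => ledSg (σ 0).1 * ledSg (σ 1).1 * Y.kLow kU 0 (τ' 2 3) (σ 2) (σ 3))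
        = fun σ => 0 * (1 : ℝ) := by
      funext σ
      unfold LedSys.kLow
      rw [if_neg hc]
      ring
    rw [e, hm.smul, zero_mul]
    unfold cvsG
    by_cases c1 : kU ≤ τ' 0 2 <;> by_cases c2 : kU ≤ τ' 1 3 <;> by_cases c3 : kU ≤ τ' 0 3 <;> by_cases c4 : kU ≤ τ' 1 2 <;>
      simp only [c1, c2, c3, c4, if_true, if_false, mul_zero, zero_mul, add_zero, zero_add]
    all_goals (exfalso; omega)

/-- one label attached to `a`, with a factor which does not see it -/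
theorem cvs_l_sum1 (kU : ℕ) {q : ℕ} {τ : ℕ → ℕ → ℕ} (hτ : IsTr Y.N q τ) {a : ℕ} (ha : a < q) (c : (ℕ → ℕ → ℕ) → ℝ)
    (hc : ∀ τ', IsTr Y.N (q + 1) τ' → (∀ y z, y < q → z < q → τ' y z = τ y z) → c τ' = c τ) :
    trSum Y.ms Y.N q τ (fun τ' => c τ' * cvsG Y kU (τ' a q)) = c τ * Y.chi kU := by
  have h1 : trSumK Y.ms Y.N 1 q τ (fun τ' => c τ' * cvsG Y kU (τ' a q))
      = trSumK Y.ms Y.N 1 q τ (fun τ' => c τ * cvsG Y kU (τ' a q)) :=
    tr_sumK_congr hτ 1 _ _ fun τ' h1 h2 => by rw [hc τ' h1 h2]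
  have h2 := ledt_sumK_smul (N := Y.N) (ms := Y.ms) 1 q τ (c τ) (fun τ' => cvsG Y kU (τ' a q))
  have h3 : trSumK Y.ms Y.N 1 q τ (fun τ' => cvsG Y kU (τ' a q)) = Y.chi kU := cvs_l_push kU hτ ha
  rw [h3] at h2
  exact h1.trans h2

theorem cvs_l_sum2 (kU : ℕ) {q : ℕ} {τ : ℕ → ℕ → ℕ} (hτ : IsTr Y.N q τ) {a b : ℕ} (ha : a < q) (hb : b < q) :
    trSumK Y.ms Y.N 2 q τ (fun τ' => cvsG Y kU (τ' a q) * cvsG Y kU (τ' b (q + 1))) = Y.chi kU * Y.chi kU := by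
  have h1 : trSumK Y.ms Y.N 1 q τ (fun τ1 => trSum Y.ms Y.N (q + 1) τ1 fun τ' => cvsG Y kU (τ' a q) * cvsG Y kU (τ' b (q + 1)))
      = trSumK Y.ms Y.N 1 q τ (fun τ1 => Y.chi kU * cvsG Y kU (τ1 a q)) :=
    tr_sumK_congr hτ 1 _ _ fun τ1 h1 _ => by
      rw [cvs_l_sum1 kU h1 (a := b) (by omega) (fun τ' => cvsG Y kU (τ' a q))
        (fun τ' _ h => by rw [h a q (by omega) (by omega)])]
      ring
  refine h1.trans ?_
  exact cvs_l_sum1 kU hτ ha (fun _ => Y.chi kU) fun _ _ _ => rfl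

theorem cvs_l_sum2' (kU : ℕ) {q : ℕ} {τ : ℕ → ℕ → ℕ} (hτ : IsTr Y.N q τ) {a b : ℕ} (ha : a < q) (hb : b < q) :
    trSumK Y.ms Y.N 2 q τ (fun τ' => cvsG Y kU (τ' a (q + 1)) * cvsG Y kU (τ' b q)) = Y.chi kU * Y.chi kU := by
  have e : (fun τ' : ℕ → ℕ → ℕ => cvsG Y kU (τ' a (q + 1)) * cvsG Y kU (τ' b q))
      = fun τ' => cvsG Y kU (τ' b q) * cvsG Y kU (τ' a (q + 1)) := by funext τ'; ring
  rw [e]
  exact cvs_l_sum2 kU hτ hb ha

/-- **the first coefficient** `c₁ = χ² K_*`      (PE cavity.tex l.558-560) -/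
theorem cvs_l_g1 (hY : Y.Ok) {kS kU : ℕ} (hS : kS < kU) (hU : kU ≤ Y.N) : Y.gD kU kS 1 0 = Y.chi kU ^ 2 * Y.K kS := by
  have hτ0 : IsTr Y.N 2 (ledPair Y.N kS) := ledt_pair_isTr (by omega) 2
  have h0 : Y.gD kU kS 1 0 = trSumK Y.ms Y.N 2 2 (ledPair Y.N kS) fun τ' =>
      1 * Y.nu (ledLam kU 0) 0 (2 + 2) τ' fun σ => ledSg (σ 0).1 * ledSg (σ 1).1 * ledFacs [(2, 3, Y.kLow kU 0)] τ' σ := rfl
  rw [h0]
  have h1 := tr_sumK_congr (ms := Y.ms) hτ0 2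
    (fun τ' => 1 * Y.nu (ledLam kU 0) 0 (2 + 2) τ' fun σ => ledSg (σ 0).1 * ledSg (σ 1).1 * ledFacs [(2, 3, Y.kLow kU 0)] τ' σ)
    (fun τ' => 1 / 2 * Y.K kS * (cvsG Y kU (τ' 0 2) * cvsG Y kU (τ' 1 (2 + 1)) + cvsG Y kU (τ' 0 (2 + 1)) * cvsG Y kU (τ' 1 2)))
    (fun τ' h1 h2 => by
      rw [one_mul, ← cvs_l_pt1 hY hS hU h1 (by rw [h2 0 1 (by norm_num) (by norm_num)]; simp [ledPair])]
      congr 1
      funext σ
      simp [ledFacs])
  rw [h1, ledt_sumK_smul, ledt_sumK_add, cvs_l_sum2 kU hτ0 (by norm_num) (by norm_num),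
    cvs_l_sum2' kU hτ0 (by norm_num) (by norm_num)]
  ring

/-! ### the second coefficient -/

/-- the label `p` enters an EMPTY block of the cut -/
def cvsEn (kU p : ℕ) (τ : ℕ → ℕ → ℕ) : ℝ := if ∀ o, o < p → τ o p < kU then (fun _ : ℕ => (1 : ℝ)) (τ 0 p) else 0

theorem cvsEn_eqns_cite : True := by
  have := @cvsEn.eq_1
  trivial

theorem cvs_l_En_nonneg (kU p : ℕ) (τ : ℕ → ℕ → ℕ) : 0 ≤ cvsEn kU p τ := by
  unfold cvsEn; split_ifs <;> simp

theorem cvs_l_tri_abs (hY : Y.Ok) {kU : ℕ} {τ : ℕ → ℕ → ℕ} (hτ : IsTr Y.N 6 τ) {a b x y z w : ℕ} (ha : a < 6) (hb : b < 6)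
    (hx : x < 6) (hy : y < 6) (hz : z < 6) (hw : w < 6) : |Y.tri kU τ a b x y z w| ≤ 1 := by
  unfold LedSys.tri
  split_ifs
  · rw [abs_mul, abs_mul]
    have h1 := ledsc_gam_abs hY (kU := kU) (hτ.le a x ha hx)
    have h2 := ledsc_gam_abs hY (kU := kU) (hτ.le y z hy hz)
    have h3 := ledsc_gam_abs hY (kU := kU) (hτ.le w b hw hb)
    calc |Y.gam kU (τ a x)| * |Y.gam kU (τ y z)| * |Y.gam kU (τ w b)| ≤ 1 * 1 * 1 :=
          mul_le_mul (mul_le_mul h1 h2 (abs_nonneg _) zero_le_one) h3 (abs_nonneg _) (by norm_num)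
      _ = 1 := by norm_num
  · simp

/-- the eight paths go through a third block, which is empty when its first label enters -/
theorem cvs_l_tri8_le (hY : Y.Ok) {kU : ℕ} (hU : kU ≤ Y.N) {τ : ℕ → ℕ → ℕ} (hτ : IsTr Y.N 6 τ) (h01 : τ 0 1 < kU) (h23 : τ 2 3 < kU)
    (h45 : τ 4 5 < kU) : |Y.tri8 kU τ 0 1 2 3 4 5| ≤ 8 * (cvsEn kU 2 τ + cvsEn kU 3 τ) := by
  have hk : kU ≤ Y.N + 1 := by omega
  have B : ∀ x y, x < 6 → y < 6 → (kU ≤ τ x y ↔ tra2Rp τ kU x = tra2Rp τ kU y) := fun x y hx hy => lrt_blk hτ hk x y hx hy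
  set β := tra2Rp τ kU with hβ
  have b01 := B 0 1 (by norm_num) (by norm_num)
  have b23 := B 2 3 (by norm_num) (by norm_num)
  have b45 := B 4 5 (by norm_num) (by norm_num)
  have b02 := B 0 2 (by norm_num) (by norm_num)
  have b12 := B 1 2 (by norm_num) (by norm_num)
  have b03 := B 0 3 (by norm_num) (by norm_num)
  have b13 := B 1 3 (by norm_num) (by norm_num)
  by_cases hE : (∀ o, o < 2 → τ o 2 < kU) ∨ (∀ o, o < 3 → τ o 3 < kU)
  · have h1 : 1 ≤ cvsEn kU 2 τ + cvsEn kU 3 τ := by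
      rcases hE with h | h
      · have : cvsEn kU 2 τ = 1 := by unfold cvsEn; rw [if_pos h]
        have := cvs_l_En_nonneg kU 3 τ
        linarith
      · have : cvsEn kU 3 τ = 1 := by unfold cvsEn; rw [if_pos h]
        have := cvs_l_En_nonneg kU 2 τ
        linarith
    have t := fun x y z w (hx : x < 6) (hy : y < 6) (hz : z < 6) (hw : w < 6) =>
      cvs_l_tri_abs hY (kU := kU) hτ (a := 0) (b := 1) (by norm_num) (by norm_num) hx hy hz hw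
    have t1 := abs_le.mp (t 2 3 4 5 (by norm_num) (by norm_num) (by norm_num) (by norm_num))
    have t2 := abs_le.mp (t 2 3 5 4 (by norm_num) (by norm_num) (by norm_num) (by norm_num))
    have t3 := abs_le.mp (t 3 2 4 5 (by norm_num) (by norm_num) (by norm_num) (by norm_num))
    have t4 := abs_le.mp (t 3 2 5 4 (by norm_num) (by norm_num) (by norm_num) (by norm_num))
    have t5 := abs_le.mp (t 4 5 2 3 (by norm_num) (by norm_num) (by norm_num) (by norm_num))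
    have t6 := abs_le.mp (t 4 5 3 2 (by norm_num) (by norm_num) (by norm_num) (by norm_num))
    have t7 := abs_le.mp (t 5 4 2 3 (by norm_num) (by norm_num) (by norm_num) (by norm_num))
    have t8 := abs_le.mp (t 5 4 3 2 (by norm_num) (by norm_num) (by norm_num) (by norm_num))
    unfold LedSys.tri8
    rw [abs_le]
    constructor <;> linarith [t1.1, t1.2, t2.1, t2.2, t3.1, t3.2, t4.1, t4.2, t5.1, t5.2, t6.1, t6.2, t7.1, t7.2, t8.1, t8.2]
  · push Not at hE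
    obtain ⟨⟨o2, ho2, h2⟩, ⟨o3, ho3, h3⟩⟩ := hE
    have n2 : β 0 = β 2 ∨ β 1 = β 2 := by
      interval_cases o2
      · left; exact b02.mp h2
      · right; exact b12.mp h2
    have n3 : β 0 = β 3 ∨ β 1 = β 3 := by
      interval_cases o3
      · left; exact b03.mp h3
      · right; exact b13.mp h3
      · omega
    have d01 : β 0 ≠ β 1 := fun h => by have := b01.mpr h; omega
    have d23 : β 2 ≠ β 3 := fun h => by have := b23.mpr h; omega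
    have d45 : β 4 ≠ β 5 := fun h => by have := b45.mpr h; omega
    have z : ∀ x y z w, x < 6 → y < 6 → z < 6 → w < 6 → ¬ (β 0 = β x ∧ β y = β z ∧ β w = β 1) → Y.tri kU τ 0 1 x y z w = 0 := by
      intro x y z w hx hy hz hw h
      refine ledsc_tri_zero fun hc => h ?_
      exact ⟨(B 0 x (by norm_num) hx).mp hc.1, (B y z hy hz).mp hc.2.1, (B w 1 hw (by norm_num)).mp hc.2.2⟩
    unfold LedSys.tri8
    rw [z 2 3 4 5 (by norm_num) (by norm_num) (by norm_num) (by norm_num) (by omega),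
      z 2 3 5 4 (by norm_num) (by norm_num) (by norm_num) (by norm_num) (by omega),
      z 3 2 4 5 (by norm_num) (by norm_num) (by norm_num) (by norm_num) (by omega),
      z 3 2 5 4 (by norm_num) (by norm_num) (by norm_num) (by norm_num) (by omega),
      z 4 5 2 3 (by norm_num) (by norm_num) (by norm_num) (by norm_num) (by omega),
      z 4 5 3 2 (by norm_num) (by norm_num) (by norm_num) (by norm_num) (by omega),
      z 5 4 2 3 (by norm_num) (by norm_num) (by norm_num) (by norm_num) (by omega),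
      z 5 4 3 2 (by norm_num) (by norm_num) (by norm_num) (by norm_num) (by omega)]
    have := cvs_l_En_nonneg kU 2 τ
    have := cvs_l_En_nonneg kU 3 τ
    simp only [add_zero, abs_zero]
    positivity

/-- six spins, two low insertions -/
theorem cvs_l_pt2 (hY : Y.Ok) {kS kU : ℕ} (hS : kS < kU) (hU : kU ≤ Y.N) {om : ℝ} (h : ∀ j, j < kU → Y.K j ≤ om)
    {τ' : ℕ → ℕ → ℕ} (hτ' : IsTr Y.N 6 τ') (h01 : τ' 0 1 = kS) :
    |Y.nu (ledLam kU 0) 0 6 τ' (fun σ => ledSg (σ 0).1 * ledSg (σ 1).1 *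
        (Y.kLow kU 0 (τ' 2 3) (σ 2) (σ 3) * Y.kLow kU 0 (τ' 4 5) (σ 4) (σ 5)))|
      ≤ 2 * om ^ 2 * (cvsEn kU 2 τ' + cvsEn kU 3 τ') := by
  have hm := hY.mean (ledLam kU 0) 0 6 τ' (ledsc_prof0 kU) (by simp) hτ'
  have hE : 0 ≤ cvsEn kU 2 τ' + cvsEn kU 3 τ' := add_nonneg (cvs_l_En_nonneg _ _ _) (cvs_l_En_nonneg _ _ _)
  by_cases hc : τ' 2 3 < kU ∧ τ' 4 5 < kU
  · have e : (fun σ : ℕ → Bool × Ω => ledSg (σ 0).1 * ledSg (σ 1).1 *
        (Y.kLow kU 0 (τ' 2 3) (σ 2) (σ 3) * Y.kLow kU 0 (τ' 4 5) (σ 4) (σ 5)))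
        = fun σ => (1 / 2 * Y.K (τ' 2 3) * (1 / 2 * Y.K (τ' 4 5))) * ledSp [0, 1, 2, 3, 4, 5] (fun i => (σ i).1) := by
      funext σ
      rw [ledsc_sp6]
      unfold LedSys.kLow LedSys.kRow
      rw [if_pos hc.1, if_pos hc.2]
      ring
    rw [e, hm.smul]
    have h6 : Y.nu (ledLam kU 0) 0 6 τ' (fun σ => ledSp [0, 1, 2, 3, 4, 5] fun i => (σ i).1) = Y.tri8 kU τ' 0 1 2 3 4 5 :=
      ledsc_six_low hY hU hτ' (a := 0) (b := 1) (c := 2) (d := 3) (e := 4) (f := 5) (by norm_num) (by norm_num) (by norm_num)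
        (by norm_num) (by norm_num) (by norm_num) (by omega) hc.1 hc.2
    rw [h6, abs_mul]
    have k1 := ledsc_K_nonneg hY (τ' 2 3)
    have k2 := ledsc_K_nonneg hY (τ' 4 5)
    have k1' := h _ hc.1
    have k2' := h _ hc.2
    have h8 := cvs_l_tri8_le hY hU hτ' (by omega) hc.1 hc.2
    have hK : |1 / 2 * Y.K (τ' 2 3) * (1 / 2 * Y.K (τ' 4 5))| ≤ 1 / 4 * om ^ 2 := by
      rw [abs_of_nonneg (by positivity)]
      nlinarith
    calc |1 / 2 * Y.K (τ' 2 3) * (1 / 2 * Y.K (τ' 4 5))| * |Y.tri8 kU τ' 0 1 2 3 4 5|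
        ≤ (1 / 4 * om ^ 2) * (8 * (cvsEn kU 2 τ' + cvsEn kU 3 τ')) :=
          mul_le_mul hK h8 (abs_nonneg _) (by positivity)
      _ = 2 * om ^ 2 * (cvsEn kU 2 τ' + cvsEn kU 3 τ') := by ring
  · have e : (fun σ : ℕ → Bool × Ω => ledSg (σ 0).1 * ledSg (σ 1).1 *
        (Y.kLow kU 0 (τ' 2 3) (σ 2) (σ 3) * Y.kLow kU 0 (τ' 4 5) (σ 4) (σ 5))) = fun σ => 0 * (1 : ℝ) := by
      funext σ
      unfold LedSys.kLow
      by_cases c1 : τ' 2 3 < kU
      · rw [if_neg (fun c2 => hc ⟨c1, c2⟩)]; ring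
      · rw [if_neg c1]; ring
    rw [e, hm.smul, zero_mul, abs_zero]
    positivity

theorem cvs_l_En_congr (kU p : ℕ) {τ τ' : ℕ → ℕ → ℕ} (h : ∀ y z, y < p + 1 → z < p + 1 → τ' y z = τ y z) :
    cvsEn kU p τ' = cvsEn kU p τ := by
  unfold cvsEn
  have e : (∀ o, o < p → τ' o p < kU) ↔ (∀ o, o < p → τ o p < kU) :=
    forall_congr' fun o => imp_congr_right fun ho => by rw [h o p (by omega) (by omega)]
  simp only [e]

theorem cvs_l_tele (ms : ℕ → ℝ) (k : ℕ) : ∑ j ∈ range k, (ms j - trPm ms j) * (fun _ : ℕ => (1 : ℝ)) j = trPm ms k := by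
  have h := Finset.sum_range_sub (trPm ms) k
  have h0 : trPm ms 0 = 0 := by simp [trPm]
  rw [h0, sub_zero] at h
  rw [← h]
  refine Finset.sum_congr rfl fun j _ => ?_
  rw [tk9_pm_succ]
  ring

theorem cvs_l_at_le (q : ℕ) (τ : ℕ → ℕ → ℕ) (k0 k1 : ℕ) : ledAt q τ k0 k1 (fun _ => (1 : ℝ)) ≤ (q : ℝ) * q := by
  unfold ledAt
  rw [Finset.sum_const, nsmul_eq_mul, mul_one]
  have h1 : ((ledForks q τ).filter fun j => k0 ≤ j ∧ j < k1).card ≤ q * q := by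
    refine (Finset.card_filter_le _ _).trans ?_
    unfold ledForks
    refine Finset.card_image_le.trans ?_
    simp
  exact_mod_cast h1

/-- total variation of the first entry into an empty block below the cut: `O(U)` -/
theorem cvs_l_entry (q : ℕ) : ∃ C : ℝ, 0 ≤ C ∧ ∀ (N : ℕ) (τ : ℕ → ℕ → ℕ) (ms : ℕ → ℝ), IsTr N q τ → IsMs N ms → ms N ≤ 1 → 0 < q →
    ∀ kU : ℕ, kU ≤ N → trAbs ms N q τ (cvsEn kU q) ≤ C * trPm ms kU := by
  obtain ⟨C, hC, h⟩ := led_entry q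
  refine ⟨C * (1 + (q : ℝ) * q), by positivity, fun N τ ms hτ hms h1 hq kU hU => ?_⟩
  have h2 := h N τ ms hτ hms h1 0 kU hq hU (fun _ => 1) (fun _ => zero_le_one)
  have h3 : trAbs ms N q τ (cvsEn kU q) ≤ C * (∑ j ∈ Finset.range kU, (ms j - trPm ms j) * (fun _ : ℕ => (1 : ℝ)) j
      + trPm ms kU * ledAt q τ 0 kU fun _ => 1) := h2
  rw [cvs_l_tele] at h3
  refine h3.trans ?_
  have h4 := cvs_l_at_le q τ 0 kU
  have h5 := tk9_pm_nonneg hms kU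
  have : trPm ms kU * ledAt q τ 0 kU (fun _ => (1 : ℝ)) ≤ trPm ms kU * ((q : ℝ) * q) := mul_le_mul_of_nonneg_left h4 h5
  calc C * (trPm ms kU + trPm ms kU * ledAt q τ 0 kU fun _ => 1) ≤ C * (trPm ms kU + trPm ms kU * ((q : ℝ) * q)) :=
        mul_le_mul_of_nonneg_left (by linarith) hC
    _ = C * (1 + (q : ℝ) * q) * trPm ms kU := by ring

theorem cvs_l_const {N : ℕ} {ms : ℕ → ℝ} {q : ℕ} {τ : ℕ → ℕ → ℕ} (hτ : IsTr N q τ) (hms : IsMs N ms) (h1 : ms N ≤ 1) (k : ℕ)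
    {M : ℝ} (hM : 0 ≤ M) : trAbsK ms N k q τ (fun _ => M) ≤ 2 ^ k * (∏ i ∈ Finset.range k, ((q : ℝ) + i)) * M := by
  refine (ledi_absK_const hτ hms k M hM).trans ?_
  have h0 := hms.nonneg N
  have : (2 * ms N) ^ k ≤ 2 ^ k := pow_le_pow_left₀ (by positivity) (by linarith) k
  have hp : 0 ≤ ∏ i ∈ Finset.range k, ((q : ℝ) + i) := Finset.prod_nonneg fun i _ => by positivity
  exact mul_le_mul_of_nonneg_right (mul_le_mul_of_nonneg_right this hp) hM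

/-- among `i + 1 + r` new labels, the label number `i` enters an empty block: total variation `O(U)` -/
theorem cvs_l_entryK (q i r : ℕ) : ∃ C : ℝ, 0 ≤ C ∧ ∀ (N : ℕ) (τ : ℕ → ℕ → ℕ) (ms : ℕ → ℝ), IsTr N q τ → IsMs N ms → ms N ≤ 1 →
    0 < q → ∀ kU : ℕ, kU ≤ N → trAbsK ms N (i + (1 + r)) q τ (cvsEn kU (q + i)) ≤ C * trPm ms kU := by
  obtain ⟨C, hC, h⟩ := cvs_l_entry (q + i)
  set A : ℝ := 2 ^ r * (∏ j ∈ Finset.range r, (((q + i + 1 : ℕ) : ℝ) + j)) with hA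
  set A' : ℝ := 2 ^ i * (∏ j ∈ Finset.range i, ((q : ℝ) + j)) with hA'
  have hA0 : 0 ≤ A := by positivity
  have hA0' : 0 ≤ A' := by positivity
  refine ⟨A' * (A * C), by positivity, fun N τ ms hτ hms h1 hq kU hU => ?_⟩
  have hU0 := tk9_pm_nonneg hms kU
  rw [tr_absK_add, ]
  have hmid : ∀ τ1, LediExt N q (q + i) τ τ1 →
      trAbsK ms N (1 + r) (q + i) τ1 (cvsEn kU (q + i)) ≤ A * C * trPm ms kU := by
    intro τ1 h1'
    rw [tr_absK_add]
    have hin : ∀ τ2, LediExt N (q + i) (q + i + 1) τ1 τ2 →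
        trAbsK ms N r (q + i + 1) τ2 (cvsEn kU (q + i)) ≤ A * cvsEn kU (q + i) τ2 := by
      intro τ2 h2
      rw [tr_absK_congr h2.tr r (cvsEn kU (q + i)) (fun _ => cvsEn kU (q + i) τ2) fun τ' _ h3 => cvs_l_En_congr kU (q + i) h3]
      exact cvs_l_const h2.tr hms h1 r (cvs_l_En_nonneg _ _ _)
    refine (ledi_absK_mono h1'.tr 1 _ _ hin).trans ?_
    rw [ledi_absK_smul]
    have h4 : trAbsK ms N 1 (q + i) τ1 (fun τ' => cvsEn kU (q + i) τ') ≤ C * trPm ms kU :=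
      h N τ1 ms h1'.tr hms h1 (by omega) kU hU
    calc A * trAbsK ms N 1 (q + i) τ1 (fun τ' => cvsEn kU (q + i) τ') ≤ A * (C * trPm ms kU) :=
          mul_le_mul_of_nonneg_left h4 hA0
      _ = A * C * trPm ms kU := by ring
  refine (ledi_absK_mono hτ i _ _ hmid).trans ?_
  refine (cvs_l_const hτ hms h1 i (by positivity)).trans (le_of_eq ?_)
  ring

/-- **the second coefficient**: a two-edge path through an unobserved third block, `O(U ω²)`      (PE cavity.tex l.993-997) -/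
theorem cvs_l_g2 : ∃ C : ℝ, 0 ≤ C ∧ ∀ (Ω : Type) (Y : LedSys Ω) (kS kU : ℕ) (om : ℝ), Y.Ok → kS < kU → kU ≤ Y.N →
    (∀ j, j < kU → Y.K j ≤ om) → |Y.gD kU kS 2 0| ≤ C * (trPm Y.ms kU * om ^ 2) := by
  obtain ⟨C2, hC2, h2⟩ := cvs_l_entryK 2 0 3
  obtain ⟨C3, hC3, h3⟩ := cvs_l_entryK 2 1 2
  refine ⟨2 * (C2 + C3), by positivity, fun Ω Y kS kU om hY hS hU h => ?_⟩
  have hτ0 : IsTr Y.N 2 (ledPair Y.N kS) := ledt_pair_isTr (by omega) 2
  have h0 : Y.gD kU kS 2 0 = trSumK Y.ms Y.N 4 2 (ledPair Y.N kS) fun τ' =>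
      1 * Y.nu (ledLam kU 0) 0 (2 + 4) τ' fun σ => ledSg (σ 0).1 * ledSg (σ 1).1 *
        ledFacs [(2, 3, Y.kLow kU 0), (4, 5, Y.kLow kU 0)] τ' σ := rfl
  rw [h0]
  have hb := ledi_sumK_le_absK (ms := Y.ms) hτ0 4
    (fun τ' => 1 * Y.nu (ledLam kU 0) 0 (2 + 4) τ' fun σ => ledSg (σ 0).1 * ledSg (σ 1).1 *
        ledFacs [(2, 3, Y.kLow kU 0), (4, 5, Y.kLow kU 0)] τ' σ)
    (fun τ' => 2 * om ^ 2 * (cvsEn kU 2 τ' + cvsEn kU 3 τ')) (fun τ' hx => by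
      rw [one_mul]
      have h6 := cvs_l_pt2 hY hS hU h hx.tr (by rw [hx.old 0 1 (by norm_num) (by norm_num)]; simp [ledPair])
      have e : (fun σ : ℕ → Bool × Ω => ledSg (σ 0).1 * ledSg (σ 1).1 * ledFacs [(2, 3, Y.kLow kU 0), (4, 5, Y.kLow kU 0)] τ' σ)
          = fun σ => ledSg (σ 0).1 * ledSg (σ 1).1 * (Y.kLow kU 0 (τ' 2 3) (σ 2) (σ 3) * Y.kLow kU 0 (τ' 4 5) (σ 4) (σ 5)) := by
        funext σ
        simp [ledFacs]
      rw [e]
      exact h6)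
  refine hb.trans ?_
  rw [ledi_absK_smul, ledi_absK_add]
  have a2 : trAbsK Y.ms Y.N 4 2 (ledPair Y.N kS) (cvsEn kU 2) ≤ C2 * trPm Y.ms kU :=
    h2 Y.N _ Y.ms hτ0 hY.ms_ok (le_of_eq hY.ms_top) (by norm_num) kU hU
  have a3 : trAbsK Y.ms Y.N 4 2 (ledPair Y.N kS) (cvsEn kU 3) ≤ C3 * trPm Y.ms kU :=
    h3 Y.N _ Y.ms hτ0 hY.ms_ok (le_of_eq hY.ms_top) (by norm_num) kU hU
  have ho : 0 ≤ 2 * om ^ 2 := by positivity
  calc 2 * om ^ 2 * (trAbsK Y.ms Y.N 4 2 (ledPair Y.N kS) (fun τ' => cvsEn kU 2 τ')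
        + trAbsK Y.ms Y.N 4 2 (ledPair Y.N kS) fun τ' => cvsEn kU 3 τ')
      ≤ 2 * om ^ 2 * (C2 * trPm Y.ms kU + C3 * trPm Y.ms kU) := mul_le_mul_of_nonneg_left (add_le_add a2 a3) ho
    _ = 2 * (C2 + C3) * (trPm Y.ms kU * om ^ 2) := by ring

/-- X3. **the scalar low expansion** `Γ(K_*) = χ² K_* + O(W³)`      (PE cavity.tex l.991-998).      TEX[PE:lem:cavity-calibration] (scalar part) -/
theorem cvs_low : ∃ C : ℝ, 0 ≤ C ∧ ∀ (Ω : Type) (Y : LedSys Ω) (kS kU : ℕ) (om : ℝ), Y.Ok → kS < kU → kU ≤ Y.N →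
    (∀ j, j < kU → Y.K j ≤ om) →
    |Y.Gam kS - Y.chi kU ^ 2 * Y.K kS| ≤ C * (om ^ 3 + trPm Y.ms kU * om ^ 2) := by
  obtain ⟨C2, hC2, h2⟩ := cvs_l_g2
  obtain ⟨C3, hC30, hC3⟩ : ∃ C3 : ℝ, 0 ≤ C3 ∧ C3 = 2 ^ (2 * 3) * (∏ j ∈ Finset.range (2 * 3), (((2 : ℕ) : ℝ) + j)) * (1 / 2) ^ 3 :=
    ⟨_, by positivity, rfl⟩
  refine ⟨C2 + C3, by positivity, fun Ω Y kS kU om hY hS hU h => ?_⟩
  have hom : 0 ≤ om := (ledsc_K_nonneg hY kS).trans (h kS hS)
  have hU0 := tk9_pm_nonneg hY.ms_ok kU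
  have hch := led_ch_gD hY kU (kS := kS) (by omega)
  have ht := ledt_chain_taylor hch 2 (M := C3 * om ^ 3) fun θ hθ => by
    rw [hC3]
    exact cvs_l_g_bdd hY (by omega) hom h 3 ⟨hθ.1.le, hθ.2.le⟩
  have es : ∑ j ∈ range (2 + 1), Y.gD kU kS j 0 / (j.factorial : ℝ) = Y.chi kU ^ 2 * Y.K kS + Y.gD kU kS 2 0 / 2 := by
    rw [Finset.sum_range_succ, Finset.sum_range_succ, Finset.sum_range_one, cvs_l_g_zero hY hS hU, cvs_l_g1 hY hS hU]
    norm_num [Nat.factorial]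
  rw [es, cvs_l_g_one] at ht
  have e6 : (((2 + 1 : ℕ).factorial : ℕ) : ℝ) = 6 := by norm_num [Nat.factorial]
  rw [e6] at ht
  have hg2 := h2 Ω Y kS kU om hY hS hU h
  have h3 := abs_le.mp ht
  have h4 := abs_le.mp hg2
  have p1 : 0 ≤ om ^ 3 := by positivity
  have p2 : 0 ≤ trPm Y.ms kU * om ^ 2 := by positivity
  have q1 := mul_nonneg hC2 p1
  have q2 := mul_nonneg hC30 p2
  have q3 := mul_nonneg hC2 p2
  have q4 := mul_nonneg hC30 p1
  have ex : (C2 + C3) * (om ^ 3 + trPm Y.ms kU * om ^ 2)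
      = C2 * om ^ 3 + C2 * (trPm Y.ms kU * om ^ 2) + C3 * om ^ 3 + C3 * (trPm Y.ms kU * om ^ 2) := by ring
  rw [ex, abs_le]
  constructor <;> linarith [h3.1, h3.2, h4.1, h4.2]

end Claimed.Agent.R286
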