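import Claimed.Agent.R286.Defs.Tr

/-!
# Row 286 (S0533), unit Cav, file LedDefs      (owner: helper204; adversary: helper217; prefix `led` / `Led`)

Vocabulary of the PARAMETRIC LEDGER LEMMA = PE Lemma 4.7 "Finite-degree row identity", eq. (24)  (cavity.tex l.407-700), and of its two re-runs
(l.1015-1046, l.1145-1156).   Everything is NON-ASYMPTOTIC, on a STEP hierarchy, POINTWISE in the observed tree.

* trees, weights, signed sums: the N-tables of `Defs/Tr` (`IsTr`, `trSumK`, ...): `τ x y` = number of shared stages, `N + 1` = coincident labels;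
* `LedSys Ω` : ONE SITE (spin `Bool`) x REST (configurations `Ω`).  Data: masses, cumulative clocks `b r`, `h r` and centres `S r` after `r` revelations,
  the deleted overlap `R`, and the tree numbers `nu lam t q τ P` of the ROW FAMILY:
      the rest kernel is untouched; a pair of labels which shares `r` stages has the row kernel   `lam r * s s' * (K r + t * b r * (R - S r))`,   `K = h + b S`.
  `lam : ℕ → ℝ` is ANY nondecreasing profile with values in `[0,1]` (increments stay PSD).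
      `lam = 1, t = 1`              : the actual law `ν`                         (`LedSys.act`)
      `lam = ledLam kU l`           : the paper's `ν_{l,t}` for the cut of depth `kU`  (blocks = classes of `kU ≤ τ`, mass of a block `U = trPm ms kU`)
      `lam = ledLam2 kV kU θ l`     : third parameter of the parity argument at an atom below the smaller cut `kV` (l.499-517)
      `t = 0`                       : site and rest factor; the site marginal is the scalar law `nuS lam`, the rest marginal the rest-only law `nuR`.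
* `LedSys.Ok` : the EXPORTS of PE Section 2 which the proof uses (and nothing else).
  INSTANCE (debt, captain's rule #3): `led_sk_sys`, `led_sk_ok` in `Cav/LedInst.lean` (owner: helper223 / helper18 `Pre*`): the SK changed path with one distinguished site,
  from `Defs/Tr` contracts: formula (2), pruning, relabelling, coincidence, gauge flip, product factorisation, independence at a degenerate prefix, constant feature.
-/

set_option autoImplicit false

namespace Claimed.Agent.R286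

open Finset

/-- positive normalised linear functional on the real functions on `X` -/
structure LedMean {X : Type} (μ : (X → ℝ) → ℝ) : Prop where
  add : ∀ f g : X → ℝ, μ (fun x => f x + g x) = μ f + μ g
  smul : ∀ (c : ℝ) (f : X → ℝ), μ (fun x => c * f x) = c * μ f
  nonneg : ∀ f : X → ℝ, (∀ x, 0 ≤ f x) → 0 ≤ μ f
  one : μ (fun _ => 1) = 1

/-- the sign of a site spin -/
def ledSg (s : Bool) : ℝ := if s then 1 else -1

/-- admissible revelation profile of the row -/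
structure LedProf (lam : ℕ → ℝ) : Prop where
  nonneg : ∀ r, 0 ≤ lam r
  le_one : ∀ r, lam r ≤ 1
  mono : Monotone lam

/-- segment of profiles -/
def ledSeg (lam0 lam1 : ℕ → ℝ) (θ : ℝ) (r : ℕ) : ℝ := lam0 r + θ * (lam1 r - lam0 r)

/-- revelation multiplied by `l` below the cut of depth `k` -/
def ledLam (k : ℕ) (l : ℝ) (r : ℕ) : ℝ := if r < k then l else 1

/-- two cuts `k' ≤ k` -/
def ledLam2 (k' k : ℕ) (θ l : ℝ) (r : ℕ) : ℝ := if r < k' then θ * l else if r < k then l else 1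

/-- the tree with two labels `0, 1` which share `r` stages -/
def ledPair (N r : ℕ) : ℕ → ℕ → ℕ := fun x y => if x = y then N + 1 else r

/-- a test which does not use the label `x` -/
def LedFree {X : Type} (x : ℕ) (P : (ℕ → X) → ℝ) : Prop := ∀ (σ : ℕ → X) (v : X), P (Function.update σ x v) = P σ

/-- kernels: (number of shared stages, two configurations) -/
abbrev LedKer (Ω : Type) : Type := ℕ → Bool × Ω → Bool × Ω → ℝ

/-- flip of the site spins of the labels which share at least `k` stages with `x` -/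
def ledFlip {Ω : Type} (τ : ℕ → ℕ → ℕ) (k x : ℕ) (σ : ℕ → Bool × Ω) : ℕ → Bool × Ω :=
  fun i => if k ≤ τ x i then (!(σ i).1, (σ i).2) else σ i

/-- one site x rest: data -/
structure LedSys (Ω : Type) where
  N : ℕ
  ms : ℕ → ℝ
  b : ℕ → ℝ
  h : ℕ → ℝ
  S : ℕ → ℝ
  R : Ω → Ω → ℝ
  nu : (ℕ → ℝ) → ℝ → ℕ → (ℕ → ℕ → ℕ) → ((ℕ → Bool × Ω) → ℝ) → ℝ

namespace LedSys

variable {Ω : Type} (Y : LedSys Ω)

/-- the scalar clock `K = h + b S` -/
def K (r : ℕ) : ℝ := Y.h r + Y.b r * Y.S r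

/-- `δ = b (R⁻ - S)` at a pair which shares `r` stages -/
def dl (r : ℕ) (ω ω' : Ω) : ℝ := Y.b r * (Y.R ω ω' - Y.S r)

/-- `Q = h + b R⁻ = K + δ` -/
def Q (r : ℕ) (ω ω' : Ω) : ℝ := Y.h r + Y.b r * Y.R ω ω'

/-- the row kernel `s s' (K + t δ)` -/
def kRow (t : ℝ) : LedKer Ω := fun r x y => ledSg x.1 * ledSg y.1 * (Y.K r + t * Y.dl r x.2 y.2)

/-- the error kernel `s s' δ` -/
def kErr : LedKer Ω := fun r x y => ledSg x.1 * ledSg y.1 * Y.dl r x.2 y.2

/-- the exports of PE Section 2 for the row family -/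
structure Ok : Prop where
  ms_ok : IsMs Y.N Y.ms
  ms_top : Y.ms Y.N = 1
  b_mono : Monotone Y.b
  h_mono : Monotone Y.h
  S_mono : Monotone Y.S
  b_zero : Y.b 0 = 0
  h_zero : Y.h 0 = 0
  S_nonneg : ∀ r, 0 ≤ Y.S r
  S_le : ∀ r, Y.S r ≤ 1
  flat : ∀ r, Y.N ≤ r → Y.b r = Y.b Y.N ∧ Y.h r = Y.h Y.N ∧ Y.S r = Y.S Y.N
  R_symm : ∀ ω ω', Y.R ω ω' = Y.R ω' ω
  R_le : ∀ ω ω', |Y.R ω ω'| ≤ 1
  R_diag : ∀ ω ω', Y.R ω ω = Y.R ω' ω'
  /-- genuine probability laws -/
  mean : ∀ (lam : ℕ → ℝ) (t : ℝ) (q : ℕ) (τ : ℕ → ℕ → ℕ), LedProf lam → t ∈ Set.Icc (0 : ℝ) 1 → IsTr Y.N q τ →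
    LedMean (Y.nu lam t q τ)
  /-- only the table on the labels `< q` matters -/
  congr : ∀ (lam : ℕ → ℝ) (t : ℝ) (q : ℕ) (τ τ' : ℕ → ℕ → ℕ) (P : (ℕ → Bool × Ω) → ℝ),
    (∀ x y, x < q → y < q → τ x y = τ' x y) → Y.nu lam t q τ P = Y.nu lam t q τ' P
  /-- marginalisation of the last label -/
  prune : ∀ (lam : ℕ → ℝ) (t : ℝ) (q : ℕ) (τ : ℕ → ℕ → ℕ) (P : (ℕ → Bool × Ω) → ℝ), LedProf lam → t ∈ Set.Icc (0 : ℝ) 1 →
    IsTr Y.N (q + 1) τ → TrUses q P → Y.nu lam t (q + 1) τ P = Y.nu lam t q τ P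
  /-- relabelling -/
  perm : ∀ (lam : ℕ → ℝ) (t : ℝ) (q : ℕ) (τ : ℕ → ℕ → ℕ) (P : (ℕ → Bool × Ω) → ℝ) (e : Equiv.Perm ℕ), LedProf lam →
    t ∈ Set.Icc (0 : ℝ) 1 → IsTr Y.N q τ → TrUses q P → (∀ x, q ≤ x → e x = x) →
    Y.nu lam t q (fun x y => τ (e x) (e y)) (fun σ => P fun i => σ (e.symm i)) = Y.nu lam t q τ P
  /-- coincident labels carry the same configuration -/
  coinc : ∀ (lam : ℕ → ℝ) (t : ℝ) (q : ℕ) (τ : ℕ → ℕ → ℕ) (P : (ℕ → Bool × Ω) → ℝ) (x y : ℕ), LedProf lam →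
    t ∈ Set.Icc (0 : ℝ) 1 → IsTr Y.N q τ → x < q → y < q → τ x y = Y.N + 1 →
    Y.nu lam t q τ P = Y.nu lam t q τ fun σ => P (Function.update σ y (σ x))
  /-- continuity along a segment of profiles -/
  contL : ∀ (lam0 lam1 : ℕ → ℝ) (t : ℝ) (q : ℕ) (τ : ℕ → ℕ → ℕ) (P : (ℕ → Bool × Ω) → ℝ), LedProf lam0 → LedProf lam1 →
    t ∈ Set.Icc (0 : ℝ) 1 → IsTr Y.N q τ → TrUses q P →
    ContinuousOn (fun θ => Y.nu (ledSeg lam0 lam1 θ) t q τ P) (Set.Icc 0 1)
  /-- formula (2) along a segment of profiles; the new labels are `q`, `q + 1` -/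
  derivL : ∀ (lam0 lam1 : ℕ → ℝ) (t : ℝ) (q : ℕ) (τ : ℕ → ℕ → ℕ) (P : (ℕ → Bool × Ω) → ℝ) (θ : ℝ), LedProf lam0 → LedProf lam1 →
    t ∈ Set.Icc (0 : ℝ) 1 → IsTr Y.N q τ → TrUses q P → θ ∈ Set.Ioo (0 : ℝ) 1 →
    HasDerivAt (fun θ => Y.nu (ledSeg lam0 lam1 θ) t q τ P)
      (1 / 2 * trSumK Y.ms Y.N 2 q τ fun τ' => Y.nu (ledSeg lam0 lam1 θ) t (q + 2) τ' fun σ =>
        P σ * ((lam1 (τ' q (q + 1)) - lam0 (τ' q (q + 1))) * Y.kRow t (τ' q (q + 1)) (σ q) (σ (q + 1)))) θ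
  /-- continuity in the mixing parameter -/
  contT : ∀ (lam : ℕ → ℝ) (q : ℕ) (τ : ℕ → ℕ → ℕ) (P : (ℕ → Bool × Ω) → ℝ), LedProf lam → IsTr Y.N q τ → TrUses q P →
    ContinuousOn (fun t => Y.nu lam t q τ P) (Set.Icc 0 1)
  /-- formula (2) in the mixing parameter -/
  derivT : ∀ (lam : ℕ → ℝ) (q : ℕ) (τ : ℕ → ℕ → ℕ) (P : (ℕ → Bool × Ω) → ℝ) (t : ℝ), LedProf lam → IsTr Y.N q τ → TrUses q P →
    t ∈ Set.Ioo (0 : ℝ) 1 →
    HasDerivAt (fun t => Y.nu lam t q τ P)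
      (1 / 2 * trSumK Y.ms Y.N 2 q τ fun τ' => Y.nu lam t (q + 2) τ' fun σ =>
        P σ * (lam (τ' q (q + 1)) * Y.kErr (τ' q (q + 1)) (σ q) (σ (q + 1)))) t
  /-- at `t = 0` the site and the rest factor -/
  factor : ∀ (lam : ℕ → ℝ) (q : ℕ) (τ : ℕ → ℕ → ℕ) (f : (ℕ → Bool) → ℝ) (g : (ℕ → Ω) → ℝ), LedProf lam → IsTr Y.N q τ →
    Y.nu lam 0 q τ (fun σ => f (fun i => (σ i).1) * g fun i => (σ i).2)
      = Y.nu lam 0 q τ (fun σ => f fun i => (σ i).1) * Y.nu lam 0 q τ fun σ => g fun i => (σ i).2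
  /-- at `t = 0` the rest marginal does not see the profile -/
  rest : ∀ (lam lam' : ℕ → ℝ) (q : ℕ) (τ : ℕ → ℕ → ℕ) (g : (ℕ → Ω) → ℝ), LedProf lam → LedProf lam' → IsTr Y.N q τ →
    Y.nu lam 0 q τ (fun σ => g fun i => (σ i).2) = Y.nu lam' 0 q τ fun σ => g fun i => (σ i).2
  /-- block flip: no site revelation before depth `k` -/
  flip : ∀ (lam : ℕ → ℝ) (t : ℝ) (q : ℕ) (τ : ℕ → ℕ → ℕ) (P : (ℕ → Bool × Ω) → ℝ) (k x : ℕ), LedProf lam → t ∈ Set.Icc (0 : ℝ) 1 →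
    IsTr Y.N q τ → TrUses q P → x < q → (∀ r, r < k → lam r = 0) →
    Y.nu lam t q τ (fun σ => P (ledFlip τ k x σ)) = Y.nu lam t q τ P
  /-- scalar site, no revelation before depth `k`: different blocks are independent -/
  indep : ∀ (lam : ℕ → ℝ) (q : ℕ) (τ : ℕ → ℕ → ℕ) (k : ℕ) (A : ℕ → Prop) (f g : (ℕ → Bool) → ℝ), LedProf lam → IsTr Y.N q τ →
    k ≤ Y.N + 1 → (∀ r, r < k → lam r = 0) → (∀ x y, x < q → y < q → A x → ¬ A y → τ x y < k) →
    (∀ s s' : ℕ → Bool, (∀ x, x < q → A x → s x = s' x) → f s = f s') →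
    (∀ s s' : ℕ → Bool, (∀ x, x < q → ¬ A x → s x = s' x) → g s = g s') →
    Y.nu lam 0 q τ (fun σ => f (fun i => (σ i).1) * g fun i => (σ i).1)
      = Y.nu lam 0 q τ (fun σ => f fun i => (σ i).1) * Y.nu lam 0 q τ fun σ => g fun i => (σ i).1

/-! ### the laws -/

/-- the actual law `ν` -/
def act (q : ℕ) (τ : ℕ → ℕ → ℕ) (P : (ℕ → Bool × Ω) → ℝ) : ℝ := Y.nu (fun _ => 1) 1 q τ P

/-- the scalar site law with the revelation profile `lam` (clock `lam K`) -/
def nuS (lam : ℕ → ℝ) (q : ℕ) (τ : ℕ → ℕ → ℕ) (f : (ℕ → Bool) → ℝ) : ℝ := Y.nu lam 0 q τ fun σ => f fun i => (σ i).1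

/-- the rest-only law -/
def nuR (q : ℕ) (τ : ℕ → ℕ → ℕ) (g : (ℕ → Ω) → ℝ) : ℝ := Y.nu (fun _ => 1) 0 q τ fun σ => g fun i => (σ i).2

/-! ### scalar quantities at the cut of depth `kU` -/

/-- `g(l) = ν^s_l[s_a s_b]` for a pair which shares `kS` stages; `gS kU kS 1 = Γ(K_*)` -/
def gS (kU kS : ℕ) (l : ℝ) : ℝ := Y.nuS (ledLam kU l) 2 (ledPair Y.N kS) fun s => ledSg (s 0) * ledSg (s 1)

/-- `γ(r) = ν^s_0[s_a s_c]` for a pair which shares `r` stages -/
def gam (kU r : ℕ) : ℝ := Y.gS kU r 0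

/-- `Γ`: second conditional-magnetisation moment of the scalar recursion with the whole clock `K`, at the cut after `r` revelations -/
def Gam (r : ℕ) : ℝ := Y.nuS (fun _ => 1) 2 (ledPair Y.N r) fun s => ledSg (s 0) * ledSg (s 1)

/-- `χ = ∑_{c ∈ A} γ_{ac}` -/
def chi (kU : ℕ) : ℝ :=
  trSumK Y.ms Y.N 1 1 (fun _ _ => Y.N + 1) fun τ' => if kU ≤ τ' 0 1 then Y.gam kU (τ' 0 1) else 0

/-- connected scalar four-point function `ν^s[s_a s_c s_e s_f] - γ_{ac} γ_{ef}` on the table `τ` with `q` labels -/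
def kap4 (kU q : ℕ) (τ : ℕ → ℕ → ℕ) (a c e f : ℕ) : ℝ :=
  Y.nuS (ledLam kU 0) q τ (fun s => ledSg (s a) * ledSg (s c) * ledSg (s e) * ledSg (s f)) - Y.gam kU (τ a c) * Y.gam kU (τ e f)

/-! ### costs (all under the ACTUAL law of a pair) -/

/-- `‖R⁻ - S_r‖_2` for a pair which shares `r` stages -/
noncomputable def D (r : ℕ) : ℝ := Real.sqrt (Y.act 2 (ledPair Y.N r) fun σ => (Y.R (σ 0).2 (σ 1).2 - Y.S r) ^ 2)

/-- `E Q_r^p` for a pair which shares `r` stages -/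
def mQ (p r : ℕ) : ℝ := Y.act 2 (ledPair Y.N r) fun σ => Y.Q r (σ 0).2 (σ 1).2 ^ p

/-- Lebesgue weight of the split depth `j` -/
def dM (j : ℕ) : ℝ := Y.ms j - trPm Y.ms j

/-- integral of `f` over the split depths `k0 ≤ j < k1` -/
def intM (k0 k1 : ℕ) (f : ℕ → ℝ) : ℝ := ∑ j ∈ Finset.Ico k0 k1, Y.dM j * f j

end LedSys

/-- the fork depths of a table: the values `τ x y`, `x, y < q` -/
def ledForks (q : ℕ) (τ : ℕ → ℕ → ℕ) : Finset ℕ := (Finset.range q ×ˢ Finset.range q).image fun z => τ z.1 z.2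

/-- sum of `f` over the old fork depths `k0 ≤ j < k1` -/
def ledAt (q : ℕ) (τ : ℕ → ℕ → ℕ) (k0 k1 : ℕ) (f : ℕ → ℝ) : ℝ := ∑ j ∈ (ledForks q τ).filter (fun j => k0 ≤ j ∧ j < k1), f j

/-- the equation lemmas of the definitions of this file are generated HERE (no on-demand copies downstream) -/
theorem led_defs_eqns_cite : True := by
  have := @ledSg.eq_1
  have := @ledSeg.eq_1
  have := @ledLam.eq_1
  have := @ledLam2.eq_1
  have := @ledPair.eq_1
  have := @LedFree.eq_1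
  have := @ledFlip.eq_1
  have := @LedSys.K.eq_1
  have := @LedSys.dl.eq_1
  have := @LedSys.Q.eq_1
  have := @LedSys.kRow.eq_1
  have := @LedSys.kErr.eq_1
  have := @LedSys.act.eq_1
  have := @LedSys.nuS.eq_1
  have := @LedSys.nuR.eq_1
  have := @LedSys.gS.eq_1
  have := @LedSys.gam.eq_1
  have := @LedSys.Gam.eq_1
  have := @LedSys.chi.eq_1
  have := @LedSys.kap4.eq_1
  have := @LedSys.D.eq_1
  have := @LedSys.mQ.eq_1
  have := @LedSys.dM.eq_1
  have := @LedSys.intM.eq_1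
  have := @ledForks.eq_1
  have := @ledAt.eq_1
  trivial

end Claimed.Agent.R286
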