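import Claimed.Agent.R286.Fd.CTr
import Claimed.Agent.R286.Fd.CSym
import Claimed.Agent.R286.Cav.LedDefs
import Claimed.Agent.R286.Cav.Defs

/-!
# Row 286 (S0533), unit Cav, file LedInst : THE INSTANCE of `LedSys` / `LedSys.Ok` (helper204's parametric ledger)      (owner helper194; prefix `li`, `Li`, `li_`)

ONE SITE (`Bool`) x REST (`SkCfg m`), `n = m + 1`.   Four feature blocks on the clocked hierarchies `gcLs` of `Defs/Tr`:
   block 0 rest matrix (kernel `n R²/2`), block 1 rest field (`n R`), block 2 site (`s s'`), block 3 site x rest (`s s' R`),      `R = (∑_{i<m} ω_i ω'_i)/n` the deleted overlap.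
Cumulative clocks after `r` revelations: `b r`, `h r`, `lam r ((1-t) K r + t h r)`, `t lam r b r`;   a pair which shares `r` stages has the covariance
   `n (b_r R²/2 + h_r R) + lam r s s' (K r + t b r (R - S r))`.
* `LiDat`, `LiDat.Ok`     the data (depth, masses, clocks, centres) and their elementary properties
* `liSys m D`             the system;   **`li_ok : D.Ok → (liSys m D).Ok`** from the contracts of `Fd/TrB*`, `Fd/TrC*`, `Fd/CSym`
* `liStp P S`             the data of a step path `P : SkStp` with the centres `S`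
* LINKS (prefix `lil`), `D = liStp P S`, `hD : D.Ok`:   `lil_act` (`lam = 1, t = 1` is the SK law of size `n` of `P`, transport along `lilJoin`, the constant `b_r/(2n)` drops),
  `lil_site` (`nuS lam` = SK law of size `1` of `cvSc P K lam`),   `lil_Gam` (`Γ` of `LedSys` = `cvGamK P K`)
-/

set_option autoImplicit false
set_option linter.unusedSectionVars false
set_option linter.unusedSimpArgs false
set_option linter.unnecessarySeqFocus false

namespace Claimed.Agent.R286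

open Finset

/-! ## 1. data -/

/-- depth, masses, cumulative clocks, centres -/
structure LiDat where
  N : ℕ
  ms : ℕ → ℝ
  b : ℕ → ℝ
  h : ℕ → ℝ
  S : ℕ → ℝ

/-- elementary properties of the data -/
structure LiDat.Ok (D : LiDat) : Prop where
  ms_nonneg : ∀ j, 0 ≤ D.ms j
  ms_mono : Monotone D.ms
  ms_top : ∀ j, D.N ≤ j → D.ms j = 1
  b_mono : Monotone D.b
  h_mono : Monotone D.h
  S_mono : Monotone D.S
  b_zero : D.b 0 = 0
  h_zero : D.h 0 = 0
  S_nonneg : ∀ r, 0 ≤ D.S r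
  S_le : ∀ r, D.S r ≤ 1
  flat : ∀ r, D.N ≤ r → D.b r = D.b D.N ∧ D.h r = D.h D.N ∧ D.S r = D.S D.N

/-- the scalar clock -/
def LiDat.K (D : LiDat) (r : ℕ) : ℝ := D.h r + D.b r * D.S r

/-! ## 2. features and kernels -/

/-- driver coordinates of one block -/
abbrev LiDr (m : ℕ) : Type := (Fin m × Fin m) ⊕ (Fin m ⊕ Unit)

/-- the deleted overlap, normalised by `n = m + 1` -/
noncomputable def liR {m : ℕ} (ω ω' : SkCfg m) : ℝ := (∑ i, skSp ω i * skSp ω' i) / ((m : ℝ) + 1)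

/-- the four feature blocks -/
noncomputable def liFeat (m : ℕ) (r : Fin 4) (x : Bool × SkCfg m) : LiDr m → ℝ :=
  if r = 0 then Sum.elim (fun p => skSp x.2 p.1 * skSp x.2 p.2 / Real.sqrt (2 * ((m : ℝ) + 1))) fun _ => 0
  else if r = 1 then Sum.elim (fun _ => 0) (Sum.elim (fun i => skSp x.2 i) fun _ => 0)
  else if r = 2 then Sum.elim (fun _ => 0) (Sum.elim (fun _ => 0) fun _ => ledSg x.1)
  else Sum.elim (fun _ => 0) (Sum.elim (fun i => ledSg x.1 * skSp x.2 i / Real.sqrt ((m : ℝ) + 1)) fun _ => 0)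

theorem li_n_pos (m : ℕ) : (0 : ℝ) < (m : ℝ) + 1 := by positivity

theorem li_ker0 {m : ℕ} (x y : Bool × SkCfg m) :
    gcKer (liFeat m) 0 x y = ((m : ℝ) + 1) * liR x.2 y.2 ^ 2 / 2 := by
  have hn := li_n_pos m
  have hs : Real.sqrt (2 * ((m : ℝ) + 1)) * Real.sqrt (2 * ((m : ℝ) + 1)) = 2 * ((m : ℝ) + 1) :=
    Real.mul_self_sqrt (by positivity)
  have hs0 : Real.sqrt (2 * ((m : ℝ) + 1)) ≠ 0 := by positivity
  unfold gcKer liFeat liR
  simp only [if_true, Fintype.sum_sum_type, Sum.elim_inl, Sum.elim_inr, mul_zero, Finset.sum_const_zero, add_zero]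
  rw [Fintype.sum_prod_type]
  have e : ∀ i j : Fin m, skSp x.2 i * skSp x.2 j / Real.sqrt (2 * ((m : ℝ) + 1)) *
      (skSp y.2 i * skSp y.2 j / Real.sqrt (2 * ((m : ℝ) + 1)))
      = (skSp x.2 i * skSp y.2 i) * (skSp x.2 j * skSp y.2 j) / (2 * ((m : ℝ) + 1)) := by
    intro i j
    rw [div_mul_div_comm, hs]; ring
  simp only [e]
  simp only [← Finset.sum_div, ← Finset.mul_sum, ← Finset.sum_mul]
  field_simp

theorem li_ker1 {m : ℕ} (x y : Bool × SkCfg m) :
    gcKer (liFeat m) 1 x y = ((m : ℝ) + 1) * liR x.2 y.2 := by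
  have hn := li_n_pos m
  unfold gcKer liFeat liR
  simp only [show (1 : Fin 4) ≠ 0 by decide, if_false, if_true, Fintype.sum_sum_type, Sum.elim_inl, Sum.elim_inr, mul_zero,
    Finset.sum_const_zero, add_zero, zero_add]
  field_simp

theorem li_ker2 {m : ℕ} (x y : Bool × SkCfg m) :
    gcKer (liFeat m) 2 x y = ledSg x.1 * ledSg y.1 := by
  unfold gcKer liFeat
  simp only [show (2 : Fin 4) ≠ 0 by decide, show (2 : Fin 4) ≠ 1 by decide, if_false, if_true, Fintype.sum_sum_type,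
    Sum.elim_inl, Sum.elim_inr, mul_zero, Finset.sum_const_zero, zero_add, Finset.univ_unique, Finset.sum_singleton]

theorem li_ker3 {m : ℕ} (x y : Bool × SkCfg m) :
    gcKer (liFeat m) 3 x y = ledSg x.1 * ledSg y.1 * liR x.2 y.2 := by
  have hn := li_n_pos m
  have hs : Real.sqrt ((m : ℝ) + 1) * Real.sqrt ((m : ℝ) + 1) = (m : ℝ) + 1 := Real.mul_self_sqrt hn.le
  have hs0 : Real.sqrt ((m : ℝ) + 1) ≠ 0 := by positivity
  unfold gcKer liFeat liR
  simp only [show (3 : Fin 4) ≠ 0 by decide, show (3 : Fin 4) ≠ 1 by decide, show (3 : Fin 4) ≠ 2 by decide, if_false,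
    Fintype.sum_sum_type, Sum.elim_inl, Sum.elim_inr, mul_zero, Finset.sum_const_zero, add_zero, zero_add]
  have e : ∀ i : Fin m, ledSg x.1 * skSp x.2 i / Real.sqrt ((m : ℝ) + 1) * (ledSg y.1 * skSp y.2 i / Real.sqrt ((m : ℝ) + 1))
      = ledSg x.1 * ledSg y.1 * (skSp x.2 i * skSp y.2 i) / ((m : ℝ) + 1) := by
    intro i
    rw [div_mul_div_comm, hs]; ring
  simp only [e]
  rw [← Finset.sum_div, ← Finset.mul_sum]
  ring

/-! ## 3. clocked hierarchies -/

/-- the hierarchy with the cumulative block clocks `c r k` -/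
def liHs (D : LiDat) (c : ℕ → Fin 4 → ℝ) : List (ℝ × (Fin 4 → ℝ)) :=
  (List.range D.N).map fun j => (D.ms j, fun k => c (j + 1) k - c j k)

/-- the affine family between two families of block clocks -/
def liAff (D : LiDat) (c0 c1 : ℕ → Fin 4 → ℝ) : List (ℝ × (Fin 4 → ℝ) × (Fin 4 → ℝ)) :=
  (List.range D.N).map fun j => (D.ms j, (fun k => c0 (j + 1) k - c0 j k),
    fun k => (c1 (j + 1) k - c1 j k) - (c0 (j + 1) k - c0 j k))

/-- segment of block clocks -/
def liSeg (c0 c1 : ℕ → Fin 4 → ℝ) (θ : ℝ) (r : ℕ) (k : Fin 4) : ℝ := c0 r k + θ * (c1 r k - c0 r k)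

/-- nondecreasing block clocks -/
def LiInc (c : ℕ → Fin 4 → ℝ) : Prop := ∀ j k, c j k ≤ c (j + 1) k

theorem li_aff (D : LiDat) (c0 c1 : ℕ → Fin 4 → ℝ) (θ : ℝ) :
    gcAff (liAff D c0 c1) θ = liHs D (liSeg c0 c1 θ) := by
  unfold gcAff liAff liHs liSeg
  rw [List.map_map]
  refine List.map_congr_left fun j _ => ?_
  simp only [Function.comp]
  congr 1
  funext k
  ring

theorem li_aff_len (D : LiDat) (c0 c1 : ℕ → Fin 4 → ℝ) : (liAff D c0 c1).length = D.N := by
  simp [liAff]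

theorem li_aff_adm {D : LiDat} (hD : D.Ok) {c0 c1 : ℕ → Fin 4 → ℝ} (h0 : LiInc c0) (h1 : LiInc c1) :
    GcAffAdm 1 (liAff D c0 c1) := by
  constructor
  · unfold liAff
    rw [List.map_map, List.pairwise_map]
    refine List.Pairwise.imp ?_ List.pairwise_lt_range
    intro i j hij
    exact hD.ms_mono hij.le
  · intro x hx
    unfold liAff at hx
    rw [List.mem_map] at hx
    obtain ⟨j, _, rfl⟩ := hx
    refine ⟨⟨hD.ms_nonneg j, ?_⟩, fun k => ⟨?_, ?_⟩⟩
    · rw [← hD.ms_top (max j D.N) (le_max_right _ _)]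
      exact hD.ms_mono (le_max_left _ _)
    · simp only; linarith [h0 j k]
    · simp only; linarith [h1 j k]

theorem li_aff_ms {D : LiDat} (hD : D.Ok) (c0 c1 : ℕ → Fin 4 → ℝ) : gcMs 1 (liAff D c0 c1) = D.ms := by
  funext j
  unfold gcMs liAff
  by_cases hj : j < D.N
  · simp [hj]
  · simp [hj, hD.ms_top j (not_lt.1 hj)]

theorem li_aff_DK {m : ℕ} (D : LiDat) (c0 c1 : ℕ → Fin 4 → ℝ) {j : ℕ} (hj : j < D.N) (x y : Bool × SkCfg m) :
    gcDK (liFeat m) (liAff D c0 c1) j x y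
      = ∑ k, ((c1 (j + 1) k - c0 (j + 1) k) - (c1 j k - c0 j k)) * gcKer (liFeat m) k x y := by
  unfold gcDK liAff
  refine Finset.sum_congr rfl fun k _ => ?_
  simp only [List.getElem?_map, List.getElem?_range hj, Option.map_some, Option.getD_some]
  ring

/-- the accumulated change of covariance -/
theorem li_aff_V {m : ℕ} (D : LiDat) (c0 c1 : ℕ → Fin 4 → ℝ) (r : ℕ) (x y : Bool × SkCfg m) :
    trV (gcDK (liFeat m) (liAff D c0 c1)) D.N r x y
      = ∑ k, ((c1 (min r D.N) k - c0 (min r D.N) k) - (c1 0 k - c0 0 k)) * gcKer (liFeat m) k x y := by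
  unfold trV
  have h1 : ∀ j ∈ Finset.range (min r D.N), gcDK (liFeat m) (liAff D c0 c1) j x y
      = ∑ k, ((c1 (j + 1) k - c0 (j + 1) k) - (c1 j k - c0 j k)) * gcKer (liFeat m) k x y := by
    intro j hj
    exact li_aff_DK D c0 c1 (lt_of_lt_of_le (Finset.mem_range.1 hj) (min_le_right _ _)) x y
  rw [Finset.sum_congr rfl h1, Finset.sum_comm]
  refine Finset.sum_congr rfl fun k _ => ?_
  rw [← Finset.sum_mul, Finset.sum_range_sub (fun j => c1 j k - c0 j k)]

/-! ## 4. the laws -/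

/-- uniform prior on site x rest, terminal mass `1` -/
noncomputable def liB (m : ℕ) : GhB (Bool × SkCfg m) := ghUnif (Bool × SkCfg m) 1

theorem li_B_ok (m : ℕ) : (liB m).Ok := by
  have hc : (0 : ℝ) < (Fintype.card (Bool × SkCfg m) : ℝ) := by
    exact_mod_cast Fintype.card_pos
  refine ⟨fun s => ?_, ?_, ?_⟩
  · simp only [liB, ghUnif]; positivity
  · simp only [liB, ghUnif, Finset.sum_const, Finset.card_univ, nsmul_eq_mul]
    exact mul_inv_cancel₀ hc.ne'
  · simp [liB, ghUnif]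

theorem li_B_a (m : ℕ) : (liB m).a = 1 := rfl

/-- the levels with the block clocks `c` -/
noncomputable def liLs (m : ℕ) (D : LiDat) (c : ℕ → Fin 4 → ℝ) : List (GhLv (Bool × SkCfg m) (Fin 4 × LiDr m)) :=
  gcLs (liFeat m) (liHs D c)

/-- tree numbers with the block clocks `c` -/
noncomputable def liNu (m : ℕ) (D : LiDat) (c : ℕ → Fin 4 → ℝ) (q : ℕ) (τ : ℕ → ℕ → ℕ)
    (P : (ℕ → Bool × SkCfg m) → ℝ) : ℝ := trNu (liB m) (liLs m D c) q τ 0 P

theorem li_seg_self (c : ℕ → Fin 4 → ℝ) (θ : ℝ) : liSeg c c θ = c := by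
  funext r k; simp [liSeg]

theorem li_seg_inc {c0 c1 : ℕ → Fin 4 → ℝ} (h0 : LiInc c0) (h1 : LiInc c1) {θ : ℝ} (hθ : θ ∈ Set.Icc (0 : ℝ) 1) :
    LiInc (liSeg c0 c1 θ) := by
  intro j k
  unfold liSeg
  have e : ∀ r, c0 r k + θ * (c1 r k - c0 r k) = (1 - θ) * c0 r k + θ * c1 r k := fun r => by ring
  rw [e, e]
  exact add_le_add (mul_le_mul_of_nonneg_left (h0 j k) (by linarith [hθ.2])) (mul_le_mul_of_nonneg_left (h1 j k) hθ.1)

theorem li_ls_len (m : ℕ) (D : LiDat) (c : ℕ → Fin 4 → ℝ) : (liLs m D c).length = D.N := by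
  simp [liLs, gcLs, liHs]

theorem li_ls_adm (m : ℕ) {D : LiDat} (hD : D.Ok) {c : ℕ → Fin 4 → ℝ} (hc : LiInc c) :
    GhAdm (liB m) 0 (liLs m D c) := by
  have h := (gc_adm (B := liB m) (liFeat m) (hs := liAff D c c) (li_aff_adm hD hc hc) 0).1
  rwa [li_aff, li_seg_self] at h

theorem li_ls_ms (m : ℕ) {D : LiDat} (hD : D.Ok) {c : ℕ → Fin 4 → ℝ} (hc : LiInc c) :
    trMs (liB m) (liLs m D c) = D.ms := by
  have h := (gc_adm (B := liB m) (liFeat m) (hs := liAff D c c) (li_aff_adm hD hc hc) 0).2.2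
  rw [li_aff, li_seg_self] at h
  funext j
  rw [← li_aff_ms hD c c]
  exact h j

theorem li_gcNu (m : ℕ) (D : LiDat) (c0 c1 : ℕ → Fin 4 → ℝ) (θ : ℝ) (q : ℕ) (τ : ℕ → ℕ → ℕ)
    (P : (ℕ → Bool × SkCfg m) → ℝ) :
    gcNu (liB m) (liFeat m) (liAff D c0 c1) θ q τ 0 P = liNu m D (liSeg c0 c1 θ) q τ P := by
  unfold gcNu liNu liLs
  rw [li_aff]

/-- the insertion of formula (2) along a segment of block clocks -/
noncomputable def liIns (m : ℕ) (D : LiDat) (c0 c1 : ℕ → Fin 4 → ℝ) (r : ℕ) (x y : Bool × SkCfg m) : ℝ :=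
  ∑ k, ((c1 (min r D.N) k - c0 (min r D.N) k) - (c1 0 k - c0 0 k)) * gcKer (liFeat m) k x y

/-- **formula (2) along a segment of block clocks** -/
theorem li_deriv (m : ℕ) {D : LiDat} (hD : D.Ok) {c0 c1 : ℕ → Fin 4 → ℝ} (h0 : LiInc c0) (h1 : LiInc c1)
    {q : ℕ} {τ : ℕ → ℕ → ℕ} (hτ : IsTr D.N q τ) (P : (ℕ → Bool × SkCfg m) → ℝ) (hP : TrUses q P)
    {θ : ℝ} (hθ : θ ∈ Set.Icc (0 : ℝ) 1) :
    HasDerivWithinAt (fun θ => liNu m D (liSeg c0 c1 θ) q τ P)
      (1 / 2 * trSumK D.ms D.N 2 q τ fun τ' => liNu m D (liSeg c0 c1 θ) (q + 2) τ' fun σ =>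
        P σ * liIns m D c0 c1 (τ' q (q + 1)) (σ q) (σ (q + 1)))
      (Set.Icc 0 1) θ := by
  have hτ' : IsTr (liAff D c0 c1).length q τ := by rw [li_aff_len]; exact hτ
  have h := tr_cov_deriv (li_B_ok m) (liFeat m) (hs := liAff D c0 c1) (li_aff_adm hD h0 h1) hτ' 0 P hP hθ
  rw [li_B_a, li_aff_ms hD, li_aff_len] at h
  simp only [li_gcNu, li_aff_V] at h
  exact h

/-! ## 5. the row family -/

/-- cumulative clocks of the four blocks of the row family `ν_{lam,t}` -/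
def LiDat.clk (D : LiDat) (lam : ℕ → ℝ) (t : ℝ) (r : ℕ) (k : Fin 4) : ℝ :=
  if k = 0 then D.b r else if k = 1 then D.h r
  else if k = 2 then lam r * ((1 - t) * D.K r + t * D.h r) else t * lam r * D.b r

theorem li_clk0 (D : LiDat) (lam : ℕ → ℝ) (t : ℝ) (r : ℕ) : D.clk lam t r 0 = D.b r := by simp [LiDat.clk]
theorem li_clk1 (D : LiDat) (lam : ℕ → ℝ) (t : ℝ) (r : ℕ) : D.clk lam t r 1 = D.h r := by simp [LiDat.clk]
theorem li_clk2 (D : LiDat) (lam : ℕ → ℝ) (t : ℝ) (r : ℕ) :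
    D.clk lam t r 2 = lam r * ((1 - t) * D.K r + t * D.h r) := by
  simp [LiDat.clk, show (2 : Fin 4) ≠ 0 by decide, show (2 : Fin 4) ≠ 1 by decide]
theorem li_clk3 (D : LiDat) (lam : ℕ → ℝ) (t : ℝ) (r : ℕ) : D.clk lam t r 3 = t * lam r * D.b r := by
  simp [LiDat.clk, show (3 : Fin 4) ≠ 0 by decide, show (3 : Fin 4) ≠ 1 by decide, show (3 : Fin 4) ≠ 2 by decide]

theorem LiDat.Ok.b_nonneg {D : LiDat} (hD : D.Ok) (r : ℕ) : 0 ≤ D.b r := by
  rw [← hD.b_zero]; exact hD.b_mono (Nat.zero_le r)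
theorem LiDat.Ok.h_nonneg {D : LiDat} (hD : D.Ok) (r : ℕ) : 0 ≤ D.h r := by
  rw [← hD.h_zero]; exact hD.h_mono (Nat.zero_le r)
theorem LiDat.Ok.K_mono {D : LiDat} (hD : D.Ok) : Monotone D.K := by
  intro i j hij
  unfold LiDat.K
  exact add_le_add (hD.h_mono hij) (mul_le_mul (hD.b_mono hij) (hD.S_mono hij) (hD.S_nonneg i) (hD.b_nonneg j))
theorem LiDat.Ok.K_zero {D : LiDat} (hD : D.Ok) : D.K 0 = 0 := by
  simp [LiDat.K, hD.h_zero, hD.b_zero]
theorem LiDat.Ok.K_nonneg {D : LiDat} (hD : D.Ok) (r : ℕ) : 0 ≤ D.K r := by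
  rw [← hD.K_zero]; exact hD.K_mono (Nat.zero_le r)

theorem li_clk_inc {D : LiDat} (hD : D.Ok) {lam : ℕ → ℝ} (hl : LedProf lam) {t : ℝ} (ht : t ∈ Set.Icc (0 : ℝ) 1) :
    LiInc (D.clk lam t) := by
  have h1t : 0 ≤ 1 - t := by linarith [ht.2]
  intro j k
  have hj : j ≤ j + 1 := Nat.le_succ j
  fin_cases k
  · show D.clk lam t j 0 ≤ D.clk lam t (j + 1) 0
    rw [li_clk0, li_clk0]; exact hD.b_mono hj
  · show D.clk lam t j 1 ≤ D.clk lam t (j + 1) 1
    rw [li_clk1, li_clk1]; exact hD.h_mono hj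
  · show D.clk lam t j 2 ≤ D.clk lam t (j + 1) 2
    rw [li_clk2, li_clk2]
    refine mul_le_mul (hl.mono hj) ?_ ?_ (hl.nonneg _)
    · exact add_le_add (mul_le_mul_of_nonneg_left (hD.K_mono hj) h1t) (mul_le_mul_of_nonneg_left (hD.h_mono hj) ht.1)
    · exact add_nonneg (mul_nonneg h1t (hD.K_nonneg j)) (mul_nonneg ht.1 (hD.h_nonneg j))
  · show D.clk lam t j 3 ≤ D.clk lam t (j + 1) 3
    rw [li_clk3, li_clk3]
    exact mul_le_mul (mul_le_mul_of_nonneg_left (hl.mono hj) ht.1) (hD.b_mono hj) (hD.b_nonneg j)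
      (mul_nonneg ht.1 (hl.nonneg _))

theorem li_clk_segL (D : LiDat) (lam0 lam1 : ℕ → ℝ) (t θ : ℝ) :
    liSeg (D.clk lam0 t) (D.clk lam1 t) θ = D.clk (ledSeg lam0 lam1 θ) t := by
  funext r k
  unfold liSeg
  fin_cases k
  · show D.clk lam0 t r 0 + θ * (D.clk lam1 t r 0 - D.clk lam0 t r 0) = D.clk _ t r 0
    simp only [li_clk0]; ring
  · show D.clk lam0 t r 1 + θ * (D.clk lam1 t r 1 - D.clk lam0 t r 1) = D.clk _ t r 1
    simp only [li_clk1]; ring
  · show D.clk lam0 t r 2 + θ * (D.clk lam1 t r 2 - D.clk lam0 t r 2) = D.clk _ t r 2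
    simp only [li_clk2, ledSeg]; ring
  · show D.clk lam0 t r 3 + θ * (D.clk lam1 t r 3 - D.clk lam0 t r 3) = D.clk _ t r 3
    simp only [li_clk3, ledSeg]; ring

theorem li_clk_segT (D : LiDat) (lam : ℕ → ℝ) (t : ℝ) :
    liSeg (D.clk lam 0) (D.clk lam 1) t = D.clk lam t := by
  funext r k
  unfold liSeg
  fin_cases k
  · show D.clk lam 0 r 0 + t * (D.clk lam 1 r 0 - D.clk lam 0 r 0) = D.clk _ t r 0
    simp only [li_clk0]; ring
  · show D.clk lam 0 r 1 + t * (D.clk lam 1 r 1 - D.clk lam 0 r 1) = D.clk _ t r 1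
    simp only [li_clk1]; ring
  · show D.clk lam 0 r 2 + t * (D.clk lam 1 r 2 - D.clk lam 0 r 2) = D.clk _ t r 2
    simp only [li_clk2]; ring
  · show D.clk lam 0 r 3 + t * (D.clk lam 1 r 3 - D.clk lam 0 r 3) = D.clk _ t r 3
    simp only [li_clk3]; ring

/-- **the system** -/
noncomputable def liSys (m : ℕ) (D : LiDat) : LedSys (SkCfg m) where
  N := D.N
  ms := D.ms
  b := D.b
  h := D.h
  S := D.S
  R := liR
  nu := fun lam t q τ P => liNu m D (D.clk lam t) q τ P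

theorem li_insL (m : ℕ) {D : LiDat} (hD : D.Ok) (lam0 lam1 : ℕ → ℝ) (t : ℝ) (r : ℕ) (x y : Bool × SkCfg m) :
    liIns m D (D.clk lam0 t) (D.clk lam1 t) r x y
      = (lam1 (min r D.N) - lam0 (min r D.N)) * (liSys m D).kRow t (min r D.N) x y := by
  unfold liIns LedSys.kRow LedSys.K LedSys.dl
  rw [Fin.sum_univ_four]
  simp only [li_clk0, li_clk1, li_clk2, li_clk3, li_ker0, li_ker1, li_ker2, li_ker3, hD.K_zero, hD.h_zero, hD.b_zero, liSys,
    LiDat.K]
  ring

theorem li_insT (m : ℕ) {D : LiDat} (hD : D.Ok) (lam : ℕ → ℝ) (r : ℕ) (x y : Bool × SkCfg m) :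
    liIns m D (D.clk lam 0) (D.clk lam 1) r x y = lam (min r D.N) * (liSys m D).kErr (min r D.N) x y := by
  unfold liIns LedSys.kErr LedSys.dl
  rw [Fin.sum_univ_four]
  simp only [li_clk0, li_clk1, li_clk2, li_clk3, li_ker0, li_ker1, li_ker2, li_ker3, hD.K_zero, hD.h_zero, hD.b_zero, liSys,
    LiDat.K]
  ring

/-! ## 6. positive laws: elementary fields -/

theorem li_mean (m : ℕ) {D : LiDat} (hD : D.Ok) {c : ℕ → Fin 4 → ℝ} (hc : LiInc c) (q : ℕ) (τ : ℕ → ℕ → ℕ) :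
    LedMean (liNu m D c q τ) := by
  have hadm := li_ls_adm m hD hc
  have hs := fun P => tr_nu_eq_sum (li_B_ok m) hadm q τ 0 P
  refine ⟨fun f g => ?_, fun a f => ?_, fun f hf => ?_, ?_⟩
  · unfold liNu
    rw [hs, hs, hs, ← Finset.sum_add_distrib]
    exact Finset.sum_congr rfl fun σ _ => by ring
  · unfold liNu
    rw [hs, hs, Finset.mul_sum]
    exact Finset.sum_congr rfl fun σ _ => by ring
  · unfold liNu
    rw [hs]
    exact Finset.sum_nonneg fun σ _ => mul_nonneg (tr_pr_nonneg (li_B_ok m) hadm q τ 0 σ) (hf _)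
  · unfold liNu
    rw [hs]
    simp only [mul_one]
    exact tr_pr_sum (li_B_ok m) hadm q τ 0

theorem li_congr (m : ℕ) (D : LiDat) (c : ℕ → Fin 4 → ℝ) {q : ℕ} {τ τ' : ℕ → ℕ → ℕ}
    (h : ∀ x y, x < q → y < q → τ x y = τ' x y) (P : (ℕ → Bool × SkCfg m) → ℝ) :
    liNu m D c q τ P = liNu m D c q τ' P := tr_nu_congr _ _ h 0 P

theorem li_prune (m : ℕ) {D : LiDat} (hD : D.Ok) {c : ℕ → Fin 4 → ℝ} (hc : LiInc c) {q : ℕ} {τ : ℕ → ℕ → ℕ}
    (hτ : IsTr D.N (q + 1) τ) {P : (ℕ → Bool × SkCfg m) → ℝ} (hP : TrUses q P) :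
    liNu m D c (q + 1) τ P = liNu m D c q τ P :=
  tr_nu_prune (li_B_ok m) (li_ls_adm m hD hc) (by rw [li_ls_len]; exact hτ) 0 hP

theorem li_perm (m : ℕ) {D : LiDat} (hD : D.Ok) {c : ℕ → Fin 4 → ℝ} (hc : LiInc c) {q : ℕ} {τ : ℕ → ℕ → ℕ}
    (hτ : IsTr D.N q τ) (P : (ℕ → Bool × SkCfg m) → ℝ) (hP : TrUses q P) (e : Equiv.Perm ℕ) (he : ∀ x, q ≤ x → e x = x) :
    liNu m D c q (fun x y => τ (e x) (e y)) (fun σ => P fun i => σ (e.symm i)) = liNu m D c q τ P :=
  tr_nu_perm (li_B_ok m) (li_ls_adm m hD hc) (by rw [li_ls_len]; exact hτ) 0 P hP e he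

theorem li_coinc (m : ℕ) {D : LiDat} (hD : D.Ok) {c : ℕ → Fin 4 → ℝ} (hc : LiInc c) {q : ℕ} {τ : ℕ → ℕ → ℕ}
    (hτ : IsTr D.N q τ) (P : (ℕ → Bool × SkCfg m) → ℝ) {x y : ℕ} (hx : x < q) (hy : y < q) (hxy : τ x y = D.N + 1) :
    liNu m D c q τ P = liNu m D c q τ fun σ => P (Function.update σ y (σ x)) :=
  tr_nu_coinc (li_B_ok m) (li_ls_adm m hD hc) (by rw [li_ls_len]; exact hτ) 0 P hx hy (by rw [li_ls_len]; exact hxy)

/-! ## 7. the constant diagonal has total weight zero -/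

theorem li_trSum_add (ms : ℕ → ℝ) (N q : ℕ) (τ : ℕ → ℕ → ℕ) (Φ Ψ : (ℕ → ℕ → ℕ) → ℝ) :
    trSum ms N q τ (fun τ' => Φ τ' + Ψ τ') = trSum ms N q τ Φ + trSum ms N q τ Ψ := by
  unfold trSum
  simp only [mul_add, Finset.sum_add_distrib]

theorem li_trSum_mul (ms : ℕ → ℝ) (N q : ℕ) (τ : ℕ → ℕ → ℕ) (a : ℝ) (Φ : (ℕ → ℕ → ℕ) → ℝ) :
    trSum ms N q τ (fun τ' => a * Φ τ') = a * trSum ms N q τ Φ := by
  unfold trSum
  simp only [Finset.mul_sum]
  exact Finset.sum_congr rfl fun x _ => Finset.sum_congr rfl fun j _ => by ring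

/-- total signed mass of one label at the root -/
theorem li_root_sum {N q : ℕ} {τ : ℕ → ℕ → ℕ} (ms : ℕ → ℝ) (hτ : IsTr N q τ) :
    ∑ x ∈ Finset.range q, ∑ j ∈ Finset.range (N + 2), trWt ms N q τ x j = 0 := by
  rcases Nat.eq_zero_or_pos q with rfl | hq
  · simp
  have h := tr_row_sum (ms := ms) hτ (x := 0) (j0 := 0) hq (Nat.zero_le _)
  have e1 : (Finset.range q).filter (fun y => 0 ≤ τ 0 y) = Finset.range q :=
    Finset.filter_true_of_mem fun _ _ => Nat.zero_le _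
  have e2 : Finset.Icc 0 (N + 1) = Finset.range (N + 2) := by
    ext j; simp only [Finset.mem_Icc, Finset.mem_range]; omega
  rw [e1, e2] at h
  rw [h]; simp [trPm]

/-- the mass of the placements of the label `q + 1` which coincide with the label `q` -/
theorem li_coin_inner {N q : ℕ} {τ₁ : ℕ → ℕ → ℕ} (ms : ℕ → ℝ) (hτ : IsTr N (q + 1) τ₁) :
    trSum ms N (q + 1) τ₁ (fun τ₂ => if τ₂ q (q + 1) = N + 1 then 1 else 0) = ms N := by
  have h := tr_row_sum (ms := ms) hτ (x := q) (j0 := N + 1) (Nat.lt_succ_self q) le_rfl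
  have e0 : trPm ms (N + 1) = ms N := by simp [trPm]
  rw [e0] at h
  rw [← h]
  unfold trSum
  rw [Finset.sum_filter]
  refine Finset.sum_congr rfl fun x hx => ?_
  have hatt : ∀ j, trAtt N (q + 1) τ₁ x j q (q + 1) = min j (τ₁ q x) := by
    intro j
    simp [trAtt]
  simp only [hatt, Finset.Icc_self, Finset.sum_singleton]
  rw [Finset.sum_eq_single (N + 1)]
  · by_cases hc : N + 1 ≤ τ₁ q x
    · rw [if_pos hc, if_pos (min_eq_left hc), mul_one]
    · rw [if_neg hc, if_neg, mul_zero]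
      intro hmin
      exact hc (hmin ▸ min_le_right _ _)
  · intro j hj hne
    rw [if_neg, mul_zero]
    intro hmin
    have h1 : N + 1 ≤ j := hmin ▸ min_le_left _ _
    have h2 := Finset.mem_range.1 hj
    omega
  · intro hn
    exact absurd (Finset.mem_range.2 (Nat.lt_succ_self (N + 1))) hn

/-- the two new labels coincide: total signed mass `0` -/
theorem li_coin_mass {N q : ℕ} {τ : ℕ → ℕ → ℕ} (ms : ℕ → ℝ) (hτ : IsTr N q τ) :
    trSumK ms N 2 q τ (fun τ' => if τ' q (q + 1) = N + 1 then 1 else 0) = 0 := by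
  show trSum ms N q τ (fun τ₁ => trSum ms N (q + 1) τ₁ fun τ₂ => if τ₂ q (q + 1) = N + 1 then 1 else 0) = 0
  unfold trSum
  have h1 : ∀ x ∈ Finset.range q, ∀ j ∈ Finset.range (N + 2),
      trWt ms N q τ x j * (∑ x' ∈ Finset.range (q + 1), ∑ j' ∈ Finset.range (N + 2), trWt ms N (q + 1) (trAtt N q τ x j) x' j' *
        (if trAtt N (q + 1) (trAtt N q τ x j) x' j' q (q + 1) = N + 1 then (1 : ℝ) else 0))
      = trWt ms N q τ x j * ms N := by
    intro x hx j hj
    have ht := tr_att_isTr hτ (Finset.mem_range.1 hx) (Nat.lt_succ_iff.1 (Finset.mem_range.1 hj))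
    have := li_coin_inner ms ht
    unfold trSum at this
    rw [this]
  rw [Finset.sum_congr rfl fun x hx => Finset.sum_congr rfl (h1 x hx)]
  simp only [← Finset.sum_mul]
  rw [li_root_sum ms hτ, zero_mul]

theorem li_uses_mono {X : Type} {q q' : ℕ} {P : (ℕ → X) → ℝ} (hP : TrUses q P) (h : q ≤ q') : TrUses q' P :=
  fun σ σ' hσ => hP σ σ' fun i hi => hσ i (lt_of_lt_of_le hi h)

theorem li_sumK2_lin (ms : ℕ → ℝ) (N q : ℕ) (τ : ℕ → ℕ → ℕ) (a : ℝ) (Φ Ψ : (ℕ → ℕ → ℕ) → ℝ) :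
    trSumK ms N 2 q τ (fun τ' => Φ τ' + a * Ψ τ') = trSumK ms N 2 q τ Φ + a * trSumK ms N 2 q τ Ψ := by
  show trSum ms N q τ (fun τ₁ => trSum ms N (q + 1) τ₁ fun τ₂ => Φ τ₂ + a * Ψ τ₂)
    = trSum ms N q τ (fun τ₁ => trSum ms N (q + 1) τ₁ Φ) + a * trSum ms N q τ (fun τ₁ => trSum ms N (q + 1) τ₁ Ψ)
  simp only [li_trSum_add, li_trSum_mul]

/-- marginalisation of the two new labels -/
theorem li_prune2 (m : ℕ) {D : LiDat} (hD : D.Ok) {c : ℕ → Fin 4 → ℝ} (hc : LiInc c) {q : ℕ} {τ τ' : ℕ → ℕ → ℕ}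
    (hτ' : IsTr D.N (q + 2) τ') (hold : ∀ y z, y < q → z < q → τ' y z = τ y z)
    {P : (ℕ → Bool × SkCfg m) → ℝ} (hP : TrUses q P) :
    liNu m D c (q + 2) τ' P = liNu m D c q τ P := by
  rw [li_prune m hD hc (q := q + 1) hτ' (li_uses_mono hP (Nat.le_succ q)),
    li_prune m hD hc (tr_isTr_mono hτ' (Nat.le_succ (q + 1))) hP]
  exact li_congr m D c hold P

/-- **the diagonal lemma**: two insertions which agree off the coincidences and differ by a constant on the diagonal give the same signed sum -/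
theorem li_diag (m : ℕ) {D : LiDat} (hD : D.Ok) {c : ℕ → Fin 4 → ℝ} (hc : LiInc c) {q : ℕ} {τ : ℕ → ℕ → ℕ}
    (hτ : IsTr D.N q τ) (P : (ℕ → Bool × SkCfg m) → ℝ) (hP : TrUses q P)
    (Ψ Ψ' : ℕ → Bool × SkCfg m → Bool × SkCfg m → ℝ) (κ : ℝ)
    (hlow : ∀ r, r ≤ D.N → ∀ x y, Ψ r x y = Ψ' r x y) (hdiag : ∀ x, Ψ (D.N + 1) x x = Ψ' (D.N + 1) x x + κ) :
    trSumK D.ms D.N 2 q τ (fun τ' => liNu m D c (q + 2) τ' fun σ => P σ * Ψ (τ' q (q + 1)) (σ q) (σ (q + 1)))
      = trSumK D.ms D.N 2 q τ fun τ' => liNu m D c (q + 2) τ' fun σ => P σ * Ψ' (τ' q (q + 1)) (σ q) (σ (q + 1)) := by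
  have key : ∀ τ', IsTr D.N (q + 2) τ' → (∀ y z, y < q → z < q → τ' y z = τ y z) →
      (liNu m D c (q + 2) τ' fun σ => P σ * Ψ (τ' q (q + 1)) (σ q) (σ (q + 1)))
        = (liNu m D c (q + 2) τ' fun σ => P σ * Ψ' (τ' q (q + 1)) (σ q) (σ (q + 1)))
          + (κ * liNu m D c q τ P) * (if τ' q (q + 1) = D.N + 1 then 1 else 0) := by
    intro τ' hτ' hold
    have hle := hτ'.le q (q + 1) (by omega) (by omega)
    by_cases hr : τ' q (q + 1) = D.N + 1
    · rw [if_pos hr, mul_one, hr]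
      have hM := li_mean m hD hc (q + 2) τ'
      have hco : ∀ Θ : Bool × SkCfg m → Bool × SkCfg m → ℝ,
          (liNu m D c (q + 2) τ' fun σ => P σ * Θ (σ q) (σ (q + 1)))
            = liNu m D c (q + 2) τ' fun σ => P σ * Θ (σ q) (σ q) := by
        intro Θ
        rw [li_coinc m hD hc hτ' _ (x := q) (y := q + 1) (by omega) (by omega) hr]
        congr 1
        funext σ
        have h1 : P (Function.update σ (q + 1) (σ q)) = P σ :=
          hP _ _ fun i hi => Function.update_of_ne (by omega) _ _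
        have h2 : Function.update σ (q + 1) (σ q) q = σ q := Function.update_of_ne (by omega) _ _
        rw [h1, h2, Function.update_self]
      rw [hco, hco (Ψ' (D.N + 1))]
      have e : (fun σ : ℕ → Bool × SkCfg m => P σ * Ψ (D.N + 1) (σ q) (σ q))
          = fun σ => P σ * Ψ' (D.N + 1) (σ q) (σ q) + κ * P σ := by
        funext σ; rw [hdiag]; ring
      rw [e, hM.add, hM.smul, li_prune2 m hD hc hτ' hold hP]
    · rw [if_neg hr, mul_zero, add_zero]
      have hr' : τ' q (q + 1) ≤ D.N := by omega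
      congr 1
      funext σ
      rw [hlow _ hr']
  rw [tr_sumK_congr hτ 2 _ _ key, li_sumK2_lin, li_coin_mass D.ms hτ, mul_zero, add_zero]

/-! ## 8. formula (2) in the two parameters of the row family -/

theorem li_sg_sq (s : Bool) : ledSg s * ledSg s = 1 := by cases s <;> simp [ledSg]

theorem li_R_diag {m : ℕ} (ω : SkCfg m) : liR ω ω = (m : ℝ) / ((m : ℝ) + 1) := by
  unfold liR
  simp only [sk_d_sp_mul, Finset.sum_const, Finset.card_univ, Fintype.card_fin, nsmul_eq_mul, mul_one]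

theorem li_kRow_diag (m : ℕ) (D : LiDat) (t : ℝ) (r : ℕ) (x : Bool × SkCfg m) :
    (liSys m D).kRow t r x x = D.K r + t * (D.b r * ((m : ℝ) / ((m : ℝ) + 1) - D.S r)) := by
  unfold LedSys.kRow LedSys.K LedSys.dl
  simp only [liSys, li_sg_sq, li_R_diag, one_mul, LiDat.K]

theorem li_kErr_diag (m : ℕ) (D : LiDat) (r : ℕ) (x : Bool × SkCfg m) :
    (liSys m D).kErr r x x = D.b r * ((m : ℝ) / ((m : ℝ) + 1) - D.S r) := by
  unfold LedSys.kErr LedSys.dl
  simp only [liSys, li_sg_sq, li_R_diag, one_mul]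

theorem li_derivL (m : ℕ) {D : LiDat} (hD : D.Ok) {lam0 lam1 : ℕ → ℝ} (h0 : LedProf lam0) (h1 : LedProf lam1)
    {t : ℝ} (ht : t ∈ Set.Icc (0 : ℝ) 1) {q : ℕ} {τ : ℕ → ℕ → ℕ} (hτ : IsTr D.N q τ)
    (P : (ℕ → Bool × SkCfg m) → ℝ) (hP : TrUses q P) {θ : ℝ} (hθ : θ ∈ Set.Icc (0 : ℝ) 1) :
    HasDerivWithinAt (fun θ => (liSys m D).nu (ledSeg lam0 lam1 θ) t q τ P)
      (1 / 2 * trSumK D.ms D.N 2 q τ fun τ' => (liSys m D).nu (ledSeg lam0 lam1 θ) t (q + 2) τ' fun σ =>
        P σ * ((lam1 (τ' q (q + 1)) - lam0 (τ' q (q + 1))) * (liSys m D).kRow t (τ' q (q + 1)) (σ q) (σ (q + 1))))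
      (Set.Icc 0 1) θ := by
  have hc0 := li_clk_inc hD h0 ht
  have hc1 := li_clk_inc hD h1 ht
  have h := li_deriv m hD hc0 hc1 hτ P hP hθ
  simp only [li_clk_segL, li_insL m hD] at h
  have hcθ : LiInc (D.clk (ledSeg lam0 lam1 θ) t) := by
    rw [← li_clk_segL]; exact li_seg_inc hc0 hc1 hθ
  have hd := li_diag m hD hcθ hτ P hP
    (fun r x y => (lam1 r - lam0 r) * (liSys m D).kRow t r x y)
    (fun r x y => (lam1 (min r D.N) - lam0 (min r D.N)) * (liSys m D).kRow t (min r D.N) x y)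
    ((lam1 (D.N + 1) - lam0 (D.N + 1)) * (D.K (D.N + 1) + t * (D.b (D.N + 1) * ((m : ℝ) / ((m : ℝ) + 1) - D.S (D.N + 1))))
      - (lam1 D.N - lam0 D.N) * (D.K D.N + t * (D.b D.N * ((m : ℝ) / ((m : ℝ) + 1) - D.S D.N))))
    (fun r hr x y => by simp only [min_eq_left hr])
    (fun x => by
      simp only [li_kRow_diag, min_eq_right (Nat.le_succ D.N)]
      ring)
  show HasDerivWithinAt (fun θ => liNu m D (D.clk (ledSeg lam0 lam1 θ) t) q τ P)
      (1 / 2 * trSumK D.ms D.N 2 q τ fun τ' => liNu m D (D.clk (ledSeg lam0 lam1 θ) t) (q + 2) τ' fun σ =>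
        P σ * ((lam1 (τ' q (q + 1)) - lam0 (τ' q (q + 1))) * (liSys m D).kRow t (τ' q (q + 1)) (σ q) (σ (q + 1))))
      (Set.Icc 0 1) θ
  rw [hd]
  exact h

theorem li_derivT (m : ℕ) {D : LiDat} (hD : D.Ok) {lam : ℕ → ℝ} (hl : LedProf lam)
    {q : ℕ} {τ : ℕ → ℕ → ℕ} (hτ : IsTr D.N q τ)
    (P : (ℕ → Bool × SkCfg m) → ℝ) (hP : TrUses q P) {t : ℝ} (ht : t ∈ Set.Icc (0 : ℝ) 1) :
    HasDerivWithinAt (fun t => (liSys m D).nu lam t q τ P)
      (1 / 2 * trSumK D.ms D.N 2 q τ fun τ' => (liSys m D).nu lam t (q + 2) τ' fun σ =>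
        P σ * (lam (τ' q (q + 1)) * (liSys m D).kErr (τ' q (q + 1)) (σ q) (σ (q + 1))))
      (Set.Icc 0 1) t := by
  have hc0 := li_clk_inc hD hl (t := 0) ⟨le_rfl, zero_le_one⟩
  have hc1 := li_clk_inc hD hl (t := 1) ⟨zero_le_one, le_rfl⟩
  have h := li_deriv m hD hc0 hc1 hτ P hP ht
  simp only [li_clk_segT, li_insT m hD] at h
  have hd := li_diag m hD (li_clk_inc hD hl ht) hτ P hP
    (fun r x y => lam r * (liSys m D).kErr r x y)
    (fun r x y => lam (min r D.N) * (liSys m D).kErr (min r D.N) x y)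
    (lam (D.N + 1) * (D.b (D.N + 1) * ((m : ℝ) / ((m : ℝ) + 1) - D.S (D.N + 1)))
      - lam D.N * (D.b D.N * ((m : ℝ) / ((m : ℝ) + 1) - D.S D.N)))
    (fun r hr x y => by simp only [min_eq_left hr])
    (fun x => by
      simp only [li_kErr_diag, min_eq_right (Nat.le_succ D.N)]
      ring)
  show HasDerivWithinAt (fun t => liNu m D (D.clk lam t) q τ P)
      (1 / 2 * trSumK D.ms D.N 2 q τ fun τ' => liNu m D (D.clk lam t) (q + 2) τ' fun σ =>
        P σ * (lam (τ' q (q + 1)) * (liSys m D).kErr (τ' q (q + 1)) (σ q) (σ (q + 1))))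
      (Set.Icc 0 1) t
  rw [hd]
  exact h

/-! ## 9. block flip -/

theorem li_ls_get (m : ℕ) (D : LiDat) (c : ℕ → Fin 4 → ℝ) {j : ℕ} (h : j < (liLs m D c).length) :
    (liLs m D c)[j] = gcLv (liFeat m) (D.ms j) fun k => c (j + 1) k - c j k := by
  simp [liLs, gcLs, liHs]

theorem li_cov (m : ℕ) (D : LiDat) {c : ℕ → Fin 4 → ℝ} (hc : LiInc c) {j : ℕ} (h : j < (liLs m D c).length)
    (x y : Bool × SkCfg m) :
    ((liLs m D c)[j]).cov x y = ∑ k, (c (j + 1) k - c j k) * gcKer (liFeat m) k x y := by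
  rw [li_ls_get]
  exact gc_cov (liFeat m) (D.ms j) _ (fun k => by linarith [hc j k]) x y

/-- flip of the site spin -/
def liFl (m : ℕ) : Bool × SkCfg m ≃ Bool × SkCfg m where
  toFun x := (!x.1, x.2)
  invFun x := (!x.1, x.2)
  left_inv x := by simp
  right_inv x := by simp

theorem li_sg_not (s : Bool) : ledSg (!s) = - ledSg s := by cases s <;> simp [ledSg]

theorem li_flip (m : ℕ) {D : LiDat} (hD : D.Ok) {lam : ℕ → ℝ} (hl : LedProf lam) {t : ℝ} (ht : t ∈ Set.Icc (0 : ℝ) 1)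
    {q : ℕ} {τ : ℕ → ℕ → ℕ} (hτ : IsTr D.N q τ) (P : (ℕ → Bool × SkCfg m) → ℝ) (hP : TrUses q P) (k x : ℕ) (hx : x < q)
    (hk : ∀ r, r < k → lam r = 0) :
    (liSys m D).nu lam t q τ (fun σ => P (ledFlip τ k x σ)) = (liSys m D).nu lam t q τ P := by
  have hc := li_clk_inc hD hl ht
  have hadm := li_ls_adm m hD hc
  have hlen := li_ls_len m D (D.clk lam t)
  have hτ' : IsTr (liLs m D (D.clk lam t)).length q τ := by rw [hlen]; exact hτ
  -- covariances under flips
  have hboth : ∀ j (h : j < (liLs m D (D.clk lam t)).length) (s u : Bool × SkCfg m),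
      ((liLs m D (D.clk lam t))[j]).cov (liFl m s) (liFl m u) = ((liLs m D (D.clk lam t))[j]).cov s u := by
    intro j h s u
    rw [li_cov m D hc, li_cov m D hc, Fin.sum_univ_four, Fin.sum_univ_four]
    simp only [li_ker0, li_ker1, li_ker2, li_ker3, liFl, Equiv.coe_fn_mk, li_sg_not]
    ring
  have hlow : ∀ j, j + 1 < k → ∀ (h : j < (liLs m D (D.clk lam t)).length) (s s' u u' : Bool × SkCfg m), s.2 = s'.2 → u.2 = u'.2 →
      ((liLs m D (D.clk lam t))[j]).cov s u = ((liLs m D (D.clk lam t))[j]).cov s' u' := by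
    intro j hj h s s' u u' hs hu
    rw [li_cov m D hc, li_cov m D hc, Fin.sum_univ_four, Fin.sum_univ_four]
    simp only [li_ker0, li_ker1, li_clk2, li_clk3, hk (j + 1) hj, hk j (by omega), hs, hu]
    ring
  have h := tr_sy_nu (B := liB m) (B' := liB m) (ls := liLs m D (D.clk lam t)) (ls' := liLs m D (D.clk lam t))
    (li_B_ok m) (hadm.ghNn le_rfl) hτ' (fun i => if k ≤ τ x i then liFl m else Equiv.refl _) rfl
    (fun _ _ _ => rfl) rfl ?_ ?_ 0 0 (fun _ _ _ => rfl) P hP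
  · show liNu m D (D.clk lam t) q τ (fun σ => P (ledFlip τ k x σ)) = liNu m D (D.clk lam t) q τ P
    unfold liNu
    rw [h]
    congr 1
    funext σ
    congr 1
    funext i
    unfold ledFlip
    split_ifs <;> rfl
  · intro y y' hy hy' j hj hj' hjτ s u
    by_cases h1 : k ≤ τ x y <;> by_cases h2 : k ≤ τ x y'
    · simp only [if_pos h1, if_pos h2]; exact hboth j hj s u
    · simp only [if_pos h1, if_neg h2]
      have hu := hτ.ultra x y y' hx hy hy'
      have : τ y y' < k := by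
        rcases le_total (τ x y) (τ y y') with h3 | h3
        · rw [min_eq_left h3] at hu; omega
        · rw [min_eq_right h3] at hu; omega
      exact hlow j (by omega) hj _ _ _ _ rfl rfl
    · simp only [if_neg h1, if_pos h2]
      have hu := hτ.ultra x y' y hx hy' hy
      have hs := hτ.symm y y' hy hy'
      have : τ y y' < k := by
        rcases le_total (τ x y') (τ y' y) with h3 | h3
        · rw [min_eq_left h3] at hu; omega
        · rw [min_eq_right h3] at hu; omega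
      exact hlow j (by omega) hj _ _ _ _ rfl rfl
    · simp only [if_neg h1, if_neg h2]; rfl
  · intro y y' hy hy' hyy
    rw [hlen] at hyy
    have h1 := hτ.ultra x y y' hx hy hy'
    have h2 := hτ.ultra x y' y hx hy' hy
    have h3 := hτ.symm y y' hy hy'
    have h4 := hτ.le x y hx hy
    have h5 := hτ.le x y' hx hy'
    have : τ x y = τ x y' := by
      rw [hyy, min_eq_left h4] at h1
      rw [← h3, hyy, min_eq_left h5] at h2
      omega
    simp only [this]

/-! ## 10. general facts on clocked hierarchies with four blocks -/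

section gen
variable {X ι : Type} [Fintype X] [Fintype ι] [Inhabited X]

theorem li_unif_ok : (ghUnif X 1).Ok := by
  have hc : (0 : ℝ) < (Fintype.card X : ℝ) := by exact_mod_cast Fintype.card_pos
  refine ⟨fun s => ?_, ?_, ?_⟩
  · simp only [ghUnif]; positivity
  · simp only [ghUnif, Finset.sum_const, Finset.card_univ, nsmul_eq_mul]
    exact mul_inv_cancel₀ hc.ne'
  · simp [ghUnif]

theorem li_gen_adm (feat : Fin 4 → X → ι → ℝ) {D : LiDat} (hD : D.Ok) {c : ℕ → Fin 4 → ℝ} (hc : LiInc c) :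
    GhAdm (ghUnif X 1) 0 (gcLs feat (liHs D c)) := by
  have h := (gc_adm (B := ghUnif X 1) feat (hs := liAff D c c) (li_aff_adm hD hc hc) 0).1
  rwa [li_aff, li_seg_self] at h

theorem li_gen_len (feat : Fin 4 → X → ι → ℝ) (D : LiDat) (c : ℕ → Fin 4 → ℝ) : (gcLs feat (liHs D c)).length = D.N := by
  simp [gcLs, liHs]

theorem li_gen_get (feat : Fin 4 → X → ι → ℝ) (D : LiDat) (c : ℕ → Fin 4 → ℝ) {j : ℕ} (h : j < (gcLs feat (liHs D c)).length) :
    (gcLs feat (liHs D c))[j] = gcLv feat (D.ms j) fun k => c (j + 1) k - c j k := by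
  simp [gcLs, liHs]

theorem li_gen_cov (feat : Fin 4 → X → ι → ℝ) (D : LiDat) {c : ℕ → Fin 4 → ℝ} (hc : LiInc c) {j : ℕ}
    (h : j < (gcLs feat (liHs D c)).length) (x y : X) :
    ((gcLs feat (liHs D c))[j]).cov x y = ∑ k, (c (j + 1) k - c j k) * gcKer feat k x y := by
  rw [li_gen_get]
  exact gc_cov feat (D.ms j) _ (fun k => by linarith [hc j k]) x y

theorem li_gen_m (feat : Fin 4 → X → ι → ℝ) (D : LiDat) (c : ℕ → Fin 4 → ℝ) :
    (gcLs feat (liHs D c)).map GhLv.m = (List.range D.N).map D.ms := by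
  simp only [gcLs, liHs, List.map_map]
  rfl

theorem li_gen_one {B : GhB X} (hB : B.Ok) {ls : List (GhLv X ι)} (hls : GhAdm B 0 ls) (q : ℕ) (τ : ℕ → ℕ → ℕ) (z : X → ℝ) :
    trNu B ls q τ z (fun _ => 1) = 1 := by
  classical
  rw [tr_nu_eq_sum hB hls]
  simp only [mul_one]
  exact tr_pr_sum hB hls q τ z

/-- truncation of a configuration to the labels `< q` -/
def liTr (q : ℕ) (σ : ℕ → X) : ℕ → X := fun i => if i < q then σ i else default

theorem li_trunc (B : GhB X) (ls : List (GhLv X ι)) (q : ℕ) (τ : ℕ → ℕ → ℕ) (z : X → ℝ) (P : (ℕ → X) → ℝ) :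
    trNu B ls q τ z P = trNu B ls q τ z fun σ => P (liTr q σ) := by
  unfold trNu
  congr 1
  funext _ σ
  congr 1
  funext i
  unfold liTr trExt
  split_ifs <;> rfl

theorem li_trunc_uses (q : ℕ) (P : (ℕ → X) → ℝ) : TrUses q fun σ => P (liTr q σ) := by
  intro σ σ' h
  show P (liTr q σ) = P (liTr q σ')
  congr 1
  funext i
  unfold liTr
  split_ifs with hi
  · exact h i hi
  · rfl

/-- composition of a tree with a monotone map of depths -/
theorem li_isTr_comp {N q : ℕ} {τ : ℕ → ℕ → ℕ} (hτ : IsTr N q τ) {g : ℕ → ℕ} (hg : Monotone g) (hN : g (N + 1) = N + 1) :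
    IsTr N q fun x y => g (τ x y) := by
  refine ⟨fun x y hx hy => ?_, fun x hx => ?_, fun x y hx hy => ?_, fun x y z hx hy hz => ?_⟩
  · rw [← hN]; exact hg (hτ.le x y hx hy)
  · show g (τ x x) = N + 1
    rw [hτ.diag x hx, hN]
  · show g (τ x y) = g (τ y x)
    rw [hτ.symm x y hx hy]
  · show min (g (τ x y)) (g (τ y z)) ≤ g (τ x z)
    rw [← hg.map_min]; exact hg (hτ.ultra x y z hx hy hz)

/-- `tr_nu_empty_side` at the level number `p` of a list -/
theorem li_empty_side {B : GhB X} (hB : B.Ok) {ls : List (GhLv X ι)} (hls : GhAdm B 0 ls) {p : ℕ} (hp : p < ls.length)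
    (hl : ∀ s i, (ls[p]).A s i = 0) {q : ℕ} {τ τ' : ℕ → ℕ → ℕ} (hτ : IsTr ls.length q τ) (hτ' : IsTr ls.length q τ')
    (h : ∀ x y, x < q → y < q → τ x y = τ' x y ∨ (τ x y = p ∧ τ' x y = p + 1) ∨ (τ x y = p + 1 ∧ τ' x y = p))
    (z : X → ℝ) (P : (ℕ → X) → ℝ) : trNu B ls q τ z P = trNu B ls q τ' z P := by
  obtain ⟨l₁, l, l₂, hdec, hlen, hl'⟩ : ∃ (l₁ : List (GhLv X ι)) (l : GhLv X ι) (l₂ : List (GhLv X ι)),
      ls = l₁ ++ l :: l₂ ∧ l₁.length = p ∧ ∀ s i, l.A s i = 0 := by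
    refine ⟨ls.take p, ls[p], ls.drop (p + 1), ?_, ?_, hl⟩
    · rw [← List.drop_eq_getElem_cons hp, List.take_append_drop]
    · simp [hp.le]
  subst hdec
  subst hlen
  exact tr_nu_empty_side hB hl' hls hτ hτ' h z P

/-- the depth map which moves the forks below `k` to depth `≤ p` -/
def liG (k p r : ℕ) : ℕ := if r < k then min r p else r

theorem li_G_mono {k p : ℕ} (hp : p < k) : Monotone (liG k p) := by
  intro r r' hr
  unfold liG
  split_ifs with h1 h2 h2
  · exact min_le_min_right _ hr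
  · exact (min_le_right _ _).trans (by omega)
  · omega
  · exact hr

/-- **empty prefix**: if the levels `j`, `j + 1 < k`, are empty, the forks of depth `< k` may be moved to the root -/
theorem li_empty_prefix {B : GhB X} (hB : B.Ok) {ls : List (GhLv X ι)} (hls : GhAdm B 0 ls) {q : ℕ} {τ : ℕ → ℕ → ℕ}
    (hτ : IsTr ls.length q τ) {k : ℕ} (hk : k ≤ ls.length + 1)
    (hemp : ∀ j (h : j < ls.length), j + 1 < k → ∀ s i, (ls[j]).A s i = 0) (z : X → ℝ) (P : (ℕ → X) → ℝ) :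
    trNu B ls q τ z P = trNu B ls q (fun x y => if τ x y < k then 0 else τ x y) z P := by
  rcases Nat.eq_zero_or_pos k with rfl | hk0
  · simp
  have hN : ∀ p, liG k p (ls.length + 1) = ls.length + 1 := fun p => by
    unfold liG; rw [if_neg (by omega)]
  have step : ∀ p, p < k → trNu B ls q (fun x y => liG k p (τ x y)) z P = trNu B ls q (fun x y => liG k 0 (τ x y)) z P := by
    intro p
    induction p with
    | zero => intro _; rfl
    | succ p ih =>
      intro hp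
      rw [← ih (by omega)]
      refine li_empty_side hB hls (p := p) (by omega) (hemp p (by omega) hp)
        (li_isTr_comp hτ (li_G_mono hp) (hN _)) (li_isTr_comp hτ (li_G_mono (by omega)) (hN _)) ?_ z P
      intro x y _ _
      unfold liG
      by_cases h1 : τ x y < k
      · simp only [if_pos h1]
        rcases Nat.lt_or_ge p (τ x y) with h2 | h2
        · right; right
          exact ⟨min_eq_right (by omega), min_eq_right (by omega)⟩
        · left
          rw [min_eq_left (by omega), min_eq_left h2]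
      · simp only [if_neg h1]; left; trivial
  have e1 : trNu B ls q τ z P = trNu B ls q (fun x y => liG k (k - 1) (τ x y)) z P := by
    refine tr_nu_congr B ls (fun x y _ _ => ?_) z P
    unfold liG
    split_ifs with h1
    · rw [min_eq_left (by omega)]
    · rfl
  rw [e1, step (k - 1) (by omega)]
  refine tr_nu_congr B ls (fun x y _ _ => ?_) z P
  unfold liG
  simp

end gen

/-! ## 11. site and rest -/

/-- the features of the scalar site -/
noncomputable def liFeat1 (m : ℕ) (k : Fin 4) (s : Bool) : LiDr m → ℝ :=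
  if k = 2 then liFeat m 2 (s, default) else 0

/-- the features of the rest -/
noncomputable def liFeat2 (m : ℕ) (k : Fin 4) (ω : SkCfg m) : LiDr m → ℝ :=
  if k = 0 ∨ k = 1 then liFeat m k (false, ω) else 0

/-- the scalar site hierarchy -/
noncomputable def liLs1 (m : ℕ) (D : LiDat) (c : ℕ → Fin 4 → ℝ) : List (GhLv Bool (Fin 4 × LiDr m)) :=
  gcLs (liFeat1 m) (liHs D c)

/-- the rest-only hierarchy -/
noncomputable def liLs2 (m : ℕ) (D : LiDat) (c : ℕ → Fin 4 → ℝ) : List (GhLv (SkCfg m) (Fin 4 × LiDr m)) :=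
  gcLs (liFeat2 m) (liHs D c)

theorem li_ker1_site {m : ℕ} (k : Fin 4) (s s' : Bool) :
    gcKer (liFeat1 m) k s s' = if k = 2 then ledSg s * ledSg s' else 0 := by
  by_cases hk : k = 2
  · subst hk
    have := li_ker2 (m := m) (s, default) (s', default)
    simpa [gcKer, liFeat1] using this
  · simp [gcKer, liFeat1, hk]

theorem li_ker2_rest {m : ℕ} (k : Fin 4) (ω ω' : SkCfg m) :
    gcKer (liFeat2 m) k ω ω' = if k = 0 then ((m : ℝ) + 1) * liR ω ω' ^ 2 / 2 else if k = 1 then ((m : ℝ) + 1) * liR ω ω' else 0 := by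
  by_cases h0 : k = 0
  · subst h0
    have := li_ker0 (m := m) (false, ω) (false, ω')
    simpa [gcKer, liFeat2] using this
  · by_cases h1 : k = 1
    · subst h1
      have := li_ker1 (m := m) (false, ω) (false, ω')
      simpa [gcKer, liFeat2] using this
    · simp [gcKer, liFeat2, h0, h1]

theorem li_prd (m : ℕ) (D : LiDat) {c : ℕ → Fin 4 → ℝ} (hc : LiInc c) (h3 : ∀ j, c (j + 1) 3 = c j 3) :
    GhPrd (liB m) (ghUnif Bool 1) (ghUnif (SkCfg m) 1) (liLs m D c) (liLs1 m D c) (liLs2 m D c) := by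
  refine ⟨rfl, rfl, fun s => ?_, ?_, ?_, ?_⟩
  · simp only [liB, ghUnif, Fintype.card_prod, Nat.cast_mul, mul_inv]
  · unfold liLs1 liLs; rw [li_gen_m, li_gen_m]
  · unfold liLs2 liLs; rw [li_gen_m, li_gen_m]
  · intro j h h₁ h₂ x y
    unfold liLs at h ⊢
    unfold liLs1 at h₁ ⊢
    unfold liLs2 at h₂ ⊢
    rw [li_gen_cov _ D hc, li_gen_cov _ D hc, li_gen_cov _ D hc, Fin.sum_univ_four, Fin.sum_univ_four, Fin.sum_univ_four]
    simp only [li_ker0, li_ker1, li_ker2, li_ker3, li_ker1_site, li_ker2_rest, h3 j]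
    simp [show (1 : Fin 4) ≠ 0 by decide, show (2 : Fin 4) ≠ 0 by decide, show (2 : Fin 4) ≠ 1 by decide,
      show (3 : Fin 4) ≠ 0 by decide, show (3 : Fin 4) ≠ 1 by decide, show (3 : Fin 4) ≠ 2 by decide,
      show (0 : Fin 4) ≠ 2 by decide, show (1 : Fin 4) ≠ 2 by decide]
    ring

/-- **site / rest factorisation** when the block `site x rest` is switched off; arbitrary tests -/
theorem li_prod (m : ℕ) {D : LiDat} (hD : D.Ok) {c : ℕ → Fin 4 → ℝ} (hc : LiInc c) (h3 : ∀ j, c (j + 1) 3 = c j 3)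
    {q : ℕ} {τ : ℕ → ℕ → ℕ} (hτ : IsTr D.N q τ) (f : (ℕ → Bool) → ℝ) (g : (ℕ → SkCfg m) → ℝ) :
    liNu m D c q τ (fun σ => f (fun i => (σ i).1) * g fun i => (σ i).2)
      = trNu (ghUnif Bool 1) (liLs1 m D c) q τ 0 f * trNu (ghUnif (SkCfg m) 1) (liLs2 m D c) q τ 0 g := by
  have h := tr_sy_prod (li_unif_ok (X := Bool)) (li_unif_ok (X := SkCfg m)) ((li_ls_adm m hD hc).ghNn le_rfl)
    (li_prd m D hc h3) (q := q) (τ := τ) (by rw [li_ls_len]; exact hτ) 0 0 _ _ (li_trunc_uses q f) (li_trunc_uses q g)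
  rw [li_trunc _ _ q τ 0 f, li_trunc _ _ q τ 0 g, ← h]
  unfold liNu
  rw [li_trunc]
  have ez : (0 : Bool × SkCfg m → ℝ) = fun s => (0 : Bool → ℝ) s.1 + (0 : SkCfg m → ℝ) s.2 := by
    funext s; simp
  rw [← ez]
  congr 1
  funext σ
  congr 2
  · funext i
    unfold liTr
    split_ifs <;> rfl
  · funext i
    unfold liTr
    split_ifs <;> rfl

theorem li_site (m : ℕ) {D : LiDat} (hD : D.Ok) {c : ℕ → Fin 4 → ℝ} (hc : LiInc c) (h3 : ∀ j, c (j + 1) 3 = c j 3)
    {q : ℕ} {τ : ℕ → ℕ → ℕ} (hτ : IsTr D.N q τ) (f : (ℕ → Bool) → ℝ) :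
    liNu m D c q τ (fun σ => f fun i => (σ i).1) = trNu (ghUnif Bool 1) (liLs1 m D c) q τ 0 f := by
  have h := li_prod m hD hc h3 hτ f fun _ => 1
  have h1 : trNu (ghUnif (SkCfg m) 1) (liLs2 m D c) q τ 0 (fun _ => 1) = 1 :=
    li_gen_one li_unif_ok (li_gen_adm _ hD hc) q τ 0
  rw [h1, mul_one] at h
  simpa using h

theorem li_rest (m : ℕ) {D : LiDat} (hD : D.Ok) {c : ℕ → Fin 4 → ℝ} (hc : LiInc c) (h3 : ∀ j, c (j + 1) 3 = c j 3)
    {q : ℕ} {τ : ℕ → ℕ → ℕ} (hτ : IsTr D.N q τ) (g : (ℕ → SkCfg m) → ℝ) :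
    liNu m D c q τ (fun σ => g fun i => (σ i).2) = trNu (ghUnif (SkCfg m) 1) (liLs2 m D c) q τ 0 g := by
  have h := li_prod m hD hc h3 hτ (fun _ => 1) g
  have h1 : trNu (ghUnif Bool 1) (liLs1 m D c) q τ 0 (fun _ => 1) = 1 :=
    li_gen_one li_unif_ok (li_gen_adm _ hD hc) q τ 0
  rw [h1, one_mul] at h
  simpa using h

theorem li_clk3_zero (D : LiDat) (lam : ℕ → ℝ) (j : ℕ) : D.clk lam 0 (j + 1) 3 = D.clk lam 0 j 3 := by
  simp [li_clk3]

/-- the rest-only hierarchy does not see the profile -/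
theorem li_ls2_congr (m : ℕ) (D : LiDat) (lam lam' : ℕ → ℝ) (t t' : ℝ) :
    liLs2 m D (D.clk lam t) = liLs2 m D (D.clk lam' t') := by
  unfold liLs2 gcLs liHs
  simp only [List.map_map]
  refine List.map_congr_left fun j _ => ?_
  simp only [Function.comp, gcLv]
  congr 1
  funext ω x
  obtain ⟨k, i⟩ := x
  by_cases h0 : k = 0
  · subst h0; simp only [li_clk0]
  · by_cases h1 : k = 1
    · subst h1; simp only [li_clk1]
    · simp [liFeat2, h0, h1]

/-! ## 12. independence of the blocks of the scalar site at a degenerate prefix -/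

theorem li_ls1_empty (m : ℕ) (D : LiDat) {lam : ℕ → ℝ} {k : ℕ} (hk : ∀ r, r < k → lam r = 0) (t : ℝ) {j : ℕ}
    (h : j < (liLs1 m D (D.clk lam t)).length) (hj : j + 1 < k) (s : Bool) (i : Fin 4 × LiDr m) :
    ((liLs1 m D (D.clk lam t))[j]).A s i = 0 := by
  unfold liLs1 at h ⊢
  rw [li_gen_get]
  obtain ⟨k', i⟩ := i
  simp only [gcLv]
  by_cases h2 : k' = 2
  · subst h2
    simp [li_clk2, hk (j + 1) hj, hk j (by omega)]
  · simp [liFeat1, h2]

theorem li_indep (m : ℕ) {D : LiDat} (hD : D.Ok) {lam : ℕ → ℝ} (hl : LedProf lam) {q : ℕ} {τ : ℕ → ℕ → ℕ} (hτ : IsTr D.N q τ)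
    {k : ℕ} (hkN : k ≤ D.N + 1) (A : ℕ → Prop) (f g : (ℕ → Bool) → ℝ) (hk : ∀ r, r < k → lam r = 0)
    (hA : ∀ x y, x < q → y < q → A x → ¬ A y → τ x y < k)
    (hf : ∀ s s' : ℕ → Bool, (∀ x, x < q → A x → s x = s' x) → f s = f s')
    (hg : ∀ s s' : ℕ → Bool, (∀ x, x < q → ¬ A x → s x = s' x) → g s = g s') :
    (liSys m D).nu lam 0 q τ (fun σ => f (fun i => (σ i).1) * g fun i => (σ i).1)
      = (liSys m D).nu lam 0 q τ (fun σ => f fun i => (σ i).1) * (liSys m D).nu lam 0 q τ fun σ => g fun i => (σ i).1 := by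
  have hc := li_clk_inc hD hl (t := 0) ⟨le_rfl, zero_le_one⟩
  have h3 := li_clk3_zero D lam
  have hadm : GhAdm (ghUnif Bool 1) 0 (liLs1 m D (D.clk lam 0)) := li_gen_adm _ hD hc
  have hlen : (liLs1 m D (D.clk lam 0)).length = D.N := li_gen_len _ D _
  have hτ' : IsTr (liLs1 m D (D.clk lam 0)).length q τ := by rw [hlen]; exact hτ
  have hpre := fun P => li_empty_prefix (li_unif_ok (X := Bool)) hadm hτ' (k := k) (by rw [hlen]; exact hkN)
    (fun j h hj s i => li_ls1_empty m D hk 0 h hj s i) 0 P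
  have hτ0 : IsTr (liLs1 m D (D.clk lam 0)).length q fun x y => if τ x y < k then 0 else τ x y := by
    rcases Nat.eq_zero_or_pos k with rfl | hk0
    · simpa using hτ'
    have := li_isTr_comp hτ' (li_G_mono (p := 0) hk0) (by unfold liG; rw [if_neg (by omega)])
    simpa [liG] using this
  show liNu m D (D.clk lam 0) q τ (fun σ => f (fun i => (σ i).1) * g fun i => (σ i).1)
      = liNu m D (D.clk lam 0) q τ (fun σ => f fun i => (σ i).1) * liNu m D (D.clk lam 0) q τ fun σ => g fun i => (σ i).1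
  rw [li_site m hD hc h3 hτ f, li_site m hD hc h3 hτ g, li_site m hD hc h3 hτ fun s => f s * g s, hpre, hpre f, hpre g]
  exact tr_nu_indep li_unif_ok hadm hτ0 0 A (fun x y hx hy hAx hAy => by simp [hA x y hx hy hAx hAy]) f g hf hg

/-! ## 13. THE INSTANCE -/

theorem li_R_symm {m : ℕ} (ω ω' : SkCfg m) : liR ω ω' = liR ω' ω := by
  unfold liR
  congr 1
  exact Finset.sum_congr rfl fun i _ => mul_comm _ _

theorem li_sp_abs {m : ℕ} (ω : SkCfg m) (i : Fin m) : |skSp ω i| = 1 := by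
  unfold skSp Claims.C0461.pmSpin
  split_ifs <;> simp

theorem li_R_le {m : ℕ} (ω ω' : SkCfg m) : |liR ω ω'| ≤ 1 := by
  have hn := li_n_pos m
  unfold liR
  rw [abs_div, abs_of_pos hn, div_le_one hn]
  calc |∑ i, skSp ω i * skSp ω' i| ≤ ∑ i : Fin m, |skSp ω i * skSp ω' i| := Finset.abs_sum_le_sum_abs _ _
    _ = (m : ℝ) := by simp [abs_mul, li_sp_abs]
    _ ≤ (m : ℝ) + 1 := by linarith

/-- **the instance of helper204's `LedSys.Ok`**: the row family `ν_{l,t}` of PE Sec 4.2 (cavity.tex l.277-330) satisfies all the exports of PE Sec 2 which the ledger uses.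
TEX[PE:subsec:cavity-row-expansion] -/
theorem li_ok (m : ℕ) {D : LiDat} (hD : D.Ok) : (liSys m D).Ok where
  ms_ok := ⟨hD.ms_nonneg, fun i j hij _ => hD.ms_mono hij⟩
  ms_top := hD.ms_top D.N le_rfl
  b_mono := hD.b_mono
  h_mono := hD.h_mono
  S_mono := hD.S_mono
  b_zero := hD.b_zero
  h_zero := hD.h_zero
  S_nonneg := hD.S_nonneg
  S_le := hD.S_le
  flat := hD.flat
  R_symm := li_R_symm
  R_le := li_R_le
  R_diag := fun ω ω' => by show liR ω ω = liR ω' ω'; rw [li_R_diag, li_R_diag]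
  mean := fun lam t q τ hl ht _ => li_mean m hD (li_clk_inc hD hl ht) q τ
  congr := fun lam t q τ τ' P h => li_congr m D _ h P
  prune := fun lam t q τ P hl ht hτ hP => li_prune m hD (li_clk_inc hD hl ht) hτ hP
  perm := fun lam t q τ P e hl ht hτ hP he => li_perm m hD (li_clk_inc hD hl ht) hτ P hP e he
  coinc := fun lam t q τ P x y hl ht hτ hx hy hxy => li_coinc m hD (li_clk_inc hD hl ht) hτ P hx hy hxy
  contL := fun lam0 lam1 t q τ P h0 h1 ht hτ hP θ hθ => (li_derivL m hD h0 h1 ht hτ P hP hθ).continuousWithinAt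
  derivL := fun lam0 lam1 t q τ P θ h0 h1 ht hτ hP hθ =>
    (li_derivL m hD h0 h1 ht hτ P hP ⟨hθ.1.le, hθ.2.le⟩).hasDerivAt (Icc_mem_nhds hθ.1 hθ.2)
  contT := fun lam q τ P hl hτ hP t ht => (li_derivT m hD hl hτ P hP ht).continuousWithinAt
  derivT := fun lam q τ P t hl hτ hP ht =>
    (li_derivT m hD hl hτ P hP ⟨ht.1.le, ht.2.le⟩).hasDerivAt (Icc_mem_nhds ht.1 ht.2)
  factor := fun lam q τ f g hl hτ => by
    have hc := li_clk_inc hD hl (t := 0) ⟨le_rfl, zero_le_one⟩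
    have h3 := li_clk3_zero D lam
    show liNu m D (D.clk lam 0) q τ (fun σ => f (fun i => (σ i).1) * g fun i => (σ i).2)
      = liNu m D (D.clk lam 0) q τ (fun σ => f fun i => (σ i).1) * liNu m D (D.clk lam 0) q τ fun σ => g fun i => (σ i).2
    rw [li_prod m hD hc h3 hτ, li_site m hD hc h3 hτ, li_rest m hD hc h3 hτ]
  rest := fun lam lam' q τ g hl hl' hτ => by
    show liNu m D (D.clk lam 0) q τ (fun σ => g fun i => (σ i).2) = liNu m D (D.clk lam' 0) q τ fun σ => g fun i => (σ i).2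
    rw [li_rest m hD (li_clk_inc hD hl (t := 0) ⟨le_rfl, zero_le_one⟩) (li_clk3_zero D lam) hτ,
      li_rest m hD (li_clk_inc hD hl' (t := 0) ⟨le_rfl, zero_le_one⟩) (li_clk3_zero D lam') hτ, li_ls2_congr m D lam lam' 0 0]
  flip := fun lam t q τ P k x hl ht hτ hP hx hk => li_flip m hD hl ht hτ P hP k x hx hk
  indep := fun lam q τ k A f g hl hτ hkN hk hA hf hg => li_indep m hD hl hτ hkN A f g hk hA hf hg

/-! ## 14. the data of a step path -/

/-- **the data of a step path `P`** (terminal mass `1`) with the centres `S` -/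
def liStp (P : SkStp) (S : ℕ → ℝ) : LiDat := ⟨P.length, skMs 1 P, skCumB P, skCumH P, S⟩

/-! ## 15. LINKS with the SK paths: elementary facts on step paths -/

theorem lil_cumB_succ (P : SkStp) {j : ℕ} (h : j < P.length) : skCumB P (j + 1) - skCumB P j = (P[j]).db := by
  unfold skCumB
  rw [List.take_succ_eq_append_getElem h, List.map_append, List.sum_append, List.map_singleton, List.sum_singleton]
  ring

theorem lil_cumH_succ (P : SkStp) {j : ℕ} (h : j < P.length) : skCumH P (j + 1) - skCumH P j = (P[j]).dh := by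
  unfold skCumH
  rw [List.take_succ_eq_append_getElem h, List.map_append, List.sum_append, List.map_singleton, List.sum_singleton]
  ring

theorem lil_ms_lt (P : SkStp) {j : ℕ} (h : j < P.length) : skMs 1 P j = (P[j]).m := by
  unfold skMs
  rw [List.getD_eq_getElem _ _ (by simpa using h)]
  simp

theorem lil_map_m (P : SkStp) : P.map SkInc.m = (List.range P.length).map (skMs 1 P) := by
  apply List.ext_getElem
  · simp
  · intro j h1 h2
    have h : j < P.length := by simpa using h1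
    simp [lil_ms_lt P h]

theorem lil_sg (s : Bool) : Claims.C0461.pmSpin s = ledSg s := rfl

theorem lil_adm_get {P : SkStp} (hP : SkAdm 1 P) {j : ℕ} (h : j < P.length) :
    0 ≤ (P[j]).m ∧ (P[j]).m ≤ 1 ∧ 0 ≤ (P[j]).db ∧ 0 ≤ (P[j]).dh := hP.2 _ (List.getElem_mem h)

theorem lil_prof_one : LedProf fun _ => (1 : ℝ) := ⟨fun _ => zero_le_one, fun _ => le_rfl, monotone_const⟩

/-! ## 16. the actual law -/

/-- the configuration of size `m + 1`: the site is the coordinate `0` -/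
def lilJoin {m : ℕ} (c : Bool × SkCfg m) : SkCfg (m + 1) := Fin.cons c.1 c.2

/-- `lilJoin` as an equivalence -/
def lilE (m : ℕ) : Bool × SkCfg m ≃ SkCfg (m + 1) := Fin.consEquiv fun _ => Bool

theorem lil_E_apply {m : ℕ} (c : Bool × SkCfg m) : lilE m c = lilJoin c := rfl

theorem lil_ov {m : ℕ} (x y : Bool × SkCfg m) :
    skOv (lilJoin x) (lilJoin y) = ledSg x.1 * ledSg y.1 / ((m : ℝ) + 1) + liR x.2 y.2 := by
  unfold skOv liR lilJoin
  rw [Fin.sum_univ_succ]
  simp only [skSp, Fin.cons_zero, Fin.cons_succ, lil_sg]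
  push_cast
  ring

/-- the features of `liFeat` carried to the configurations of size `m + 1` -/
noncomputable def lilFeat (m : ℕ) (k : Fin 4) (σ : SkCfg (m + 1)) : LiDr m → ℝ := liFeat m k ((lilE m).symm σ)

theorem lil_ker {m : ℕ} (k : Fin 4) (x y : Bool × SkCfg m) :
    gcKer (lilFeat m) k (lilE m x) (lilE m y) = gcKer (liFeat m) k x y := by
  simp [gcKer, lilFeat]

/-- **the actual law**: `lam = 1`, `t = 1` is the SK law of size `n = m + 1`.      TEX[PE:subsec:cavity-row-expansion] -/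
theorem lil_act (m : ℕ) {P : SkStp} (hP : SkAdm 1 P) {S : ℕ → ℝ} (hD : (liStp P S).Ok) {q : ℕ} {τ : ℕ → ℕ → ℕ}
    (hτ : IsTr P.length q τ) (f : (ℕ → SkCfg (m + 1)) → ℝ) (hf : TrUses q f) :
    (liSys m (liStp P S)).act q τ (fun σ => f fun i => lilJoin (σ i))
      = trNu (skBase (m + 1) 1) (skLvs (m + 1) P) q τ 0 f := by
  have hn := li_n_pos m
  have hc : LiInc ((liStp P S).clk (fun _ => 1) 1) := li_clk_inc hD lil_prof_one ⟨zero_le_one, le_rfl⟩
  have hadmC : GhAdm (ghUnif (SkCfg (m + 1)) 1) 0 (gcLs (lilFeat m) (liHs (liStp P S) ((liStp P S).clk (fun _ => 1) 1))) :=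
    li_gen_adm _ hD hc
  have hlenC : (gcLs (lilFeat m) (liHs (liStp P S) ((liStp P S).clk (fun _ => 1) 1))).length = P.length := li_gen_len _ _ _
  have hcst : GhCst (fun j => (skCumB P (j + 1) - skCumB P j) / (2 * ((m : ℝ) + 1)))
      (gcLs (lilFeat m) (liHs (liStp P S) ((liStp P S).clk (fun _ => 1) 1))) (skLvs (m + 1) P) := by
    refine ⟨?_, ?_⟩
    · rw [li_gen_m]
      simp only [skLvs, List.map_map]
      exact lil_map_m P
    · intro j h h' s t
      obtain ⟨x, rfl⟩ := (lilE m).surjective s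
      obtain ⟨y, rfl⟩ := (lilE m).surjective t
      have hj : j < P.length := by rw [hlenC] at h; exact h
      obtain ⟨-, -, hb, hh⟩ := lil_adm_get hP hj
      rw [li_gen_cov _ _ hc, Fin.sum_univ_four]
      simp only [lil_ker, li_ker0, li_ker1, li_ker2, li_ker3, li_clk0, li_clk1, li_clk2, li_clk3]
      have e : (skLvs (m + 1) P)[j] = (P[j]).lv (m + 1) := by simp [skLvs]
      rw [e, sk_d_cov (m + 1) (Nat.succ_pos m) _ hb hh, lil_E_apply, lil_E_apply, lil_ov]
      show _ = (skCumB P (j + 1) - skCumB P j) * _ + (skCumH P (j + 1) - skCumH P j) * _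
        + (1 * ((1 - 1) * (liStp P S).K (j + 1) + 1 * skCumH P (j + 1)) - 1 * ((1 - 1) * (liStp P S).K j + 1 * skCumH P j)) * _
        + (1 * 1 * skCumB P (j + 1) - 1 * 1 * skCumB P j) * _ + _
      have e1 : skCumB P (j + 1) = skCumB P j + (P[j]).db := by linarith [lil_cumB_succ P hj]
      have e2 : skCumH P (j + 1) = skCumH P j + (P[j]).dh := by linarith [lil_cumH_succ P hj]
      have sx : ledSg x.1 * ledSg x.1 = 1 := li_sg_sq _
      have sy : ledSg y.1 * ledSg y.1 = 1 := li_sg_sq _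
      have sxy : (ledSg x.1 * ledSg y.1) ^ 2 = 1 := by
        calc (ledSg x.1 * ledSg y.1) ^ 2 = (ledSg x.1 * ledSg x.1) * (ledSg y.1 * ledSg y.1) := by ring
          _ = 1 := by rw [sx, sy]; ring
      rw [e1, e2]
      push_cast
      generalize ledSg x.1 * ledSg y.1 = u at sxy
      field_simp
      ring_nf
      rw [sxy]
      ring
  have h1 := tr_sy_const (li_unif_ok (X := SkCfg (m + 1))) (hadmC.ghNn le_rfl) hcst (q := q) (τ := τ)
    (by rw [hlenC]; exact hτ) 0 0 f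
  have hiso : GhIso (lilE m) (liB m) (ghUnif (SkCfg (m + 1)) 1) (liLs m (liStp P S) ((liStp P S).clk (fun _ => 1) 1))
      (gcLs (lilFeat m) (liHs (liStp P S) ((liStp P S).clk (fun _ => 1) 1))) := by
    refine ⟨rfl, fun s => ?_, ?_, ?_⟩
    · simp only [liB, ghUnif]
      rw [Fintype.card_congr (lilE m)]
    · unfold liLs; rw [li_gen_m, li_gen_m]
    · intro j h h' s t
      unfold liLs at h ⊢
      rw [li_gen_cov _ _ hc, li_gen_cov _ _ hc]
      simp only [lil_ker]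
  have h2 := tr_sy_iso (li_B_ok m) ((li_ls_adm m hD hc).ghNn le_rfl) hiso (q := q) (τ := τ)
    (by rw [li_ls_len]; exact hτ) 0 f hf
  have ez : (fun s : SkCfg (m + 1) => (0 : SkCfg (m + 1) → ℝ) s + 0) = 0 := by funext s; simp
  rw [ez] at h1
  show liNu m (liStp P S) ((liStp P S).clk (fun _ => 1) 1) q τ (fun σ => f fun i => lilJoin (σ i)) = _
  unfold skBase
  rw [h1, h2]
  rfl

/-! ## 17. the site law -/

/-- a spin as a configuration of size `1` -/
def lilU : Bool ≃ SkCfg 1 := (Equiv.funUnique (Fin 1) Bool).symm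

theorem lil_U_apply (s : Bool) (i : Fin 1) : lilU s i = s := rfl

theorem lil_sc_len (P : SkStp) (K lam : ℕ → ℝ) : (cvSc P K lam).length = P.length := by simp [cvSc]

theorem lil_sc_get (P : SkStp) (K lam : ℕ → ℝ) {j : ℕ} (h : j < (cvSc P K lam).length) :
    (cvSc P K lam)[j] = ⟨skMs 1 P j, 0, lam (j + 1) * K (j + 1) - lam j * K j⟩ := by simp [cvSc]

/-- **the site law** is the SK law of size `1` of the path `cvSc P K lam`.      TEX[PE:subsec:cavity-row-expansion] -/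
theorem lil_site (m : ℕ) {P : SkStp} {S : ℕ → ℝ} (hD : (liStp P S).Ok) {lam : ℕ → ℝ} (hl : LedProf lam) {q : ℕ}
    {τ : ℕ → ℕ → ℕ} (hτ : IsTr P.length q τ) (f : (ℕ → Bool) → ℝ) (hf : TrUses q f) :
    (liSys m (liStp P S)).nuS lam q τ f
      = trNu (skBase 1 1) (skLvs 1 (cvSc P (liStp P S).K lam)) q τ 0 fun σ => f fun i => σ i 0 := by
  have hc : LiInc ((liStp P S).clk lam 0) := li_clk_inc hD hl ⟨le_rfl, zero_le_one⟩
  have hadm : GhAdm (ghUnif Bool 1) 0 (liLs1 m (liStp P S) ((liStp P S).clk lam 0)) := li_gen_adm _ hD hc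
  have hlen : (liLs1 m (liStp P S) ((liStp P S).clk lam 0)).length = P.length := li_gen_len _ _ _
  have hiso : GhIso lilU (ghUnif Bool 1) (ghUnif (SkCfg 1) 1) (liLs1 m (liStp P S) ((liStp P S).clk lam 0))
      (skLvs 1 (cvSc P (liStp P S).K lam)) := by
    refine ⟨rfl, fun s => ?_, ?_, ?_⟩
    · simp only [ghUnif]
      rw [Fintype.card_congr lilU]
    · unfold liLs1
      rw [li_gen_m]
      simp only [skLvs, cvSc, List.map_map]
      rfl
    · intro j h h' s t
      have hj : j < (cvSc P (liStp P S).K lam).length := by simpa [skLvs] using h'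
      have e : (skLvs 1 (cvSc P (liStp P S).K lam))[j] = ((cvSc P (liStp P S).K lam)[j]).lv 1 := by simp [skLvs]
      have hinc := hc j 2
      rw [li_clk2, li_clk2] at hinc
      rw [e, lil_sc_get, sk_d_cov 1 one_pos _ le_rfl (by show (0 : ℝ) ≤ lam (j + 1) * _ - lam j * _; linarith)]
      unfold liLs1 at h ⊢
      rw [li_gen_cov _ _ hc, Fin.sum_univ_four]
      simp only [li_ker1_site, li_clk2]
      simp only [show (0 : Fin 4) ≠ 2 by decide, show (1 : Fin 4) ≠ 2 by decide, show (3 : Fin 4) ≠ 2 by decide, if_false, if_true,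
        mul_zero, zero_add, add_zero]
      have eo : skOv (lilU s) (lilU t) = ledSg s * ledSg t := by
        simp [skOv, skSp, lil_U_apply, lil_sg]
      rw [eo]
      push_cast
      ring
  have h2 := tr_sy_iso (li_unif_ok (X := Bool)) (hadm.ghNn le_rfl) hiso (q := q) (τ := τ) (by rw [hlen]; exact hτ) 0
    (fun σ => f fun i => σ i 0) (fun σ σ' h => hf _ _ fun i hi => by rw [h i hi])
  show liNu m (liStp P S) ((liStp P S).clk lam 0) q τ (fun σ => f fun i => (σ i).1) = _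
  rw [li_site m hD hc (li_clk3_zero _ lam) hτ f]
  unfold skBase
  rw [h2]
  rfl

/-- `Γ` of `LedSys` is the `Γ` of `Cav/Defs` -/
theorem lil_Gam (m : ℕ) {P : SkStp} {S : ℕ → ℝ} (hD : (liStp P S).Ok) {j : ℕ} (hj : j ≤ P.length) :
    (liSys m (liStp P S)).Gam j = cvGamK P (liStp P S).K j := by
  have hτ : IsTr P.length 2 (ledPair P.length j) := by
    refine ⟨fun x y _ _ => ?_, fun x _ => ?_, fun x y _ _ => ?_, fun x y z _ _ _ => ?_⟩
    · unfold ledPair; split_ifs <;> omega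
    · simp [ledPair]
    · unfold ledPair; simp only [eq_comm]
    · unfold ledPair
      by_cases h1 : x = y <;> by_cases h2 : y = z <;> by_cases h3 : x = z <;> (simp [h1, h2, h3] <;> omega)
  have h := lil_site m hD lil_prof_one hτ (fun s => ledSg (s 0) * ledSg (s 1))
    (fun σ σ' h => by show ledSg (σ 0) * ledSg (σ 1) = ledSg (σ' 0) * ledSg (σ' 1); rw [h 0 (by norm_num), h 1 (by norm_num)])
  unfold LedSys.Gam
  show (liSys m (liStp P S)).nuS (fun _ => 1) 2 (ledPair P.length j) _ = _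
  rw [h]
  unfold cvGamK cvNuS ghSp
  rw [tr_nu_of_ghTree]
  have hlen : (skLvs 1 (cvSc P (liStp P S).K fun _ => 1)).length = P.length := by simp [skLvs, lil_sc_len]
  rw [hlen]
  refine tr_nu_congr _ _ (fun x y hx hy => ?_) _ _
  unfold ledPair trOf obT2
  simp only [hx, hy, and_self, dif_pos]
  split_ifs
  · rfl
  · omega

theorem li_eqns_cite : True := by
  have := @liStp.eq_1
  have := @lilJoin.eq_1
  have := @lilE.eq_1
  have := @lilFeat.eq_1
  have := @lilU.eq_1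
  have := @LiDat.K.eq_1
  have := @liR.eq_1
  have := @liFeat.eq_1
  have := @liHs.eq_1
  have := @liAff.eq_1
  have := @liSeg.eq_1
  have := @LiInc.eq_1
  have := @liB.eq_1
  have := @liLs.eq_1
  have := @liNu.eq_1
  have := @liIns.eq_1
  have := @LiDat.clk.eq_1
  have := @liSys.eq_1
  have := @liFl.eq_1
  have := @liTr.eq_1
  have := @liG.eq_1
  have := @liFeat1.eq_1
  have := @liFeat2.eq_1
  have := @liLs1.eq_1
  have := @liLs2.eq_1
  trivial

end Claimed.Agent.R286
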