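import Claimed.Agent.R286.Cav.LedExit
import Claimed.Agent.R286.Cav.LedComb
import Claimed.Agent.R286.Fd.TrA2
import Claimed.Agent.R286.Fd.TrA5

/-!
# Row 286 (S0533), unit Cav, file RetKit      (owner helper137; prefix `ret_`)      SORRY FREE

GENERAL KIT on `LedSys` / `LedSys.Ok` (204) and on the signed sums of `Defs/Tr` (150), used by `Cav/Ret*` (return to the target cut, PE cavity.tex l.1005-1222); free for all `Led*`, `Tst*`, `Rep*`.
* `ret_m_*`      positive normalised functionals (`LedMean`): linearity, monotonicity, `|μ f| ≤ sup`, Cauchy-Schwarz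
* `ret_sumK_*`, `ret_absK_*`      linearity of `trSumK`, `trAbsK` in the summand
* `ret_perm_ext`, `ret_prune_k`, `ret_comap`, `ret_pair`      marginal of the tree law on ANY injective family of labels; pair marginals
* `ret_prof_*`, `ret_pair_isTr`      profiles, the two-label table
* `ret_parity`, `ret_gam_zero`, `ret_gam_abs_le`, `ret_kap4_abs_le`, `ret_kap4_off`      block flips and block independence of the scalar site: table of `γ`, `κ₄`
* `ret_lip`      bounded scalar moments are Lipschitz in the revelation profile (formula (2) + bounded variation)      (PE l.1086-1090)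
-/

set_option autoImplicit false

namespace Claimed.Agent.R286

open Finset

/-! ## 1. positive normalised functionals -/

section mean

variable {X : Type} {μ : (X → ℝ) → ℝ}

theorem ret_m_const (h : LedMean μ) (c : ℝ) : μ (fun _ => c) = c := by
  have := h.smul c (fun _ => 1)
  rw [h.one] at this
  simpa using this

theorem ret_m_neg (h : LedMean μ) (f : X → ℝ) : μ (fun x => - f x) = - μ f := by
  have := h.smul (-1) f
  simpa using this

theorem ret_m_sub (h : LedMean μ) (f g : X → ℝ) : μ (fun x => f x - g x) = μ f - μ g := by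
  have := h.add f (fun x => - g x)
  rw [ret_m_neg h] at this
  simpa [sub_eq_add_neg] using this

theorem ret_m_mul_right (h : LedMean μ) (f : X → ℝ) (c : ℝ) : μ (fun x => f x * c) = μ f * c := by
  have := h.smul c f
  simpa [mul_comm] using this

theorem ret_m_mono (h : LedMean μ) {f g : X → ℝ} (hfg : ∀ x, f x ≤ g x) : μ f ≤ μ g := by
  have := h.nonneg (fun x => g x - f x) (fun x => sub_nonneg.mpr (hfg x))
  rw [ret_m_sub h] at this
  linarith

theorem ret_m_abs (h : LedMean μ) (f : X → ℝ) : |μ f| ≤ μ fun x => |f x| := by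
  rw [abs_le]
  constructor
  · have := ret_m_mono h (f := fun x => - |f x|) (g := f) (fun x => neg_abs_le (f x))
    rw [ret_m_neg h] at this
    exact this
  · exact ret_m_mono h (fun x => le_abs_self (f x))

theorem ret_m_bound (h : LedMean μ) {f : X → ℝ} {M : ℝ} (hf : ∀ x, |f x| ≤ M) : |μ f| ≤ M := by
  refine (ret_m_abs h f).trans ?_
  have := ret_m_mono h hf
  rwa [ret_m_const h] at this

theorem ret_m_cs (h : LedMean μ) (f g : X → ℝ) :
    μ (fun x => f x * g x) ^ 2 ≤ μ (fun x => f x ^ 2) * μ fun x => g x ^ 2 := by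
  have key : ∀ t : ℝ, 0 ≤ μ (fun x => f x ^ 2) * (t * t) + 2 * μ (fun x => f x * g x) * t + μ (fun x => g x ^ 2) := by
    intro t
    have h0 := h.nonneg (fun x => (f x * t + g x) ^ 2) (fun x => sq_nonneg _)
    have e : (fun x => (f x * t + g x) ^ 2) = fun x => ((t * t) * f x ^ 2 + (2 * t) * (f x * g x)) + g x ^ 2 := by
      funext x; ring
    rw [e, h.add, h.add, h.smul, h.smul] at h0
    linarith
  have := discrim_le_zero key
  unfold discrim at this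
  nlinarith

theorem ret_m_cs_sqrt (h : LedMean μ) (f g : X → ℝ) :
    |μ (fun x => f x * g x)| ≤ Real.sqrt (μ fun x => f x ^ 2) * Real.sqrt (μ fun x => g x ^ 2) := by
  rw [← Real.sqrt_mul (h.nonneg _ fun x => sq_nonneg _)]
  exact Real.abs_le_sqrt (ret_m_cs h f g)

theorem ret_m_sum (h : LedMean μ) {ι : Type} (s : Finset ι) (f : ι → X → ℝ) :
    μ (fun x => ∑ i ∈ s, f i x) = ∑ i ∈ s, μ (f i) := by
  classical
  induction s using Finset.induction_on with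
  | empty => simpa using ret_m_const h 0
  | insert a s ha ih =>
    simp only [Finset.sum_insert ha]
    rw [h.add, ih]

end mean

/-! ## 2. linearity of the signed sums -/

theorem ret_sumK_add (ms : ℕ → ℝ) (N : ℕ) (k : ℕ) : ∀ (q : ℕ) (τ : ℕ → ℕ → ℕ) (Φ Ψ : (ℕ → ℕ → ℕ) → ℝ),
    trSumK ms N k q τ (fun τ' => Φ τ' + Ψ τ') = trSumK ms N k q τ Φ + trSumK ms N k q τ Ψ := by
  induction k with
  | zero => intro q τ Φ Ψ; rfl
  | succ k ih =>
    intro q τ Φ Ψ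
    simp only [trSumK, trSum]
    rw [← Finset.sum_add_distrib]
    refine Finset.sum_congr rfl fun x _ => ?_
    rw [← Finset.sum_add_distrib]
    refine Finset.sum_congr rfl fun j _ => ?_
    rw [ih, mul_add]

theorem ret_sumK_smul (ms : ℕ → ℝ) (N : ℕ) (k : ℕ) : ∀ (q : ℕ) (τ : ℕ → ℕ → ℕ) (c : ℝ) (Φ : (ℕ → ℕ → ℕ) → ℝ),
    trSumK ms N k q τ (fun τ' => c * Φ τ') = c * trSumK ms N k q τ Φ := by
  induction k with
  | zero => intro q τ c Φ; rfl
  | succ k ih =>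
    intro q τ c Φ
    simp only [trSumK, trSum]
    rw [Finset.mul_sum]
    refine Finset.sum_congr rfl fun x _ => ?_
    rw [Finset.mul_sum]
    refine Finset.sum_congr rfl fun j _ => ?_
    rw [ih]; ring

theorem ret_sumK_sub (ms : ℕ → ℝ) (N : ℕ) (k : ℕ) (q : ℕ) (τ : ℕ → ℕ → ℕ) (Φ Ψ : (ℕ → ℕ → ℕ) → ℝ) :
    trSumK ms N k q τ (fun τ' => Φ τ' - Ψ τ') = trSumK ms N k q τ Φ - trSumK ms N k q τ Ψ := by
  have h1 := ret_sumK_add ms N k q τ Φ (fun τ' => (-1) * Ψ τ')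
  rw [ret_sumK_smul] at h1
  have e : (fun τ' => Φ τ' - Ψ τ') = fun τ' => Φ τ' + (-1) * Ψ τ' := by funext τ'; ring
  rw [e, h1]; ring

theorem ret_absK_add (ms : ℕ → ℝ) (N : ℕ) (k : ℕ) : ∀ (q : ℕ) (τ : ℕ → ℕ → ℕ) (Φ Ψ : (ℕ → ℕ → ℕ) → ℝ),
    trAbsK ms N k q τ (fun τ' => Φ τ' + Ψ τ') = trAbsK ms N k q τ Φ + trAbsK ms N k q τ Ψ := by
  induction k with
  | zero => intro q τ Φ Ψ; rfl
  | succ k ih =>
    intro q τ Φ Ψ
    simp only [trAbsK, trAbs]
    rw [← Finset.sum_add_distrib]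
    refine Finset.sum_congr rfl fun x _ => ?_
    rw [← Finset.sum_add_distrib]
    refine Finset.sum_congr rfl fun j _ => ?_
    rw [ih, mul_add]

theorem ret_absK_smul (ms : ℕ → ℝ) (N : ℕ) (k : ℕ) : ∀ (q : ℕ) (τ : ℕ → ℕ → ℕ) (c : ℝ) (Φ : (ℕ → ℕ → ℕ) → ℝ),
    trAbsK ms N k q τ (fun τ' => c * Φ τ') = c * trAbsK ms N k q τ Φ := by
  induction k with
  | zero => intro q τ c Φ; rfl
  | succ k ih =>
    intro q τ c Φ
    simp only [trAbsK, trAbs]
    rw [Finset.mul_sum]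
    refine Finset.sum_congr rfl fun x _ => ?_
    rw [Finset.mul_sum]
    refine Finset.sum_congr rfl fun j _ => ?_
    rw [ih]; ring

/-- bound of a signed sum by a total variation sum, on trees only -/
theorem ret_sumK_le_absK {N q : ℕ} {τ : ℕ → ℕ → ℕ} {ms : ℕ → ℝ} (hτ : IsTr N q τ) (k : ℕ) (Φ Ψ : (ℕ → ℕ → ℕ) → ℝ)
    (h : ∀ τ', IsTr N (q + k) τ' → (∀ y z, y < q → z < q → τ' y z = τ y z) → |Φ τ'| ≤ Ψ τ') :
    |trSumK ms N k q τ Φ| ≤ trAbsK ms N k q τ Ψ := by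
  induction k generalizing q τ with
  | zero => exact h τ hτ fun _ _ _ _ => rfl
  | succ k ih =>
    rw [trSumK, trAbsK]
    unfold trSum trAbs
    refine (Finset.abs_sum_le_sum_abs _ _).trans (Finset.sum_le_sum fun x hx => ?_)
    refine (Finset.abs_sum_le_sum_abs _ _).trans (Finset.sum_le_sum fun j hj => ?_)
    have hx' := Finset.mem_range.mp hx
    have hj' := Finset.mem_range.mp hj
    rw [abs_mul]
    refine mul_le_mul_of_nonneg_left (ih (tr_att_isTr hτ hx' (by omega)) ?_) (abs_nonneg _)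
    intro τ' hτ' hag
    refine h τ' (by rwa [show q + (k + 1) = q + 1 + k by omega]) ?_
    intro y z hy hz
    rw [hag y z (by omega) (by omega), tr_att_old hy hz]

/-- crude bound of a signed sum: total variation times the supremum on trees -/
theorem ret_sumK_bound {N q : ℕ} {τ : ℕ → ℕ → ℕ} {ms : ℕ → ℝ} (hτ : IsTr N q τ) (hms : IsMs N ms) (k : ℕ)
    (Φ : (ℕ → ℕ → ℕ) → ℝ) (M : ℝ) (hΦ : ∀ τ', IsTr N (q + k) τ' → |Φ τ'| ≤ M) :
    |trSumK ms N k q τ Φ| ≤ (2 * ms N) ^ k * (∏ i ∈ Finset.range k, ((q : ℝ) + i)) * M :=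
  (tr_sumK_le k Φ).trans (tr_absK_le hτ hms k Φ M hΦ)

/-! ## 3. marginals of the tree laws -/

theorem ret_uses_mono {S : Type} {p q : ℕ} {P : (ℕ → S) → ℝ} (hP : TrUses p P) (hpq : p ≤ q) : TrUses q P :=
  fun σ σ' h => hP σ σ' fun i hi => h i (by omega)

/-- an injective family of labels extends to a permutation of the labels `< q` -/
theorem ret_perm_ext (q : ℕ) (f : ℕ → ℕ) : ∀ p : ℕ, p ≤ q → (∀ i, i < p → f i < q) →
    (∀ i j, i < p → j < p → f i = f j → i = j) →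
    ∃ e : Equiv.Perm ℕ, (∀ i, i < p → e i = f i) ∧ ∀ x, q ≤ x → e x = x := by
  intro p
  induction p with
  | zero => intro _ _ _; exact ⟨1, fun i hi => by omega, fun _ _ => rfl⟩
  | succ p ih =>
    intro hpq hf hinj
    obtain ⟨e, he1, he2⟩ := ih (by omega) (fun i hi => hf i (by omega)) (fun i j hi hj => hinj i j (by omega) (by omega))
    refine ⟨Equiv.swap (f p) (e p) * e, ?_, ?_⟩
    · intro i hi
      rcases Nat.lt_succ_iff_lt_or_eq.mp hi with h | h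
      · rw [Equiv.Perm.mul_apply, he1 i h]
        apply Equiv.swap_apply_of_ne_of_ne
        · intro hh
          have := hinj i p (by omega) (by omega) hh
          omega
        · intro hh
          rw [← he1 i h] at hh
          have := e.injective hh
          omega
      · subst h
        rw [Equiv.Perm.mul_apply, Equiv.swap_apply_right]
    · intro x hx
      rw [Equiv.Perm.mul_apply, he2 x hx]
      apply Equiv.swap_apply_of_ne_of_ne
      · have := hf p (by omega)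
        omega
      · intro hh
        have h3 : e x = e p := by rw [he2 x hx, hh]
        have := e.injective h3
        omega

section sys

variable {Ω : Type} {Y : LedSys Ω}

/-- marginalisation of the last `k` labels -/
theorem ret_prune_k (hY : Y.Ok) {lam : ℕ → ℝ} {t : ℝ} (hl : LedProf lam) (ht : t ∈ Set.Icc (0 : ℝ) 1) (p k : ℕ)
    (τ : ℕ → ℕ → ℕ) (P : (ℕ → Bool × Ω) → ℝ) (hτ : IsTr Y.N (p + k) τ) (hP : TrUses p P) :
    Y.nu lam t (p + k) τ P = Y.nu lam t p τ P := by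
  induction k with
  | zero => rfl
  | succ k ih =>
    rw [← Nat.add_assoc, hY.prune lam t (p + k) τ P hl ht hτ (ret_uses_mono hP (by omega)),
      ih (tr_isTr_mono hτ (by omega))]

/-- **marginal on an injective family of labels** -/
theorem ret_comap (hY : Y.Ok) {lam : ℕ → ℝ} {t : ℝ} (hl : LedProf lam) (ht : t ∈ Set.Icc (0 : ℝ) 1) {p q : ℕ} (hpq : p ≤ q)
    {τ : ℕ → ℕ → ℕ} (hτ : IsTr Y.N q τ) (f : ℕ → ℕ) (hf : ∀ i, i < p → f i < q)
    (hinj : ∀ i j, i < p → j < p → f i = f j → i = j) (P : (ℕ → Bool × Ω) → ℝ) (hP : TrUses p P) :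
    Y.nu lam t q τ (fun σ => P fun i => σ (f i)) = Y.nu lam t p (fun x y => τ (f x) (f y)) P := by
  obtain ⟨e, he1, he2⟩ := ret_perm_ext q f p hpq hf hinj
  have hP' : TrUses q (fun σ : ℕ → Bool × Ω => P fun i => σ (f i)) :=
    fun σ σ' h => hP _ _ fun i hi => h (f i) (hf i hi)
  have h1 := hY.perm lam t q τ (fun σ => P fun i => σ (f i)) e hl ht hτ hP' he2
  have e1 : (fun σ : ℕ → Bool × Ω => (fun σ : ℕ → Bool × Ω => P fun i => σ (f i)) fun i => σ (e.symm i)) = P := by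
    funext σ
    refine hP _ _ fun i hi => ?_
    show σ (e.symm (f i)) = σ i
    rw [← he1 i hi, Equiv.symm_apply_apply]
  rw [e1] at h1
  rw [← h1]
  have hτe : IsTr Y.N q (fun x y => τ (e x) (e y)) := tr_comap_isTr hτ e (fun x hx => tr5_perm_lt e he2 hx)
  obtain ⟨k, rfl⟩ := Nat.exists_eq_add_of_le hpq
  rw [ret_prune_k hY hl ht p k _ P hτe hP]
  exact hY.congr lam t p _ _ P fun x y hx hy => by rw [he1 x hx, he1 y hy]

/-- the two-label table is a tree -/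
theorem ret_pair_isTr (N r : ℕ) (hr : r ≤ N + 1) : IsTr N 2 (ledPair N r) := by
  refine ⟨?_, ?_, ?_, ?_⟩
  · intro x y _ _
    unfold ledPair
    split_ifs <;> omega
  · intro x _
    simp [ledPair]
  · intro x y _ _
    unfold ledPair
    by_cases h : x = y
    · rw [if_pos h, if_pos h.symm]
    · rw [if_neg h, if_neg (Ne.symm h)]
  · intro x y z _ _ _
    unfold ledPair
    split_ifs <;> simp_all <;> omega

/-- **pair marginals** -/
theorem ret_pair (hY : Y.Ok) {lam : ℕ → ℝ} {t : ℝ} (hl : LedProf lam) (ht : t ∈ Set.Icc (0 : ℝ) 1) {q : ℕ}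
    {τ : ℕ → ℕ → ℕ} (hτ : IsTr Y.N q τ) {x y : ℕ} (hx : x < q) (hy : y < q) (hxy : x ≠ y) (g : Bool × Ω → Bool × Ω → ℝ) :
    Y.nu lam t q τ (fun σ => g (σ x) (σ y)) = Y.nu lam t 2 (ledPair Y.N (τ x y)) fun σ => g (σ 0) (σ 1) := by
  have hP : TrUses 2 (fun σ : ℕ → Bool × Ω => g (σ 0) (σ 1)) := fun σ σ' h => by
    show g (σ 0) (σ 1) = g (σ' 0) (σ' 1)
    rw [h 0 (by omega), h 1 (by omega)]
  have h1 := ret_comap hY hl ht (p := 2) (q := q) (by omega) hτ (fun i => if i = 0 then x else y)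
    (fun i _ => by split_ifs <;> assumption)
    (fun i j hi hj h => by
      split_ifs at h <;> omega) _ hP
  simp only [if_true, one_ne_zero, if_false] at h1
  rw [h1]
  refine hY.congr lam t 2 _ _ _ fun a b ha hb => ?_
  unfold ledPair
  have ha' : a = 0 ∨ a = 1 := by omega
  have hb' : b = 0 ∨ b = 1 := by omega
  rcases ha' with rfl | rfl <;> rcases hb' with rfl | rfl
  · simp [hτ.diag x hx]
  · simp
  · simp [hτ.symm y x hy hx]
  · simp [hτ.diag y hy]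

/-! ## 4. profiles, signs -/

theorem ret_prof_lam (k : ℕ) {l : ℝ} (h0 : 0 ≤ l) (h1 : l ≤ 1) : LedProf (ledLam k l) := by
  refine ⟨?_, ?_, ?_⟩
  · intro r; unfold ledLam; split_ifs <;> linarith
  · intro r; unfold ledLam; split_ifs <;> linarith
  · intro r r' hrr
    unfold ledLam
    split_ifs <;> first | linarith | omega

theorem ret_prof_one : LedProf (fun _ => (1 : ℝ)) :=
  ⟨fun _ => zero_le_one, fun _ => le_rfl, fun _ _ _ => le_rfl⟩

theorem ret_prof_seg {lam0 lam1 : ℕ → ℝ} (h0 : LedProf lam0) (h1 : LedProf lam1) {θ : ℝ} (hθ : θ ∈ Set.Icc (0 : ℝ) 1) :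
    LedProf (ledSeg lam0 lam1 θ) := by
  obtain ⟨hθ0, hθ1⟩ := hθ
  refine ⟨?_, ?_, ?_⟩
  · intro r
    have a0 := h0.nonneg r
    have a1 := h1.nonneg r
    unfold ledSeg
    nlinarith [mul_nonneg hθ0 a1, mul_nonneg (sub_nonneg.mpr hθ1) a0]
  · intro r
    have a0 := h0.le_one r
    have a1 := h1.le_one r
    unfold ledSeg
    nlinarith [mul_nonneg hθ0 (sub_nonneg.mpr a1), mul_nonneg (sub_nonneg.mpr hθ1) (sub_nonneg.mpr a0)]
  · intro r r' hrr
    have a0 := h0.mono hrr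
    have a1 := h1.mono hrr
    unfold ledSeg
    nlinarith [mul_nonneg hθ0 (sub_nonneg.mpr a1), mul_nonneg (sub_nonneg.mpr hθ1) (sub_nonneg.mpr a0)]

theorem ret_seg_zero (lam0 lam1 : ℕ → ℝ) : ledSeg lam0 lam1 0 = lam0 := by
  funext r; simp [ledSeg]

theorem ret_seg_one (lam0 lam1 : ℕ → ℝ) : ledSeg lam0 lam1 1 = lam1 := by
  funext r; simp [ledSeg]

theorem ret_sg_abs (s : Bool) : |ledSg s| = 1 := by
  unfold ledSg; split_ifs <;> simp

theorem ret_sg_not (s : Bool) : ledSg (!s) = - ledSg s := by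
  cases s <;> simp [ledSg]

theorem ret_sg_sq (s : Bool) : ledSg s * ledSg s = 1 := by
  cases s <;> simp [ledSg]

theorem ret_zero_mem : (0 : ℝ) ∈ Set.Icc (0 : ℝ) 1 := ⟨le_rfl, zero_le_one⟩

theorem ret_one_mem : (1 : ℝ) ∈ Set.Icc (0 : ℝ) 1 := ⟨zero_le_one, le_rfl⟩

/-! ## 5. block flips and block independence of the scalar site -/

/-- a test which is odd under the flip of one block has mean zero -/
theorem ret_parity (hY : Y.Ok) {lam : ℕ → ℝ} {t : ℝ} (hl : LedProf lam) (ht : t ∈ Set.Icc (0 : ℝ) 1) {q : ℕ}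
    {τ : ℕ → ℕ → ℕ} (hτ : IsTr Y.N q τ) (P : (ℕ → Bool × Ω) → ℝ) (hP : TrUses q P) (k x : ℕ) (hx : x < q)
    (h0 : ∀ r, r < k → lam r = 0) (hodd : ∀ σ, P (ledFlip τ k x σ) = - P σ) : Y.nu lam t q τ P = 0 := by
  have h1 := hY.flip lam t q τ P k x hl ht hτ hP hx h0
  have e : (fun σ => P (ledFlip τ k x σ)) = fun σ => - P σ := funext hodd
  rw [e, ret_m_neg (hY.mean lam t q τ hl ht hτ)] at h1
  linarith

theorem ret_lam_zero (k : ℕ) : ∀ r, r < k → ledLam k 0 r = 0 := fun r hr => by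
  unfold ledLam; rw [if_pos hr]

theorem ret_gam_abs_le (hY : Y.Ok) (k r : ℕ) (hr : r ≤ Y.N + 1) : |Y.gam k r| ≤ 1 := by
  unfold LedSys.gam LedSys.gS LedSys.nuS
  refine ret_m_bound (hY.mean _ 0 2 _ (ret_prof_lam k le_rfl zero_le_one) ret_zero_mem (ret_pair_isTr Y.N r hr)) fun σ => ?_
  rw [abs_mul, ret_sg_abs, ret_sg_abs, one_mul]

/-- labels in different blocks are uncorrelated -/
theorem ret_gam_zero (hY : Y.Ok) {k r : ℕ} (hk : k ≤ Y.N + 1) (hr : r < k) : Y.gam k r = 0 := by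
  unfold LedSys.gam LedSys.gS LedSys.nuS
  refine ret_parity hY (ret_prof_lam k le_rfl zero_le_one) ret_zero_mem (ret_pair_isTr Y.N r (by omega)) _ ?_ k 0 (by omega)
    (ret_lam_zero k) ?_
  · intro σ σ' h
    show ledSg (σ 0).1 * ledSg (σ 1).1 = ledSg (σ' 0).1 * ledSg (σ' 1).1
    rw [h 0 (by omega), h 1 (by omega)]
  · intro σ
    have e0 : ledFlip (ledPair Y.N r) k 0 σ 0 = (!(σ 0).1, (σ 0).2) := by
      unfold ledFlip ledPair
      rw [if_pos rfl, if_pos hk]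
    have e1 : ledFlip (ledPair Y.N r) k 0 σ 1 = σ 1 := by
      have e2 : ledPair Y.N r 0 1 = r := by simp [ledPair]
      unfold ledFlip
      rw [e2, if_neg (by omega)]
    show ledSg (ledFlip (ledPair Y.N r) k 0 σ 0).1 * ledSg (ledFlip (ledPair Y.N r) k 0 σ 1).1 = _
    rw [e0, e1, ret_sg_not]
    ring

/-- the scalar two-point function on any tree -/
theorem ret_gam_pair (hY : Y.Ok) (k : ℕ) {q : ℕ} {τ : ℕ → ℕ → ℕ} (hτ : IsTr Y.N q τ) {x y : ℕ} (hx : x < q) (hy : y < q)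
    (hxy : x ≠ y) : Y.nuS (ledLam k 0) q τ (fun s => ledSg (s x) * ledSg (s y)) = Y.gam k (τ x y) := by
  unfold LedSys.gam LedSys.gS LedSys.nuS
  exact ret_pair hY (ret_prof_lam k le_rfl zero_le_one) ret_zero_mem hτ hx hy hxy (fun u v => ledSg u.1 * ledSg v.1)

theorem ret_kap4_abs_le (hY : Y.Ok) (k : ℕ) {q : ℕ} {τ : ℕ → ℕ → ℕ} (hτ : IsTr Y.N q τ) {a c e f : ℕ} (ha : a < q) (hc : c < q)
    (he : e < q) (hf : f < q) : |Y.kap4 k q τ a c e f| ≤ 2 := by
  unfold LedSys.kap4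
  have h1 : |Y.nuS (ledLam k 0) q τ (fun s => ledSg (s a) * ledSg (s c) * ledSg (s e) * ledSg (s f))| ≤ 1 := by
    unfold LedSys.nuS
    refine ret_m_bound (hY.mean _ 0 q _ (ret_prof_lam k le_rfl zero_le_one) ret_zero_mem hτ) fun σ => ?_
    rw [abs_mul, abs_mul, abs_mul, ret_sg_abs, ret_sg_abs, ret_sg_abs, ret_sg_abs]
    norm_num
  have h2 := ret_gam_abs_le hY k (τ a c) (hτ.le a c ha hc)
  have h3 := ret_gam_abs_le hY k (τ e f) (hτ.le e f he hf)
  have h4 : |Y.gam k (τ a c) * Y.gam k (τ e f)| ≤ 1 := by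
    rw [abs_mul]
    exact mul_le_one₀ h2 (abs_nonneg _) h3
  calc _ ≤ |Y.nuS (ledLam k 0) q τ (fun s => ledSg (s a) * ledSg (s c) * ledSg (s e) * ledSg (s f))|
        + |Y.gam k (τ a c) * Y.gam k (τ e f)| := abs_sub _ _
    _ ≤ 2 := by linarith

/-- **table of the connected four-point function**: if `e, f` share a block, `κ₄(a c; e f)` vanishes unless `c, e, f` lie in the block of `a`      (PE l.1100-1106) -/
theorem ret_kap4_off (hY : Y.Ok) {k : ℕ} (hk : k ≤ Y.N + 1) {q : ℕ} {τ : ℕ → ℕ → ℕ} (hτ : IsTr Y.N q τ) {a c e f : ℕ}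
    (ha : a < q) (hc : c < q) (he : e < q) (hf : f < q) (hac : a ≠ c) (hef : e ≠ f) (hkef : k ≤ τ e f)
    (hno : ¬ (k ≤ τ a c ∧ k ≤ τ a e ∧ k ≤ τ a f)) : Y.kap4 k q τ a c e f = 0 := by
  have hl := ret_prof_lam k (le_refl (0 : ℝ)) zero_le_one
  have hU : TrUses q (fun σ : ℕ → Bool × Ω => ledSg (σ a).1 * ledSg (σ c).1 * ledSg (σ e).1 * ledSg (σ f).1) := by
    intro σ σ' h
    show ledSg (σ a).1 * ledSg (σ c).1 * ledSg (σ e).1 * ledSg (σ f).1 = ledSg (σ' a).1 * ledSg (σ' c).1 * ledSg (σ' e).1 * ledSg (σ' f).1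
    rw [h a ha, h c hc, h e he, h f hf]
  -- `e` and `f` are on the same side of the block of `a`
  have hef1 : k ≤ τ a e → k ≤ τ a f := fun h => le_trans (le_min h hkef) (hτ.ultra a e f ha he hf)
  have hef2 : k ≤ τ a f → k ≤ τ a e := fun h => by
    have := hτ.ultra a f e ha hf he
    rw [hτ.symm f e hf he] at this
    exact le_trans (le_min h hkef) this
  have hfl_in : ∀ (σ : ℕ → Bool × Ω) (i : ℕ), k ≤ τ a i → ledSg (ledFlip τ k a σ i).1 = - ledSg (σ i).1 := by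
    intro σ i hi
    unfold ledFlip
    rw [if_pos hi, ret_sg_not]
  have hfl_out : ∀ (σ : ℕ → Bool × Ω) (i : ℕ), ¬ k ≤ τ a i → ledSg (ledFlip τ k a σ i).1 = ledSg (σ i).1 := by
    intro σ i hi
    unfold ledFlip
    rw [if_neg hi]
  have haa : k ≤ τ a a := by rw [hτ.diag a ha]; exact hk
  unfold LedSys.kap4
  by_cases h1 : k ≤ τ a c
  · -- independence
    have h2 : ¬ k ≤ τ a e := fun h => hno ⟨h1, h, hef1 h⟩
    have h3 : ¬ k ≤ τ a f := fun h => h2 (hef2 h)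
    have hi := hY.indep (ledLam k 0) q τ k (fun x => k ≤ τ a x) (fun s => ledSg (s a) * ledSg (s c))
      (fun s => ledSg (s e) * ledSg (s f)) hl hτ hk (ret_lam_zero k)
      (fun x y hx hy hAx hAy => by
        by_contra hcon
        exact hAy (le_trans (le_min hAx (not_lt.mp hcon)) (hτ.ultra a x y ha hx hy)))
      (fun s s' h => by rw [h a ha haa, h c hc h1])
      (fun s s' h => by rw [h e he h2, h f hf h3])
    have e1 : Y.nuS (ledLam k 0) q τ (fun s => ledSg (s a) * ledSg (s c) * ledSg (s e) * ledSg (s f))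
        = Y.nu (ledLam k 0) 0 q τ (fun σ => (fun s : ℕ → Bool => ledSg (s a) * ledSg (s c)) (fun i => (σ i).1)
            * (fun s : ℕ → Bool => ledSg (s e) * ledSg (s f)) fun i => (σ i).1) := by
      unfold LedSys.nuS
      congr 1
      funext σ
      ring
    rw [e1, hi]
    have g1 := ret_gam_pair hY k hτ ha hc hac
    have g2 := ret_gam_pair hY k hτ he hf hef
    unfold LedSys.nuS at g1 g2
    rw [g1, g2, sub_self]
  · rw [ret_gam_zero hY hk (not_le.mp h1), zero_mul, sub_zero]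
    unfold LedSys.nuS
    refine ret_parity hY hl ret_zero_mem hτ _ hU k a ha (ret_lam_zero k) fun σ => ?_
    show ledSg (ledFlip τ k a σ a).1 * ledSg (ledFlip τ k a σ c).1 * ledSg (ledFlip τ k a σ e).1 * ledSg (ledFlip τ k a σ f).1 = _
    by_cases h2 : k ≤ τ a e
    · rw [hfl_in σ a haa, hfl_out σ c h1, hfl_in σ e h2, hfl_in σ f (hef1 h2)]
      ring
    · rw [hfl_in σ a haa, hfl_out σ c h1, hfl_out σ e h2, hfl_out σ f (fun h => h2 (hef2 h))]
      ring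

/-! ## 6. the scalar clock; Lipschitz dependence on the profile -/

theorem ret_b_nonneg (hY : Y.Ok) (r : ℕ) : 0 ≤ Y.b r := by
  have := hY.b_mono (Nat.zero_le r)
  rwa [hY.b_zero] at this

theorem ret_h_nonneg (hY : Y.Ok) (r : ℕ) : 0 ≤ Y.h r := by
  have := hY.h_mono (Nat.zero_le r)
  rwa [hY.h_zero] at this

theorem ret_K_nonneg (hY : Y.Ok) (r : ℕ) : 0 ≤ Y.K r := by
  unfold LedSys.K
  have := mul_nonneg (ret_b_nonneg hY r) (hY.S_nonneg r)
  have := ret_h_nonneg hY r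
  linarith

theorem ret_K_mono (hY : Y.Ok) : Monotone Y.K := by
  intro r r' h
  unfold LedSys.K
  have h1 := hY.h_mono h
  have h2 : Y.b r * Y.S r ≤ Y.b r' * Y.S r' :=
    mul_le_mul (hY.b_mono h) (hY.S_mono h) (hY.S_nonneg r) (ret_b_nonneg hY r')
  linarith

theorem ret_Q_eq (Y : LedSys Ω) (r : ℕ) (ω ω' : Ω) : Y.Q r ω ω' = Y.K r + Y.dl r ω ω' := by
  unfold LedSys.Q LedSys.K LedSys.dl; ring

/-- **bounded scalar moments are Lipschitz in the revelation profile**      (PE l.1086-1090) -/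
theorem ret_lip (hY : Y.Ok) {lam0 lam1 : ℕ → ℝ} (h0 : LedProf lam0) (h1 : LedProf lam1) {q : ℕ} {τ : ℕ → ℕ → ℕ}
    (hτ : IsTr Y.N q τ) (P : (ℕ → Bool × Ω) → ℝ) (hP : TrUses q P) {M κ : ℝ} (hM : ∀ σ, |P σ| ≤ M)
    (hκ : ∀ r, r ≤ Y.N + 1 → |(lam1 r - lam0 r) * Y.K r| ≤ κ) :
    |Y.nu lam1 0 q τ P - Y.nu lam0 0 q τ P| ≤ 2 * ((q : ℝ) * (q + 1)) * (M * κ) := by
  have hc := hY.contL lam0 lam1 0 q τ P h0 h1 ret_zero_mem hτ hP
  have hd := fun θ hθ => hY.derivL lam0 lam1 0 q τ P θ h0 h1 ret_zero_mem hτ hP hθ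
  obtain ⟨c, hc1, hc2⟩ := exists_hasDerivAt_eq_slope (fun θ => Y.nu (ledSeg lam0 lam1 θ) 0 q τ P) _ zero_lt_one hc hd
  simp only [ret_seg_zero, ret_seg_one, sub_zero, div_one] at hc2
  rw [← hc2]
  have hc' : c ∈ Set.Icc (0 : ℝ) 1 := ⟨hc1.1.le, hc1.2.le⟩
  have hb := ret_sumK_bound (ms := Y.ms) hτ hY.ms_ok 2
    (fun τ' => Y.nu (ledSeg lam0 lam1 c) 0 (q + 2) τ' fun σ =>
        P σ * ((lam1 (τ' q (q + 1)) - lam0 (τ' q (q + 1))) * Y.kRow 0 (τ' q (q + 1)) (σ q) (σ (q + 1)))) (M * κ) (by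
      intro τ' hτ'
      refine ret_m_bound (hY.mean _ 0 (q + 2) τ' (ret_prof_seg h0 h1 hc') ret_zero_mem hτ') fun σ => ?_
      rw [abs_mul]
      refine mul_le_mul (hM σ) ?_ (abs_nonneg _) (le_trans (abs_nonneg _) (hM σ))
      have h2 := hκ (τ' q (q + 1)) (hτ'.le q (q + 1) (by omega) (by omega))
      have e : |(lam1 (τ' q (q + 1)) - lam0 (τ' q (q + 1))) * Y.kRow 0 (τ' q (q + 1)) (σ q) (σ (q + 1))|
          = |(lam1 (τ' q (q + 1)) - lam0 (τ' q (q + 1))) * Y.K (τ' q (q + 1))| := by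
        unfold LedSys.kRow
        rw [abs_mul, abs_mul, abs_mul, abs_mul, ret_sg_abs, ret_sg_abs]
        simp
      rw [e]
      exact h2)
  rw [hY.ms_top] at hb
  rw [abs_mul]
  have e2 : (∏ i ∈ Finset.range 2, ((q : ℝ) + i)) = (q : ℝ) * (q + 1) := by
    simp [Finset.prod_range_succ]
  rw [e2] at hb
  have e3 : |(1 / 2 : ℝ)| = 1 / 2 := by norm_num
  rw [e3]
  nlinarith

/-- change of the cut in a bounded scalar moment -/
theorem ret_lip_cut (hY : Y.Ok) {kX kU : ℕ} (hk : kX ≤ kU) {q : ℕ} {τ : ℕ → ℕ → ℕ}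
    (hτ : IsTr Y.N q τ) (f : (ℕ → Bool) → ℝ) (hf : ∀ s s' : ℕ → Bool, (∀ i, i < q → s i = s' i) → f s = f s') {M : ℝ}
    (hM : ∀ s, |f s| ≤ M) :
    |Y.nuS (ledLam kX 0) q τ f - Y.nuS (ledLam kU 0) q τ f| ≤ 2 * ((q : ℝ) * (q + 1)) * (M * Y.K kU) := by
  unfold LedSys.nuS
  refine ret_lip hY (ret_prof_lam kU le_rfl zero_le_one) (ret_prof_lam kX le_rfl zero_le_one) hτ _ ?_ (fun σ => hM _) ?_
  · intro σ σ' h
    exact hf _ _ fun i hi => by rw [h i hi]
  · intro r _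
    unfold ledLam
    have hK0 := ret_K_nonneg hY kU
    by_cases h1 : r < kX
    · rw [if_pos h1, if_pos (by omega)]
      simpa using hK0
    · rw [if_neg h1]
      by_cases h2 : r < kU
      · rw [if_pos h2, sub_zero, one_mul, abs_of_nonneg (ret_K_nonneg hY r)]
        exact ret_K_mono hY h2.le
      · rw [if_neg h2]
        simpa using hK0

theorem ret_gam_lip (hY : Y.Ok) {kX kU : ℕ} (hk : kX ≤ kU) {r : ℕ} (hr : r ≤ Y.N + 1) :
    |Y.gam kX r - Y.gam kU r| ≤ 12 * Y.K kU := by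
  unfold LedSys.gam LedSys.gS
  have := ret_lip_cut hY hk (ret_pair_isTr Y.N r hr) (fun s => ledSg (s 0) * ledSg (s 1))
    (fun s s' h => by rw [h 0 (by omega), h 1 (by omega)]) (M := 1)
    (fun s => by rw [abs_mul, ret_sg_abs, ret_sg_abs, one_mul])
  norm_num at this
  linarith

theorem ret_kap4_lip (hY : Y.Ok) {kX kU : ℕ} (hk : kX ≤ kU) {q : ℕ} {τ : ℕ → ℕ → ℕ} (hτ : IsTr Y.N q τ) {a c e f : ℕ}
    (ha : a < q) (hc : c < q) (he : e < q) (hf : f < q) :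
    |Y.kap4 kX q τ a c e f - Y.kap4 kU q τ a c e f| ≤ (2 * ((q : ℝ) * (q + 1)) + 24) * Y.K kU := by
  unfold LedSys.kap4
  have h1 := ret_lip_cut hY hk hτ (fun s => ledSg (s a) * ledSg (s c) * ledSg (s e) * ledSg (s f))
    (fun s s' h => by rw [h a ha, h c hc, h e he, h f hf]) (M := 1)
    (fun s => by rw [abs_mul, abs_mul, abs_mul, ret_sg_abs, ret_sg_abs, ret_sg_abs, ret_sg_abs]; norm_num)
  have g1 := ret_gam_lip hY hk (hτ.le a c ha hc)
  have g2 := ret_gam_lip hY hk (hτ.le e f he hf)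
  have b1 := ret_gam_abs_le hY kX (τ e f) (hτ.le e f he hf)
  have b2 := ret_gam_abs_le hY kU (τ a c) (hτ.le a c ha hc)
  have hK0 := ret_K_nonneg hY kU
  have e1 : Y.gam kX (τ a c) * Y.gam kX (τ e f) - Y.gam kU (τ a c) * Y.gam kU (τ e f)
      = (Y.gam kX (τ a c) - Y.gam kU (τ a c)) * Y.gam kX (τ e f) + Y.gam kU (τ a c) * (Y.gam kX (τ e f) - Y.gam kU (τ e f)) := by
    ring
  have h2 : |Y.gam kX (τ a c) * Y.gam kX (τ e f) - Y.gam kU (τ a c) * Y.gam kU (τ e f)| ≤ 24 * Y.K kU := by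
    rw [e1]
    refine (abs_add_le _ _).trans ?_
    rw [abs_mul, abs_mul]
    have := mul_le_mul g1 b1 (abs_nonneg _) (by positivity)
    have := mul_le_mul b2 g2 (abs_nonneg _) zero_le_one
    linarith
  have e2 : ∀ A B C D : ℝ, A - B - (C - D) = (A - C) - (B - D) := fun A B C D => by ring
  rw [e2]
  refine (abs_sub _ _).trans ?_
  rw [one_mul] at h1
  linarith

/-! ## 7. the longitudinal insertion `𝓛(X, a) = ν[X M_a]` at the cut of depth `kU`      (PE (23)) -/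

/-- coefficient of the insertion: `c = q`, `e = q + 1`, `f = q + 2` in the block of `a`, `e ≠ f` -/
noncomputable def LedSys.insK (Y : LedSys Ω) (kU q a : ℕ) (τ' : ℕ → ℕ → ℕ) : ℝ :=
  if kU ≤ τ' a q ∧ kU ≤ τ' a (q + 1) ∧ kU ≤ τ' a (q + 2) ∧ τ' (q + 1) (q + 2) ≤ Y.N then
    1 / 2 * Y.kap4 kU (q + 3) τ' a q (q + 1) (q + 2) else 0

/-- the same coefficient without the block restrictions -/
noncomputable def LedSys.insF (Y : LedSys Ω) (kU q a : ℕ) (τ' : ℕ → ℕ → ℕ) : ℝ :=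
  if kU ≤ τ' (q + 1) (q + 2) ∧ τ' (q + 1) (q + 2) < Y.N + 1 then 1 / 2 * Y.kap4 kU (q + 3) τ' a q (q + 1) (q + 2) else 0

/-- pairing of a test with one error `δ_{ef}` -/
def LedSys.insE (Y : LedSys Ω) (q : ℕ) (X : (ℕ → Bool × Ω) → ℝ) (τ' : ℕ → ℕ → ℕ) : ℝ :=
  Y.act (q + 3) τ' fun σ => X σ * Y.dl (τ' (q + 1) (q + 2)) (σ (q + 1)).2 (σ (q + 2)).2

/-- **`𝓛(X, a) = ν[X M_a]`**, `X` = any test on the labels `< q` -/
noncomputable def LedSys.insL (Y : LedSys Ω) (kU q : ℕ) (τ : ℕ → ℕ → ℕ) (a : ℕ) (X : (ℕ → Bool × Ω) → ℝ) : ℝ :=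
  trSumK Y.ms Y.N 3 q τ fun τ' => Y.insK kU q a τ' * Y.insE q X τ'

/-- mean of the centred deleted overlap of a pair which shares `r` stages (`- S_r / n` in the model) -/
def LedSys.cen (Y : LedSys Ω) (r : ℕ) : ℝ := Y.act 2 (ledPair Y.N r) fun σ => Y.R (σ 0).2 (σ 1).2 - Y.S r

/-- `L²` norm of a test -/
noncomputable def LedSys.n2 (Y : LedSys Ω) (q : ℕ) (τ : ℕ → ℕ → ℕ) (X : (ℕ → Bool × Ω) → ℝ) : ℝ :=
  Real.sqrt (Y.act q τ fun σ => X σ ^ 2)

theorem ret_kit_eqns_cite : True := by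
  have := @LedSys.insK.eq_1
  have := @LedSys.insF.eq_1
  have := @LedSys.insE.eq_1
  have := @LedSys.insL.eq_1
  have := @LedSys.cen.eq_1
  have := @LedSys.n2.eq_1
  trivial

theorem ret_kap4_congr (hY : Y.Ok) (k q : ℕ) {τ₁ τ₂ : ℕ → ℕ → ℕ} (h : ∀ y z, y < q → z < q → τ₁ y z = τ₂ y z) {a c e f : ℕ}
    (ha : a < q) (hc : c < q) (he : e < q) (hf : f < q) : Y.kap4 k q τ₁ a c e f = Y.kap4 k q τ₂ a c e f := by
  unfold LedSys.kap4 LedSys.nuS
  rw [hY.congr _ 0 q τ₁ τ₂ _ h, h a c ha hc, h e f he hf]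

/-- relabelling / marginalisation of `κ₄` -/
theorem ret_kap4_comap (hY : Y.Ok) (k : ℕ) {p q : ℕ} (hpq : p ≤ q) {τ : ℕ → ℕ → ℕ} (hτ : IsTr Y.N q τ) (g : ℕ → ℕ)
    (hg : ∀ i, i < p → g i < q) (hinj : ∀ i j, i < p → j < p → g i = g j → i = j) {a c e f : ℕ}
    (ha : a < p) (hc : c < p) (he : e < p) (hf : f < p) :
    Y.kap4 k p (fun x y => τ (g x) (g y)) a c e f = Y.kap4 k q τ (g a) (g c) (g e) (g f) := by
  unfold LedSys.kap4 LedSys.nuS
  have h1 := ret_comap hY (ret_prof_lam k (le_refl (0 : ℝ)) zero_le_one) ret_zero_mem hpq hτ g hg hinj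
    (fun σ => ledSg (σ a).1 * ledSg (σ c).1 * ledSg (σ e).1 * ledSg (σ f).1) (fun σ σ' h => by
      show ledSg (σ a).1 * ledSg (σ c).1 * ledSg (σ e).1 * ledSg (σ f).1 = ledSg (σ' a).1 * ledSg (σ' c).1 * ledSg (σ' e).1 * ledSg (σ' f).1
      rw [h a ha, h c hc, h e he, h f hf])
  rw [← h1]

theorem ret_n2_nonneg (Y : LedSys Ω) (q : ℕ) (τ : ℕ → ℕ → ℕ) (X : (ℕ → Bool × Ω) → ℝ) : 0 ≤ Y.n2 q τ X := Real.sqrt_nonneg _

theorem ret_D_nonneg (Y : LedSys Ω) (r : ℕ) : 0 ≤ Y.D r := Real.sqrt_nonneg _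

/-- Cauchy-Schwarz: a test against one error      (PE l.1076-1081) -/
theorem ret_insE_le (hY : Y.Ok) {Cb : ℝ} (hb : ∀ r, Y.b r ≤ Cb) {q : ℕ} {τ : ℕ → ℕ → ℕ} (X : (ℕ → Bool × Ω) → ℝ)
    (hX : TrUses q X) {τ' : ℕ → ℕ → ℕ} (hτ' : IsTr Y.N (q + 3) τ') (hag : ∀ y z, y < q → z < q → τ' y z = τ y z) :
    |Y.insE q X τ'| ≤ Y.n2 q τ X * (Cb * Y.D (τ' (q + 1) (q + 2))) := by
  unfold LedSys.insE LedSys.act
  have hm := hY.mean (fun _ => 1) 1 (q + 3) τ' ret_prof_one ret_one_mem hτ'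
  refine (ret_m_cs_sqrt hm _ _).trans ?_
  have e1 : Y.nu (fun _ => 1) 1 (q + 3) τ' (fun σ => X σ ^ 2) = Y.act q τ fun σ => X σ ^ 2 := by
    unfold LedSys.act
    rw [ret_prune_k hY ret_prof_one ret_one_mem q 3 τ' _ hτ' (fun σ σ' h => by
      show X σ ^ 2 = X σ' ^ 2
      rw [hX σ σ' h])]
    exact hY.congr _ 1 q τ' τ _ hag
  have e2 : Y.nu (fun _ => 1) 1 (q + 3) τ' (fun σ => Y.dl (τ' (q + 1) (q + 2)) (σ (q + 1)).2 (σ (q + 2)).2 ^ 2)
      = Y.b (τ' (q + 1) (q + 2)) ^ 2 * Y.act 2 (ledPair Y.N (τ' (q + 1) (q + 2)))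
          fun σ => (Y.R (σ 0).2 (σ 1).2 - Y.S (τ' (q + 1) (q + 2))) ^ 2 := by
    rw [ret_pair hY ret_prof_one ret_one_mem hτ' (x := q + 1) (y := q + 2) (by omega) (by omega) (by omega)
      (fun u v => Y.dl (τ' (q + 1) (q + 2)) u.2 v.2 ^ 2)]
    unfold LedSys.act LedSys.dl
    rw [← (hY.mean (fun _ => 1) 1 2 _ ret_prof_one ret_one_mem
      (ret_pair_isTr Y.N _ (hτ'.le (q + 1) (q + 2) (by omega) (by omega)))).smul]
    congr 1
    funext σ
    ring
  rw [e1, e2, Real.sqrt_mul (sq_nonneg _), Real.sqrt_sq (ret_b_nonneg hY _)]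
  refine mul_le_mul_of_nonneg_left ?_ (Real.sqrt_nonneg _)
  exact mul_le_mul_of_nonneg_right (hb _) (Real.sqrt_nonneg _)

/-- the block restrictions in the insertion are automatic      (PE l.1100-1108) -/
theorem ret_insK_eq_insF (hY : Y.Ok) {kU : ℕ} (hk : kU ≤ Y.N + 1) {q a : ℕ} (ha : a < q) {τ' : ℕ → ℕ → ℕ}
    (hτ' : IsTr Y.N (q + 3) τ') : Y.insK kU q a τ' = Y.insF kU q a τ' := by
  unfold LedSys.insK LedSys.insF
  by_cases h1 : kU ≤ τ' a q ∧ kU ≤ τ' a (q + 1) ∧ kU ≤ τ' a (q + 2) ∧ τ' (q + 1) (q + 2) ≤ Y.N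
  · rw [if_pos h1, if_pos]
    refine ⟨?_, by omega⟩
    have := hτ'.ultra (q + 1) a (q + 2) (by omega) (by omega) (by omega)
    rw [hτ'.symm (q + 1) a (by omega) (by omega)] at this
    exact le_trans (le_min h1.2.1 h1.2.2.1) this
  · rw [if_neg h1]
    by_cases h2 : kU ≤ τ' (q + 1) (q + 2) ∧ τ' (q + 1) (q + 2) < Y.N + 1
    · rw [if_pos h2, ret_kap4_off hY hk hτ' (by omega) (by omega) (by omega) (by omega) (by omega) (by omega) h2.1
        (fun h => h1 ⟨h.1, h.2.1, h.2.2, by omega⟩), mul_zero]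
    · rw [if_neg h2]

theorem ret_insL_free (hY : Y.Ok) {kU : ℕ} (hk : kU ≤ Y.N + 1) {q a : ℕ} (ha : a < q) {τ : ℕ → ℕ → ℕ} (hτ : IsTr Y.N q τ)
    (X : (ℕ → Bool × Ω) → ℝ) :
    Y.insL kU q τ a X = trSumK Y.ms Y.N 3 q τ fun τ' => Y.insF kU q a τ' * Y.insE q X τ' := by
  unfold LedSys.insL
  exact tr_sumK_congr hτ 3 _ _ fun τ' hτ' _ => by rw [ret_insK_eq_insF hY hk ha hτ']

end sys

end Claimed.Agent.R286
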