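import Claimed.Agent.R286.Cav.LedExit
import Claimed.Agent.R286.Cav.LedInst
import Claimed.Agent.R286.Cav.Defs
import Claimed.Agent.R286.Fd.Contract
import Claimed.Agent.R286.Cav.RetKit

/-!
# Row 286 (S0533), PE Section 4 (cavity), Cav/Sys : THE SK INSTANCE OF `LedSys`      (owner helper223; prefix `cvy`, `Cvy`)

`n = m + 1` spins = ONE SITE (`Bool`) x REST (`SkCfg m`).      **`cvySys m P := liSys m (cvyDat m P)`** (`liSys`, `li_ok` of helper194, `Cav/LedInst.lean`: four blocks of features on `gcLs`):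
      `0` rest matrix `σσᵀ/√(2n)`, clock `b_r`  |  `1` rest field `σ`, clock `h_r`  |  `2` site `s`, clock `lam r ((1-t) K_r + t h_r)`  |  `3` site x rest `s σ/√n`, clock `t lam r b_r`;
      a pair which shares `r` stages has the covariance `n (b_r (R⁻)²/2 + h_r R⁻) + lam r s s' (K_r + t b_r (R⁻ - S_r))`,   `R⁻ = liR` (rest coordinates, normalised by `n`), `K = h + b S`.
`cvyDat m P` = the data of the step path `P` (terminal mass `1`): depth `P.length`, masses `skMs 1 P`, clocks `skCumB P`, `skCumH P`, centres `S = cvS n P` (ACTUAL path).      `cvyJoin : Bool × SkCfg m → SkCfg (m+1)` puts the site at the coordinate `0`.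
BRIDGES (sorried; owners in the docstrings):  `cvy_dat_ok` (data facts),  `cvy_act` (`lam = 1, t = 1` is the SK law of size `n`; the constant `b_r/(2n)` drops),
`cvy_rest` (rest-only law = SK path `cvRest n P` of size `m`),  `cvy_site` (site law = SK path `cvSc P K lam` of size `1`),  `cvy_Gam`, `cvy_D` (numbers), `cvy_site_sym`.
-/

set_option autoImplicit false

namespace Claimed.Agent.R286

open MeasureTheory ProbabilityTheory

/-- the configuration of size `m + 1`: the site is the coordinate `0` -/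
def cvyJoin {m : ℕ} (c : Bool × SkCfg m) : SkCfg (m + 1) := Fin.cons c.1 c.2

/-- the data of a step path -/
noncomputable def cvyDat (m : ℕ) (P : SkStp) : LiDat := ⟨P.length, skMs 1 P, skCumB P, skCumH P, cvS (m + 1) P⟩

/-- **the SK instance of `LedSys`** -/
noncomputable def cvySys (m : ℕ) (P : SkStp) : LedSys (SkCfg m) := liSys m (cvyDat m P)

theorem cvy_eqns_cite : True := by
  have := @cvyJoin.eq_1
  have := @cvyDat.eq_1
  have := @cvySys.eq_1
  trivial

/-! ### bridges -/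

/-! data facts (helper45, prefix `cvy_o_`) -/

theorem cvy_o_ms_lt (P : SkStp) {j : ℕ} (hj : j < P.length) : skMs 1 P j = (P[j]).m := by
  unfold skMs
  rw [List.getD_eq_getElem _ _ (by simpa using hj)]
  simp

theorem cvy_o_ms_ge (P : SkStp) {j : ℕ} (hj : P.length ≤ j) : skMs 1 P j = 1 := by
  unfold skMs
  rw [List.getD_eq_default _ _ (by simpa using hj)]

theorem cvy_o_ms_range {P : SkStp} (hP : SkAdm 1 P) (j : ℕ) : 0 ≤ skMs 1 P j ∧ skMs 1 P j ≤ 1 := by
  rcases lt_or_ge j P.length with hj | hj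
  · rw [cvy_o_ms_lt P hj]
    have := hP.2 _ (List.getElem_mem hj)
    exact ⟨this.1, this.2.1⟩
  · rw [cvy_o_ms_ge P hj]; exact ⟨zero_le_one, le_rfl⟩

theorem cvy_o_ms_mono {P : SkStp} (hP : SkAdm 1 P) : Monotone (skMs 1 P) := by
  intro i j hij
  rcases lt_or_ge j P.length with hj | hj
  · rcases hij.eq_or_lt with rfl | hlt
    · exact le_rfl
    · rw [cvy_o_ms_lt P hj, cvy_o_ms_lt P (hlt.trans hj)]
      exact List.pairwise_iff_getElem.1 hP.1 i j _ hj hlt
  · rw [cvy_o_ms_ge P hj]; exact (cvy_o_ms_range hP i).2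

theorem cvy_o_cum_succ (f : SkInc → ℝ) (P : SkStp) {j : ℕ} (hj : j < P.length) :
    ((P.take (j + 1)).map f).sum = ((P.take j).map f).sum + f (P[j]) := by
  rw [List.take_add_one, List.getElem?_eq_getElem hj]
  simp only [Option.toList_some, List.map_append, List.sum_append, List.map_cons, List.map_nil, List.sum_cons, List.sum_nil,
    add_zero]

theorem cvy_o_cum_ge (f : SkInc → ℝ) (P : SkStp) {j : ℕ} (hj : P.length ≤ j) :
    ((P.take j).map f).sum = ((P.take P.length).map f).sum := by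
  rw [List.take_of_length_le hj, List.take_length]

theorem cvy_o_cum_mono (f : SkInc → ℝ) (P : SkStp) (hf : ∀ e ∈ P, 0 ≤ f e) : Monotone fun j => ((P.take j).map f).sum := by
  refine monotone_nat_of_le_succ fun j => ?_
  rcases lt_or_ge j P.length with hj | hj
  · show _ ≤ ((P.take (j + 1)).map f).sum
    rw [cvy_o_cum_succ f P hj]
    linarith [hf _ (List.getElem_mem hj)]
  · show ((P.take j).map f).sum ≤ ((P.take (j + 1)).map f).sum
    rw [cvy_o_cum_ge f P hj, cvy_o_cum_ge f P (hj.trans (Nat.le_succ j))]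

theorem cvy_o_it_flat {S ι : Type} [Fintype S] [Fintype ι] (B : GhB S) (ls : List (GhLv S ι)) :
    ∀ (j : ℕ), ls.length ≤ j → ∀ (φ : (S → ℝ) → ℝ) (z : S → ℝ), obuIt B ls j φ z = obuIt B ls ls.length φ z := by
  induction ls with
  | nil => intro j _ φ z; rfl
  | cons l ls ih =>
    intro j hj φ z
    obtain ⟨j', rfl⟩ : ∃ j', j = j' + 1 := ⟨j - 1, by simp at hj; omega⟩
    have hj' : ls.length ≤ j' := by simpa using hj
    show ghA B l ls (obuIt B ls j' φ) z = ghA B l ls (obuIt B ls ls.length φ) z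
    congr 1
    funext y
    exact ih j' hj' φ y

theorem cvy_o_S_flat (n : ℕ) {P : SkStp} (hP : SkAdm 1 P) {j : ℕ} (hj : P.length ≤ j) : cvS n P j = cvS n P P.length := by
  unfold cvS
  have hl : (skLvs n P).length = P.length := by simp [skLvs]
  rw [fd_S_eq one_pos P hP, fd_S_eq one_pos P hP, cvy_o_it_flat _ _ j (by rw [hl]; exact hj), hl,
    List.drop_eq_nil_of_le (by rw [hl]; exact hj), List.drop_eq_nil_of_le (by rw [hl])]

/-- B0. data facts: masses and clocks of an admissible step path; `S` is nondecreasing in the cut, `0 ≤ S ≤ 1`, flat above the depth.      OWNER: helper206 (`Cav/PreRow`) from `ob_*` (`Fd/ObsC`). -/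
theorem cvy_dat_ok (m : ℕ) (P : SkStp) (hP : SkAdm 1 P) : (cvyDat m P).Ok where
  ms_nonneg := fun j => (cvy_o_ms_range hP j).1
  ms_mono := cvy_o_ms_mono hP
  ms_top := fun j hj => cvy_o_ms_ge P hj
  b_mono := cvy_o_cum_mono SkInc.db P fun e he => (hP.2 e he).2.2.1
  h_mono := cvy_o_cum_mono SkInc.dh P fun e he => (hP.2 e he).2.2.2
  S_mono := fun i j hij => fd_S_mono (Nat.succ_pos m) one_pos P hP 0 hij
  b_zero := by simp [cvyDat, skCumB]
  h_zero := by simp [cvyDat, skCumH]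
  S_nonneg := fun r => (fd_S_range (Nat.succ_pos m) one_pos P hP 0 r).1
  S_le := fun r => (fd_S_range (Nat.succ_pos m) one_pos P hP 0 r).2
  flat := fun r hr => ⟨cvy_o_cum_ge SkInc.db P hr, cvy_o_cum_ge SkInc.dh P hr, cvy_o_S_flat (m + 1) hP hr⟩

/-- B1. **the exports of PE Sec 2 for the row family** (`li_ok` of helper194) -/
theorem cvy_ok (m : ℕ) (P : SkStp) (hP : SkAdm 1 P) : (cvySys m P).Ok := li_ok m (cvy_dat_ok m P hP)

/-- B2. **the actual law**: `lam = 1`, `t = 1` is the SK law of size `n = m + 1` (transport along `cvyJoin`, covariance only, the constant `b_r/(2n)` drops).      OWNER: helper206 (`Cav/PreRow`, R1).      TEX[PE:lem:cavity-row-change] (set-up) -/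
theorem cvy_act (m : ℕ) (P : SkStp) (hP : SkAdm 1 P) (q : ℕ) (τ : ℕ → ℕ → ℕ) (hτ : IsTr P.length q τ)
    (f : (ℕ → SkCfg (m + 1)) → ℝ) (hf : TrUses q f) :
    (cvySys m P).act q τ (fun σ => f fun i => cvyJoin (σ i)) = trNu (skBase (m + 1) 1) (skLvs (m + 1) P) q τ 0 f :=
  lil_act m hP (cvy_dat_ok m P hP) hτ f hf

/-! covariance increment of the rest-only system (helper206, prefix `cvy_r_`) -/

/-- the overlap of size `m` against the deleted overlap -/
theorem cvy_r_ov {m : ℕ} (ω ω' : SkCfg m) : (m : ℝ) * skOv ω ω' = ((m : ℝ) + 1) * liR ω ω' := by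
  have hn : (0 : ℝ) < (m : ℝ) + 1 := by positivity
  unfold skOv liR
  rcases Nat.eq_zero_or_pos m with rfl | hm
  · simp
  · have hm' : (m : ℝ) ≠ 0 := by exact_mod_cast hm.ne'
    field_simp

/-- `sk_d_cov` without the hypothesis `0 < n` -/
theorem cvy_r_cov_sk (n : ℕ) (e : SkInc) (hb : 0 ≤ e.db) (hh : 0 ≤ e.dh) (σ τ : SkCfg n) :
    (e.lv n).cov σ τ = n * (e.db * skOv σ τ ^ 2 / 2 + e.dh * skOv σ τ) := by
  rcases Nat.eq_zero_or_pos n with rfl | hn
  · unfold GhLv.cov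
    simp
  · exact sk_d_cov n hn e hb hh σ τ

theorem cvy_r_cov (m : ℕ) (e : SkInc) (hb : 0 ≤ e.db) (hh : 0 ≤ e.dh) (ω ω' : SkCfg m) :
    ((⟨e.m, e.db * (((m + 1 : ℕ) : ℝ) - 1) / ((m + 1 : ℕ) : ℝ), e.dh⟩ : SkInc).lv m).cov ω ω'
      = ((m : ℝ) + 1) * (e.db * liR ω ω' ^ 2 / 2 + e.dh * liR ω ω') := by
  have hn : (0 : ℝ) < (m : ℝ) + 1 := by positivity
  have hm0 : (0 : ℝ) ≤ (m : ℝ) := Nat.cast_nonneg m
  have hb' : 0 ≤ e.db * (((m + 1 : ℕ) : ℝ) - 1) / ((m + 1 : ℕ) : ℝ) := by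
    push_cast
    simp only [add_sub_cancel_right]
    positivity
  rw [cvy_r_cov_sk m ⟨e.m, e.db * (((m + 1 : ℕ) : ℝ) - 1) / ((m + 1 : ℕ) : ℝ), e.dh⟩ hb' hh]
  have h := cvy_r_ov ω ω'
  push_cast
  simp only [add_sub_cancel_right]
  set R := liR ω ω' with hR
  set O := skOv ω ω' with hO
  have e1 : (m : ℝ) * (e.db * (m : ℝ) / ((m : ℝ) + 1) * O ^ 2 / 2) = e.db * ((m : ℝ) * O) ^ 2 / (2 * ((m : ℝ) + 1)) := by
    field_simp
  have e2 : (m : ℝ) * (e.dh * O) = e.dh * ((m : ℝ) * O) := by ring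
  rw [mul_add, e1, e2, h]
  field_simp

/-- B3. **the rest-only law** is the SK path `cvRest n P` of size `m`.      OWNER: helper206 (`Cav/PreRow`, R4) from `tr_nu_prod` (193). -/
theorem cvy_rest (m : ℕ) (P : SkStp) (hP : SkAdm 1 P) (q : ℕ) (τ : ℕ → ℕ → ℕ) (hτ : IsTr P.length q τ)
    (g : (ℕ → SkCfg m) → ℝ) (hg : TrUses q g) :
    (cvySys m P).nuR q τ g = trNu (skBase m 1) (skLvs m (cvRest (m + 1) P)) q τ 0 g := by
  have hD := cvy_dat_ok m P hP
  have hc : LiInc ((cvyDat m P).clk (fun _ => 1) 0) := li_clk_inc hD lil_prof_one ⟨le_rfl, zero_le_one⟩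
  have h1 : (cvySys m P).nuR q τ g
      = trNu (ghUnif (SkCfg m) 1) (liLs2 m (cvyDat m P) ((cvyDat m P).clk (fun _ => 1) 0)) q τ 0 g :=
    li_rest m hD hc (li_clk3_zero _ _) hτ g
  have hlen : (liLs2 m (cvyDat m P) ((cvyDat m P).clk (fun _ => 1) 0)).length = P.length := li_gen_len _ _ _
  have hlen' : (skLvs m (cvRest (m + 1) P)).length = P.length := by simp [skLvs, cvRest]
  rw [h1]
  refine tr_nu_cov_congr li_unif_ok (hlen.trans hlen'.symm) (fun j => ?_) (fun j h h' ω ω' => ?_) q τ 0 g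
  · unfold trMs
    rcases lt_or_ge j P.length with hj | hj
    · rw [List.getElem?_eq_getElem (hlen ▸ hj), List.getElem?_eq_getElem (hlen' ▸ hj)]
      unfold liLs2
      rw [li_gen_get]
      simp only [skLvs, cvRest, List.getElem_map, Option.map_some, Option.getD_some]
      exact lil_ms_lt P hj
    · rw [List.getElem?_eq_none (hlen ▸ hj), List.getElem?_eq_none (hlen' ▸ hj)]
      rfl
  · have hj : j < P.length := hlen ▸ h
    have hmem := lil_adm_get hP hj
    unfold liLs2 at h ⊢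
    rw [li_gen_cov _ _ hc, Fin.sum_univ_four]
    simp only [li_ker2_rest, li_clk0, li_clk1]
    simp only [show (1 : Fin 4) ≠ 0 by decide, show (2 : Fin 4) ≠ 0 by decide, show (2 : Fin 4) ≠ 1 by decide,
      show (3 : Fin 4) ≠ 0 by decide, show (3 : Fin 4) ≠ 1 by decide, if_true, if_false, mul_zero, add_zero]
    have eb : (cvyDat m P).b (j + 1) - (cvyDat m P).b j = (P[j]).db := lil_cumB_succ P hj
    have eh : (cvyDat m P).h (j + 1) - (cvyDat m P).h j = (P[j]).dh := lil_cumH_succ P hj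
    rw [eb, eh]
    simp only [skLvs, cvRest, List.getElem_map]
    rw [cvy_r_cov m P[j] hmem.2.2.1 hmem.2.2.2]
    ring

/-- B4. **the site law** is the SK path `cvSc P K lam` of size `1`.      OWNER: helper205 (`Cav/ScPair`) / helper206. -/
theorem cvy_site (m : ℕ) (P : SkStp) (hP : SkAdm 1 P) (lam : ℕ → ℝ) (hlam : LedProf lam) (q : ℕ) (τ : ℕ → ℕ → ℕ)
    (hτ : IsTr P.length q τ) (f : (ℕ → Bool) → ℝ) (hf : TrUses q f) :
    (cvySys m P).nuS lam q τ f
      = trNu (skBase 1 1) (skLvs 1 (cvSc P (cvK (m + 1) P) lam)) q τ 0 fun σ => f fun i => σ i 0 :=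
  lil_site m (cvy_dat_ok m P hP) hlam hτ f hf

/-- B5. `Γ` of `LedSys` is `Γ` of the contract -/
theorem cvy_Gam (m : ℕ) (P : SkStp) (hP : SkAdm 1 P) (j : ℕ) (hj : j ≤ P.length) :
    (cvySys m P).Gam j = cvGam (m + 1) P j :=
  lil_Gam m (cvy_dat_ok m P hP) hj

/-! `L²` triangle inequality for a positive normalised functional (helper45, prefix `cvy_d_`) -/

theorem cvy_d_tri {X : Type} {μ : (X → ℝ) → ℝ} (h : LedMean μ) (u v : X → ℝ) :
    Real.sqrt (μ fun x => (u x + v x) ^ 2) ≤ Real.sqrt (μ fun x => u x ^ 2) + Real.sqrt (μ fun x => v x ^ 2) := by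
  have hu := h.nonneg (fun x => u x ^ 2) fun x => sq_nonneg _
  have hv := h.nonneg (fun x => v x ^ 2) fun x => sq_nonneg _
  have hcs := (le_abs_self _).trans (ret_m_cs_sqrt h u v)
  rw [Real.sqrt_le_iff]
  refine ⟨by positivity, ?_⟩
  have e : (fun x => (u x + v x) ^ 2) = fun x => (u x ^ 2 + 2 * (u x * v x)) + v x ^ 2 := by funext x; ring
  rw [e, h.add, h.add, h.smul]
  nlinarith [Real.sq_sqrt hu, Real.sq_sqrt hv]

theorem cvy_d_mink {X : Type} {μ : (X → ℝ) → ℝ} (h : LedMean μ) (f g : X → ℝ) :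
    |Real.sqrt (μ fun x => f x ^ 2) - Real.sqrt (μ fun x => g x ^ 2)| ≤ Real.sqrt (μ fun x => (f x - g x) ^ 2) := by
  have h1 := cvy_d_tri h g fun x => f x - g x
  have h2 := cvy_d_tri h f fun x => g x - f x
  have e1 : (fun x => (g x + (f x - g x)) ^ 2) = fun x => f x ^ 2 := by funext x; ring
  have e2 : (fun x => (f x + (g x - f x)) ^ 2) = fun x => g x ^ 2 := by funext x; ring
  have e3 : (fun x => (g x - f x) ^ 2) = fun x => (f x - g x) ^ 2 := by funext x; ring
  rw [e1] at h1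
  rw [e2, e3] at h2
  rw [abs_le]
  constructor <;> linarith

/-- the pair law of the SK path on the `ℕ`-table `ledPair` is the pair law on `obT2` -/
theorem cvy_d_pair (n : ℕ) (P : SkStp) {j : ℕ} (hj : j ≤ P.length) (F : SkCfg n → SkCfg n → ℝ) :
    trNu (skBase n 1) (skLvs n P) 2 (ledPair P.length j) 0 (fun σ => F (σ 0) (σ 1))
      = (obT2 j).nu (skBase n 1) (skLvs n P) 0 fun _ σ => F (σ 0) (σ 1) := by
  rw [tr_nu_of_ghTree (skBase n 1) (skLvs n P) (obT2 j) 0 fun σ => F (σ 0) (σ 1)]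
  have hlen : (skLvs n P).length = P.length := by simp [skLvs]
  rw [hlen]
  refine tr_nu_congr _ _ (fun x y hx hy => ?_) _ _
  unfold ledPair trOf obT2
  simp only [hx, hy, and_self, dif_pos]
  split_ifs
  · rfl
  · omega

/-- B6. the deleted `D` against the `D` of the contract: `|D⁻_j - D_j| ≤ 1/n` -/
theorem cvy_D (m : ℕ) (P : SkStp) (hP : SkAdm 1 P) (j : ℕ) (hj : j ≤ P.length) :
    |(cvySys m P).D j - cvD (m + 1) P j| ≤ 1 / ((m : ℝ) + 1) := by
  have hn := li_n_pos m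
  have hτ : IsTr P.length 2 (ledPair P.length j) := ret_pair_isTr P.length j (by omega)
  have hμ : LedMean ((cvySys m P).act 2 (ledPair P.length j)) :=
    (cvy_ok m P hP).mean _ 1 2 _ lil_prof_one ⟨zero_le_one, le_rfl⟩ hτ
  set μ := (cvySys m P).act 2 (ledPair P.length j) with hμd
  set S := cvS (m + 1) P j with hS
  have hact : ∀ F : SkCfg (m + 1) → SkCfg (m + 1) → ℝ, μ (fun σ => F (cvyJoin (σ 0)) (cvyJoin (σ 1)))
      = (obT2 j).nu (skBase (m + 1) 1) (skLvs (m + 1) P) 0 fun _ σ => F (σ 0) (σ 1) := by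
    intro F
    rw [← cvy_d_pair (m + 1) P hj F, ← cvy_act m P hP 2 _ hτ (fun σ => F (σ 0) (σ 1))
      (fun σ σ' h => by show F (σ 0) (σ 1) = F (σ' 0) (σ' 1); rw [h 0 (by norm_num), h 1 (by norm_num)])]
  have h1 : μ (fun σ => skOv (cvyJoin (σ 0)) (cvyJoin (σ 1))) = S := by
    rw [hact fun x y => skOv x y]
    exact ob_S_two (Nat.succ_pos m) one_pos P hP 0 j hj
  have h2 : μ (fun σ => skOv (cvyJoin (σ 0)) (cvyJoin (σ 1)) ^ 2) = obB (m + 1) 1 P 0 j := by
    rw [hact fun x y => skOv x y ^ 2]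
    exact ob_B_two (Nat.succ_pos m) one_pos P hP 0 j hj
  have hg : μ (fun σ => (skOv (cvyJoin (σ 0)) (cvyJoin (σ 1)) - S) ^ 2) = obD2 (m + 1) 1 P 0 j := by
    have e : (fun σ : ℕ → Bool × SkCfg m => (skOv (cvyJoin (σ 0)) (cvyJoin (σ 1)) - S) ^ 2)
        = fun σ => (skOv (cvyJoin (σ 0)) (cvyJoin (σ 1)) ^ 2 + (-2 * S) * skOv (cvyJoin (σ 0)) (cvyJoin (σ 1))) + S ^ 2 := by
      funext σ; ring
    rw [e, hμ.add, hμ.add, hμ.smul, h1, h2, ret_m_const hμ]
    have hS' : obS (m + 1) 1 P 0 j = S := rfl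
    unfold obD2
    rw [hS']
    ring
  have hd : μ (fun σ => ((liR (σ 0).2 (σ 1).2 - S) - (skOv (cvyJoin (σ 0)) (cvyJoin (σ 1)) - S)) ^ 2)
      = (1 / ((m : ℝ) + 1)) ^ 2 := by
    have e : (fun σ : ℕ → Bool × SkCfg m => ((liR (σ 0).2 (σ 1).2 - S) - (skOv (cvyJoin (σ 0)) (cvyJoin (σ 1)) - S)) ^ 2)
        = fun _ => (1 / ((m : ℝ) + 1)) ^ 2 := by
      funext σ
      have := lil_ov (σ 0) (σ 1)
      unfold lilJoin at this
      unfold cvyJoin
      rw [this]
      have a0 := li_sg_sq (σ 0).1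
      have a1 := li_sg_sq (σ 1).1
      have : (ledSg (σ 0).1 * ledSg (σ 1).1) ^ 2 = 1 := by
        calc _ = (ledSg (σ 0).1 * ledSg (σ 0).1) * (ledSg (σ 1).1 * ledSg (σ 1).1) := by ring
          _ = 1 := by rw [a0, a1, one_mul]
      calc _ = (ledSg (σ 0).1 * ledSg (σ 1).1) ^ 2 * (1 / ((m : ℝ) + 1)) ^ 2 := by ring
        _ = _ := by rw [this, one_mul]
    rw [e, ret_m_const hμ]
  have hm := cvy_d_mink hμ (fun σ => liR (σ 0).2 (σ 1).2 - S) fun σ => skOv (cvyJoin (σ 0)) (cvyJoin (σ 1)) - S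
  rw [hg, hd, Real.sqrt_sq (by positivity)] at hm
  exact hm

/-- B7. site symmetry: `ν[s_a s_b g(rest)]` against `ν[R_ab g]`, for a test which is a function of the FULL overlaps.      OWNER: helper206 (R3) from `sk_sy_site` (16/208). -/
theorem cvy_site_sym (m : ℕ) (P : SkStp) (hP : SkAdm 1 P) (q : ℕ) (τ : ℕ → ℕ → ℕ) (hτ : IsTr P.length q τ) (a b : ℕ) (ha : a < q)
    (hb : b < q) (G : (ℕ → ℕ → ℝ) → ℝ) (hG : ∀ R R' : ℕ → ℕ → ℝ, (∀ x y, x < q → y < q → R x y = R' x y) → G R = G R') :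
    trNu (skBase (m + 1) 1) (skLvs (m + 1) P) q τ 0 (fun σ => skSp (σ a) 0 * skSp (σ b) 0 * G fun x y => skOv (σ x) (σ y))
      = trNu (skBase (m + 1) 1) (skLvs (m + 1) P) q τ 0 fun σ => skOv (σ a) (σ b) * G fun x y => skOv (σ x) (σ y) := by
  refine sk_sy_site (Nat.succ_pos m) one_pos hP hτ (fun σ => G fun x y => skOv (σ x) (σ y)) ?_ ?_ ha hb 0
  · intro σ σ' h
    exact hG _ _ fun x y hx hy => by rw [h x hx, h y hy]
  · intro π σ
    simp only [sk_sy_pm_ov]

end Claimed.Agent.R286
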