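import Claimed.Agent.R286.Sc.Link
import Claimed.Agent.R286.Sc.Bound1
import Claimed.Agent.R286.Fd.TrB3
import Claimed.Agent.R286.Cav.Sys
import Claimed.Agent.R286.Cav.LedSc
import Claimed.Agent.R286.Cav.LedComb
import Claimed.Agent.R286.Cav.ScLow

/-!
# Row 286 (S0533), unit Cav, file ScPair : THE SCALAR SITE IN NUMBERS      (owner helper205; prefix `cvs`)

The scalar imports of PE Section 4 (cavity.tex l.321-343, l.991-998; `Cav/Contract.lean`, "scalar block"; fields `chi0 chi_le K_lo` of `CvtIn.Ok`, `hΓ` of `CvtIn.Cal`), on the names of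
`Sc/Prof` (95), `Sc/Bound1` (90), `Sc/Link` (102: SK path of size `1`, `slk_*`), `Defs/Tr`, `Fd/TrB*` (150), `Cav/Sys` (223/194), `Cav/LedSc` (193), `Cav/LedComb` (210).
**EXITS** (on `Y = cvySys m P`, `hP : SkAdm 1 P`; they cite `cvy_site`, `cvy_dat_ok`, `cvy_ok` of `Cav/Sys`):
  `cvs_x_gam_nonneg : 0 ≤ Y.gam kU r`,   `cvs_x_gam_le : Y.gam kU r ≤ Y.K r`,   `cvs_x_Gam_nonneg`, `cvs_x_Gam_le : Y.Gam r ≤ Y.K r`      (`r ≤ N`)
  `cvs_x_chi_le : Y.chi kU ≤ 1`,   `cvs_x_chi_ge : exp (-(3 * Y.K N)) ≤ Y.chi kU`,   `cvs_x_chi_pos`,   `cvs_x_chi_hess` (`χ` = Hessian at zero field)      (`kU ≤ N`)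
  `cvs_x_pair` (any profile `lam`): `nuS lam 2 (ledPair N r) [s_0 s_1] = cvsGam ..`;      `cvs_low` (ANY `LedSys`; file `Cav/ScLow`, imported here): `|Gam kS - chi kU ^ 2 * K kS| ≤ C (ω³ + U ω²)`.      0 sorry of its own
* A. algebra of the list transition `scP` (`cvs_P_*`: linear, monotone, finite sums).
* B. `cvs_step_bracket`: `E[u(Z_after)² | z] - u(z)² = ∫_0^s E[w_r(Z_r)²] dr` inside one step (Dynkin), `cvs_step_var_le`.
* C. `cvsGam F π₁ π₂ z = E[u_{π₂}(Z)² | Z_0 = z]` (trunk `π₁`, then two independent continuations `π₂`): `u² ≤ γ ≤ min (1, u² + a² K)`, `K = scLen π₁`, monotone in the fork.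
* D. **HESS** (Abel summation in the mass): `V_zz + μ V_z² + ∑_j (m_j - m_{j-1}) γ_j = a`  (`cvs_hess`, `cvs_hess_sum`).
* E. pairs of labels on ANY hierarchy: `cvs_pair : trNu B ls 2 (ledPair N r) z [Φ(σ_0) Ψ(σ_1)] = trFld B ls r z (ghE Φ * ghE Ψ)`  (`tr_nu_cut`, `tr_nu_indep`, `tr_nu_comap`).
* F. the SK path of size `1`: `cvs_sk_pair`.      G. the scalar site `cvSc P K lam`: admissibility, clock, masses.      X. exits.
-/

set_option autoImplicit false
set_option linter.unusedSectionVars false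
set_option linter.unnecessarySeqFocus false

namespace Claimed.Agent.R286

open MeasureTheory ProbabilityTheory Set

/-! ## A. algebra of the transition `scP` along a profile -/

section P

variable {F : ℝ → ℝ}

theorem cvs_P_const (hF : ScBI F) (π : List (ℝ × ℝ)) (c : ℝ) : scP F π (fun _ => c) = fun _ => c := by
  induction π with
  | nil => rfl
  | cons p π ih =>
    show scTr p.1 p.2 (scV F π) (scP F π fun _ => c) = _
    rw [ih]
    exact sc_tr_const (sc_V_BI hF π 1) p.1 p.2 c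

theorem cvs_P_add (hF : ScBI F) (π : List (ℝ × ℝ)) {φ ψ : ℝ → ℝ} (hφ : ScE 0 φ) (hψ : ScE 0 ψ) :
    scP F π (fun z => φ z + ψ z) = fun z => scP F π φ z + scP F π ψ z := by
  induction π with
  | nil => rfl
  | cons p π ih =>
    show scTr p.1 p.2 (scV F π) (scP F π fun z => φ z + ψ z) = _
    rw [ih]
    exact sc_tr_add (sc_V_BI hF π 1) (sc_P_E hF hφ π) (sc_P_E hF hψ π) p.1 p.2

theorem cvs_P_sub (hF : ScBI F) (π : List (ℝ × ℝ)) {φ ψ : ℝ → ℝ} (hφ : ScE 0 φ) (hψ : ScE 0 ψ) :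
    scP F π (fun z => φ z - ψ z) = fun z => scP F π φ z - scP F π ψ z := by
  induction π with
  | nil => rfl
  | cons p π ih =>
    show scTr p.1 p.2 (scV F π) (scP F π fun z => φ z - ψ z) = _
    rw [ih]
    exact sc_tr_sub (sc_V_BI hF π 1) (sc_P_E hF hφ π) (sc_P_E hF hψ π) p.1 p.2

theorem cvs_P_const_mul (π : List (ℝ × ℝ)) (c : ℝ) (φ : ℝ → ℝ) :
    scP F π (fun z => c * φ z) = fun z => c * scP F π φ z := by
  induction π with
  | nil => rfl
  | cons p π ih =>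
    show scTr p.1 p.2 (scV F π) (scP F π fun z => c * φ z) = _
    rw [ih]
    exact sc_tr_const_mul p.1 p.2 c _ _

theorem cvs_P_mono (hF : ScBI F) (π : List (ℝ × ℝ)) {φ ψ : ℝ → ℝ} (hφ : ScE 0 φ) (hψ : ScE 0 ψ)
    (h : ∀ z, φ z ≤ ψ z) (z : ℝ) : scP F π φ z ≤ scP F π ψ z := by
  induction π generalizing z with
  | nil => exact h z
  | cons p π ih =>
    exact sc_tr_mono (sc_V_BI hF π 1) (sc_P_E hF hφ π) (sc_P_E hF hψ π) ih p.1 p.2 z

theorem cvs_P_nonneg (hF : ScBI F) (π : List (ℝ × ℝ)) {φ : ℝ → ℝ} (hφ : ScE 0 φ)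
    (h : ∀ z, 0 ≤ φ z) (z : ℝ) : 0 ≤ scP F π φ z := by
  have := cvs_P_mono hF π (ScE.const 0 0) hφ h z
  rwa [cvs_P_const hF π 0] at this

/-- finite sums -/
theorem cvs_E_sum {ι : Type} (s : Finset ι) (c : ι → ℝ) (φ : ι → ℝ → ℝ) (hφ : ∀ i ∈ s, ScE 0 (φ i)) :
    ScE 0 (fun y => ∑ i ∈ s, c i * φ i y) := by
  classical
  induction s using Finset.induction_on with
  | empty => simpa using ScE.const 0 0
  | insert i s hi ih =>
    have h1 := ((hφ i (Finset.mem_insert_self i s)).const_mul (c i)).add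
      (ih fun j hj => hφ j (Finset.mem_insert_of_mem hj))
    have : (fun y => ∑ j ∈ insert i s, c j * φ j y) = fun y => c i * φ i y + ∑ j ∈ s, c j * φ j y := by
      funext y; rw [Finset.sum_insert hi]
    rw [this]; exact h1

theorem cvs_tr_sum {G : ℝ → ℝ} (hG : ScB 1 G) (m v : ℝ) {ι : Type} (s : Finset ι) (c : ι → ℝ) (φ : ι → ℝ → ℝ)
    (hφ : ∀ i ∈ s, ScE 0 (φ i)) (z : ℝ) :
    scTr m v G (fun y => ∑ i ∈ s, c i * φ i y) z = ∑ i ∈ s, c i * scTr m v G (φ i) z := by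
  classical
  induction s using Finset.induction_on with
  | empty =>
    simp only [Finset.sum_empty]
    rw [sc_tr_const hG]
  | insert i s hi ih =>
    have hs : ∀ j ∈ s, ScE 0 (φ j) := fun j hj => hφ j (Finset.mem_insert_of_mem hj)
    have : (fun y => ∑ j ∈ insert i s, c j * φ j y) = fun y => c i * φ i y + ∑ j ∈ s, c j * φ j y := by
      funext y; rw [Finset.sum_insert hi]
    rw [this, sc_tr_add hG ((hφ i (Finset.mem_insert_self i s)).const_mul (c i)) (cvs_E_sum s c φ hs),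
      Finset.sum_insert hi]
    simp only
    rw [ih hs, sc_tr_const_mul]

theorem cvs_P_sum (hF : ScBI F) (π : List (ℝ × ℝ)) {ι : Type} (s : Finset ι) (c : ι → ℝ) (φ : ι → ℝ → ℝ)
    (hφ : ∀ i ∈ s, ScE 0 (φ i)) (z : ℝ) :
    scP F π (fun y => ∑ i ∈ s, c i * φ i y) z = ∑ i ∈ s, c i * scP F π (φ i) z := by
  induction π generalizing z with
  | nil => rfl
  | cons p π ih =>
    show scTr p.1 p.2 (scV F π) (scP F π fun y => ∑ i ∈ s, c i * φ i y) z = _
    rw [show (scP F π fun y => ∑ i ∈ s, c i * φ i y) = fun y => ∑ i ∈ s, c i * scP F π (φ i) y from funext ih]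
    exact cvs_tr_sum (sc_V_BI hF π 1) p.1 p.2 s c _ (fun i hi => sc_P_E hF (hφ i hi) π) z

end P

/-! ## B. the bracket of the magnetisation martingale inside a step -/

theorem cvs_hasDerivAt_sq {f : ℝ → ℝ} {f' x : ℝ} (h : HasDerivAt f f' x) :
    HasDerivAt (fun y => f y ^ 2) (2 * (f x * f')) x := by
  have := h.mul h
  exact (this.congr_deriv (by ring)).congr_of_eventuallyEq (Filter.Eventually.of_forall fun y => by simp [pow_two])

/-- `(∂_r + L)(u²) = w²` inside a step, integrated (Dynkin) -/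
theorem cvs_step_bracket {F : ℝ → ℝ} (hF : ScBI F) (m : ℝ) {s : ℝ} (hs : 0 ≤ s) (z : ℝ) :
    scTr m s F (fun y => deriv F y ^ 2) z - deriv (scStep m s F) z ^ 2
      = ∫ r in (0:ℝ)..s, scTr m r (scStep m (s - r) F) (fun y => deriv (deriv (scStep m (s - r) F)) y ^ 2) z := by
  set V : ℝ → ℝ → ℝ := fun r => scStep m (s - r) F with hV
  have hVT : ∀ n, ScT (Icc 0 s) (n + 1) V := fun n => sc_step_T (hF (n + 1)) m 0 s
  have hVB : ∀ r n, ScB n (V r) := fun r n => (sc_step_B (hF (n + 1)) m (s - r)).of_succ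
  have hU : ∀ n, ScT (Icc 0 s) n (fun r => deriv (V r)) := fun n => sc_T_deriv (hVT n)
  have hW : ∀ n, ScT (Icc 0 s) n (fun r => deriv (deriv (V r))) := fun n => sc_T_deriv (hU (n + 1))
  have dU : ∀ r, Differentiable ℝ (deriv (V r)) := fun r => (hVB r 2).2.2.1
  have dW : ∀ r, Differentiable ℝ (deriv (deriv (V r))) := fun r => (hVB r 3).2.2.2.2.1
  set G : ℝ → ℝ → ℝ := fun r y => -(deriv (deriv (V r)) y + m * deriv (V r) y ^ 2) / 2 with hG
  have hGT : ScT (Icc 0 s) 1 G := by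
    have h := ((hW 1).add (((hU 1).pow 2).const_mul m)).const_mul (-(1/2))
    refine h.congr fun r _ y => ?_
    simp only [hG]; ring
  set φ : ℝ → ℝ → ℝ := fun r y => deriv (V r) y ^ 2 with hφ
  set φt : ℝ → ℝ → ℝ := fun r y => 2 * (deriv (V r) y * deriv (G r) y) with hφt
  have hφT : ScT (Icc 0 s) 2 φ := (hU 2).pow 2
  have hφtT : ScT (Icc 0 s) 0 φt := ((hU 0).mul (sc_T_deriv hGT)).const_mul 2
  have hd : ∀ r ∈ Ioo (0:ℝ) s, ∀ y, HasDerivAt (fun r => φ r y) (φt r y) r := by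
    intro r hr y
    have h1 := sc_step_pde_iter 1 (hF 4) m hr.2 y
    simp only [Function.iterate_one] at h1
    exact cvs_hasDerivAt_sq h1
  have hdyn := sc_tr_dynkin (hF 3) m hs hφT hφtT hd z
  simp only [sub_zero] at hdyn
  have e1 : φ s = fun y => deriv F y ^ 2 := by
    simp only [hφ, hV, sub_self, sc_step_var_zero]
  have e2 : φ 0 z = deriv (scStep m s F) z ^ 2 := by
    simp only [hφ, hV, sub_zero]
  rw [e1, e2] at hdyn
  rw [hdyn]
  refine intervalIntegral.integral_congr fun r _ => ?_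
  show scTr m r (scStep m (s - r) F) _ z = scTr m r (scStep m (s - r) F) _ z
  congr 1
  funext y
  have a1 : HasDerivAt (deriv (V r)) (deriv (deriv (V r)) y) y := (dU r y).hasDerivAt
  have a2 : HasDerivAt (deriv (deriv (V r))) (deriv (deriv (deriv (V r))) y) y := (dW r y).hasDerivAt
  have b1 : ∀ y, HasDerivAt (φ r) (2 * (deriv (V r) y * deriv (deriv (V r)) y)) y := by
    intro y
    exact cvs_hasDerivAt_sq (dU r y).hasDerivAt
  have b1' : deriv (φ r) = fun y => 2 * (deriv (V r) y * deriv (deriv (V r)) y) := funext fun y => (b1 y).deriv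
  have b2 : deriv (deriv (φ r)) y = 2 * (deriv (deriv (V r)) y * deriv (deriv (V r)) y
      + deriv (V r) y * deriv (deriv (deriv (V r))) y) := by
    rw [b1']
    exact ((a1.mul a2).const_mul 2).deriv
  have b3 : deriv (G r) y = -(deriv (deriv (deriv (V r))) y + m * (2 * (deriv (V r) y * deriv (deriv (V r)) y))) / 2 := by
    have := ((a2.add ((b1 y).const_mul m)).neg).div_const 2
    exact this.deriv
  show φt r y + deriv (deriv (φ r)) y / 2 + m * deriv (V r) y * deriv (φ r) y = deriv (deriv (V r)) y ^ 2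
  rw [b2, b1']
  simp only [hφt]
  rw [b3]
  ring

/-- conditional variance of the magnetisation through one step -/
theorem cvs_step_var_le {F : ℝ → ℝ} (hF : ScBI F) (m : ℝ) {s : ℝ} (hs : 0 ≤ s) {L : ℝ}
    (hL : ∀ r ∈ Icc 0 s, ∀ y, |deriv (deriv (scStep m r F)) y| ≤ L) (z : ℝ) :
    scTr m s F (fun y => deriv F y ^ 2) z - deriv (scStep m s F) z ^ 2 ≤ L ^ 2 * s := by
  rw [cvs_step_bracket hF m hs z]
  have hb : ∀ r ∈ Set.uIoc (0:ℝ) s,
      ‖scTr m r (scStep m (s - r) F) (fun y => deriv (deriv (scStep m (s - r) F)) y ^ 2) z‖ ≤ L ^ 2 := by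
    intro r hr
    rw [Set.uIoc_of_le hs] at hr
    have hB : ∀ n, ScB n (scStep m (s - r) F) := fun n => (sc_step_B (hF (n + 1)) m (s - r)).of_succ
    have hc : Continuous (deriv (deriv (scStep m (s - r) F))) := (hB 3).2.2.2.2.1.continuous
    rw [Real.norm_eq_abs]
    apply sc_tr_abs_le (hB 1) (φ := fun y => deriv (deriv (scStep m (s - r) F)) y ^ 2) (hc.pow 2)
    intro y
    have := hL (s - r) ⟨by linarith [hr.2], by linarith [hr.1]⟩ y
    rw [abs_pow]
    exact pow_le_pow_left₀ (abs_nonneg _) this 2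
  have := intervalIntegral.norm_integral_le_of_norm_le_const hb
  rw [sub_zero, abs_of_nonneg hs, Real.norm_eq_abs] at this
  exact (le_abs_self _).trans this

/-! ## C. the overlap function `γ` -/

/-- `γ = E[u_{π₂}(Z)² | Z_0 = z]`: two labels share the trunk `π₁` and continue independently through `π₂` -/
noncomputable def cvsGam (F : ℝ → ℝ) (π₁ π₂ : List (ℝ × ℝ)) (z : ℝ) : ℝ :=
  scP (scV F π₂) π₁ (fun y => deriv (scV F π₂) y ^ 2) z

theorem cvsGam_eqns_cite : True := by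
  have := @cvsGam.eq_1
  trivial

section gam

variable {a : ℝ} {F : ℝ → ℝ}

theorem cvs_U_E0 (hF : ScBI F) (π : List (ℝ × ℝ)) : ScE 0 (deriv (scV F π)) := ((sc_V_BI hF π 1).deriv_bd).scE

theorem cvs_W_E0 (hF : ScBI F) (π : List (ℝ × ℝ)) : ScE 0 (deriv (deriv (scV F π))) :=
  (((sc_V_BI hF π 2).deriv_bd).deriv).scE

theorem cvs_U_cons (hF : ScBI F) (p : ℝ × ℝ) (π : List (ℝ × ℝ)) :
    deriv (scV F (p :: π)) = scTr p.1 p.2 (scV F π) (deriv (scV F π)) := sc_step_deriv (sc_V_BI hF π 1) p.1 p.2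

theorem cvs_Gam_nil (F : ℝ → ℝ) (π₂ : List (ℝ × ℝ)) (z : ℝ) : cvsGam F [] π₂ z = deriv (scV F π₂) z ^ 2 := rfl

theorem cvs_Gam_cons (F : ℝ → ℝ) (p : ℝ × ℝ) (π₁ π₂ : List (ℝ × ℝ)) :
    cvsGam F (p :: π₁) π₂ = scTr p.1 p.2 (scV F (π₁ ++ π₂)) (cvsGam F π₁ π₂) := by
  funext z
  show scTr p.1 p.2 (scV (scV F π₂) π₁) _ z = _
  rw [← sc_V_append]
  rfl

theorem cvs_Gam_E0 (hF : ScBI F) (π₁ π₂ : List (ℝ × ℝ)) : ScE 0 (cvsGam F π₁ π₂) :=
  sc_P_E (sc_V_BI hF π₂) ((cvs_U_E0 hF π₂).pow 2) π₁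

/-- Jensen: `u² ≤ γ` -/
theorem cvs_Gam_ge (hF : ScBI F) (π₁ π₂ : List (ℝ × ℝ)) (z : ℝ) : deriv (scV F (π₁ ++ π₂)) z ^ 2 ≤ cvsGam F π₁ π₂ z := by
  induction π₁ generalizing z with
  | nil => exact le_rfl
  | cons p π ih =>
    have hV := sc_V_BI hF (π ++ π₂) 1
    have eU := cvs_U_E0 hF (π ++ π₂)
    rw [cvs_Gam_cons]
    show deriv (scV F (p :: (π ++ π₂))) z ^ 2 ≤ _
    rw [cvs_U_cons hF]
    exact (sc_tr_sq_le hV eU p.1 p.2 z).trans (sc_tr_mono hV (eU.pow 2) (cvs_Gam_E0 hF π π₂) ih p.1 p.2 z)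

theorem cvs_Gam_nonneg (hF : ScBI F) (π₁ π₂ : List (ℝ × ℝ)) (z : ℝ) : 0 ≤ cvsGam F π₁ π₂ z :=
  (sq_nonneg _).trans (cvs_Gam_ge hF π₁ π₂ z)

theorem cvs_adm_append {π₁ π₂ : List (ℝ × ℝ)} (h : ScAdm a (π₁ ++ π₂)) : ScAdm a π₁ ∧ ScAdm a π₂ :=
  ⟨fun p hp => h p (List.mem_append_left _ hp), fun p hp => h p (List.mem_append_right _ hp)⟩

theorem cvs_sq_le_one {x : ℝ} (h : |x| ≤ 1) : x ^ 2 ≤ 1 := by
  rw [← sq_abs]; nlinarith [abs_nonneg x]

theorem cvs_Gam_le_one (h : ScAd a F) {π₂ : List (ℝ × ℝ)} (hπ : ScAdm a π₂) (π₁ : List (ℝ × ℝ)) (z : ℝ) :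
    cvsGam F π₁ π₂ z ≤ 1 := by
  have hB := sc_V_BI h.scBI π₂
  have h1 := cvs_P_mono hB π₁ ((cvs_U_E0 h.scBI π₂).pow 2) (ScE.const 0 1)
    (fun y => cvs_sq_le_one ((h.scV hπ).lip y)) z
  rwa [cvs_P_const hB] at h1

/-- **the clock bound**: `γ ≤ u² + a² K`, `K` = the clock revealed on the common trunk -/
theorem cvs_Gam_le (h : ScAd a F) {π₁ π₂ : List (ℝ × ℝ)} (hπ : ScAdm a (π₁ ++ π₂)) (z : ℝ) :
    cvsGam F π₁ π₂ z ≤ deriv (scV F (π₁ ++ π₂)) z ^ 2 + a ^ 2 * scLen π₁ := by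
  have hF := h.scBI
  induction π₁ generalizing z with
  | nil => simp [cvs_Gam_nil, scLen]
  | cons p π ih =>
    have hπ' : ScAdm a (π ++ π₂) := fun q hq => hπ q (List.mem_cons_of_mem _ hq)
    have hp := hπ p List.mem_cons_self
    have hV := sc_V_BI hF (π ++ π₂) 1
    have eU := cvs_U_E0 hF (π ++ π₂)
    have eU2 : ScE 0 (fun y => deriv (scV F (π ++ π₂)) y ^ 2) := eU.pow 2
    rw [cvs_Gam_cons]
    have h1 := sc_tr_mono hV (cvs_Gam_E0 hF π π₂) (eU2.add (ScE.const 0 (a ^ 2 * scLen π))) (ih hπ') p.1 p.2 z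
    rw [sc_tr_add hV eU2 (ScE.const 0 _), sc_tr_const hV] at h1
    simp only at h1
    have h2 := cvs_step_var_le (F := scV F (π ++ π₂)) (sc_V_BI hF (π ++ π₂)) p.1 hp.2.2 (L := a)
      (by
        intro r hr y
        have hA : ScAd a (scStep p.1 r (scV F (π ++ π₂))) := (h.scV hπ').step hp.1 hp.2.1 r
        exact abs_le.2 ⟨by linarith [hA.pos y, hA.mass_pos], hA.hess_le y⟩) z
    show _ ≤ deriv (scStep p.1 p.2 (scV F (π ++ π₂))) z ^ 2 + a ^ 2 * (p.2 + scLen π)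
    linarith

/-- at zero field: `γ ≤ a² K` -/
theorem cvs_Gam_zero_le (h : ScAd a F) {π₁ π₂ : List (ℝ × ℝ)} (hπ : ScAdm a (π₁ ++ π₂)) :
    cvsGam F π₁ π₂ 0 ≤ a ^ 2 * scLen π₁ := by
  have := cvs_Gam_le h hπ 0
  rw [(h.scV hπ).deriv_zero] at this
  simpa using this

/-- `γ` increases with the common trunk -/
theorem cvs_Gam_mono_step (hF : ScBI F) (π₁ : List (ℝ × ℝ)) (p : ℝ × ℝ) (π₂ : List (ℝ × ℝ)) (z : ℝ) :
    cvsGam F π₁ (p :: π₂) z ≤ cvsGam F (π₁ ++ [p]) π₂ z := by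
  have e : cvsGam F (π₁ ++ [p]) π₂ z = scP (scV F (p :: π₂)) π₁ (cvsGam F [p] π₂) z := by
    unfold cvsGam
    rw [sc_P_append]
    rfl
  rw [e]
  exact cvs_P_mono (sc_V_BI hF (p :: π₂)) π₁ ((cvs_U_E0 hF (p :: π₂)).pow 2) (cvs_Gam_E0 hF [p] π₂)
    (fun y => cvs_Gam_ge hF [p] π₂ y) z

/-- a trunk without variance is invisible -/
theorem cvs_P_flat (G : ℝ → ℝ) {π : List (ℝ × ℝ)} (h0 : ∀ p ∈ π, p.2 = 0) (φ : ℝ → ℝ) : scP G π φ = φ := by
  induction π with
  | nil => rfl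
  | cons p π ih =>
    show scTr p.1 p.2 (scV G π) (scP G π φ) = φ
    rw [ih fun q hq => h0 q (List.mem_cons_of_mem _ hq), h0 p List.mem_cons_self, sc_tr_var_zero]

end gam

/-! ## D. HESS: Abel summation in the mass -/

/-- the signed row (recursive form): incoming mass `μ` -/
noncomputable def cvsRow (a : ℝ) (F : ℝ → ℝ) : ℝ → List (ℝ × ℝ) → ℝ → ℝ
  | μ, [], z => (a - μ) * deriv F z ^ 2
  | μ, p :: π, z => (p.1 - μ) * deriv (scV F (p :: π)) z ^ 2 + scTr p.1 p.2 (scV F π) (cvsRow a F p.1 π) z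

theorem cvsRow_eqns_cite : True := by
  have := @cvsRow.eq_1
  have := @cvsRow.eq_2
  have := @cvsRow.eq_def
  have := @cvsRow.induct
  trivial

section hess

variable {a : ℝ} {F : ℝ → ℝ}

theorem cvs_Row_E0 (hF : ScBI F) (μ : ℝ) (π : List (ℝ × ℝ)) : ScE 0 (cvsRow a F μ π) := by
  induction π generalizing μ with
  | nil => exact ((cvs_U_E0 hF []).pow 2).const_mul _
  | cons p π ih =>
    exact (((cvs_U_E0 hF (p :: π)).pow 2).const_mul _).add (sc_tr_E_zero (sc_V_BI hF π 1) (ih p.1) p.1 p.2)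

/-- **HESS**, recursive form: `V_zz + μ V_z² + Row_μ = a` -/
theorem cvs_hess (hF : ScBI F) (hT : ∀ z, deriv (deriv F) z = a * (1 - deriv F z ^ 2)) (μ : ℝ) (π : List (ℝ × ℝ)) (z : ℝ) :
    deriv (deriv (scV F π)) z + μ * deriv (scV F π) z ^ 2 + cvsRow a F μ π z = a := by
  induction π generalizing μ z with
  | nil =>
    show deriv (deriv F) z + μ * deriv F z ^ 2 + (a - μ) * deriv F z ^ 2 = a
    rw [hT]; ring
  | cons p π ih =>
    have hV := sc_V_BI hF π 1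
    have eU := cvs_U_E0 hF π
    have eW := cvs_W_E0 hF π
    have eR : ScE 0 (cvsRow a F p.1 π) := cvs_Row_E0 hF p.1 π
    have h1 : deriv (deriv (scV F (p :: π))) z = scTr p.1 p.2 (scV F π) (deriv (deriv (scV F π))) z
        + p.1 * (scTr p.1 p.2 (scV F π) (fun y => deriv (scV F π) y ^ 2) z - scTr p.1 p.2 (scV F π) (deriv (scV F π)) z ^ 2) :=
      sc_step_deriv2 (sc_V_BI hF π 2) p.1 p.2 z
    have h2 : scTr p.1 p.2 (scV F π) (fun y => deriv (deriv (scV F π)) y + (p.1 * deriv (scV F π) y ^ 2 + cvsRow a F p.1 π y)) z = a := by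
      have : (fun y => deriv (deriv (scV F π)) y + (p.1 * deriv (scV F π) y ^ 2 + cvsRow a F p.1 π y)) = fun _ => a := by
        funext y; have := ih p.1 y; linarith
      rw [this, sc_tr_const hV]
    rw [sc_tr_add hV eW (((eU.pow 2).const_mul p.1).add eR)] at h2
    simp only at h2
    rw [sc_tr_add hV ((eU.pow 2).const_mul p.1) eR, sc_tr_const_mul] at h2
    simp only at h2
    have h3 : deriv (scV F (p :: π)) z = scTr p.1 p.2 (scV F π) (deriv (scV F π)) z := by rw [cvs_U_cons hF]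
    show deriv (deriv (scV F (p :: π))) z + μ * deriv (scV F (p :: π)) z ^ 2
      + ((p.1 - μ) * deriv (scV F (p :: π)) z ^ 2 + scTr p.1 p.2 (scV F π) (cvsRow a F p.1 π) z) = a
    rw [h1, h3]
    linarith

/-- mass of the stage `j` of the profile (`a` for the terminal draw) -/
def cvsMs (a : ℝ) (π : List (ℝ × ℝ)) (j : ℕ) : ℝ := (π[j]?.map Prod.fst).getD a

/-- incoming mass of the stage `j`, `μ` at the root -/
def cvsPm (a μ : ℝ) (π : List (ℝ × ℝ)) (j : ℕ) : ℝ := if j = 0 then μ else cvsMs a π (j - 1)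

theorem cvsMs_eqns_cite : True := by
  have := @cvsMs.eq_1
  have := @cvsPm.eq_1
  trivial

theorem cvs_Ms_cons_succ (a : ℝ) (p : ℝ × ℝ) (π : List (ℝ × ℝ)) (j : ℕ) : cvsMs a (p :: π) (j + 1) = cvsMs a π j := by
  simp [cvsMs]

theorem cvs_Ms_cons_zero (a : ℝ) (p : ℝ × ℝ) (π : List (ℝ × ℝ)) : cvsMs a (p :: π) 0 = p.1 := by
  simp [cvsMs]

theorem cvs_Pm_cons_succ (a μ : ℝ) (p : ℝ × ℝ) (π : List (ℝ × ℝ)) (j : ℕ) :
    cvsPm a μ (p :: π) (j + 1) = cvsPm a p.1 π j := by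
  unfold cvsPm
  cases j with
  | zero => simp [cvs_Ms_cons_zero]
  | succ j => simp [cvs_Ms_cons_succ]

/-- the signed row as a finite sum over the fork depths -/
theorem cvs_Row_sum (hF : ScBI F) (μ : ℝ) (π : List (ℝ × ℝ)) (z : ℝ) :
    cvsRow a F μ π z = ∑ j ∈ Finset.range (π.length + 1), (cvsMs a π j - cvsPm a μ π j) * cvsGam F (π.take j) (π.drop j) z := by
  induction π generalizing μ z with
  | nil =>
    simp [cvsRow, cvsMs, cvsPm, cvsGam, scP, scV]
  | cons p π ih =>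
    rw [List.length_cons, Finset.sum_range_succ']
    simp only [List.take_zero, List.drop_zero, List.take_succ_cons, List.drop_succ_cons, cvs_Ms_cons_succ, cvs_Pm_cons_succ,
      cvs_Ms_cons_zero]
    have e0 : cvsPm a μ (p :: π) 0 = μ := by simp [cvsPm]
    rw [e0, cvs_Gam_nil]
    show (p.1 - μ) * deriv (scV F (p :: π)) z ^ 2 + scTr p.1 p.2 (scV F π) (cvsRow a F p.1 π) z = _
    rw [show cvsRow a F p.1 π = fun y => ∑ j ∈ Finset.range (π.length + 1),
        (cvsMs a π j - cvsPm a p.1 π j) * cvsGam F (π.take j) (π.drop j) y from funext (ih p.1)]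
    rw [cvs_tr_sum (sc_V_BI hF π 1) p.1 p.2 _ _ _ (fun j _ => cvs_Gam_E0 hF _ _), add_comm]
    congr 1
    refine Finset.sum_congr rfl fun j _ => ?_
    rw [cvs_Gam_cons, List.take_append_drop]

/-- **HESS**: `V_zz + μ V_z² = a - ∑_j (m_j - m_{j-1}) γ_j` -/
theorem cvs_hess_sum (hF : ScBI F) (hT : ∀ z, deriv (deriv F) z = a * (1 - deriv F z ^ 2)) (μ : ℝ) (π : List (ℝ × ℝ)) (z : ℝ) :
    a - ∑ j ∈ Finset.range (π.length + 1), (cvsMs a π j - cvsPm a μ π j) * cvsGam F (π.take j) (π.drop j) z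
      = deriv (deriv (scV F π)) z + μ * deriv (scV F π) z ^ 2 := by
  rw [← cvs_Row_sum hF μ π z]
  have := cvs_hess hF hT μ π z
  linarith

end hess

/-! ## E. pairs of labels on any hierarchy -/

section pair
variable {S ι : Type} [Fintype S] [Fintype ι] [Inhabited S]

theorem cvs_pair_isTr (N r : ℕ) (hr : r ≤ N + 1) : IsTr N 2 (ledPair N r) := by
  refine ⟨fun x y _ _ => ?_, fun x _ => by simp [ledPair], fun x y _ _ => ?_, fun x y z _ _ _ => ?_⟩
  · unfold ledPair; split_ifs <;> omega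
  · unfold ledPair; simp only [eq_comm]
  · unfold ledPair
    by_cases h1 : x = y <;> by_cases h2 : y = z <;> by_cases h3 : x = z <;> simp [h1, h2, h3] <;> omega

theorem cvs_adm_drop {B : GhB S} {ls : List (GhLv S ι)} (h : GhAdm B 0 ls) (r : ℕ) : GhAdm B 0 (ls.drop r) :=
  ⟨h.1.sublist (List.drop_sublist r ls), fun l hl => h.2 l (List.mem_of_mem_drop hl)⟩

/-- one label among two -/
theorem cvs_pair_one {B : GhB S} (hB : B.Ok) {ls : List (GhLv S ι)} (hls : GhAdm B 0 ls) {τ : ℕ → ℕ → ℕ}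
    (hτ : IsTr ls.length 2 τ) (z : S → ℝ) (Φ : S → ℝ) (x : ℕ) (hx : x < 2) :
    trNu B ls 2 τ z (fun σ => Φ (σ x)) = ghE B ls Φ z := by
  have h := tr_nu_comap hB hls hτ z (fun _ => x) (p := 1) (fun _ _ => hx) (fun σ => Φ (σ 0))
    (fun σ σ' h => by simp only [h 0 (by norm_num)])
  rw [h]
  exact tr_nu_one_leaf hB hls _ z Φ

/-- two labels which split at the root are independent -/
theorem cvs_pair_root {B : GhB S} (hB : B.Ok) {ls : List (GhLv S ι)} (hls : GhAdm B 0 ls) {τ : ℕ → ℕ → ℕ}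
    (hτ : IsTr ls.length 2 τ) (h01 : τ 0 1 = 0) (z : S → ℝ) (Φ Ψ : S → ℝ) :
    trNu B ls 2 τ z (fun σ => Φ (σ 0) * Ψ (σ 1)) = ghE B ls Φ z * ghE B ls Ψ z := by
  have h := tr_nu_indep hB hls hτ z (fun x => x = 0) (fun x y hx hy hx0 hy0 => by
      have hy1 : y = 1 := by omega
      rw [hx0, hy1, h01]) (fun σ => Φ (σ 0)) (fun σ => Ψ (σ 1))
    (fun σ σ' h => by simp only [h 0 (by norm_num) rfl])
    (fun σ σ' h => by simp only [h 1 (by norm_num) (by norm_num)])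
  rw [h, cvs_pair_one hB hls hτ z Φ 0 (by norm_num), cvs_pair_one hB hls hτ z Ψ 1 (by norm_num)]

/-- **two labels which share `r` stages**: common trunk, then two independent continuations -/
theorem cvs_pair {B : GhB S} (hB : B.Ok) {ls : List (GhLv S ι)} (hls : GhAdm B 0 ls) (z : S → ℝ) {r : ℕ}
    (hr : r ≤ ls.length) (Φ Ψ : S → ℝ) :
    trNu B ls 2 (ledPair ls.length r) z (fun σ => Φ (σ 0) * Ψ (σ 1))
      = trFld B ls r z fun G => ghE B (ls.drop r) Φ G * ghE B (ls.drop r) Ψ G := by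
  rw [tr_nu_cut hB hls (cvs_pair_isTr _ r (by omega)) z _ hr (fun x y _ _ => by unfold ledPair; split_ifs <;> omega)]
  congr 1
  funext G
  have hlen : (ls.drop r).length = ls.length - r := List.length_drop
  have hτ' : IsTr (ls.drop r).length 2 (fun x y => ledPair ls.length r x y - r) := by
    have h0 := cvs_pair_isTr (ls.length - r) 0 (by omega)
    rw [hlen]
    have e : (fun x y => ledPair ls.length r x y - r) = ledPair (ls.length - r) 0 := by
      funext x y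
      unfold ledPair
      split_ifs <;> omega
    rw [e]; exact h0
  exact cvs_pair_root hB (cvs_adm_drop hls r) hτ' (by simp [ledPair]) G Φ Ψ

end pair

/-! ## F. pairs of the SK path of size `1` -/

theorem cvs_sk_adm {a : ℝ} {Q : SkStp} (hQ : SkAdm a Q) : GhAdm (skBase 1 a) 0 (skLvs 1 Q) := by
  constructor
  · unfold skLvs
    rw [List.pairwise_map]
    exact hQ.1
  · intro l hl
    obtain ⟨e, he, rfl⟩ := List.mem_map.mp hl
    exact ⟨(hQ.2 e he).1, (hQ.2 e he).2.1⟩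

theorem cvs_sk_scAdm {a : ℝ} {Q : SkStp} (hQ : SkAdm a Q) : ScAdm a (slkPi Q) := by
  intro p hp
  obtain ⟨e, he, rfl⟩ := List.mem_map.mp hp
  exact ⟨(hQ.2 e he).1, (hQ.2 e he).2.1, (hQ.2 e he).2.2.2⟩

theorem cvs_slk_drop {Q : SkStp} (h : SlkOk Q) (r : ℕ) : SlkOk (Q.drop r) := fun e he => h e (List.mem_of_mem_drop he)

/-- **two labels of the one-site model which share `r` stages** -/
theorem cvs_sk_pair {a : ℝ} (ha : 0 < a) {Q : SkStp} (hQ : SkAdm a Q) (h0 : SlkOk Q) {r : ℕ} (hr : r ≤ Q.length) (x : ℝ) :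
    trNu (skBase 1 a) (skLvs 1 Q) 2 (ledPair Q.length r) (slkZ x) (fun σ => skSp (σ 0) 0 * skSp (σ 1) 0)
      = cvsGam (scLC a) ((slkPi Q).take r) ((slkPi Q).drop r) x := by
  have hlen : (skLvs 1 Q).length = Q.length := by simp [skLvs]
  have h := cvs_pair (slk_base_ok ha) (cvs_sk_adm hQ) (slkZ x) (r := r) (by rw [hlen]; exact hr) slkSp slkSp
  rw [hlen] at h
  have hd : (skLvs 1 Q).drop r = skLvs 1 (Q.drop r) := by simp [skLvs, List.map_drop]
  rw [hd] at h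
  have hf : (fun y => ghE (skBase 1 a) (skLvs 1 (Q.drop r)) slkSp (slkZ y) * ghE (skBase 1 a) (skLvs 1 (Q.drop r)) slkSp (slkZ y))
      = fun y => deriv (scV (scLC a) (slkPi (Q.drop r))) y ^ 2 := by
    funext y
    rw [slk_E_sp ha.ne' (cvs_slk_drop h0 r) y]
    ring
  have hE : ScE 0 fun y => (fun G => ghE (skBase 1 a) (skLvs 1 (Q.drop r)) slkSp G * ghE (skBase 1 a) (skLvs 1 (Q.drop r)) slkSp G)
      (slkZ y) := by
    show ScE 0 fun y => ghE (skBase 1 a) (skLvs 1 (Q.drop r)) slkSp (slkZ y) * ghE (skBase 1 a) (skLvs 1 (Q.drop r)) slkSp (slkZ y)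
    rw [hf]
    exact (cvs_U_E0 (slk_LC_BI a) _).pow 2
  have h2 := slk_Fld a (f := fun G => ghE (skBase 1 a) (skLvs 1 (Q.drop r)) slkSp G * ghE (skBase 1 a) (skLvs 1 (Q.drop r)) slkSp G)
    hE Q h0 r x
  refine h.trans (h2.trans ?_)
  show scP _ _ (fun y => ghE (skBase 1 a) (skLvs 1 (Q.drop r)) slkSp (slkZ y) * ghE (skBase 1 a) (skLvs 1 (Q.drop r)) slkSp (slkZ y)) x = _
  rw [hf, slk_Pi_take, slk_Pi_drop]
  rfl

/-! ## G. the scalar site `cvSc P K lam` -/

/-- masses of a step path, by cases -/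
theorem cvs_skMs (P : SkStp) (j : ℕ) : skMs 1 P j = if h : j < P.length then (P[j]).m else 1 := by
  unfold skMs
  split_ifs with h
  · rw [List.getD_eq_getElem _ _ (by simpa using h)]
    simp only [List.getElem_map]
  · rw [List.getD_eq_default _ _ (by simpa using h)]

theorem cvs_skMs_mono {P : SkStp} (hP : SkAdm 1 P) {i j : ℕ} (hij : i ≤ j) : skMs 1 P i ≤ skMs 1 P j := by
  rw [cvs_skMs, cvs_skMs]
  by_cases hj : j < P.length
  · have hi : i < P.length := lt_of_le_of_lt hij hj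
    rw [dif_pos hi, dif_pos hj]
    rcases hij.eq_or_lt with rfl | h
    · exact le_rfl
    · exact List.pairwise_iff_getElem.mp hP.1 i j hi hj h
  · rw [dif_neg hj]
    split_ifs with hi
    · exact (hP.2 _ (List.getElem_mem hi)).2.1
    · exact le_rfl

theorem cvs_skMs_nonneg {P : SkStp} (hP : SkAdm 1 P) (j : ℕ) : 0 ≤ skMs 1 P j := by
  rw [cvs_skMs]
  split_ifs with hj
  · exact (hP.2 _ (List.getElem_mem hj)).1
  · exact zero_le_one

theorem cvs_skMs_le {P : SkStp} (hP : SkAdm 1 P) (j : ℕ) : skMs 1 P j ≤ 1 := by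
  rw [cvs_skMs]
  split_ifs with hj
  · exact (hP.2 _ (List.getElem_mem hj)).2.1
  · exact le_rfl

theorem cvs_sc_len (P : SkStp) (K lam : ℕ → ℝ) : (cvSc P K lam).length = P.length := by simp [cvSc]

theorem cvs_sc_slk (P : SkStp) (K lam : ℕ → ℝ) : SlkOk (cvSc P K lam) := by
  intro e he
  obtain ⟨j, -, rfl⟩ := List.mem_map.mp he
  rfl

theorem cvs_sc_adm {P : SkStp} (hP : SkAdm 1 P) {K lam : ℕ → ℝ} (hinc : ∀ j, lam j * K j ≤ lam (j + 1) * K (j + 1)) :
    SkAdm 1 (cvSc P K lam) := by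
  constructor
  · unfold cvSc
    rw [List.pairwise_map]
    refine List.Pairwise.imp ?_ List.pairwise_lt_range
    intro a b hab
    exact cvs_skMs_mono hP hab.le
  · intro e he
    obtain ⟨j, -, rfl⟩ := List.mem_map.mp he
    exact ⟨cvs_skMs_nonneg hP j, cvs_skMs_le hP j, le_rfl, sub_nonneg.mpr (hinc j)⟩

theorem cvs_sc_pi (P : SkStp) (K lam : ℕ → ℝ) :
    slkPi (cvSc P K lam) = (List.range P.length).map fun j => (skMs 1 P j, lam (j + 1) * K (j + 1) - lam j * K j) := by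
  simp only [slkPi, cvSc, List.map_map]
  rfl

/-- the clock revealed on the first `r` stages -/
theorem cvs_sc_take_len (P : SkStp) (K lam : ℕ → ℝ) {r : ℕ} (hr : r ≤ P.length) :
    scLen ((slkPi (cvSc P K lam)).take r) = lam r * K r - lam 0 * K 0 := by
  rw [cvs_sc_pi]
  induction r with
  | zero => simp [scLen]
  | succ r ih =>
    have hr' : r < ((List.range P.length).map fun j => (skMs 1 P j, lam (j + 1) * K (j + 1) - lam j * K j)).length := by
      simpa using hr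
    rw [List.take_succ_eq_append_getElem hr', sc_len_append, ih (by omega)]
    simp only [List.getElem_map, List.getElem_range, scLen]
    ring

theorem cvs_sc_tot_len (P : SkStp) (K lam : ℕ → ℝ) :
    scLen (slkPi (cvSc P K lam)) = lam P.length * K P.length - lam 0 * K 0 := by
  have h := cvs_sc_take_len P K lam (r := P.length) le_rfl
  rwa [List.take_of_length_le (by simp [slkPi, cvSc])] at h

theorem cvs_sc_ms (P : SkStp) (K lam : ℕ → ℝ) (j : ℕ) : cvsMs 1 (slkPi (cvSc P K lam)) j = skMs 1 P j := by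
  rw [cvs_sc_pi]
  unfold cvsMs
  by_cases hj : j < P.length
  · rw [List.getElem?_eq_getElem (by simpa using hj)]
    simp
  · rw [List.getElem?_eq_none (by simpa using hj), cvs_skMs, dif_neg hj]
    rfl

theorem cvs_sc_pm (P : SkStp) (K lam : ℕ → ℝ) (j : ℕ) : cvsPm 1 0 (slkPi (cvSc P K lam)) j = trPm (skMs 1 P) j := by
  unfold cvsPm trPm
  split_ifs
  · rfl
  · exact cvs_sc_ms P K lam _

/-! ## X. EXITS on the SK instance `cvySys m P` -/

theorem cvs_LC_ad {a : ℝ} (ha : 0 < a) : ScAd a (scLC a) := ScAd.logcosh ha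

theorem cvs_LC_T {a : ℝ} (ha : 0 < a) (z : ℝ) : deriv (deriv (scLC a)) z = a * (1 - deriv (scLC a) z ^ 2) := by
  have h1 : deriv (deriv (scLC a)) z = a * scSech a z := sc_logcosh_deriv2 ha.ne' z
  rw [h1, slk_LC_deriv ha.ne']
  rfl

section exits
variable (m : ℕ) {P : SkStp} (hP : SkAdm 1 P)
include hP

theorem cvs_x_inc {lam : ℕ → ℝ} (hl : LedProf lam) (j : ℕ) :
    lam j * cvK (m + 1) P j ≤ lam (j + 1) * cvK (m + 1) P (j + 1) := by
  have hD := cvy_dat_ok m P hP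
  have h1 : cvK (m + 1) P j ≤ cvK (m + 1) P (j + 1) := hD.K_mono (Nat.le_succ j)
  have h0 : 0 ≤ cvK (m + 1) P j := hD.K_nonneg j
  exact mul_le_mul (hl.mono (Nat.le_succ j)) h1 h0 (hl.nonneg _)

/-- **the pair numbers of the scalar site**, any revelation profile -/
theorem cvs_x_pair {lam : ℕ → ℝ} (hl : LedProf lam) {r : ℕ} (hr : r ≤ P.length) :
    (cvySys m P).nuS lam 2 (ledPair P.length r) (fun s => ledSg (s 0) * ledSg (s 1))
      = cvsGam (scLC 1) ((slkPi (cvSc P (cvK (m + 1) P) lam)).take r) ((slkPi (cvSc P (cvK (m + 1) P) lam)).drop r) 0 := by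
  rw [cvy_site m P hP lam hl 2 (ledPair P.length r) (cvs_pair_isTr _ r (by omega)) _
    (fun σ σ' h => by simp only [h 0 (by norm_num), h 1 (by norm_num)])]
  have h := cvs_sk_pair one_pos (cvs_sc_adm hP (cvs_x_inc m hP hl)) (cvs_sc_slk P (cvK (m + 1) P) lam) (r := r)
    (by rw [cvs_sc_len]; exact hr) 0
  rw [cvs_sc_len, slk_Z_zero] at h
  exact h

theorem cvs_x_scAdm {lam : ℕ → ℝ} (hl : LedProf lam) : ScAdm 1 (slkPi (cvSc P (cvK (m + 1) P) lam)) :=
  cvs_sk_scAdm (cvs_sc_adm hP (cvs_x_inc m hP hl))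

theorem cvs_x_pair_nonneg {lam : ℕ → ℝ} (hl : LedProf lam) {r : ℕ} (hr : r ≤ P.length) :
    0 ≤ (cvySys m P).nuS lam 2 (ledPair P.length r) (fun s => ledSg (s 0) * ledSg (s 1)) := by
  rw [cvs_x_pair m hP hl hr]
  exact cvs_Gam_nonneg (slk_LC_BI 1) _ _ _

/-- **the clock bound**: `ν^s[s_a s_c] ≤ lam_r K_r` for a pair which shares `r` stages -/
theorem cvs_x_pair_le {lam : ℕ → ℝ} (hl : LedProf lam) {r : ℕ} (hr : r ≤ P.length) :
    (cvySys m P).nuS lam 2 (ledPair P.length r) (fun s => ledSg (s 0) * ledSg (s 1)) ≤ lam r * cvK (m + 1) P r := by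
  rw [cvs_x_pair m hP hl hr]
  have h := cvs_Gam_zero_le (cvs_LC_ad one_pos) (π₁ := (slkPi (cvSc P (cvK (m + 1) P) lam)).take r)
    (π₂ := (slkPi (cvSc P (cvK (m + 1) P) lam)).drop r) (by rw [List.take_append_drop]; exact cvs_x_scAdm m hP hl)
  rw [cvs_sc_take_len P _ lam hr] at h
  have h0 : 0 ≤ lam 0 * cvK (m + 1) P 0 := mul_nonneg (hl.nonneg 0) ((cvy_dat_ok m P hP).K_nonneg 0)
  linarith

/-- X1a. `0 ≤ γ` -/
theorem cvs_x_gam_nonneg (kU : ℕ) {r : ℕ} (hr : r ≤ P.length) : 0 ≤ (cvySys m P).gam kU r :=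
  cvs_x_pair_nonneg m hP (ledsc_prof0 kU) hr

/-- X1b. **`γ(v) ≤ K_v`**      (PE cavity.tex l.340-343) -/
theorem cvs_x_gam_le (kU : ℕ) {r : ℕ} (hr : r ≤ P.length) : (cvySys m P).gam kU r ≤ (cvySys m P).K r := by
  refine (cvs_x_pair_le m hP (ledsc_prof0 kU) hr).trans ?_
  have h0 : 0 ≤ cvK (m + 1) P r := (cvy_dat_ok m P hP).K_nonneg r
  have h1 := (ledsc_prof0 kU).le_one r
  show _ ≤ cvK (m + 1) P r
  nlinarith

/-- X1c. `0 ≤ Γ(K_r) ≤ K_r` -/
theorem cvs_x_Gam_nonneg {r : ℕ} (hr : r ≤ P.length) : 0 ≤ (cvySys m P).Gam r :=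
  cvs_x_pair_nonneg m hP ⟨fun _ => zero_le_one, fun _ => le_rfl, fun _ _ _ => le_rfl⟩ hr

theorem cvs_x_Gam_le {r : ℕ} (hr : r ≤ P.length) : (cvySys m P).Gam r ≤ (cvySys m P).K r := by
  refine (cvs_x_pair_le m hP (lam := fun _ => 1) ⟨fun _ => zero_le_one, fun _ => le_rfl, fun _ _ _ => le_rfl⟩ hr).trans ?_
  rw [one_mul]
  exact le_rfl

/-- **`χ` is the Hessian at zero field of the scalar continuation with the relocated clock**      (PE cavity.tex l.327-333) -/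
theorem cvs_x_chi_hess {kU : ℕ} (hU : kU ≤ P.length) :
    (cvySys m P).chi kU = deriv (deriv (scV (scLC 1) (slkPi (cvSc P (cvK (m + 1) P) (ledLam kU 0))))) 0 := by
  set π := slkPi (cvSc P (cvK (m + 1) P) (ledLam kU 0)) with hπ
  have hY := cvy_ok m P hP
  have hτ : IsTr P.length 1 (fun _ _ => P.length + 1) :=
    ⟨fun _ _ _ _ => le_rfl, fun _ _ => rfl, fun _ _ _ _ => rfl, fun _ _ _ _ _ _ => by simp⟩
  have hpush := led_push (ms := skMs 1 P) hτ (a := 0) (by norm_num)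
    (fun j => if kU ≤ j then (cvySys m P).gam kU j else 0)
  have hchi : (cvySys m P).chi kU = trSum (skMs 1 P) P.length 1 (fun _ _ => P.length + 1)
      (fun τ' => (fun j => if kU ≤ j then (cvySys m P).gam kU j else 0) (τ' 0 1)) := rfl
  rw [hchi, hpush]
  have htop : (cvySys m P).gam kU (P.length + 1) = 1 := ledsc_gam_top hY kU
  have hmsN : skMs 1 P P.length = 1 := by rw [cvs_skMs, dif_neg (lt_irrefl _)]
  have hlen : π.length = P.length := by simp [hπ, slkPi, cvSc]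
  have hG : ∀ j ∈ Finset.range (P.length + 1), (trPm (skMs 1 P) j - skMs 1 P j) * (if kU ≤ j then (cvySys m P).gam kU j else 0)
      = -((cvsMs 1 π j - cvsPm 1 0 π j) * cvsGam (scLC 1) (π.take j) (π.drop j) 0) := by
    intro j hj
    have hjN : j ≤ P.length := by have := Finset.mem_range.mp hj; omega
    have hg : (cvySys m P).gam kU j = cvsGam (scLC 1) (π.take j) (π.drop j) 0 := cvs_x_pair m hP (ledsc_prof0 kU) hjN
    rw [hπ, cvs_sc_ms, cvs_sc_pm, ← hπ]
    split_ifs with hk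
    · rw [hg]; ring
    · have h1 : (cvySys m P).gam kU j = 0 := ledsc_gam_low hY hU (by omega)
      rw [← hg, h1]; ring
  rw [Finset.sum_congr rfl hG, if_pos (by omega), htop, hmsN, Finset.sum_neg_distrib]
  have hh := cvs_hess_sum (a := 1) (slk_LC_BI 1) (cvs_LC_T one_pos) 0 π 0
  rw [hlen] at hh
  linarith

/-- X2a. **`χ ≤ 1`** -/
theorem cvs_x_chi_le {kU : ℕ} (hU : kU ≤ P.length) : (cvySys m P).chi kU ≤ 1 := by
  rw [cvs_x_chi_hess m hP hU]
  exact ((cvs_LC_ad one_pos).scV (cvs_x_scAdm m hP (ledsc_prof0 kU))).hess_le 0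

/-- X2b. **`c₀ ≤ χ`**, `c₀ = e^{-3 K_tot}`      (PE cavity.tex l.333-337: "expected terminal thermal variance") -/
theorem cvs_x_chi_ge {kU : ℕ} (hU : kU ≤ P.length) :
    Real.exp (-(3 * (cvySys m P).K P.length)) ≤ (cvySys m P).chi kU := by
  rw [cvs_x_chi_hess m hP hU]
  have h := scb_V_hess_ge (cvs_LC_ad one_pos) (cvs_x_scAdm m hP (ledsc_prof0 kU)) (c := 1) zero_le_one
    (fun z => by
      have h1 : deriv (deriv (scLC 1)) z = 1 * scSech 1 z := sc_logcosh_deriv2 one_ne_zero z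
      rw [h1]) 0
  have hs : scSech 1 0 = 1 := by simp [scSech]
  rw [hs, cvs_sc_tot_len] at h
  refine le_trans ?_ h
  have h0 : 0 ≤ ledLam kU 0 0 * cvK (m + 1) P 0 := mul_nonneg ((ledsc_prof0 kU).nonneg 0) ((cvy_dat_ok m P hP).K_nonneg 0)
  have h1 : ledLam kU 0 P.length * cvK (m + 1) P P.length ≤ cvK (m + 1) P P.length := by
    have := (ledsc_prof0 kU).le_one P.length
    have h2 : 0 ≤ cvK (m + 1) P P.length := (cvy_dat_ok m P hP).K_nonneg _
    nlinarith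
  rw [one_mul, mul_one]
  apply Real.exp_le_exp.mpr
  show -(3 * cvK (m + 1) P P.length) ≤ _
  nlinarith

theorem cvs_x_chi_pos {kU : ℕ} (hU : kU ≤ P.length) : 0 < (cvySys m P).chi kU :=
  (Real.exp_pos _).trans_le (cvs_x_chi_ge m hP hU)

end exits

end Claimed.Agent.R286
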