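import Claimed.Agent.R286.Cav.Num
import Claimed.Agent.R286.Cav.Eq25
import Claimed.Agent.R286.Cav.ScPair

/-!
# Row 286 (S0533), PE Section 4 (cavity), Cav/Asm : THE ASSEMBLY of Prop 4.1      (owner helper56, by order of helper223; prefix `asm`)      TEX[PE:prop:cavity-closure]

PROVES the three step-path statements of `Cav/Contract` (`cav_closure_small`, `cav_closure_large`, `cav_omitted`) under the names `asm_closure_small`, `asm_closure_large`, `asm_omitted` FROM THE EXITS OF THE UNITS: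
* `Cav/Sys` (223, 194, 205, 206, 45)      `cvySys m P`, `cvy_ok`, `cvy_Gam`, ...
* `Cav/Num` (56)                          the cost numbers `cvn_*`
* `Cav/TstInst` (218)                     `CvtIn.Ok`, `CvtIn.Cal`, `cvt_in_J0'` (PE L4.10), `cvt_in_27'` (PE (27))
* `Cav/Eq25` (244, 150, 201)              `cve_h25` (equation (25) per monomial), `cve_hcal`
* `Cav/ScPair` (205)                      `cvs_x_chi_le`, `cvs_x_chi_ge`, `cvs_low` (scalar low expansion)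
* `Cav/RetMain` (137)                     `ret_closure`, `ret_closure_large`, `ret_LM_eq` (return to the target cut)
## PLAN
1. `asm_alg` (abstract, any `LedSys`): TWO records.   D = star-only record (`kI = kS`, `I = 0`) taken AT THE SCALE `x := W` (the raw bound `momI` at `kI = kS` is false at the scale `x`; `J₀ = O(W²)` needs errors `o(W³)` only);
   M = record with one initial edge.      `cvt_in_J0'` on D, `cvt_in_27'` on M  ⟹  `|𝓛_U(Δ_{10}, 1)| ≤ K (sv + ρ_M + τ_d) x³`.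
2. `asm_ins`: the two records at `Y = cvySys m I.P`, `A.W = s W`, `A.x = s x`, `s = cvnCx C Cp r ≥ 1` (the raw bound at the initial cut has a constant).
3. `asm_led_x`: evaluation of the ledger `rLed` of the mean expansion at the scale `x`.
4. `asm_core_small` (NO lower bound on the mass of the target), `asm_core_large`: `ret_closure(_large)` + 2 + 3.
5. the three statements; `asm_omitted` is a corollary of `asm_core_small` (`ε = 1`, `D_i ≤ C x`).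
-/

set_option autoImplicit false

namespace Claimed.Agent.R286

open Finset

/-! ## 1. the abstract algebra: two records -/

/-- the record: `N0 = 1`, `Q0 = 3`, `C0 = 1` -/
noncomputable def asmA {Ω : Type} (Y : LedSys Ω) (kI kS kU r k Ii : ℕ) (W x T ρ sv st c C1 Cb : ℝ) : CvtIn Ω :=
  ⟨Y, kI, kS, kU, r, k, 1, 3, Ii, W, x, T, ρ, sv, st, c, 1, C1, Cb⟩

/-- growth constant of one generation -/
noncomputable def asmG (c Cb : ℝ) : ℝ := max 1 (4 * (Cb * (1 + 1) / c * ((1 + 1) * (1 + 1))))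

/-- a priori constant of the insertion -/
noncomputable def asmTau (k : ℕ) (Cb : ℝ) : ℝ := (2 * 1) ^ 3 * (∏ i ∈ Finset.range 3, (((3 + 2 * k + 2 : ℕ) : ℝ) + i)) * (2 * Cb)

/-- the constant of `J₀ = O(W²)` -/
noncomputable def asmCJ (c C2 : ℝ) : ℝ := 2 * (C2 * (1 + 1 ^ 2) / c) + 1

/-- the constant of the smallness condition of the calibration -/
noncomputable def asmKb (k : ℕ) (c C1 Cb : ℝ) : ℝ :=
  Cb * (1 + 1) * asmG c Cb ^ k * ((1 + 1) * (1 + 1)) * ((k : ℝ) * (3 / 2) / c * (1 + C1 * 1 ^ 2) + asmTau k Cb) + 1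

/-- the final constant of (27) -/
noncomputable def asmK (k : ℕ) (c C1 Cb C2 : ℝ) : ℝ :=
  asmG c Cb ^ k * ((k : ℝ) * (3 / 2) / c * (C1 * 1 ^ 2 + asmCJ c C2 + 1) + asmTau k Cb)

theorem asm_eqns_cite : True := by
  have := @asmA.eq_1
  have := @asmG.eq_1
  have := @asmTau.eq_1
  have := @asmCJ.eq_1
  have := @asmKb.eq_1
  have := @asmK.eq_1
  trivial

/-- the target test `Δ_{10}` with the target `1` is admissible with one initial edge -/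
theorem asm_ok_10 : CvtOk 1 3 1 1 [(1, 0)] := by
  refine ⟨by simp, by decide, by omega, by omega, by simp, by simp, ?_⟩
  exact ⟨[], [(1, 0)], [], by simp, by simp, by simp, by simp, by simp, by simp⟩

theorem asm_msz_10 (w x : ℝ) : cvtMsz w x [(1, 0)] = x := by
  simp [cvtEsz]

/-- **PE L4.10 + (27), two records** -/
theorem asm_alg {Ω : Type} (Y : LedSys Ω) (kI kS kU r k : ℕ) (W x T ρD ρM sv st c C1 Cb C2 τd : ℝ)
    (hD : (asmA Y kS kS kU r k 0 W W T ρD sv st c C1 Cb).Ok) (hC : (asmA Y kS kS kU r k 0 W W T ρD sv st c C1 Cb).Cal C2 τd)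
    (hM : (asmA Y kI kS kU r k 1 W x T ρM sv st c C1 Cb).Ok)
    (hs : asmKb k c C1 Cb * (sv + ρD + τd) ≤ c / 2) (hd : st ^ k ≤ τd * x ^ 2) :
    |Y.LM kI kS kU [(1, 0)] 1| ≤ asmK k c C1 Cb C2 * (sv + ρM + τd) * x ^ 3 := by
  have hms : Y.ms Y.N = 1 := hD.sys.ms_top
  have eKb : (asmA Y kS kS kU r k 0 W W T ρD sv st c C1 Cb).Kb = asmKb k c C1 Cb := by
    unfold CvtIn.Kb CvtIn.Ac CvtIn.G CvtIn.tau asmKb asmG asmTau
    simp only [asmA]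
    rw [hms]
  have hJ := cvt_in_J0' _ hD hC (by rw [eKb]; exact hs)
  have h27 := cvt_in_27' _ hM (asmCJ c C2) τd hJ hd asm_ok_10
  have eG : (asmA Y kI kS kU r k 1 W x T ρM sv st c C1 Cb).G = asmG c Cb := rfl
  have eT : (asmA Y kI kS kU r k 1 W x T ρM sv st c C1 Cb).tau = asmTau k Cb := by
    unfold CvtIn.tau asmTau
    simp only [asmA]
    rw [hms]
  rw [eG, eT] at h27
  simp only [asmA, asm_msz_10] at h27
  have hc0 : 0 < c := hM.hc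
  have hsv : 0 ≤ sv := hM.hsv
  have hρ : 0 ≤ ρM := hM.hρ
  have hτd : 0 ≤ τd := hC.hτd
  have hx : 0 < x := hM.hx
  have hC1 : 0 ≤ C1 := cvt_in_C1 _ hM
  have hC2 : 0 ≤ C2 := hC.hC2
  have hT : 0 ≤ asmTau k Cb := by rw [← eT]; exact cvt_in_tau _ hM
  have hG : 0 ≤ asmG c Cb ^ k := pow_nonneg (le_trans zero_le_one (le_max_left _ _)) _
  have hCJ : 0 ≤ asmCJ c C2 := by unfold asmCJ; positivity
  refine h27.trans ?_
  unfold asmK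
  have ha : 0 ≤ (k : ℝ) * (3 / 2) / c := by positivity
  have e1 : (C1 * 1 ^ 2 + asmCJ c C2) * sv + ρM ≤ (C1 * 1 ^ 2 + asmCJ c C2 + 1) * (sv + ρM + τd) := by
    have : 0 ≤ (C1 * 1 ^ 2 + asmCJ c C2) * (ρM + τd) := by positivity
    nlinarith
  have e2 : asmTau k Cb * τd ≤ asmTau k Cb * (sv + ρM + τd) := mul_le_mul_of_nonneg_left (by linarith) hT
  have e3 : (k : ℝ) * (3 / 2) / c * ((C1 * 1 ^ 2 + asmCJ c C2) * sv + ρM) + asmTau k Cb * τd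
      ≤ ((k : ℝ) * (3 / 2) / c * (C1 * 1 ^ 2 + asmCJ c C2 + 1) + asmTau k Cb) * (sv + ρM + τd) := by
    have := mul_le_mul_of_nonneg_left e1 ha
    nlinarith
  calc asmG c Cb ^ k * ((k : ℝ) * (3 / 2) / c * ((C1 * 1 ^ 2 + asmCJ c C2) * sv + ρM) + asmTau k Cb * τd) * (x ^ 2 * x)
      ≤ asmG c Cb ^ k * (((k : ℝ) * (3 / 2) / c * (C1 * 1 ^ 2 + asmCJ c C2 + 1) + asmTau k Cb) * (sv + ρM + τd)) * (x ^ 2 * x) :=
        mul_le_mul_of_nonneg_right (mul_le_mul_of_nonneg_left e3 hG) (by positivity)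
    _ = _ := by ring

/-! ## 2. the two records at `cvySys m I.P` -/

/-- lower bound of `χ`: `K_tot ≤ 2 C` -/
noncomputable def asmC0 (C : ℝ) : ℝ := Real.exp (-(3 * (2 * C)))

theorem asm_eqns_cite2 : True := by
  have := @asmC0.eq_1
  trivial

theorem asm_C0_pos (C : ℝ) : 0 < asmC0 C := Real.exp_pos _

theorem asm_Cx_one (C : ℝ) (hC : 0 ≤ C) (Cp : ℕ → ℝ) (r : ℕ) : 1 ≤ cvnCx C Cp r := by
  unfold cvnCx
  have : 0 ≤ 2 * |Cp r| * (C + 1) := by positivity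
  linarith

theorem asm_St_one (Cp : ℕ → ℝ) (r : ℕ) : 1 ≤ cvnSt Cp r := by
  unfold cvnSt
  have := abs_nonneg (Cp r)
  linarith

section inst

variable {c C ρ : ℝ} {Cp : ℕ → ℝ} {kM : ℕ} (I : CavIn) (m : ℕ)

/-- `c₀ ≤ χ ≤ 1` (205) -/
theorem asm_chi (h : I.Ok c C ρ Cp kM) {kU : ℕ} (hU : kU ≤ I.N) : asmC0 C ≤ (cvySys m I.P).chi kU ∧ (cvySys m I.P).chi kU ≤ 1 := by
  refine ⟨le_trans ?_ (cvs_x_chi_ge m h.adm hU), cvs_x_chi_le m h.adm hU⟩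
  unfold asmC0
  have hY := cvy_ok m I.P h.adm
  have hb := (cvn_bh_le I m h).1 I.P.length
  have hh := (cvn_bh_le I m h).2 I.P.length
  have hb0 := ret_b_nonneg hY I.P.length
  have hS1 := hY.S_le I.P.length
  have hK : (cvySys m I.P).K I.P.length ≤ 2 * C := by
    unfold LedSys.K
    nlinarith
  exact Real.exp_le_exp.2 (by linarith)

/-- the size of a monomial is monotone in both scales -/
theorem asm_msz_mono {w x w' x' : ℝ} (hw : 0 ≤ w) (hx : 0 ≤ x) (hww : w ≤ w') (hxx : x ≤ x') (μ : CvtMon) : cvtMsz w x μ ≤ cvtMsz w' x' μ := by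
  unfold cvtMsz
  induction μ with
  | nil => simp
  | cons e μ ih =>
    simp only [List.map_cons, List.prod_cons]
    have h1 : cvtEsz w x e ≤ cvtEsz w' x' e := by
      unfold cvtEsz
      split_ifs
      · exact hxx
      · exact hww
    exact mul_le_mul h1 ih (cvtMsz_nonneg hw hx μ) (cvtEsz_nonneg (hw.trans hww) (hx.trans hxx) e)

/-- the common fields of the two records -/
theorem asm_rec_gen (hc : 0 < c) (hn : I.n = m + 1) (h : I.Ok c C ρ Cp kM) (hS : I.Star c C Cp kM) (r k : ℕ) (hrk : 2 * (1 + k) + 1 ≤ 2 * r)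
    (hrM : r ≤ kM) (hW1 : I.W ≤ 1) (hWC : C * I.W ^ 2 ≤ 1 / 2) (hsv1 : I.sv ≤ 1) (hst1 : cvnSt Cp r * I.sv ≤ 1) {ji Ii : ℕ} (hji : ji ≤ I.js)
    (ρM : ℝ) (hρM : 0 ≤ ρM) (y : ℝ) (hxy : I.x ≤ y) (hyW : y ≤ I.W)
    (hmomI : (cvySys m I.P).mom r ji ≤ (cvnCx C Cp r * y) ^ (2 * r))
    (h25 : ∀ (a f : ℕ) (μ : CvtMon), CvtOk (1 + k) (3 + 2 * k) Ii a μ → cvtTopM μ ≤ f → f ≠ a → f ≤ 3 + 2 * k + 1 →
      |cvtF25 ((cvySys m I.P).nuM ji I.js) ((cvySys m I.P).LM ji I.js (I.jU + 1)) ((cvySys m I.P).b I.js) ((cvySys m I.P).chi (I.jU + 1))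
          ((cvySys m I.P).K I.js) a f μ| ≤ ρM * (I.W * I.x ^ 2 * cvtMsz I.W I.x μ)) :
    (asmA (cvySys m I.P) ji I.js (I.jU + 1) r k Ii (cvnCx C Cp r * I.W) (cvnCx C Cp r * y) I.T ρM (2 * I.sv) (cvnSt Cp r * I.sv)
      (asmC0 C * c / (2 * cvnCx C Cp r)) C C).Ok := by
  have hC := cvn_C_pos I h
  have hW0 := cvn_W_pos I h
  have hx0 := h.x0
  have hy0 : 0 < y := lt_of_lt_of_le hx0 hxy
  have hs1 := asm_Cx_one C hC.le Cp r
  have hs0 : 0 < cvnCx C Cp r := lt_of_lt_of_le one_pos hs1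
  have hSt1 := asm_St_one Cp r
  have hsv0 := h.sv0
  have hx1 : I.x ≤ 1 := h.xW.trans hW1
  have hchi := asm_chi I m h (kU := I.jU + 1) hS.jUN
  have hC0 := asm_C0_pos C
  have hsW : I.W ≤ cvnCx C Cp r * I.W := by nlinarith
  have hsy : y ≤ cvnCx C Cp r * y := by nlinarith
  refine
    { sys := cvy_ok m I.P h.adm
      kIS := hji
      kSN := hS.jsU.trans hS.jUN.le
      hx := mul_pos hs0 hy0
      hxW := mul_le_mul_of_nonneg_left hyW hs0.le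
      hc := div_pos (mul_pos hC0 hc) (mul_pos two_pos hs0)
      hρ := hρM
      hsv := mul_nonneg zero_le_two hsv0.le
      hst := mul_nonneg (zero_le_one.trans hSt1) hsv0.le
      hst1 := hst1
      hr := hrk
      momS := ?_
      momI := hmomI
      Dst := ?_
      b_le := (cvn_bh_le I m h).1
      chi0 := hC0.le.trans hchi.1
      chi_le := hchi.2
      bT := ?_
      K_lo := ?_
      h25 := ?_ }
  · refine (cvn_momS I m hn h hS hx1 hsv1 hrM).trans (pow_le_pow_left₀ (by positivity) ?_ _)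
    show cvnSt Cp r * I.sv * I.W ≤ cvnSt Cp r * I.sv * (cvnCx C Cp r * I.W)
    exact mul_le_mul_of_nonneg_left hsW (by positivity)
  · refine (cvn_Dst I m hn h hS hW1 hsv1).trans ?_
    show 2 * I.sv * (I.x ^ 2 / I.W) ≤ 2 * I.sv * ((cvnCx C Cp r * y) ^ 2 / (cvnCx C Cp r * I.W))
    refine mul_le_mul_of_nonneg_left ?_ (by positivity)
    have e : (cvnCx C Cp r * y) ^ 2 / (cvnCx C Cp r * I.W) = cvnCx C Cp r * (y ^ 2 / I.W) := by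
      field_simp
    rw [e]
    have h1 : I.x ^ 2 / I.W ≤ y ^ 2 / I.W := div_le_div_of_nonneg_right (pow_le_pow_left₀ hx0.le hxy 2) hW0.le
    have h2 : 0 ≤ y ^ 2 / I.W := by positivity
    nlinarith
  · refine hS.bst.trans ?_
    show C * I.W ^ 2 ≤ C * (cvnCx C Cp r * I.W) ^ 2
    exact mul_le_mul_of_nonneg_left (pow_le_pow_left₀ hW0.le hsW 2) hC.le
  · have hK := cvn_K_lo I m hn hc h hS hWC
    show asmC0 C * c / (2 * cvnCx C Cp r) * (cvnCx C Cp r * I.W) ≤ (cvySys m I.P).chi (I.jU + 1) * (cvySys m I.P).K I.js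
    have e : asmC0 C * c / (2 * cvnCx C Cp r) * (cvnCx C Cp r * I.W) = asmC0 C * (c / 2 * I.W) := by
      field_simp
    rw [e]
    exact mul_le_mul hchi.1 hK (by positivity) (hC0.le.trans hchi.1)
  · intro a f μ h1 h2 h3 h4
    refine (h25 a f μ h1 h2 h3 h4).trans ?_
    show ρM * (I.W * I.x ^ 2 * cvtMsz I.W I.x μ)
      ≤ ρM * (cvnCx C Cp r * I.W * (cvnCx C Cp r * y) ^ 2 * cvtMsz (cvnCx C Cp r * I.W) (cvnCx C Cp r * y) μ)
    refine mul_le_mul_of_nonneg_left ?_ hρM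
    have hxy' : I.x ≤ cvnCx C Cp r * y := hxy.trans hsy
    refine mul_le_mul (mul_le_mul hsW (pow_le_pow_left₀ hx0.le hxy' 2) (by positivity) (by positivity))
      (asm_msz_mono hW0.le hx0.le hsW hxy' μ) (cvtMsz_nonneg hW0.le hx0.le μ) (by positivity)

/-- **the record M** (one initial edge at the target cut `ji`), at the scales `s W`, `s x` -/
theorem asm_recM (hc : 0 < c) (hn : I.n = m + 1) (h : I.Ok c C ρ Cp kM) (hS : I.Star c C Cp kM) (r k : ℕ) (hr1 : 1 ≤ r) (hrk : 2 * (1 + k) + 1 ≤ 2 * r)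
    (hrM : r ≤ kM) (hW1 : I.W ≤ 1) (hWC : C * I.W ^ 2 ≤ 1 / 2) (hsv1 : I.sv ≤ 1) (hst1 : cvnSt Cp r * I.sv ≤ 1) {ji : ℕ} (hji : ji ≤ I.jB)
    (ρM : ℝ) (hρM : 0 ≤ ρM)
    (h25 : ∀ (a f : ℕ) (μ : CvtMon), CvtOk (1 + k) (3 + 2 * k) 1 a μ → cvtTopM μ ≤ f → f ≠ a → f ≤ 3 + 2 * k + 1 →
      |cvtF25 ((cvySys m I.P).nuM ji I.js) ((cvySys m I.P).LM ji I.js (I.jU + 1)) ((cvySys m I.P).b I.js) ((cvySys m I.P).chi (I.jU + 1))
          ((cvySys m I.P).K I.js) a f μ| ≤ ρM * (I.W * I.x ^ 2 * cvtMsz I.W I.x μ)) :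
    (asmA (cvySys m I.P) ji I.js (I.jU + 1) r k 1 (cvnCx C Cp r * I.W) (cvnCx C Cp r * I.x) I.T ρM (2 * I.sv) (cvnSt Cp r * I.sv)
      (asmC0 C * c / (2 * cvnCx C Cp r)) C C).Ok :=
  asm_rec_gen I m hc hn h hS r k hrk hrM hW1 hWC hsv1 hst1 (hji.trans hS.jBs.le) ρM hρM I.x le_rfl h.xW
    (cvn_momI I m hn h (h.xW.trans hW1) hsv1 ((hji.trans h.jBX).trans (Nat.le_succ _)) hr1 hrM) h25

/-- **the record D** (star only), at the scale `x := W` -/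
theorem asm_recD (hc : 0 < c) (hn : I.n = m + 1) (h : I.Ok c C ρ Cp kM) (hS : I.Star c C Cp kM) (r k : ℕ) (hr1 : 1 ≤ r) (hrk : 2 * (1 + k) + 1 ≤ 2 * r)
    (hrM : r ≤ kM) (hW1 : I.W ≤ 1) (hWC : C * I.W ^ 2 ≤ 1 / 2) (hsv1 : I.sv ≤ 1) (hst1 : cvnSt Cp r * I.sv ≤ 1)
    (ρD : ℝ) (hρD : 0 ≤ ρD)
    (h25 : ∀ (a f : ℕ) (μ : CvtMon), CvtOk (1 + k) (3 + 2 * k) 0 a μ → cvtTopM μ ≤ f → f ≠ a → f ≤ 3 + 2 * k + 1 →
      |cvtF25 ((cvySys m I.P).nuM I.js I.js) ((cvySys m I.P).LM I.js I.js (I.jU + 1)) ((cvySys m I.P).b I.js) ((cvySys m I.P).chi (I.jU + 1))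
          ((cvySys m I.P).K I.js) a f μ| ≤ ρD * (I.W * I.x ^ 2 * cvtMsz I.W I.x μ)) :
    (asmA (cvySys m I.P) I.js I.js (I.jU + 1) r k 0 (cvnCx C Cp r * I.W) (cvnCx C Cp r * I.W) I.T ρD (2 * I.sv) (cvnSt Cp r * I.sv)
      (asmC0 C * c / (2 * cvnCx C Cp r)) C C).Ok := by
  refine asm_rec_gen I m hc hn h hS r k hrk hrM hW1 hWC hsv1 hst1 le_rfl ρD hρD I.W h.xW le_rfl ?_ h25
  have hC := cvn_C_pos I h
  have hW0 := cvn_W_pos I h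
  have hs1 := asm_Cx_one C hC.le Cp r
  have hSt1 := asm_St_one Cp r
  have hsv0 := h.sv0
  refine (cvn_momS I m hn h hS (h.xW.trans hW1) hsv1 hrM).trans (pow_le_pow_left₀ (by positivity) ?_ _)
  exact mul_le_mul (hst1.trans hs1) le_rfl hW0.le (by linarith)

/-- the depth: `st^k ≤ τ_d x²` -/
theorem asm_depth (hρ : 0 < ρ) (h : I.Ok c C ρ Cp kM) (r k : ℕ) (hk : 2 ≤ ρ * ((k : ℝ) - 1)) (hk1 : 1 ≤ k) (hx1 : I.x ≤ 1) :
    (cvnSt Cp r * I.sv) ^ k ≤ cvnSt Cp r ^ k * I.sv * I.x ^ 2 := by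
  obtain ⟨j, rfl⟩ : ∃ j, k = j + 1 := ⟨k - 1, by omega⟩
  have hx0 := h.x0
  have hs0 := h.sv0
  have hSt : 0 ≤ cvnSt Cp r := le_trans zero_le_one (asm_St_one Cp r)
  have hk' : 2 ≤ ρ * (j : ℝ) := by
    have e : (((j + 1 : ℕ) : ℝ) - 1) = (j : ℝ) := by push_cast; ring
    rwa [e] at hk
  have h1 : I.sv ^ j ≤ I.x ^ 2 := by
    calc I.sv ^ j ≤ (I.x ^ ρ) ^ j := pow_le_pow_left₀ hs0.le h.sv1 j
      _ = I.x ^ (ρ * (j : ℝ)) := by rw [Real.rpow_mul hx0.le, Real.rpow_natCast]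
      _ ≤ I.x ^ (2 : ℝ) := Real.rpow_le_rpow_of_exponent_ge hx0 hx1 hk'
      _ = I.x ^ 2 := by rw [Real.rpow_two]
  calc (cvnSt Cp r * I.sv) ^ (j + 1) = cvnSt Cp r ^ (j + 1) * I.sv * I.sv ^ j := by rw [mul_pow, pow_succ I.sv j]; ring
    _ ≤ cvnSt Cp r ^ (j + 1) * I.sv * I.x ^ 2 := mul_le_mul_of_nonneg_left h1 (by positivity)

/-- the constant `C2` of the calibration; `Cl` = the constant of `cvs_low` -/
noncomputable def asmC2 (C : ℝ) (Cp : ℕ → ℝ) (Cl : ℝ) : ℝ :=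
  (C + C * (|Cp 1| * (C + 1))) + Cl * (cvnCo C Cp 1 ^ 3 + C * cvnCo C Cp 1 ^ 2)

/-- **the calibration hypotheses of the record D** -/
theorem asm_calD (hc : 0 < c) (hρ : 0 < ρ) (hn : I.n = m + 1) (h : I.Ok c C ρ Cp kM) (hS : I.Star c C Cp kM) (r k : ℕ) (hk : 2 ≤ ρ * ((k : ℝ) - 1)) (hk1 : 1 ≤ k) (hkM : 1 ≤ kM)
    (hW1 : I.W ≤ 1) (hsv1 : I.sv ≤ 1) (ρD : ℝ) (Cl : ℝ) (hCl : 0 ≤ Cl)
    (hlow : |(cvySys m I.P).Gam I.js - (cvySys m I.P).chi (I.jU + 1) ^ 2 * (cvySys m I.P).K I.js|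
      ≤ Cl * ((cvnCo C Cp 1 * I.W) ^ 3 + trPm (cvySys m I.P).ms (I.jU + 1) * (cvnCo C Cp 1 * I.W) ^ 2))
    (hcal : |(cvySys m I.P).S I.js - (cvySys m I.P).Gam I.js - (cvySys m I.P).b I.js * (cvySys m I.P).chi (I.jU + 1)
        * ((cvySys m I.P).LM I.js I.js (I.jU + 1) [(1, 2)] 1 + (cvySys m I.P).LM I.js I.js (I.jU + 1) [(1, 2)] 2)| ≤ ρD * (I.W * I.x ^ 2)) :
    (asmA (cvySys m I.P) I.js I.js (I.jU + 1) r k 0 (cvnCx C Cp r * I.W) (cvnCx C Cp r * I.W) I.T ρD (2 * I.sv) (cvnSt Cp r * I.sv)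
      (asmC0 C * c / (2 * cvnCx C Cp r)) C C).Cal (asmC2 C Cp Cl) (cvnSt Cp r ^ k * I.sv) := by
  have hC := cvn_C_pos I h
  have hW0 := cvn_W_pos I h
  have hx0 := h.x0
  have hs0 := h.sv0
  have hs1 : 1 ≤ cvnCx C Cp r := asm_Cx_one C hC.le Cp r
  have hSt : 0 ≤ cvnSt Cp r := le_trans zero_le_one (asm_St_one Cp r)
  have hCo : 0 ≤ cvnCo C Cp 1 := by unfold cvnCo; positivity
  have hWs : I.W ≤ cvnCx C Cp r * I.W := by nlinarith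
  have hxs : I.x ≤ cvnCx C Cp r * I.W := h.xW.trans hWs
  have hW3 : I.W ^ 3 ≤ (cvnCx C Cp r * I.W) ^ 3 := pow_le_pow_left₀ hW0.le hWs 3
  have hA1 : 0 ≤ C + C * (|Cp 1| * (C + 1)) := by positivity
  have hA2 : 0 ≤ Cl * (cvnCo C Cp 1 ^ 3 + C * cvnCo C Cp 1 ^ 2) := by positivity
  refine ⟨le_rfl, le_rfl, ?_, ?_, ?_, ?_, ?_, ?_, ?_⟩
  · unfold asmC2
    linarith
  · positivity
  · have hρ0 : 0 ≤ ρD := by
      have h1 : 0 ≤ ρD * (I.W * I.x ^ 2) := (abs_nonneg _).trans hcal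
      by_contra h'
      push Not at h'
      have : 0 < I.W * I.x ^ 2 := by positivity
      nlinarith
    refine le_trans hcal (mul_le_mul_of_nonneg_left ?_ hρ0)
    exact mul_le_mul hWs (pow_le_pow_left₀ hx0.le hxs 2) (by positivity) (hW0.le.trans hWs)
  · refine le_trans hlow ?_
    have e1 : trPm (cvySys m I.P).ms (I.jU + 1) = skMs 1 I.P I.jU := by rw [cvn_pm, cvn_lo_succ]
    rw [e1]
    have h1 : skMs 1 I.P I.jU * (cvnCo C Cp 1 * I.W) ^ 2 ≤ C * I.W * (cvnCo C Cp 1 * I.W) ^ 2 :=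
      mul_le_mul_of_nonneg_right hS.UHi (by positivity)
    calc Cl * ((cvnCo C Cp 1 * I.W) ^ 3 + skMs 1 I.P I.jU * (cvnCo C Cp 1 * I.W) ^ 2)
        ≤ Cl * ((cvnCo C Cp 1 * I.W) ^ 3 + C * I.W * (cvnCo C Cp 1 * I.W) ^ 2) := mul_le_mul_of_nonneg_left (by linarith) hCl
      _ = Cl * (cvnCo C Cp 1 ^ 3 + C * cvnCo C Cp 1 ^ 2) * I.W ^ 3 := by ring
      _ ≤ asmC2 C Cp Cl * I.W ^ 3 := mul_le_mul_of_nonneg_right (by unfold asmC2; linarith) (by positivity)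
      _ ≤ asmC2 C Cp Cl * (cvnCx C Cp r * I.W) ^ 3 := mul_le_mul_of_nonneg_left hW3 (by unfold asmC2; linarith)
  · refine le_trans (cvn_KS I m hn h hS hkM) ?_
    calc (C + C * (|Cp 1| * (C + 1))) * I.W ^ 3 ≤ asmC2 C Cp Cl * I.W ^ 3 :=
          mul_le_mul_of_nonneg_right (by unfold asmC2; linarith) (by positivity)
      _ ≤ asmC2 C Cp Cl * (cvnCx C Cp r * I.W) ^ 3 := mul_le_mul_of_nonneg_left hW3 (by unfold asmC2; linarith)
  · have h1 := hS.SLo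
    rw [hn] at h1
    have h2 : asmC0 C ≤ 1 := by
      unfold asmC0
      exact Real.exp_le_one_iff.2 (by linarith)
    have h3 := asm_C0_pos C
    show asmC0 C * c / (2 * cvnCx C Cp r) * (cvnCx C Cp r * I.W) ≤ cvS (m + 1) I.P I.js
    have e : asmC0 C * c / (2 * cvnCx C Cp r) * (cvnCx C Cp r * I.W) = asmC0 C * (c * I.W) / 2 := by
      field_simp
    rw [e]
    have h4 : 0 < c * I.W := by positivity
    nlinarith
  · refine le_trans (asm_depth I hρ h r k hk hk1 (h.xW.trans hW1)) ?_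
    exact mul_le_mul_of_nonneg_left (pow_le_pow_left₀ hx0.le hxs 2) (by positivity)

end inst

theorem asm_eqns_cite3 : True := by
  have := @asmC2.eq_1
  trivial

/-- numerics of `asm_ins` -/
theorem asm_n_WC {C W : ℝ} (hC : 0 < C) (hW0 : 0 < W) (hW1 : W ≤ 1) (hWc : W ≤ 1 / (2 * C + 1)) : C * W ^ 2 ≤ 1 / 2 := by
  have h1 : W ^ 2 ≤ W := by nlinarith
  have h3 : C * W ≤ C * (1 / (2 * C + 1)) := mul_le_mul_of_nonneg_left hWc hC.le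
  have h4 : C * (1 / (2 * C + 1)) ≤ 1 / 2 := by
    rw [mul_one_div, div_le_iff₀ (by positivity)]
    linarith
  calc C * W ^ 2 ≤ C * W := mul_le_mul_of_nonneg_left h1 hC.le
    _ ≤ _ := by linarith

theorem asm_n_star {d x W sv : ℝ} (hx0 : 0 < x) (hxW : x ≤ W) (hsv0 : 0 < sv) (hd : d ≤ sv * x ^ 2 / W) : d / x ≤ sv := by
  have hW0 : 0 < W := lt_of_lt_of_le hx0 hxW
  rw [div_le_iff₀ hx0]
  refine hd.trans ?_
  rw [div_le_iff₀ hW0]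
  have : sv * x * x ≤ sv * x * W := mul_le_mul_of_nonneg_left hxW (by positivity)
  calc sv * x ^ 2 = sv * x * x := by ring
    _ ≤ _ := this

theorem asm_n_sm {Kb c' Sk C25 Cc sv : ℝ} (hKb0 : 0 < Kb) (hc' : 0 < c') (hSk : 0 < Sk) (hC25 : 0 ≤ C25) (hCc : 0 ≤ Cc)
    (hsvK : sv ≤ c' / (4 * Kb * (2 + Sk))) :
    Kb * (2 * sv + (2 * C25 + Cc) * (c' / (4 * Kb * (2 * C25 + Cc + 1))) + Sk * sv) ≤ c' / 2 := by
  have e1 : Kb * ((2 + Sk) * sv) ≤ c' / 4 := by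
    have := mul_le_mul_of_nonneg_left hsvK (by positivity : 0 ≤ Kb * (2 + Sk))
    calc Kb * ((2 + Sk) * sv) = Kb * (2 + Sk) * sv := by ring
      _ ≤ Kb * (2 + Sk) * (c' / (4 * Kb * (2 + Sk))) := this
      _ = c' / 4 := by field_simp
  have e2 : Kb * ((2 * C25 + Cc) * (c' / (4 * Kb * (2 * C25 + Cc + 1)))) ≤ c' / 4 := by
    have e3 : Kb * ((2 * C25 + Cc) * (c' / (4 * Kb * (2 * C25 + Cc + 1)))) = c' / 4 * ((2 * C25 + Cc) / (2 * C25 + Cc + 1)) := by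
      field_simp
    rw [e3]
    have e4 : (2 * C25 + Cc) / (2 * C25 + Cc + 1) ≤ 1 := by
      rw [div_le_one (by positivity)]
      linarith
    calc c' / 4 * ((2 * C25 + Cc) / (2 * C25 + Cc + 1)) ≤ c' / 4 * 1 := mul_le_mul_of_nonneg_left e4 (by positivity)
      _ = c' / 4 := by ring
  calc Kb * (2 * sv + (2 * C25 + Cc) * (c' / (4 * Kb * (2 * C25 + Cc + 1))) + Sk * sv)
      = Kb * ((2 + Sk) * sv) + Kb * ((2 * C25 + Cc) * (c' / (4 * Kb * (2 * C25 + Cc + 1)))) := by ring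
    _ ≤ c' / 4 + c' / 4 := add_le_add e1 e2
    _ = c' / 2 := by ring

theorem asm_n_fin {K Sk C25 sv ε u s x : ℝ} (hK : 0 ≤ K) (hSk : 0 < Sk) (hu : 0 ≤ u) (hsv : sv ≤ ε) (hs : 0 < s) (hx : 0 < x) :
    K * (2 * sv + C25 * (ε + u) + Sk * sv) * (s * x) ^ 3 ≤ K * s ^ 3 * (2 + Sk + C25) * x ^ 3 * (ε + u) := by
  have e5 : 2 * sv + C25 * (ε + u) + Sk * sv ≤ (2 + Sk + C25) * (ε + u) := by
    have : (2 + Sk) * sv ≤ (2 + Sk) * (ε + u) := mul_le_mul_of_nonneg_left (by linarith) (by positivity)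
    nlinarith
  calc K * (2 * sv + C25 * (ε + u) + Sk * sv) * (s * x) ^ 3
      ≤ K * ((2 + Sk + C25) * (ε + u)) * (s * x) ^ 3 :=
        mul_le_mul_of_nonneg_right (mul_le_mul_of_nonneg_left e5 hK) (by positivity)
    _ = _ := by ring

theorem asm_n_D {C25 Cc εD u : ℝ} (hC25 : 0 ≤ C25) (hCc : 0 ≤ Cc) (hεD : 0 < εD) (hu : u ≤ εD) : C25 * (εD + u) ≤ (2 * C25 + Cc) * εD := by
  have : C25 * (εD + u) ≤ C25 * (εD + εD) := mul_le_mul_of_nonneg_left (by linarith) hC25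
  nlinarith [mul_nonneg hCc hεD.le]

theorem asm_n_c {C25 Cc εD : ℝ} (hC25 : 0 ≤ C25) (hεD : 0 < εD) : Cc * εD ≤ (2 * C25 + Cc) * εD := by
  nlinarith [mul_nonneg hC25 hεD.le]

/-- **the insertion at the calibration cut**: PE (27) for the target test      TEX[PE:lem:cavity-calibration] -/
theorem asm_ins (c C ρ : ℝ) (Cp : ℕ → ℝ) (hc : 0 < c) (hρ : 0 < ρ) :
    ∃ (kM : ℕ) (C1 θ w0 : ℝ), 0 ≤ C1 ∧ 0 < θ ∧ θ ≤ 1 ∧ 0 < w0 ∧ ∀ ε : ℝ, 0 < ε → ∃ δ : ℝ, 0 < δ ∧ ∀ (I : CavIn) (m : ℕ), I.n = m + 1 →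
      I.Ok c C ρ Cp kM → I.Star c C Cp kM → I.W ≤ w0 → I.x ≤ δ → I.sv ≤ δ → I.et ≤ δ → ∀ ji, ji ≤ I.jB →
        |(cvySys m I.P).LM ji I.js (I.jU + 1) [(1, 0)] 1| ≤ C1 * I.x ^ 3 * (ε + (cvD I.n I.P ji / I.x) ^ θ) := by
  by_cases hC : 0 < C
  swap
  · exact ⟨0, 0, 1, 1, le_rfl, one_pos, le_rfl, one_pos, fun ε _ => ⟨1, one_pos, fun I m _ h => absurd (cvn_C_pos I h) hC⟩⟩
  obtain ⟨k, hkdef⟩ : ∃ k : ℕ, k = ⌈2 / ρ⌉₊ + 1 := ⟨_, rfl⟩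
  obtain ⟨r, hrdef⟩ : ∃ r : ℕ, r = k + 2 := ⟨_, rfl⟩
  obtain ⟨s, hsdef⟩ : ∃ s : ℝ, s = cvnCx C Cp r := ⟨_, rfl⟩
  obtain ⟨St, hStdef⟩ : ∃ St : ℝ, St = cvnSt Cp r := ⟨_, rfl⟩
  obtain ⟨c', hc'def⟩ : ∃ c' : ℝ, c' = asmC0 C * c / (2 * s) := ⟨_, rfl⟩
  obtain ⟨k25, C25, θ, w1, hC25, hθ0, hθ1, hw1, H25⟩ := cve_h25 c C ρ Cp hc hρ (1 + k) (3 + 2 * k)
  obtain ⟨kc, Cc, w2, hCc, hw2, Hc⟩ := cve_hcal c C ρ Cp hc hρ
  obtain ⟨Cl, hCl, Hl⟩ := cvs_low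
  have hk1 : 1 ≤ k := by omega
  have hkρ : 2 ≤ ρ * ((k : ℝ) - 1) := by
    have h1 : (k : ℝ) - 1 = (⌈2 / ρ⌉₊ : ℝ) := by rw [hkdef]; push_cast; ring
    rw [h1]
    have h2 : 2 / ρ ≤ (⌈2 / ρ⌉₊ : ℝ) := Nat.le_ceil _
    calc (2 : ℝ) = ρ * (2 / ρ) := by field_simp
      _ ≤ _ := mul_le_mul_of_nonneg_left h2 hρ.le
  have hs1 : 1 ≤ s := hsdef ▸ asm_Cx_one C hC.le Cp r
  have hSt1 : 1 ≤ St := hStdef ▸ asm_St_one Cp r
  have hs0 : 0 < s := lt_of_lt_of_le one_pos hs1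
  have hSt0 : 0 < St := lt_of_lt_of_le one_pos hSt1
  have hc' : 0 < c' := by
    rw [hc'def]
    have := asm_C0_pos C
    positivity
  obtain ⟨Kb, hKbdef⟩ : ∃ Kb : ℝ, Kb = asmKb k c' C C := ⟨_, rfl⟩
  have hG0 : 0 ≤ asmG c' C := le_trans zero_le_one (le_max_left _ _)
  have hTau0 : 0 ≤ asmTau k C := by unfold asmTau; positivity
  have hKb : 1 ≤ Kb := by
    rw [hKbdef]
    unfold asmKb
    have : 0 ≤ C * (1 + 1) * asmG c' C ^ k * ((1 + 1) * (1 + 1)) * ((k : ℝ) * (3 / 2) / c' * (1 + C * 1 ^ 2) + asmTau k C) := by positivity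
    linarith
  have hKb0 : 0 < Kb := lt_of_lt_of_le one_pos hKb
  obtain ⟨C2, hC2def⟩ : ∃ C2 : ℝ, C2 = asmC2 C Cp Cl := ⟨_, rfl⟩
  have hCo0 : 0 ≤ cvnCo C Cp 1 := by unfold cvnCo; positivity
  have hC2 : 0 ≤ C2 := by
    rw [hC2def]
    unfold asmC2
    positivity
  obtain ⟨K, hKdef⟩ : ∃ K : ℝ, K = asmK k c' C C C2 := ⟨_, rfl⟩
  have hK : 0 ≤ K := by
    rw [hKdef]
    unfold asmK asmCJ
    positivity
  obtain ⟨εD, hεDdef⟩ : ∃ εD : ℝ, εD = c' / (4 * Kb * (2 * C25 + Cc + 1)) := ⟨_, rfl⟩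
  have hεD : 0 < εD := by rw [hεDdef]; positivity
  obtain ⟨δD, hδD, H25D⟩ := H25 εD hεD
  obtain ⟨δc, hδc, HcD⟩ := Hc εD hεD
  refine ⟨max (max k25 kc) r, K * s ^ 3 * (2 + St ^ k + C25), θ, min (min w1 w2) (min 1 (1 / (2 * C + 1))), by positivity, hθ0, hθ1,
    lt_min (lt_min hw1 hw2) (lt_min one_pos (by positivity)), fun ε hε => ?_⟩
  obtain ⟨δM, hδM, H25M⟩ := H25 ε hε
  refine ⟨min (min (min δM δD) (min δc (εD ^ θ⁻¹))) (min (min (c' / (4 * Kb * (2 + St ^ k))) (1 / St)) (min 1 ε)),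
    lt_min (lt_min (lt_min hδM hδD) (lt_min hδc (Real.rpow_pos_of_pos hεD _))) (lt_min (lt_min (by positivity) (by positivity)) (lt_min one_pos hε)),
    fun I m hn h hS hW hx hsv het ji hji => ?_⟩
  -- the thresholds
  have hWw1 : I.W ≤ w1 := hW.trans ((min_le_left _ _).trans (min_le_left _ _))
  have hWw2 : I.W ≤ w2 := hW.trans ((min_le_left _ _).trans (min_le_right _ _))
  have hW1 : I.W ≤ 1 := hW.trans ((min_le_right _ _).trans (min_le_left _ _))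
  have hWc : I.W ≤ 1 / (2 * C + 1) := hW.trans ((min_le_right _ _).trans (min_le_right _ _))
  have d1 : ∀ t : ℝ, t ≤ min (min (min δM δD) (min δc (εD ^ θ⁻¹))) (min (min (c' / (4 * Kb * (2 + St ^ k))) (1 / St)) (min 1 ε)) →
      t ≤ δM ∧ t ≤ δD ∧ t ≤ δc ∧ t ≤ εD ^ θ⁻¹ ∧ t ≤ c' / (4 * Kb * (2 + St ^ k)) ∧ t ≤ 1 / St ∧ t ≤ 1 ∧ t ≤ ε := by
    intro t ht
    simp only [le_min_iff] at ht
    tauto
  obtain ⟨hxM, hxD, hxc, -, -, -, hx1, -⟩ := d1 _ hx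
  obtain ⟨hsvM, hsvD, hsvc, hsvθ, hsvK, hsvSt, hsv1, hsvε⟩ := d1 _ hsv
  obtain ⟨hetM, hetD, hetc, -, -, -, -, -⟩ := d1 _ het
  have hx0 := h.x0
  have hW0 := cvn_W_pos I h
  have hsv0 := h.sv0
  have hWC : C * I.W ^ 2 ≤ 1 / 2 := asm_n_WC hC hW0 hW1 hWc
  have hst1 : cvnSt Cp r * I.sv ≤ 1 := by
    rw [← hStdef]
    calc St * I.sv ≤ St * (1 / St) := mul_le_mul_of_nonneg_left hsvSt hSt0.le
      _ = 1 := by field_simp
  have hrM : r ≤ max (max k25 kc) r := le_max_right _ _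
  have hkM1 : 1 ≤ max (max k25 kc) r := le_trans (by omega) hrM
  have h25k : I.Ok c C ρ Cp k25 := cvn_ok_mono ((le_max_left _ _).trans (le_max_left _ _)) h
  have hS25k : I.Star c C Cp k25 := cvn_star_mono ((le_max_left _ _).trans (le_max_left _ _)) hS
  have hck : I.Ok c C ρ Cp kc := cvn_ok_mono ((le_max_right _ _).trans (le_max_left _ _)) h
  have hSck : I.Star c C Cp kc := cvn_star_mono ((le_max_right _ _).trans (le_max_left _ _)) hS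
  obtain ⟨-, cut2, cut3, -⟩ := cvn_cuts I m h hS
  -- the two moduli
  have ht0 : 0 ≤ cvD I.n I.P ji / I.x := div_nonneg (Real.sqrt_nonneg _) hx0.le
  have hu0 : 0 ≤ (cvD I.n I.P ji / I.x) ^ θ := Real.rpow_nonneg ht0 _
  obtain ⟨ρM, hρMdef⟩ : ∃ ρM : ℝ, ρM = C25 * (ε + (cvD I.n I.P ji / I.x) ^ θ) := ⟨_, rfl⟩
  obtain ⟨ρD, hρDdef⟩ : ∃ ρD : ℝ, ρD = (2 * C25 + Cc) * εD := ⟨_, rfl⟩
  have hρM : 0 ≤ ρM := by rw [hρMdef]; positivity
  have hρD : 0 ≤ ρD := by rw [hρDdef]; positivity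
  have hstar : (cvD I.n I.P I.js / I.x) ^ θ ≤ εD := by
    have h0 : 0 ≤ cvD I.n I.P I.js / I.x := div_nonneg (Real.sqrt_nonneg _) hx0.le
    have h1 : cvD I.n I.P I.js / I.x ≤ I.sv := asm_n_star hx0 h.xW hsv0 hS.Dst
    calc (cvD I.n I.P I.js / I.x) ^ θ ≤ (εD ^ θ⁻¹) ^ θ := Real.rpow_le_rpow h0 (h1.trans hsvθ) hθ0.le
      _ = εD := Real.rpow_inv_rpow hεD.le hθ0.ne'
  have recM := asm_recM I m hc hn h hS r k (by omega) (by omega) hrM hW1 hWC hsv1 hst1 hji ρM hρM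
    (fun a f μ h1 h2 h3 h4 => by
      rw [hρMdef]
      exact H25M I m hn h25k hS25k hWw1 hxM hsvM hetM ji 1 (Or.inl ⟨hji, rfl⟩) a f μ h1 h2 h3 h4)
  have recD := asm_recD I m hc hn h hS r k (by omega) (by omega) hrM hW1 hWC hsv1 hst1 ρD hρD
    (fun a f μ h1 h2 h3 h4 => by
      refine (H25D I m hn h25k hS25k hWw1 hxD hsvD hetD I.js 0 (Or.inr ⟨rfl, rfl⟩) a f μ h1 h2 h3 h4).trans ?_
      refine mul_le_mul_of_nonneg_right ?_ (mul_nonneg (by positivity) (cvtMsz_nonneg hW0.le hx0.le μ))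
      rw [hρDdef]
      exact asm_n_D hC25 hCc hεD hstar)
  have hlow := Hl _ (cvySys m I.P) I.js (I.jU + 1) (cvnCo C Cp 1 * I.W) (cvy_ok m I.P h.adm) cut2 cut3
    (fun j hj => (cvn_low_W I m hn h hS hx1 hsv1 hj.le le_rfl hkM1).2)
  have hcal : |(cvySys m I.P).S I.js - (cvySys m I.P).Gam I.js - (cvySys m I.P).b I.js * (cvySys m I.P).chi (I.jU + 1)
        * ((cvySys m I.P).LM I.js I.js (I.jU + 1) [(1, 2)] 1 + (cvySys m I.P).LM I.js I.js (I.jU + 1) [(1, 2)] 2)| ≤ ρD * (I.W * I.x ^ 2) := by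
    refine (HcD I m hn hck hSck hWw2 hxc hsvc hetc).trans ?_
    refine mul_le_mul_of_nonneg_right ?_ (by positivity)
    rw [hρDdef]
    exact asm_n_c hC25 hεD
  have calD := asm_calD I m hc hρ hn h hS r k hkρ hk1 hkM1 hW1 hsv1 ρD Cl hCl hlow hcal
  have hdep := asm_depth I hρ h r k hkρ hk1 hx1
  rw [← hsdef, ← hStdef, ← hc'def] at recM recD calD
  rw [← hC2def] at calD
  rw [← hStdef] at hdep
  have hStk : 0 < St ^ k := by positivity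
  have hsm : asmKb k c' C C * (2 * I.sv + ρD + St ^ k * I.sv) ≤ c' / 2 := by
    rw [← hKbdef, hρDdef, hεDdef]
    exact asm_n_sm hKb0 hc' hStk hC25 hCc hsvK
  have hd : (St * I.sv) ^ k ≤ St ^ k * I.sv * (s * I.x) ^ 2 := by
    refine hdep.trans (mul_le_mul_of_nonneg_left ?_ (by positivity))
    have : I.x ≤ s * I.x := le_mul_of_one_le_left hx0.le hs1
    exact pow_le_pow_left₀ hx0.le this 2
  have key := asm_alg (cvySys m I.P) ji I.js (I.jU + 1) r k (s * I.W) (s * I.x) I.T ρD ρM (2 * I.sv) (St * I.sv) c' C C C2 (St ^ k * I.sv)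
    recD calD recM hsm hd
  refine key.trans ?_
  rw [← hKdef]
  rw [hρMdef]
  exact asm_n_fin hK hStk hu0 hsvε hs0 hx0

/-! ## 3. the ledger of the mean expansion at the scale `x` -/

/-- the Hoelder order of the ledger -/
noncomputable def asmR (ρ : ℝ) : ℕ := max 5 ⌈2 + 2 / ρ⌉₊

theorem asm_eqns_cite4 : True := by
  have := @asmR.eq_1
  trivial

theorem asm_R_five (ρ : ℝ) : 5 ≤ asmR ρ := le_max_left _ _

theorem asm_R_ge (ρ : ℝ) : 2 + 2 / ρ ≤ (asmR ρ : ℝ) :=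
  (Nat.le_ceil _).trans (by exact_mod_cast le_max_right 5 ⌈2 + 2 / ρ⌉₊)

theorem asm_Co_nonneg {C : ℝ} (hC : 0 ≤ C) (Cp : ℕ → ℝ) (r : ℕ) : 0 ≤ cvnCo C Cp r := by
  unfold cvnCo
  positivity

/-- the Hoelder sums of the ledger above `U_x` -/
theorem asm_pow_x {c C ρ : ℝ} {Cp : ℕ → ℝ} {kM : ℕ} (hρ : 0 < ρ) (I : CavIn) (m : ℕ) (hn : I.n = m + 1) (h : I.Ok c C ρ Cp kM) (hx1 : I.x ≤ 1) (hs1 : I.sv ≤ 1) :
    ((cvySys m I.P).intM (I.jX + 1) ((cvySys m I.P).N + 1) fun j => (cvySys m I.P).D j ^ (1 - 1 / ((asmR ρ : ℕ) : ℝ))) ^ 2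
      + (cvySys m I.P).intM (I.jX + 1) ((cvySys m I.P).N + 1) (fun j => (cvySys m I.P).D j ^ (2 * (1 - 1 / ((asmR ρ : ℕ) : ℝ)))) ≤ 8 * (I.sv * I.x ^ 2) := by
  have hx := h.x0
  have hs := h.sv0
  have hY := cvy_ok m I.P h.adm
  have h5 := asm_R_five ρ
  have h1 := cvn_int_pow (cvySys m I.P) hY (I.jX + 1) (asmR ρ) (by omega) (2 * (I.sv * I.x)) (by positivity) (cvn_sq_highX I m hn h hx1 hs1)
  refine h1.trans ?_
  have h2 := cvn_save hx hx1 hs h.sv1 hρ (asm_R_ge ρ)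
  have hr : (5 : ℝ) ≤ (asmR ρ : ℝ) := by exact_mod_cast h5
  have he0 : 0 ≤ 2 * (1 - 1 / ((asmR ρ : ℕ) : ℝ)) := by
    have : 1 / ((asmR ρ : ℕ) : ℝ) ≤ 1 := by
      rw [div_le_one (by linarith)]
      linarith
    linarith
  have he2 : 2 * (1 - 1 / ((asmR ρ : ℕ) : ℝ)) ≤ 2 := by
    have : 0 ≤ 1 / ((asmR ρ : ℕ) : ℝ) := by positivity
    linarith
  rw [Real.mul_rpow (by norm_num) (by positivity)]
  have h3 : (2 : ℝ) ^ (2 * (1 - 1 / ((asmR ρ : ℕ) : ℝ))) ≤ 4 := by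
    calc (2 : ℝ) ^ (2 * (1 - 1 / ((asmR ρ : ℕ) : ℝ))) ≤ (2 : ℝ) ^ (2 : ℝ) := Real.rpow_le_rpow_of_exponent_le (by norm_num) he2
      _ = 4 := by norm_num
  have h4 : (2 : ℝ) ^ (2 * (1 - 1 / ((asmR ρ : ℕ) : ℝ))) * (I.sv * I.x) ^ (2 * (1 - 1 / ((asmR ρ : ℕ) : ℝ))) ≤ 4 * (I.sv * I.x ^ 2) :=
    mul_le_mul h3 h2 (by positivity) (by norm_num)
  linarith

/-- **evaluation of `rLed`** -/
theorem asm_led_x (c C ρ : ℝ) (Cp : ℕ → ℝ) (hρ : 0 < ρ) : ∃ CL : ℝ, 0 ≤ CL ∧ ∀ (kM : ℕ) (I : CavIn) (m : ℕ), asmR ρ ≤ kM → I.n = m + 1 → I.Ok c C ρ Cp kM →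
    I.x ≤ 1 → I.sv ≤ 1 → ∀ ji, ji ≤ I.jB →
      (cvySys m I.P).rLed (asmR ρ) ji (I.jX + 1) (cvnCo C Cp (asmR ρ) * I.x) ≤ CL * I.x ^ 3 * (I.et + I.sv + cvD I.n I.P ji / I.x) := by
  set Co := cvnCo C Cp (asmR ρ) with hCo
  refine ⟨|Co * (1 + C) + (Co ^ 2 + C * Co) + 2 * Co ^ 2 + 8 * Co|, abs_nonneg _, ?_⟩
  intro kM I m hkM hn h hx1 hs1 ji hji
  have hC := cvn_C_pos I h
  have hCo0 : 0 ≤ Co := asm_Co_nonneg hC.le Cp _
  rw [abs_of_nonneg (by positivity)]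
  have hx := h.x0
  have hs := h.sv0
  have het := h.et0
  have hY := cvy_ok m I.P h.adm
  have hjiN : ji ≤ I.N := (hji.trans h.jBX).trans h.jXN.le
  have hD0 : 0 ≤ cvD I.n I.P ji := Real.sqrt_nonneg _
  have a1 := cvn_int_lowX I m hn h
  have a2 := cvn_D_le I m hn h hjiN
  have a3 : (cvySys m I.P).intM (I.jX + 1) ((cvySys m I.P).N + 1) (cvySys m I.P).D ≤ 2 * (I.sv * I.x) :=
    cvn_int_cs (cvySys m I.P) hY (I.jX + 1) _ (by positivity) (cvn_sq_highX I m hn h hx1 hs1)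
  have a4 := asm_pow_x hρ I m hn h hx1 hs1
  have a5 : trPm (cvySys m I.P).ms (I.jX + 1) ≤ C * I.x := by
    rw [cvn_pm, cvn_lo_succ]
    exact h.UxHi
  have a50 : 0 ≤ trPm (cvySys m I.P).ms (I.jX + 1) := ret_pm_nonneg hY _
  have hDm0 : 0 ≤ (cvySys m I.P).D ji := Real.sqrt_nonneg _
  -- small numbers
  have e1 : I.sv ^ 2 * I.x ^ 6 ≤ I.sv * I.x := (cvn_inv_n' I m hn h hx1 hs1).2.1
  have e2 : I.x * (I.sv ^ 2 * I.x ^ 6) ≤ I.sv * I.x ^ 2 := by nlinarith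
  unfold LedSys.rLed
  have hdx : cvD I.n I.P ji = I.x * (cvD I.n I.P ji / I.x) := by field_simp
  set d := cvD I.n I.P ji / I.x with hd
  have hd0 : 0 ≤ d := by positivity
  have b1 : Co * I.x * (cvySys m I.P).intM 0 (I.jX + 1) (cvySys m I.P).D ≤ Co * (1 + C) * I.x ^ 3 * (I.et + I.sv + d) := by
    calc Co * I.x * (cvySys m I.P).intM 0 (I.jX + 1) (cvySys m I.P).D
        ≤ Co * I.x * (I.et * I.x ^ 2 + C * (I.sv * I.x ^ 2)) := by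
          refine mul_le_mul_of_nonneg_left (a1.trans ?_) (by positivity)
          have := mul_le_mul_of_nonneg_left e2 hC.le
          nlinarith
      _ = Co * I.x ^ 3 * (I.et + C * I.sv) := by ring
      _ ≤ Co * I.x ^ 3 * ((1 + C) * (I.et + I.sv + d)) := by
          refine mul_le_mul_of_nonneg_left ?_ (by positivity)
          have : 0 ≤ C * (I.et + d) := by positivity
          nlinarith
      _ = _ := by ring
  have b2 : ((Co * I.x) ^ 2 + trPm (cvySys m I.P).ms (I.jX + 1) * (Co * I.x)) * (cvySys m I.P).D ji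
      ≤ (Co ^ 2 + C * Co) * I.x ^ 3 * (I.et + I.sv + d) := by
    calc ((Co * I.x) ^ 2 + trPm (cvySys m I.P).ms (I.jX + 1) * (Co * I.x)) * (cvySys m I.P).D ji
        ≤ ((Co * I.x) ^ 2 + C * I.x * (Co * I.x)) * (I.x * d + I.sv * I.x) := by
          refine mul_le_mul ?_ ?_ hDm0 (by positivity)
          · have := mul_le_mul_of_nonneg_right a5 (by positivity : 0 ≤ Co * I.x)
            linarith
          · rw [← hdx]
            linarith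
      _ = (Co ^ 2 + C * Co) * I.x ^ 3 * (I.sv + d) := by ring
      _ ≤ _ := mul_le_mul_of_nonneg_left (by linarith) (by positivity)
  have b3 : (Co * I.x) ^ 2 * (cvySys m I.P).intM (I.jX + 1) ((cvySys m I.P).N + 1) (cvySys m I.P).D ≤ 2 * Co ^ 2 * I.x ^ 3 * (I.et + I.sv + d) := by
    calc (Co * I.x) ^ 2 * (cvySys m I.P).intM (I.jX + 1) ((cvySys m I.P).N + 1) (cvySys m I.P).D
        ≤ (Co * I.x) ^ 2 * (2 * (I.sv * I.x)) := mul_le_mul_of_nonneg_left a3 (by positivity)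
      _ = 2 * Co ^ 2 * I.x ^ 3 * I.sv := by ring
      _ ≤ _ := mul_le_mul_of_nonneg_left (by linarith) (by positivity)
  have b4 : Co * I.x * (((cvySys m I.P).intM (I.jX + 1) ((cvySys m I.P).N + 1) fun j => (cvySys m I.P).D j ^ (1 - 1 / ((asmR ρ : ℕ) : ℝ))) ^ 2
      + (cvySys m I.P).intM (I.jX + 1) ((cvySys m I.P).N + 1) (fun j => (cvySys m I.P).D j ^ (2 * (1 - 1 / ((asmR ρ : ℕ) : ℝ)))))
      ≤ 8 * Co * I.x ^ 3 * (I.et + I.sv + d) := by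
    calc _ ≤ Co * I.x * (8 * (I.sv * I.x ^ 2)) := mul_le_mul_of_nonneg_left a4 (by positivity)
      _ = 8 * Co * I.x ^ 3 * I.sv := by ring
      _ ≤ _ := mul_le_mul_of_nonneg_left (by linarith) (by positivity)
  calc _ ≤ Co * (1 + C) * I.x ^ 3 * (I.et + I.sv + d) + (Co ^ 2 + C * Co) * I.x ^ 3 * (I.et + I.sv + d)
        + 2 * Co ^ 2 * I.x ^ 3 * (I.et + I.sv + d) + 8 * Co * I.x ^ 3 * (I.et + I.sv + d) := by
        exact add_le_add (add_le_add (add_le_add b1 b2) b3) b4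
    _ = _ := by ring

/-! ## 4. the two regimes -/

/-- the closure error in the vocabulary of `LedSys` -/
theorem asm_err (I : CavIn) (m : ℕ) (hn : I.n = m + 1) (hP : SkAdm 1 I.P) {ji : ℕ} (hji : ji ≤ I.N) :
    I.err ji = (cvySys m I.P).act 2 (ledPair (cvySys m I.P).N ji) (fun σ => ledSg (σ 1).1 * ledSg (σ 0).1) - (cvySys m I.P).Gam ji := by
  have h1 := cvn_site m I.P hP ji hji
  have h2 := cvy_Gam m I.P hP ji hji
  have e : (fun σ : ℕ → Bool × SkCfg m => ledSg (σ 1).1 * ledSg (σ 0).1) = fun σ => ledSg (σ 0).1 * ledSg (σ 1).1 := by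
    funext σ
    ring
  rw [e, h2]
  unfold CavIn.err
  rw [hn]
  have e2 : (cvySys m I.P).N = I.P.length := rfl
  rw [e2, h1]

theorem asm_n_theta {t B θ : ℝ} (ht0 : 0 ≤ t) (htB : t ≤ B) (hθ0 : 0 < θ) (hθ1 : θ ≤ 1) : t ≤ max 1 B * t ^ θ := by
  rcases le_total t 1 with h1 | h1
  · have h2 : t ^ (1 : ℝ) ≤ t ^ θ := by
      rcases eq_or_lt_of_le ht0 with h0 | h0
      · rw [← h0, Real.zero_rpow one_ne_zero, Real.zero_rpow hθ0.ne']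
      · exact Real.rpow_le_rpow_of_exponent_ge h0 h1 hθ1
    rw [Real.rpow_one] at h2
    have h3 : 0 ≤ t ^ θ := Real.rpow_nonneg ht0 _
    calc t ≤ t ^ θ := h2
      _ = 1 * t ^ θ := (one_mul _).symm
      _ ≤ _ := mul_le_mul_of_nonneg_right (le_max_left _ _) h3
  · have h2 : 1 ≤ t ^ θ := Real.one_le_rpow h1 hθ0.le
    have h3 : 0 ≤ max 1 B := le_trans zero_le_one (le_max_left _ _)
    calc t ≤ max 1 B := htB.trans (le_max_right _ _)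
      _ = max 1 B * 1 := (mul_one _).symm
      _ ≤ _ := mul_le_mul_of_nonneg_left h2 h3

theorem asm_n_small {sv x : ℝ} (hx0 : 0 < x) (hx1 : x ≤ 1) (hsv0 : 0 < sv) (hsv1 : sv ≤ 1) : sv ^ 2 * x ^ 6 ≤ sv * x ^ 3 ∧ sv ^ 2 * x ^ 6 ≤ x ∧ sv ^ 2 * x ^ 6 ≤ sv * x ^ 2 := by
  have h1 : sv ^ 2 ≤ sv := by nlinarith
  have h2 : x ^ 6 ≤ x ^ 3 := pow_le_pow_of_le_one hx0.le hx1 (by norm_num)
  have h3 : x ^ 6 ≤ x ^ 1 := pow_le_pow_of_le_one hx0.le hx1 (by norm_num)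
  have h4 : x ^ 6 ≤ x ^ 2 := pow_le_pow_of_le_one hx0.le hx1 (by norm_num)
  refine ⟨mul_le_mul h1 h2 (by positivity) hsv0.le, ?_, mul_le_mul h1 h4 (by positivity) hsv0.le⟩
  calc sv ^ 2 * x ^ 6 ≤ 1 * x ^ 1 := mul_le_mul (h1.trans hsv1) h3 (by positivity) zero_le_one
    _ = x := by ring

theorem asm_n_core {E CR L cm Ins Dk J1 Kk J2 CL C1 C Co B Bm x W sv et ε t u d : ℝ}
    (hE : E ≤ CR * (L + cm + Ins + Dk * (J1 + Kk * J2))) (hCR : 0 ≤ CR) (hCL : 0 ≤ CL) (hC : 0 ≤ C) (hCo : 0 ≤ Co)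
    (hx0 : 0 < x) (hx1 : x ≤ 1) (hW0 : 0 < W) (hW1 : W ≤ 1) (hsv0 : 0 < sv) (hsv1 : sv ≤ 1) (hsvε : sv ≤ ε) (hetε : et ≤ ε)
    (hd : d = t * x) (ht0 : 0 ≤ t) (htB : t ≤ B) (htu : t ≤ Bm * u) (hBm : 1 ≤ Bm) (hu : 0 ≤ u)
    (hL : L ≤ CL * x ^ 3 * (et + sv + t)) (hcm : cm = sv ^ 2 * x ^ 6) (hIns : Ins ≤ C1 * x ^ 3 * (ε + u))
    (hDk0 : 0 ≤ Dk) (hDk : Dk ≤ d + sv ^ 2 * x ^ 6) (hJ1 : J1 ≤ et * x ^ 2 + C * W * (sv ^ 2 * x ^ 6))
    (hKk : Kk ≤ Co * W) (hJ20 : 0 ≤ J2) (hJ2 : J2 ≤ 2 * (sv * x ^ 2 / W)) :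
    E ≤ CR * (CL * (2 + Bm) + 1 + C1 + (B + 1) * (1 + C + 2 * Co)) * x ^ 3 * (ε + u) := by
  obtain ⟨s1, s2, s3⟩ := asm_n_small hx0 hx1 hsv0 hsv1
  have hε : 0 < ε := lt_of_lt_of_le hsv0 hsvε
  have hx3 : 0 < x ^ 3 := by positivity
  have a1 : L ≤ CL * (2 + Bm) * (x ^ 3 * (ε + u)) := by
    have : et + sv + t ≤ (2 + Bm) * (ε + u) := by nlinarith
    calc L ≤ CL * x ^ 3 * (et + sv + t) := hL
      _ ≤ CL * x ^ 3 * ((2 + Bm) * (ε + u)) := mul_le_mul_of_nonneg_left this (by positivity)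
      _ = _ := by ring
  have a2 : cm ≤ 1 * (x ^ 3 * (ε + u)) := by
    rw [hcm]
    calc sv ^ 2 * x ^ 6 ≤ sv * x ^ 3 := s1
      _ ≤ (ε + u) * x ^ 3 := mul_le_mul_of_nonneg_right (by linarith) hx3.le
      _ = _ := by ring
  have a3 : Ins ≤ C1 * (x ^ 3 * (ε + u)) := by
    calc Ins ≤ C1 * x ^ 3 * (ε + u) := hIns
      _ = _ := by ring
  have b1 : Dk ≤ (B + 1) * x := by
    have : t * x ≤ B * x := mul_le_mul_of_nonneg_right htB hx0.le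
    rw [hd] at hDk
    linarith
  have hB : 0 ≤ B := ht0.trans htB
  have b2 : Kk * J2 ≤ 2 * Co * (sv * x ^ 2) := by
    calc Kk * J2 ≤ (Co * W) * (2 * (sv * x ^ 2 / W)) := mul_le_mul hKk hJ2 hJ20 (by positivity)
      _ = _ := by field_simp
  have b3 : C * W * (sv ^ 2 * x ^ 6) ≤ C * (sv * x ^ 2) := by
    calc C * W * (sv ^ 2 * x ^ 6) ≤ C * 1 * (sv * x ^ 2) := mul_le_mul (mul_le_mul_of_nonneg_left hW1 hC) s3 (by positivity) (by positivity)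
      _ = _ := by ring
  have b4 : J1 + Kk * J2 ≤ (1 + C + 2 * Co) * (x ^ 2 * (ε + u)) := by
    have c1 : et * x ^ 2 ≤ (ε + u) * x ^ 2 := mul_le_mul_of_nonneg_right (by linarith) (by positivity)
    have c2 : sv * x ^ 2 ≤ (ε + u) * x ^ 2 := mul_le_mul_of_nonneg_right (by linarith) (by positivity)
    have c3 : C * (sv * x ^ 2) ≤ C * ((ε + u) * x ^ 2) := mul_le_mul_of_nonneg_left c2 hC
    have c4 : 2 * Co * (sv * x ^ 2) ≤ 2 * Co * ((ε + u) * x ^ 2) := mul_le_mul_of_nonneg_left c2 (by positivity)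
    calc J1 + Kk * J2 ≤ (ε + u) * x ^ 2 + C * ((ε + u) * x ^ 2) + 2 * Co * ((ε + u) * x ^ 2) := by linarith
      _ = _ := by ring
  have a4 : Dk * (J1 + Kk * J2) ≤ (B + 1) * (1 + C + 2 * Co) * (x ^ 3 * (ε + u)) := by
    calc Dk * (J1 + Kk * J2) ≤ Dk * ((1 + C + 2 * Co) * (x ^ 2 * (ε + u))) := mul_le_mul_of_nonneg_left b4 hDk0
      _ ≤ ((B + 1) * x) * ((1 + C + 2 * Co) * (x ^ 2 * (ε + u))) := mul_le_mul_of_nonneg_right b1 (by positivity)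
      _ = _ := by ring
  calc E ≤ CR * (L + cm + Ins + Dk * (J1 + Kk * J2)) := hE
    _ ≤ CR * (CL * (2 + Bm) * (x ^ 3 * (ε + u)) + 1 * (x ^ 3 * (ε + u)) + C1 * (x ^ 3 * (ε + u)) + (B + 1) * (1 + C + 2 * Co) * (x ^ 3 * (ε + u))) :=
      mul_le_mul_of_nonneg_left (by linarith) hCR
    _ = _ := by ring

theorem asm_intM_le {Ω : Type} {Y : LedSys Ω} (hY : Y.Ok) (k0 : ℕ) {k1 : ℕ} (h1 : k1 ≤ Y.N + 1) {f : ℕ → ℝ} (hf : ∀ j, 0 ≤ f j) :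
    Y.intM k0 k1 f ≤ Y.intM 0 k1 f := by
  unfold LedSys.intM
  refine Finset.sum_le_sum_of_subset_of_nonneg (Finset.Ico_subset_Ico (Nat.zero_le _) le_rfl) fun j hj _ => mul_nonneg (ret_dM_nonneg hY ?_) (hf j)
  have := (Finset.mem_Ico.mp hj).2
  omega

/-- `|ν[R⁻ - S_j]| = S_j / n ≤ sv² x⁶` -/
theorem asm_cen {c C ρ : ℝ} {Cp : ℕ → ℝ} {kM : ℕ} (I : CavIn) (m : ℕ) (hn : I.n = m + 1) (h : I.Ok c C ρ Cp kM) (j : ℕ) (hj : j ≤ I.P.length) :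
    |(cvySys m I.P).cen j| ≤ I.sv ^ 2 * I.x ^ 6 := by
  rw [cvn_cen m I.P h.adm j hj]
  have h0 := cvn_S_nonneg m I.P j
  have h1 : cvS (m + 1) I.P j ≤ 1 := (cvy_ok m I.P h.adm).S_le j
  have hm : (0 : ℝ) < (m : ℝ) + 1 := by positivity
  rw [neg_div, abs_neg, abs_of_nonneg (div_nonneg h0 hm.le)]
  exact (div_le_div_of_nonneg_right h1 hm.le).trans (cvn_inv_n I m hn h)

/-- **calibrated regime, NO lower bound on the mass of the target** -/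
theorem asm_core_small (c C ρ : ℝ) (Cp : ℕ → ℝ) (hc : 0 < c) (hρ : 0 < ρ) :
    ∃ (kM : ℕ) (C0 θ w0 : ℝ), 0 ≤ C0 ∧ 0 < θ ∧ θ ≤ 1 ∧ 0 < w0 ∧ 1 ≤ kM ∧ ∀ ε : ℝ, 0 < ε → ∃ δ : ℝ, 0 < δ ∧ ∀ I : CavIn,
      I.Ok c C ρ Cp kM → I.Star c C Cp kM → I.W ≤ w0 → I.x ≤ δ → I.sv ≤ δ → I.et ≤ δ →
      ∀ ji, ji ≤ I.jB → |I.err ji| ≤ C0 * I.x ^ 3 * (ε + (cvD I.n I.P ji / I.x) ^ θ) := by
  by_cases hC : 0 < C
  swap
  · exact ⟨1, 0, 1, 1, le_rfl, one_pos, le_rfl, one_pos, le_rfl, fun ε _ => ⟨1, one_pos, fun I h => absurd (cvn_C_pos I h) hC⟩⟩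
  obtain ⟨kI, C1, θ, w0, hC1, hθ0, hθ1, hw0, Hins⟩ := asm_ins c C ρ Cp hc hρ
  obtain ⟨CL, hCL, HL⟩ := asm_led_x c C ρ Cp hρ
  obtain ⟨CR, hCR, HR⟩ := ret_closure (asmR ρ) (le_max_left _ _) C
  have hCo : ∀ r, 0 ≤ cvnCo C Cp r := fun r => by unfold cvnCo; positivity
  obtain ⟨B, hBdef⟩ : ∃ B : ℝ, B = |Cp 1| * (C + 1) := ⟨_, rfl⟩
  have hB : 0 ≤ B := by rw [hBdef]; positivity
  have hR5 : 5 ≤ asmR ρ := le_max_left _ _
  refine ⟨max kI (asmR ρ), CR * (CL * (2 + max 1 B) + 1 + C1 + (B + 1) * (1 + C + 2 * cvnCo C Cp 1)), θ, min w0 1, ?_, hθ0, hθ1, lt_min hw0 one_pos,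
    le_trans (by omega) (le_max_right kI (asmR ρ)), fun ε hε => ?_⟩
  · have := hCo 1
    positivity
  obtain ⟨δ0, hδ0, Hins⟩ := Hins ε hε
  have hCoR := hCo (asmR ρ)
  refine ⟨min (min δ0 ε) (min 1 (1 / (cvnCo C Cp (asmR ρ) + 1))), lt_min (lt_min hδ0 hε) (lt_min one_pos (by positivity)),
    fun I h hS hW hx hsv het ji hji => ?_⟩
  obtain ⟨m, hn⟩ : ∃ m, I.n = m + 1 := ⟨I.n - 1, by have := h.n2; omega⟩
  have d1 : ∀ t : ℝ, t ≤ min (min δ0 ε) (min 1 (1 / (cvnCo C Cp (asmR ρ) + 1))) → t ≤ δ0 ∧ t ≤ ε ∧ t ≤ 1 ∧ t ≤ 1 / (cvnCo C Cp (asmR ρ) + 1) := by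
    intro t ht
    simp only [le_min_iff] at ht
    tauto
  obtain ⟨hx0', -, hx1, hxCo⟩ := d1 _ hx
  obtain ⟨hsv0', hsvε, hsv1, -⟩ := d1 _ hsv
  obtain ⟨het0', hetε, -, -⟩ := d1 _ het
  have hWw : I.W ≤ w0 := hW.trans (min_le_left _ _)
  have hW1 : I.W ≤ 1 := hW.trans (min_le_right _ _)
  have hx0 := h.x0
  have hW0 := cvn_W_pos I h
  have hsv0 := h.sv0
  have hY := cvy_ok m I.P h.adm
  have hkI : I.Ok c C ρ Cp kI := cvn_ok_mono (le_max_left _ _) h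
  have hSkI : I.Star c C Cp kI := cvn_star_mono (le_max_left _ _) hS
  have hRM : asmR ρ ≤ max kI (asmR ρ) := le_max_right _ _
  have hkM1 : 1 ≤ max kI (asmR ρ) := le_trans (by omega) hRM
  obtain ⟨-, -, cut3, cut4⟩ := cvn_cuts I m h hS
  have hjiX : ji < I.jX + 1 := Nat.lt_succ_of_le (hji.trans h.jBX)
  have hjiN : ji ≤ I.N := (hji.trans h.jBX).trans h.jXN.le
  have hom1 : cvnCo C Cp (asmR ρ) * I.x ≤ 1 := by
    calc cvnCo C Cp (asmR ρ) * I.x ≤ cvnCo C Cp (asmR ρ) * (1 / (cvnCo C Cp (asmR ρ) + 1)) := mul_le_mul_of_nonneg_left hxCo hCoR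
      _ ≤ 1 := by
        rw [mul_one_div, div_le_one (by positivity)]
        exact le_add_of_nonneg_right zero_le_one
  have key := HR _ (cvySys m I.P) hY (cvn_bh_le I m h).1 (cvn_bh_le I m h).2 ji (I.jX + 1) (I.jU + 1) (cvnCo C Cp (asmR ρ) * I.x) (I.sv ^ 2 * I.x ^ 6)
    hjiX cut4 cut3 (mul_nonneg hCoR hx0.le) hom1 (fun j hj => cvn_low_x I m hn h hx1 hsv1 hj.le (by omega) hRM)
    (fun j hj => asm_cen I m hn h j hj)
  rw [← ret_LM_eq hY ji I.js (I.jU + 1)] at key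
  rw [asm_err I m hn h.adm hjiN]
  have ht0 : 0 ≤ cvD I.n I.P ji / I.x := div_nonneg (Real.sqrt_nonneg _) hx0.le
  have htB : cvD I.n I.P ji / I.x ≤ B := by
    rw [div_le_iff₀ hx0, hBdef]
    exact cvn_D_x I h hkM1 hjiX.le
  have hJ2 : (cvySys m I.P).intM (I.jU + 1) ((cvySys m I.P).N + 1) (cvySys m I.P).D ≤ 2 * (I.sv * I.x ^ 2 / I.W) :=
    cvn_int_cs _ hY _ _ (by positivity) (cvn_sq_highU I m hn h hS hW1 hsv1)
  exact asm_n_core key hCR hCL hC.le (hCo 1) hx0 hx1 hW0 hW1 hsv0 hsv1 hsvε hetε (div_mul_cancel₀ _ hx0.ne').symm ht0 htB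
    (asm_n_theta ht0 htB hθ0 hθ1) (le_max_left _ _) (Real.rpow_nonneg ht0 _) (HL _ I m hRM hn h hx1 hsv1 ji hji) rfl
    (Hins I m hn hkI hSkI hWw hx0' hsv0' het0' ji hji) (ret_D_nonneg _ _) (cvn_D_le I m hn h hjiN)
    ((asm_intM_le hY _ (Nat.le_succ_of_le cut3) (ret_D_nonneg _)).trans (cvn_int_lowU I m hn h hS))
    (cvn_low_W I m hn h hS hx1 hsv1 le_rfl le_rfl hkM1).2 (ret_intM_nonneg hY _ le_rfl (ret_D_nonneg _)) hJ2

/-- the mean of the centred deleted overlap is `O(1/n)` -/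
theorem asm_cen_le {c C ρ : ℝ} {Cp : ℕ → ℝ} {kM : ℕ} (I : CavIn) (m : ℕ) (hn : I.n = m + 1) (h : I.Ok c C ρ Cp kM) {j : ℕ} (hj : j ≤ I.N) :
    |(cvySys m I.P).cen j| ≤ I.sv ^ 2 * I.x ^ 6 := by
  have hY := cvy_ok m I.P h.adm
  rw [cvn_cen m I.P h.adm j hj, abs_div, abs_neg, abs_of_nonneg (cvn_S_nonneg m I.P j), abs_of_nonneg (by positivity : (0 : ℝ) ≤ (m : ℝ) + 1)]
  have h1 : cvS (m + 1) I.P j ≤ 1 := hY.S_le j
  refine le_trans ?_ (cvn_inv_n I m hn h)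
  exact div_le_div_of_nonneg_right h1 (by positivity)

/-- (19) on all the cuts for the deleted `D` -/
theorem asm_int_all {c C ρ : ℝ} {Cp : ℕ → ℝ} {kM : ℕ} (I : CavIn) (m : ℕ) (hn : I.n = m + 1) (h : I.Ok c C ρ Cp kM) (hL : I.Large) (k0 : ℕ) :
    (cvySys m I.P).intM k0 ((cvySys m I.P).N + 1) (cvySys m I.P).D ≤ I.et * I.x ^ 2 + I.sv ^ 2 * I.x ^ 6 := by
  have hY := cvy_ok m I.P h.adm
  have h1 := cvn_int_gen I m hn h (le_refl I.N)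
  have e1 : skMs 1 I.P I.N = 1 := cvn_ms_top I.P
  rw [e1, one_mul] at h1
  have h2 : (cvySys m I.P).intM k0 ((cvySys m I.P).N + 1) (cvySys m I.P).D ≤ (cvySys m I.P).intM 0 (I.N + 1) (cvySys m I.P).D := by
    unfold LedSys.intM
    refine Finset.sum_le_sum_of_subset_of_nonneg ?_ ?_
    · intro j hj
      rw [Finset.mem_Ico] at hj ⊢
      exact ⟨Nat.zero_le _, hj.2⟩
    · intro j hj _
      rw [Finset.mem_Ico] at hj
      exact mul_nonneg (ret_dM_nonneg hY (Nat.lt_succ_iff.mp hj.2)) (Real.sqrt_nonneg _)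
  have := hL.all
  linarith

/-- **the regime `W` bounded below** -/
theorem asm_core_large (c C ρ : ℝ) (Cp : ℕ → ℝ) (hρ : 0 < ρ) :
    ∃ (kM : ℕ) (C0 : ℝ), 0 ≤ C0 ∧ ∀ ε : ℝ, 0 < ε → ∃ δ : ℝ, 0 < δ ∧ ∀ I : CavIn,
      I.Ok c C ρ Cp kM → I.Large → I.x ≤ δ → I.sv ≤ δ → I.et ≤ δ →
      ∀ ji, ji ≤ I.jB → |I.err ji| ≤ C0 * I.x ^ 3 * (ε + (cvD I.n I.P ji / I.x) ^ (1 : ℝ)) := by
  obtain ⟨CL, hCL, HL⟩ := asm_led_x c C ρ Cp hρ
  obtain ⟨C1, hC1, H1⟩ := ret_closure_large (asmR ρ) (asm_R_five ρ) C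
  set Co := cvnCo C Cp (asmR ρ) with hCo
  set Cd := |Cp 1| * (|C| + 1) + 1 with hCd
  have hCd0 : 0 ≤ Cd := by positivity
  refine ⟨asmR ρ, C1 * (CL + 1 + Cd), by positivity, fun ε hε => ?_⟩
  refine ⟨min (min 1 (ε / 2)) (1 / (|Co| + 1)), by positivity, ?_⟩
  intro I h hL hxδ hsδ heδ ji hji
  have hx1 : I.x ≤ 1 := hxδ.trans ((min_le_left _ _).trans (min_le_left _ _))
  have hs1 : I.sv ≤ 1 := hsδ.trans ((min_le_left _ _).trans (min_le_left _ _))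
  have hs2 : I.sv ≤ ε / 2 := hsδ.trans ((min_le_left _ _).trans (min_le_right _ _))
  have he2 : I.et ≤ ε / 2 := heδ.trans ((min_le_left _ _).trans (min_le_right _ _))
  have hx3 : I.x ≤ 1 / (|Co| + 1) := hxδ.trans (min_le_right _ _)
  obtain ⟨m, hn⟩ : ∃ m, I.n = m + 1 := ⟨I.n - 1, by have := h.n2; omega⟩
  have hC := cvn_C_pos I h
  have hCo0 : 0 ≤ Co := asm_Co_nonneg hC.le Cp _
  have hx := h.x0
  have hs := h.sv0
  have het := h.et0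
  have hY := cvy_ok m I.P h.adm
  have h5 := asm_R_five ρ
  have hjiX : ji ≤ I.jX := hji.trans h.jBX
  have hjiN : ji ≤ I.N := hjiX.trans h.jXN.le
  have hom1 : Co * I.x ≤ 1 := by
    rw [abs_of_nonneg hCo0, le_div_iff₀ (by positivity)] at hx3
    nlinarith
  have hb := cvn_bh_le I m h
  have a := H1 _ (cvySys m I.P) hY hb.1 hb.2 ji (I.jX + 1) (Co * I.x) (I.sv ^ 2 * I.x ^ 6) (by omega) h.jXN (by positivity) hom1
    (fun j hj => cvn_low_x I m hn h hx1 hs1 hj.le (by omega) le_rfl) (fun j hj => asm_cen_le I m hn h hj)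
  rw [← asm_err I m hn h.adm hjiN] at a
  refine a.trans ?_
  have b1 := HL (asmR ρ) I m le_rfl hn h hx1 hs1 ji hji
  have b2 := asm_int_all I m hn h hL (I.jX + 1)
  have b3 := cvn_D_le I m hn h hjiN
  have b4 := cvn_D_x I h (by omega : 1 ≤ asmR ρ) (hjiX.trans (Nat.le_succ _))
  have e1 := (cvn_inv_n' I m hn h hx1 hs1).2
  have hD0 : 0 ≤ cvD I.n I.P ji := Real.sqrt_nonneg _
  have hDm0 : 0 ≤ (cvySys m I.P).D ji := Real.sqrt_nonneg _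
  rw [Real.rpow_one]
  set d := cvD I.n I.P ji / I.x with hd
  have hd0 : 0 ≤ d := by positivity
  have e6 : I.sv ^ 2 * I.x ^ 6 ≤ I.sv * I.x ^ 3 := by
    have t1 : I.sv ^ 2 ≤ I.sv := by nlinarith
    have t2 : I.x ^ 6 ≤ I.x ^ 3 := pow_le_pow_of_le_one hx.le hx1 (by norm_num)
    exact mul_le_mul t1 t2 (by positivity) hs.le
  have e7 : I.sv * I.x ^ 3 ≤ I.sv * I.x ^ 2 := by
    have t2 : I.x ^ 3 ≤ I.x ^ 2 := pow_le_pow_of_le_one hx.le hx1 (by norm_num)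
    exact mul_le_mul_of_nonneg_left t2 hs.le
  have b5 : (cvySys m I.P).D ji ≤ Cd * I.x := by
    rw [hCd, abs_of_nonneg hC.le]
    nlinarith [e1.1, e1.2]
  have hi0 := ret_intM_nonneg hY (I.jX + 1) (le_refl ((cvySys m I.P).N + 1)) (ret_D_nonneg (cvySys m I.P))
  have b6 : (cvySys m I.P).D ji * (cvySys m I.P).intM (I.jX + 1) ((cvySys m I.P).N + 1) (cvySys m I.P).D ≤ Cd * I.x ^ 3 * (I.et + I.sv) := by
    calc _ ≤ Cd * I.x * (I.et * I.x ^ 2 + I.sv * I.x ^ 2) := mul_le_mul b5 (by linarith) hi0 (by positivity)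
      _ = _ := by ring
  have hes : I.et + I.sv ≤ ε := by linarith
  have c1 : CL * I.x ^ 3 * (I.et + I.sv + d) ≤ CL * I.x ^ 3 * (ε + d) := mul_le_mul_of_nonneg_left (by linarith) (by positivity)
  have c2 : I.sv ^ 2 * I.x ^ 6 ≤ 1 * I.x ^ 3 * (ε + d) := by
    calc I.sv ^ 2 * I.x ^ 6 ≤ I.sv * I.x ^ 3 := e6
      _ = 1 * I.x ^ 3 * I.sv := by ring
      _ ≤ _ := mul_le_mul_of_nonneg_left (by linarith) (by positivity)
  have c3 : Cd * I.x ^ 3 * (I.et + I.sv) ≤ Cd * I.x ^ 3 * (ε + d) := mul_le_mul_of_nonneg_left (by linarith) (by positivity)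
  calc _ ≤ C1 * (CL * I.x ^ 3 * (ε + d) + 1 * I.x ^ 3 * (ε + d) + Cd * I.x ^ 3 * (ε + d)) :=
        mul_le_mul_of_nonneg_left (by linarith) hC1
    _ = _ := by ring

/-! ## 5. the statements of `Cav/Contract` -/

/-- **Prop 4.1, modulus form, `W ≤ w0`**      TEX[PE:prop:cavity-closure] -/
theorem asm_closure_small (c C ρ : ℝ) (Cp : ℕ → ℝ) (hc : 0 < c) (hρ : 0 < ρ) :
    ∃ (kM : ℕ) (C0 θ w0 : ℝ), 0 < θ ∧ θ ≤ 1 ∧ 0 < w0 ∧ ∀ ε : ℝ, 0 < ε → ∃ δ : ℝ, 0 < δ ∧ ∀ I : CavIn,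
      I.Ok c C ρ Cp kM → I.Star c C Cp kM → I.W ≤ w0 → I.x ≤ δ → I.sv ≤ δ → I.et ≤ δ →
      ∀ ji, ji ≤ I.jB → c * I.x ≤ cvLo I.P ji →
        |I.err ji| ≤ C0 * I.x ^ 3 * (ε + (cvD I.n I.P ji / I.x) ^ θ) := by
  obtain ⟨kM, C0, θ, w0, -, h1, h2, h3, -, H⟩ := asm_core_small c C ρ Cp hc hρ
  refine ⟨kM, C0, θ, w0, h1, h2, h3, fun ε hε => ?_⟩
  obtain ⟨δ, hδ, H⟩ := H ε hε
  exact ⟨δ, hδ, fun I a1 a2 a3 a4 a5 a6 ji a7 _ => H I a1 a2 a3 a4 a5 a6 ji a7⟩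

/-- **Prop 4.1, modulus form, `W` bounded below**      TEX[PE:prop:cavity-closure] -/
theorem asm_closure_large (c C ρ : ℝ) (Cp : ℕ → ℝ) (hc : 0 < c) (hρ : 0 < ρ) :
    ∃ (kM : ℕ) (C0 θ : ℝ), 0 < θ ∧ θ ≤ 1 ∧ ∀ ε : ℝ, 0 < ε → ∃ δ : ℝ, 0 < δ ∧ ∀ I : CavIn,
      I.Ok c C ρ Cp kM → I.Large → I.x ≤ δ → I.sv ≤ δ → I.et ≤ δ →
      ∀ ji, ji ≤ I.jB → c * I.x ≤ cvLo I.P ji →
        |I.err ji| ≤ C0 * I.x ^ 3 * (ε + (cvD I.n I.P ji / I.x) ^ θ) := by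
  obtain ⟨kM, C0, -, H⟩ := asm_core_large c C ρ Cp hρ
  refine ⟨kM, C0, 1, one_pos, le_rfl, fun ε hε => ?_⟩
  obtain ⟨δ, hδ, H⟩ := H ε hε
  exact ⟨δ, hδ, fun I a1 a2 a4 a5 a6 ji a7 _ => H I a1 a2 a4 a5 a6 ji a7⟩

/-- **Prop 4.1, omitted lower cuts** (`W ≤ C x`)      TEX[PE:prop:cavity-closure] -/
theorem asm_omitted (c C ρ : ℝ) (Cp : ℕ → ℝ) (hc : 0 < c) (hρ : 0 < ρ) :
    ∃ (kM : ℕ) (C0 δ : ℝ), 0 < δ ∧ ∀ I : CavIn,
      I.Ok c C ρ Cp kM → I.Star c C Cp kM → I.W ≤ C * I.x → I.x ≤ δ → I.sv ≤ δ → I.et ≤ δ →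
      ∀ ji, ji ≤ I.jB → |I.err ji| ≤ C0 * I.x ^ 3 := by
  obtain ⟨kM, C0, θ, w0, hC0, hθ0, hθ1, hw0, hkM1, H⟩ := asm_core_small c C ρ Cp hc hρ
  obtain ⟨δ1, hδ1, H⟩ := H 1 one_pos
  refine ⟨kM, C0 * (1 + max 1 (|Cp 1| * (C + 1))), min δ1 (w0 / (|C| + 1)), lt_min hδ1 (by positivity), fun I h hS hW hx hsv het ji hji => ?_⟩
  have hC := cvn_C_pos I h
  have hx0 := h.x0
  have hWw : I.W ≤ w0 := by
    have h1 : I.x ≤ w0 / (|C| + 1) := hx.trans (min_le_right _ _)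
    rw [abs_of_pos hC] at h1
    calc I.W ≤ C * I.x := hW
      _ ≤ C * (w0 / (C + 1)) := mul_le_mul_of_nonneg_left h1 hC.le
      _ = w0 * (C / (C + 1)) := by ring
      _ ≤ w0 * 1 := mul_le_mul_of_nonneg_left (by rw [div_le_one (by positivity)]; exact le_add_of_nonneg_right zero_le_one) hw0.le
      _ = w0 := mul_one _
  have key := H I h hS hWw (hx.trans (min_le_left _ _)) (hsv.trans (min_le_left _ _)) (het.trans (min_le_left _ _)) ji hji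
  have ht0 : 0 ≤ cvD I.n I.P ji / I.x := div_nonneg (Real.sqrt_nonneg _) hx0.le
  have htB : cvD I.n I.P ji / I.x ≤ max 1 (|Cp 1| * (C + 1)) := by
    refine le_trans ?_ (le_max_right _ _)
    rw [div_le_iff₀ hx0]
    exact cvn_D_x I h hkM1 ((hji.trans h.jBX).trans (Nat.le_succ _))
  have hu : (cvD I.n I.P ji / I.x) ^ θ ≤ max 1 (|Cp 1| * (C + 1)) := by
    calc (cvD I.n I.P ji / I.x) ^ θ ≤ (max 1 (|Cp 1| * (C + 1))) ^ θ := Real.rpow_le_rpow ht0 htB hθ0.le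
      _ ≤ (max 1 (|Cp 1| * (C + 1))) ^ (1 : ℝ) := Real.rpow_le_rpow_of_exponent_le (le_max_left _ _) hθ1
      _ = _ := Real.rpow_one _
  calc |I.err ji| ≤ C0 * I.x ^ 3 * (1 + (cvD I.n I.P ji / I.x) ^ θ) := key
    _ ≤ C0 * I.x ^ 3 * (1 + max 1 (|Cp 1| * (C + 1))) := mul_le_mul_of_nonneg_left (add_le_add_right hu 1) (by positivity)
    _ = _ := by ring

end Claimed.Agent.R286
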