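import Claimed.Agent.R286.Cav.LedTbIns

/-!
# Row 286 (S0533), unit Cav, file LedTbBd      (owner: helper191; prefix `ledb_`, `ledb`)

TOOLBOX of the parametric ledger lemma `led_main` (PE Lemma 4.7), part 2: GENERAL BOUNDS on `LedSys`.      0 sorry
* `LedbHyp Y Cb` = `Y.Ok` + bounds of the clocks;  bounds of the kernels (`ledb_kRow_le`, `ledb_kErr_le`, `ledb_dl_le`, `ledb_K_le`, ..)
* pruning of several labels (`ledb_prune`, `ledb_prune_ext`)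
* **PE Lemma 4.3 (bounded row changes)** = K3 of the plan of 204: `ledb_transfer` (any two laws `(lam,t)`, `(lam',t')` of the row family, nonnegative test on `q` labels,
  explicit constant `ledbC Cb q`), `ledb_abs_le_act`.      TEX[PE:lem:cavity-row-change]
-/

set_option autoImplicit false

namespace Claimed.Agent.R286

open Finset

/-- standing hypotheses: the exports of Section 2 and the bound of the clocks -/
structure LedbHyp {Ω : Type} (Y : LedSys Ω) (Cb : ℝ) : Prop where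
  ok : Y.Ok
  b_le : ∀ r, Y.b r ≤ Cb
  h_le : ∀ r, Y.h r ≤ Cb
  top : Y.ms Y.N ≤ 1

/-- the constant of PE Lemma 4.3 on `q` labels -/
noncomputable def ledbC (Cb : ℝ) (q : ℕ) : ℝ := Real.exp (8 * Cb * q * (q + 1)) * Real.exp (8 * Cb * q * (q + 1))

theorem ledb_defs_eqns_cite : True := by
  have := @ledbC.eq_1
  trivial

section kernels

variable {Ω : Type} {Y : LedSys Ω} {Cb : ℝ}

theorem ledb_b_nonneg (H : LedbHyp Y Cb) (r : ℕ) : 0 ≤ Y.b r := by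
  rw [← H.ok.b_zero]
  exact H.ok.b_mono (Nat.zero_le r)

theorem ledb_h_nonneg (H : LedbHyp Y Cb) (r : ℕ) : 0 ≤ Y.h r := by
  rw [← H.ok.h_zero]
  exact H.ok.h_mono (Nat.zero_le r)

theorem ledb_Cb_nonneg (H : LedbHyp Y Cb) : 0 ≤ Cb := (ledb_b_nonneg H 0).trans (H.b_le 0)

theorem ledb_K_nonneg (H : LedbHyp Y Cb) (r : ℕ) : 0 ≤ Y.K r :=
  add_nonneg (ledb_h_nonneg H r) (mul_nonneg (ledb_b_nonneg H r) (H.ok.S_nonneg r))

theorem ledb_K_le (H : LedbHyp Y Cb) (r : ℕ) : Y.K r ≤ 2 * Cb := by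
  have h1 : Y.b r * Y.S r ≤ Cb * 1 := mul_le_mul (H.b_le r) (H.ok.S_le r) (H.ok.S_nonneg r) (ledb_Cb_nonneg H)
  have := H.h_le r
  unfold LedSys.K
  linarith

theorem ledb_RS_le (H : LedbHyp Y Cb) (r : ℕ) (ω ω' : Ω) : |Y.R ω ω' - Y.S r| ≤ 2 := by
  have h1 := abs_le.1 (H.ok.R_le ω ω')
  have h2 := H.ok.S_nonneg r
  have h3 := H.ok.S_le r
  rw [abs_le]
  constructor <;> linarith [h1.1, h1.2]

theorem ledb_dl_le (H : LedbHyp Y Cb) (r : ℕ) (ω ω' : Ω) : |Y.dl r ω ω'| ≤ 2 * Cb := by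
  unfold LedSys.dl
  rw [abs_mul, abs_of_nonneg (ledb_b_nonneg H r)]
  have := mul_le_mul (H.b_le r) (ledb_RS_le H r ω ω') (abs_nonneg _) (ledb_Cb_nonneg H)
  linarith

theorem ledb_sg_abs (s : Bool) : |ledSg s| = 1 := by
  unfold ledSg
  split_ifs <;> simp

theorem ledb_sg_sq (s : Bool) : ledSg s * ledSg s = 1 := by
  unfold ledSg
  split_ifs <;> simp

theorem ledb_sg_not (s : Bool) : ledSg (!s) = - ledSg s := by
  cases s <;> simp [ledSg]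

theorem ledb_kErr_abs (r : ℕ) (x y : Bool × Ω) : |Y.kErr r x y| = |Y.dl r x.2 y.2| := by
  unfold LedSys.kErr
  rw [abs_mul, abs_mul, ledb_sg_abs, ledb_sg_abs, one_mul, one_mul]

theorem ledb_kErr_le (H : LedbHyp Y Cb) (r : ℕ) (x y : Bool × Ω) : |Y.kErr r x y| ≤ 2 * Cb := by
  rw [ledb_kErr_abs]
  exact ledb_dl_le H r _ _

theorem ledb_kRow_le (H : LedbHyp Y Cb) {t : ℝ} (ht : t ∈ Set.Icc (0 : ℝ) 1) (r : ℕ) (x y : Bool × Ω) :
    |Y.kRow t r x y| ≤ 4 * Cb := by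
  unfold LedSys.kRow
  rw [abs_mul, abs_mul, ledb_sg_abs, ledb_sg_abs, one_mul, one_mul]
  have h1 : |Y.K r| ≤ 2 * Cb := by
    rw [abs_of_nonneg (ledb_K_nonneg H r)]
    exact ledb_K_le H r
  have h2 : |t * Y.dl r x.2 y.2| ≤ 2 * Cb := by
    rw [abs_mul, abs_of_nonneg ht.1]
    calc t * |Y.dl r x.2 y.2| ≤ 1 * |Y.dl r x.2 y.2| := mul_le_mul_of_nonneg_right ht.2 (abs_nonneg _)
      _ ≤ 2 * Cb := by rw [one_mul]; exact ledb_dl_le H r _ _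
  calc _ ≤ |Y.K r| + |t * Y.dl r x.2 y.2| := abs_add_le _ _
    _ ≤ 4 * Cb := by linarith

theorem ledb_kL_le (H : LedbHyp Y Cb) {lam0 lam1 : ℕ → ℝ} (h0 : LedProf lam0) (h1 : LedProf lam1) {t : ℝ}
    (ht : t ∈ Set.Icc (0 : ℝ) 1) (r : ℕ) (x y : Bool × Ω) : |Y.kL lam0 lam1 t r x y| ≤ 4 * Cb := by
  unfold LedSys.kL
  rw [abs_mul]
  have a : |lam1 r - lam0 r| ≤ 1 := by
    rw [abs_le]
    constructor <;> linarith [h0.nonneg r, h0.le_one r, h1.nonneg r, h1.le_one r]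
  calc _ ≤ 1 * (4 * Cb) := mul_le_mul a (ledb_kRow_le H ht r x y) (abs_nonneg _) zero_le_one
    _ = _ := one_mul _

theorem ledb_kT_le (H : LedbHyp Y Cb) {lam : ℕ → ℝ} (hl : LedProf lam) (r : ℕ) (x y : Bool × Ω) :
    |Y.kT lam r x y| ≤ 4 * Cb := by
  unfold LedSys.kT
  rw [abs_mul, abs_of_nonneg (hl.nonneg r)]
  have := ledb_Cb_nonneg H
  calc _ ≤ 1 * (2 * Cb) := mul_le_mul (hl.le_one r) (ledb_kErr_le H r x y) (abs_nonneg _) zero_le_one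
    _ ≤ _ := by linarith

end kernels

section prune

variable {Ω : Type} {Y : LedSys Ω}

/-- marginalisation of several labels -/
theorem ledb_prune (hY : Y.Ok) {lam : ℕ → ℝ} {t : ℝ} (hl : LedProf lam) (ht : t ∈ Set.Icc (0 : ℝ) 1) {q : ℕ} (k : ℕ)
    {τ : ℕ → ℕ → ℕ} (hτ : IsTr Y.N (q + k) τ) {P : (ℕ → Bool × Ω) → ℝ} (hP : TrUses q P) :
    Y.nu lam t (q + k) τ P = Y.nu lam t q τ P := by
  induction k with
  | zero => rfl
  | succ k ih =>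
    have h1 : IsTr Y.N (q + k) τ := tr_isTr_mono hτ (by omega)
    rw [← ih h1]
    exact hY.prune lam t (q + k) τ P hl ht hτ (ledi_uses_mono hP (by omega))

/-- marginalisation of the new labels of an extension -/
theorem ledb_prune_ext (hY : Y.Ok) {lam : ℕ → ℝ} {t : ℝ} (hl : LedProf lam) (ht : t ∈ Set.Icc (0 : ℝ) 1) {q : ℕ} (k : ℕ)
    {τ τ' : ℕ → ℕ → ℕ} (hτ' : LediExt Y.N q (q + k) τ τ') {P : (ℕ → Bool × Ω) → ℝ} (hP : TrUses q P) :
    Y.nu lam t (q + k) τ' P = Y.nu lam t q τ P := by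
  rw [ledb_prune hY hl ht k hτ'.tr hP]
  exact hY.congr lam t q τ' τ P hτ'.old

end prune

section transfer

variable {Ω : Type} {Y : LedSys Ω} {Cb : ℝ}

theorem ledb_tv2 (H : LedbHyp Y Cb) (q : ℕ) {M : ℝ} (hM : 0 ≤ M) :
    (2 * Y.ms Y.N) ^ 2 * (∏ i ∈ Finset.range 2, ((q : ℝ) + i)) * M ≤ 4 * (q * (q + 1)) * M := by
  have h0 := H.ok.ms_ok.nonneg Y.N
  have h1 := H.top
  have e : ∏ i ∈ Finset.range 2, ((q : ℝ) + i) = q * (q + 1) := by
    simp [Finset.prod_range_succ]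
  rw [e]
  have h2 : (2 * Y.ms Y.N) ^ 2 ≤ 4 := by nlinarith
  have h3 : (0 : ℝ) ≤ q * (q + 1) := by positivity
  exact mul_le_mul_of_nonneg_right (mul_le_mul_of_nonneg_right h2 h3) hM

/-- one insertion of a bounded kernel into a nonnegative test -/
theorem ledb_ins_le (H : LedbHyp Y Cb) {lam : ℕ → ℝ} {t : ℝ} (hl : LedProf lam) (ht : t ∈ Set.Icc (0 : ℝ) 1) {q : ℕ}
    {τ : ℕ → ℕ → ℕ} (hτ : IsTr Y.N q τ) {P : (ℕ → Bool × Ω) → ℝ} (hP : TrUses q P) (hP0 : ∀ σ, 0 ≤ P σ) (V : LedKer Ω)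
    (hV : ∀ r x y, |V r x y| ≤ 4 * Cb) :
    |1 / 2 * trSumK Y.ms Y.N 2 q τ fun τ' => Y.nu lam t (q + 2) τ' fun σ => P σ * V (τ' q (q + 1)) (σ q) (σ (q + 1))|
      ≤ 8 * Cb * q * (q + 1) * Y.nu lam t q τ P := by
  have hf0 : 0 ≤ Y.nu lam t q τ P := (H.ok.mean lam t q τ hl ht hτ).nonneg P hP0
  have hCb := ledb_Cb_nonneg H
  have h1 := ledi_sumK_le_const hτ H.ok.ms_ok 2
    (fun τ' => Y.nu lam t (q + 2) τ' fun σ => P σ * V (τ' q (q + 1)) (σ q) (σ (q + 1))) (4 * Cb * Y.nu lam t q τ P)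
    (by positivity) (fun τ' hτ' => by
      have := ledi_le_sup (H.ok.mean lam t (q + 2) τ' hl ht hτ'.tr) (f := P)
        (g := fun σ => V (τ' q (q + 1)) (σ q) (σ (q + 1))) hP0 fun σ => hV _ _ _
      rwa [ledb_prune_ext H.ok hl ht 2 hτ' hP] at this)
  have h2 := h1.trans (ledb_tv2 H q (M := 4 * Cb * Y.nu lam t q τ P) (by positivity))
  rw [abs_mul, abs_of_nonneg (by norm_num : (0 : ℝ) ≤ 1 / 2)]
  calc 1 / 2 * _ ≤ 1 / 2 * (4 * (q * (q + 1)) * (4 * Cb * Y.nu lam t q τ P)) := mul_le_mul_of_nonneg_left h2 (by norm_num)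
    _ = _ := by ring

/-- **PE Lemma 4.3** (bounded row changes): nonnegative tests on `q` labels change by at most the factor `ledbC Cb q` -/
theorem ledb_transfer (H : LedbHyp Y Cb) {lam lam' : ℕ → ℝ} {t t' : ℝ} (hl : LedProf lam) (hl' : LedProf lam')
    (ht : t ∈ Set.Icc (0 : ℝ) 1) (ht' : t' ∈ Set.Icc (0 : ℝ) 1) {q : ℕ} {τ : ℕ → ℕ → ℕ} (hτ : IsTr Y.N q τ)
    {P : (ℕ → Bool × Ω) → ℝ} (hP : TrUses q P) (hP0 : ∀ σ, 0 ≤ P σ) :
    Y.nu lam t q τ P ≤ ledbC Cb q * Y.nu lam' t' q τ P := by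
  have hCb := ledb_Cb_nonneg H
  have hc0 : (0 : ℝ) ≤ 8 * Cb * q * (q + 1) := by positivity
  have z0 : (0 : ℝ) ∈ Set.Icc (0 : ℝ) 1 := ⟨le_rfl, zero_le_one⟩
  have z1 : (1 : ℝ) ∈ Set.Icc (0 : ℝ) 1 := ⟨zero_le_one, le_rfl⟩
  -- the profile
  have s1 : Y.nu lam t q τ P ≤ Real.exp (8 * Cb * q * (q + 1)) * Y.nu lam' t q τ P := by
    have h := ledi_gronwall (f := fun θ => Y.nu (ledSeg lam lam' θ) t q τ P) (c := 8 * Cb * q * (q + 1))
      (H.ok.contL lam lam' t q τ P hl hl' ht hτ hP)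
      (fun θ hθ => H.ok.derivL lam lam' t q τ P θ hl hl' ht hτ hP hθ)
      (fun θ hθ => ledb_ins_le H (ledi_seg_prof hl hl' ⟨hθ.1.le, hθ.2.le⟩) ht hτ hP hP0 (Y.kL lam lam' t)
        (ledb_kL_le H hl hl' ht)) hc0 z0 z1
      (by
        simp only [ledi_seg_one]
        exact (H.ok.mean lam' t q τ hl' ht hτ).nonneg P hP0)
    simpa only [ledi_seg_zero, ledi_seg_one] using h
  -- the mixing parameter
  have s2 : Y.nu lam' t q τ P ≤ Real.exp (8 * Cb * q * (q + 1)) * Y.nu lam' t' q τ P :=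
    ledi_gronwall (f := fun t => Y.nu lam' t q τ P) (c := 8 * Cb * q * (q + 1))
      (H.ok.contT lam' q τ P hl' hτ hP)
      (fun t ht => H.ok.derivT lam' q τ P t hl' hτ hP ht)
      (fun t ht => ledb_ins_le H hl' ⟨ht.1.le, ht.2.le⟩ hτ hP hP0 (Y.kT lam') (ledb_kT_le H hl')) hc0 ht ht'
      ((H.ok.mean lam' t' q τ hl' ht' hτ).nonneg P hP0)
  unfold ledbC
  calc _ ≤ _ := s1
    _ ≤ Real.exp (8 * Cb * q * (q + 1)) * (Real.exp (8 * Cb * q * (q + 1)) * Y.nu lam' t' q τ P) :=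
        mul_le_mul_of_nonneg_left s2 (Real.exp_pos _).le
    _ = _ := by ring

theorem ledb_C_pos (Cb : ℝ) (q : ℕ) : 0 < ledbC Cb q := mul_pos (Real.exp_pos _) (Real.exp_pos _)

theorem ledb_C_one_le {Cb : ℝ} (hCb : 0 ≤ Cb) (q : ℕ) : 1 ≤ ledbC Cb q := by
  have : 1 ≤ Real.exp (8 * Cb * q * (q + 1)) := Real.one_le_exp (by positivity)
  unfold ledbC
  nlinarith

/-- absolute value of a tree number under an interpolated law, measured under the actual law -/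
theorem ledb_abs_le_act (H : LedbHyp Y Cb) {lam : ℕ → ℝ} {t : ℝ} (hl : LedProf lam) (ht : t ∈ Set.Icc (0 : ℝ) 1) {q : ℕ}
    {τ : ℕ → ℕ → ℕ} (hτ : IsTr Y.N q τ) {P : (ℕ → Bool × Ω) → ℝ} (hP : TrUses q P) :
    |Y.nu lam t q τ P| ≤ ledbC Cb q * Y.act q τ fun σ => |P σ| :=
  (ledi_abs_le (H.ok.mean lam t q τ hl ht hτ) P).trans
    (ledb_transfer H hl ledi_prof_one ht ⟨zero_le_one, le_rfl⟩ hτ (fun σ σ' h => by rw [hP σ σ' h]) fun σ => abs_nonneg _)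

end transfer

end Claimed.Agent.R286
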