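import Claimed.Agent.R286.Cav.LedTerms
import Claimed.Agent.R286.Cav.LedComb
import Claimed.Agent.R286.Cav.LedTbBd

/-!
# Row 286 (S0533), unit Cav, file LedKit      (owner: helper32; head of `Led*`: helper204; prefix `ledk_`, `ledNm`, `LedCF`)

THE BOUND KIT of the parametric ledger lemma (PE Lemma 4.7, cavity.tex l.443-556), on `LedSys.tm` (`Cav/LedTerms`).   NON-ASYMPTOTIC, POINTWISE in the observed table.
* K1  `ledNm`, `ledk_holder`, `ledk_holder_list`   Hoelder for a positive normalised functional, REAL exponents (weights `w = 1 / p`, `∑ w ≤ 1`); `ledk_nm_mono` (Lyapunov),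
      `ledk_nm_interp` (`L²`-`L^∞`), `ledk_nm_convex`, `ledk_nm_smul`, `ledk_nm_le_of_le`, `ledk_nm_nat`            PROVED
* K2  `ledk_old`, `ledk_pair`                      marginals of a tree law: the old labels, a pair of labels
* K3  `ledk_gronwall`                              PE Lemma 4.3 (bounded row changes), both directions
* K5  `LedCF` (factor + weight + cost), `ledk_pw` (ONE extended table), `ledk_tm_le` (a term `tm`), `ledk_tm_bdd` (bounded kernels)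
      costs = norms `LedSys.nK` under the ACTUAL pair laws.     USE: `ledk_tm_le`, then `led_dens1/2` (LedComb), `tr_absK_le`.
K4 = `Cav/LedComb` (210).   K6 (parity) and the error bounds: `Cav/LedPar`.   Bd1-Bd4: `Cav/LedBd`.
-/

set_option autoImplicit false

namespace Claimed.Agent.R286

open Finset

/-! ## K1. Hoelder for positive normalised functionals -/

section mean

variable {X : Type} {μ : (X → ℝ) → ℝ}

/-- `L^r` norm of `f` under the functional `μ` -/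
noncomputable def ledNm (μ : (X → ℝ) → ℝ) (r : ℝ) (f : X → ℝ) : ℝ := (μ fun x => |f x| ^ r) ^ (1 / r)

theorem ledNm_eqns_cite (μ : (X → ℝ) → ℝ) (r : ℝ) (f : X → ℝ) : ledNm μ r f = (μ fun x => |f x| ^ r) ^ (1 / r) := rfl

theorem ledk_mono (h : LedMean μ) {f g : X → ℝ} (hfg : ∀ x, f x ≤ g x) : μ f ≤ μ g := by
  have h1 : 0 ≤ μ (fun x => g x + (-1) * f x) := h.nonneg _ fun x => by nlinarith [hfg x]
  have h2 := h.add g (fun x => (-1) * f x)
  have h3 := h.smul (-1) f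
  rw [h2, h3] at h1
  linarith

theorem ledk_const (h : LedMean μ) (c : ℝ) : μ (fun _ => c) = c := by
  have := h.smul c (fun _ => 1)
  simpa [h.one] using this

theorem ledk_abs_le (h : LedMean μ) (f : X → ℝ) : |μ f| ≤ μ fun x => |f x| := by
  rw [abs_le]
  constructor
  · have h1 := ledk_mono h (f := fun x => (-1) * |f x|) (g := f) fun x => by
      have := neg_abs_le (f x); linarith
    rw [h.smul] at h1
    linarith
  · exact ledk_mono h fun x => le_abs_self _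

theorem ledk_sum (h : LedMean μ) {ι : Type} (s : Finset ι) (f : ι → X → ℝ) :
    μ (fun x => ∑ i ∈ s, f i x) = ∑ i ∈ s, μ (f i) := by
  classical
  induction s using Finset.induction_on with
  | empty => simpa using ledk_const h 0
  | insert a s ha ih =>
    simp only [Finset.sum_insert ha]
    rw [h.add (f a) (fun x => ∑ i ∈ s, f i x), ih]

theorem ledk_nm_nonneg (h : LedMean μ) (r : ℝ) (f : X → ℝ) : 0 ≤ ledNm μ r f :=
  Real.rpow_nonneg (h.nonneg _ fun x => Real.rpow_nonneg (abs_nonneg _) _) _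

theorem ledk_pow_le_of_nm_le (h : LedMean μ) {r B : ℝ} (hr : 0 < r) (f : X → ℝ) (hf : ledNm μ r f ≤ B) :
    μ (fun x => |f x| ^ r) ≤ B ^ r := by
  have h0 : 0 ≤ μ (fun x => |f x| ^ r) := h.nonneg _ fun x => Real.rpow_nonneg (abs_nonneg _) _
  have h1 := Real.rpow_le_rpow (ledk_nm_nonneg h r f) hf hr.le
  rw [ledNm, ← Real.rpow_mul h0, one_div, inv_mul_cancel₀ hr.ne', Real.rpow_one] at h1
  exact h1

theorem ledk_nm_le_of_pow_le (h : LedMean μ) {r B : ℝ} (hr : 0 < r) (hB : 0 ≤ B) (f : X → ℝ)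
    (hf : μ (fun x => |f x| ^ r) ≤ B ^ r) : ledNm μ r f ≤ B := by
  have h0 : 0 ≤ μ (fun x => |f x| ^ r) := h.nonneg _ fun x => Real.rpow_nonneg (abs_nonneg _) _
  have h1 := Real.rpow_le_rpow h0 hf (by positivity : 0 ≤ 1 / r)
  rw [← Real.rpow_mul hB, mul_one_div, div_self hr.ne', Real.rpow_one] at h1
  exact h1

/-- Hoelder with strictly positive bounds -/
theorem ledk_holder_pos (h : LedMean μ) {ι : Type} (s : Finset ι) (f : ι → X → ℝ) (w B : ι → ℝ)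
    (hw : ∀ i ∈ s, 0 < w i) (hsum : ∑ i ∈ s, w i ≤ 1) (hB : ∀ i ∈ s, 0 < B i)
    (hf : ∀ i ∈ s, μ (fun x => |f i x| ^ (1 / w i)) ≤ B i ^ (1 / w i)) :
    μ (fun x => ∏ i ∈ s, |f i x|) ≤ ∏ i ∈ s, B i := by
  classical
  set w0 : ℝ := 1 - ∑ i ∈ s, w i with hw0
  have hw0n : 0 ≤ w0 := by linarith
  have hPpos : 0 < ∏ i ∈ s, B i := Finset.prod_pos hB
  -- pointwise weighted AM-GM
  have hpt : ∀ x, ∏ i ∈ s, |f i x| ≤ (∏ i ∈ s, B i) * (∑ i ∈ s, w i * ((B i ^ (1 / w i))⁻¹ * |f i x| ^ (1 / w i)) + w0) := by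
    intro x
    have hz : ∀ i ∈ s, 0 ≤ (B i ^ (1 / w i))⁻¹ * |f i x| ^ (1 / w i) := fun i hi =>
      mul_nonneg (inv_nonneg.2 (Real.rpow_nonneg (hB i hi).le _)) (Real.rpow_nonneg (abs_nonneg _) _)
    have key := Real.geom_mean_le_arith_mean_weighted (insertNone s)
      (fun o => o.elim w0 w) (fun o => o.elim 1 fun i => (B i ^ (1 / w i))⁻¹ * |f i x| ^ (1 / w i))
      (by
        intro o ho
        cases o with
        | none => exact hw0n
        | some i => exact (hw i (by simpa using ho)).le)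
      (by simp [hw0])
      (by
        intro o ho
        cases o with
        | none => exact zero_le_one
        | some i => exact hz i (by simpa using ho))
    simp only [Finset.prod_insertNone, Finset.sum_insertNone, Option.elim_none, Option.elim_some,
      Real.one_rpow, one_mul, mul_one] at key
    have e : ∀ i ∈ s, ((B i ^ (1 / w i))⁻¹ * |f i x| ^ (1 / w i)) ^ w i = (B i)⁻¹ * |f i x| := by
      intro i hi
      have hwi := hw i hi
      rw [Real.mul_rpow (inv_nonneg.2 (Real.rpow_nonneg (hB i hi).le _)) (Real.rpow_nonneg (abs_nonneg _) _),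
        Real.inv_rpow (Real.rpow_nonneg (hB i hi).le _), ← Real.rpow_mul (hB i hi).le, ← Real.rpow_mul (abs_nonneg _),
        one_div, inv_mul_cancel₀ hwi.ne', Real.rpow_one, Real.rpow_one]
    rw [Finset.prod_congr rfl e, Finset.prod_mul_distrib, Finset.prod_inv_distrib] at key
    have : ∏ i ∈ s, |f i x| = (∏ i ∈ s, B i) * ((∏ i ∈ s, B i)⁻¹ * ∏ i ∈ s, |f i x|) := by
      field_simp
    rw [this]
    refine mul_le_mul_of_nonneg_left ?_ hPpos.le
    linarith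
  refine (ledk_mono h hpt).trans ?_
  rw [h.smul, h.add, ledk_const h, ledk_sum h]
  have h2 : ∀ i ∈ s, μ (fun x => w i * ((B i ^ (1 / w i))⁻¹ * |f i x| ^ (1 / w i))) ≤ w i := by
    intro i hi
    rw [h.smul, h.smul]
    have hBp : 0 < B i ^ (1 / w i) := Real.rpow_pos_of_pos (hB i hi) _
    have : (B i ^ (1 / w i))⁻¹ * μ (fun x => |f i x| ^ (1 / w i)) ≤ 1 := by
      rw [inv_mul_le_iff₀ hBp, mul_one]; exact hf i hi
    nlinarith [hw i hi]
  have h3 : ∑ i ∈ s, μ (fun x => w i * ((B i ^ (1 / w i))⁻¹ * |f i x| ^ (1 / w i))) + w0 ≤ 1 := by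
    have := Finset.sum_le_sum h2
    linarith
  nlinarith

/-- **Hoelder**, weights `w i = 1 / p i`. -/
theorem ledk_holder (h : LedMean μ) {ι : Type} (s : Finset ι) (f : ι → X → ℝ) (w B : ι → ℝ)
    (hw : ∀ i ∈ s, 0 < w i) (hsum : ∑ i ∈ s, w i ≤ 1) (hf : ∀ i ∈ s, ledNm μ (1 / w i) (f i) ≤ B i) :
    |μ fun x => ∏ i ∈ s, f i x| ≤ ∏ i ∈ s, B i := by
  have h1 : |μ fun x => ∏ i ∈ s, f i x| ≤ μ fun x => ∏ i ∈ s, |f i x| := by
    refine (ledk_abs_le h _).trans (le_of_eq ?_)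
    congr 1; funext x; exact Finset.abs_prod _ _
  refine h1.trans ?_
  have hB0 : ∀ i ∈ s, 0 ≤ B i := fun i hi => (ledk_nm_nonneg h _ _).trans (hf i hi)
  -- bounds `B i + ε`
  have hε : ∀ ε : ℝ, 0 < ε → μ (fun x => ∏ i ∈ s, |f i x|) ≤ ∏ i ∈ s, (B i + ε) := by
    intro ε hε
    refine ledk_holder_pos h s f w (fun i => B i + ε) hw hsum (fun i hi => by have := hB0 i hi; linarith) ?_
    intro i hi
    have hwi : 0 < 1 / w i := by have := hw i hi; positivity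
    exact ledk_pow_le_of_nm_le h hwi _ ((hf i hi).trans (by linarith))
  have hcont : Filter.Tendsto (fun ε : ℝ => ∏ i ∈ s, (B i + ε)) (nhdsWithin 0 (Set.Ioi 0)) (nhds (∏ i ∈ s, (B i + 0))) := by
    have : Continuous fun ε : ℝ => ∏ i ∈ s, (B i + ε) := by fun_prop
    exact (this.tendsto 0).mono_left nhdsWithin_le_nhds
  simp only [add_zero] at hcont
  refine ge_of_tendsto hcont ?_
  filter_upwards [self_mem_nhdsWithin] with ε hε'
  exact hε ε hε'

/-- Lyapunov -/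
theorem ledk_nm_mono (h : LedMean μ) {r r' : ℝ} (hr : 0 < r) (hrr : r ≤ r') (f : X → ℝ) : ledNm μ r f ≤ ledNm μ r' f := by
  have hr' : 0 < r' := lt_of_lt_of_le hr hrr
  refine ledk_nm_le_of_pow_le h hr (ledk_nm_nonneg h _ _) f ?_
  have hH := ledk_holder h ({()} : Finset Unit) (fun _ x => |f x| ^ r) (fun _ => r / r') (fun _ => ledNm μ r' f ^ r)
    (fun _ _ => by positivity) (by simpa using (div_le_one hr').2 hrr) (by
      intro _ _
      have e : (1 : ℝ) / (r / r') = r' / r := by field_simp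
      rw [e, ledNm]
      have e2 : (fun x => |(|f x| ^ r)| ^ (r' / r)) = fun x => |f x| ^ r' := by
        funext x
        rw [abs_of_nonneg (Real.rpow_nonneg (abs_nonneg _) _), ← Real.rpow_mul (abs_nonneg _)]
        congr 1; field_simp
      rw [e2, ledNm, ← Real.rpow_mul (h.nonneg _ fun x => Real.rpow_nonneg (abs_nonneg _) _)]
      apply le_of_eq
      congr 1; field_simp)
  simp only [Finset.prod_singleton] at hH
  exact (le_abs_self _).trans hH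

/-- interpolation of a bounded function between `L²` and `L^∞` -/
theorem ledk_nm_interp (h : LedMean μ) {r M : ℝ} (hr : 2 ≤ r) (hM : 0 ≤ M) (f : X → ℝ) (hf : ∀ x, |f x| ≤ M) :
    ledNm μ r f ≤ M ^ (1 - 2 / r) * ledNm μ 2 f ^ (2 / r) := by
  have hr0 : 0 < r := by linarith
  have h2 : 0 ≤ μ (fun x => |f x| ^ (2 : ℝ)) := h.nonneg _ fun x => Real.rpow_nonneg (abs_nonneg _) _
  refine ledk_nm_le_of_pow_le h hr0 (mul_nonneg (Real.rpow_nonneg hM _) (Real.rpow_nonneg (ledk_nm_nonneg h _ _) _)) f ?_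
  have h1 : μ (fun x => |f x| ^ r) ≤ μ (fun x => M ^ (r - 2) * |f x| ^ (2 : ℝ)) := by
    refine ledk_mono h fun x => ?_
    have e : |f x| ^ r = |f x| ^ (r - 2) * |f x| ^ (2 : ℝ) := by
      rcases (abs_nonneg (f x)).eq_or_lt with h0 | h0
      · rw [← h0, Real.zero_rpow hr0.ne', Real.zero_rpow (by norm_num : (2 : ℝ) ≠ 0), mul_zero]
      · rw [← Real.rpow_add h0]; congr 1; ring
    rw [e]
    exact mul_le_mul_of_nonneg_right (Real.rpow_le_rpow (abs_nonneg _) (hf x) (by linarith))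
      (Real.rpow_nonneg (abs_nonneg _) _)
  rw [h.smul] at h1
  refine h1.trans (le_of_eq ?_)
  rw [Real.mul_rpow (Real.rpow_nonneg hM _) (Real.rpow_nonneg (ledk_nm_nonneg h _ _) _), ← Real.rpow_mul hM,
    ← Real.rpow_mul (ledk_nm_nonneg h _ _), ledNm, ← Real.rpow_mul h2]
  congr 1
  · congr 1; field_simp
  · have : (1 : ℝ) / 2 * (2 / r * r) = 1 := by field_simp
    rw [this, Real.rpow_one]

/-- convex combinations -/
theorem ledk_nm_convex (h : LedMean μ) {r t A : ℝ} (hr : 1 ≤ r) (ht : t ∈ Set.Icc (0 : ℝ) 1) (f g : X → ℝ)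
    (hf : ledNm μ r f ≤ A) (hg : ledNm μ r g ≤ A) : ledNm μ r (fun x => (1 - t) * f x + t * g x) ≤ A := by
  have hr0 : 0 < r := by linarith
  have hA : 0 ≤ A := (ledk_nm_nonneg h _ _).trans hf
  refine ledk_nm_le_of_pow_le h hr0 hA _ ?_
  have hc := convexOn_rpow hr
  have h1 : μ (fun x => |(1 - t) * f x + t * g x| ^ r) ≤ μ (fun x => (1 - t) * |f x| ^ r + t * |g x| ^ r) := by
    refine ledk_mono h fun x => ?_
    have h2 : |(1 - t) * f x + t * g x| ≤ (1 - t) * |f x| + t * |g x| := by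
      refine (abs_add_le _ _).trans ?_
      rw [abs_mul, abs_mul, abs_of_nonneg (sub_nonneg.2 ht.2), abs_of_nonneg ht.1]
    refine (Real.rpow_le_rpow (abs_nonneg _) h2 hr0.le).trans ?_
    have := hc.2 (Set.mem_Ici.2 (abs_nonneg (f x))) (Set.mem_Ici.2 (abs_nonneg (g x)))
      (sub_nonneg.2 ht.2) ht.1 (by ring)
    simpa using this
  refine h1.trans ?_
  rw [h.add, h.smul, h.smul]
  have hf' := ledk_pow_le_of_nm_le h hr0 f hf
  have hg' := ledk_pow_le_of_nm_le h hr0 g hg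
  nlinarith [ht.1, ht.2, sub_nonneg.2 ht.2]

theorem ledk_nm_smul (h : LedMean μ) {r : ℝ} (hr : 0 < r) (c : ℝ) (f : X → ℝ) :
    ledNm μ r (fun x => c * f x) = |c| * ledNm μ r f := by
  have h0 : 0 ≤ μ (fun x => |f x| ^ r) := h.nonneg _ fun x => Real.rpow_nonneg (abs_nonneg _) _
  have e : (fun x => |c * f x| ^ r) = fun x => |c| ^ r * |f x| ^ r := by
    funext x; rw [abs_mul, Real.mul_rpow (abs_nonneg _) (abs_nonneg _)]
  rw [ledNm, e, h.smul, Real.mul_rpow (Real.rpow_nonneg (abs_nonneg _) _) h0, ← Real.rpow_mul (abs_nonneg _),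
    mul_one_div, div_self hr.ne', Real.rpow_one, ledNm]

/-- comparison of the norms under two comparable functionals -/
theorem ledk_nm_le_of_le {μ' : (X → ℝ) → ℝ} (h : LedMean μ) {C r : ℝ} (hC : 1 ≤ C) (hr : 1 ≤ r) (f : X → ℝ)
    (hle : μ (fun x => |f x| ^ r) ≤ C * μ' fun x => |f x| ^ r) : ledNm μ r f ≤ C * ledNm μ' r f := by
  have hr0 : 0 < r := by linarith
  have h0 : 0 ≤ μ (fun x => |f x| ^ r) := h.nonneg _ fun x => Real.rpow_nonneg (abs_nonneg _) _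
  have h1 : 0 ≤ μ' (fun x => |f x| ^ r) := by
    by_contra hneg
    push Not at hneg
    nlinarith
  have h2 := Real.rpow_le_rpow h0 hle (by positivity : 0 ≤ 1 / r)
  rw [Real.mul_rpow (by linarith) h1] at h2
  refine h2.trans (mul_le_mul_of_nonneg_right ?_ (Real.rpow_nonneg h1 _))
  calc C ^ (1 / r) ≤ C ^ (1 : ℝ) := Real.rpow_le_rpow_of_exponent_le hC (by rw [div_le_one hr0]; exact hr)
    _ = C := Real.rpow_one C

/-- natural exponents -/
theorem ledk_nm_nat (n : ℕ) (f : X → ℝ) : ledNm μ (2 * n : ℕ) f = (μ fun x => f x ^ (2 * n)) ^ (1 / ((2 * n : ℕ) : ℝ)) := by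
  rw [ledNm]
  congr 2
  funext x
  rw [Real.rpow_natCast, pow_mul, pow_mul, sq_abs]

end mean

/-- Hoelder for a list of (function, weight, bound) -/
theorem ledk_holder_list {X : Type} {μ : (X → ℝ) → ℝ} (h : LedMean μ) (L : List ((X → ℝ) × ℝ × ℝ))
    (hL : ∀ e ∈ L, 0 < e.2.1 ∧ ledNm μ (1 / e.2.1) e.1 ≤ e.2.2) (hsum : (L.map fun e => e.2.1).sum ≤ 1) :
    |μ fun x => (L.map fun e => e.1 x).prod| ≤ (L.map fun e => e.2.2).prod := by
  have hH := ledk_holder h (Finset.univ : Finset (Fin L.length)) (fun i => (L[i.1]).1) (fun i => (L[i.1]).2.1)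
    (fun i => (L[i.1]).2.2) (fun i _ => (hL _ (List.getElem_mem i.2)).1)
    (by rw [Fin.sum_univ_fun_getElem L fun e => e.2.1]; exact hsum)
    (fun i _ => (hL _ (List.getElem_mem i.2)).2)
  rw [Fin.prod_univ_fun_getElem L fun e => e.2.2] at hH
  have e : (fun x => ∏ i : Fin L.length, (L[i.1]).1 x) = fun x => (L.map fun e => e.1 x).prod := by
    funext x
    exact Fin.prod_univ_fun_getElem L fun e => e.1 x
  rw [e] at hH
  exact hH

/-! ## K2. profiles, marginals -/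

section sys

variable {Ω : Type} {Y : LedSys Ω}

theorem ledk_seg_prof {lam0 lam1 : ℕ → ℝ} (h0 : LedProf lam0) (h1 : LedProf lam1) {θ : ℝ} (hθ : θ ∈ Set.Icc (0 : ℝ) 1) :
    LedProf (ledSeg lam0 lam1 θ) := by
  have e : ∀ r, ledSeg lam0 lam1 θ r = (1 - θ) * lam0 r + θ * lam1 r := fun r => by unfold ledSeg; ring
  have h1θ : 0 ≤ 1 - θ := sub_nonneg.2 hθ.2
  refine ⟨fun r => ?_, fun r => ?_, fun r r' hr => ?_⟩
  · rw [e]; exact add_nonneg (mul_nonneg h1θ (h0.nonneg r)) (mul_nonneg hθ.1 (h1.nonneg r))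
  · rw [e]; nlinarith [h0.le_one r, h1.le_one r, hθ.1]
  · rw [e, e]
    exact add_le_add (mul_le_mul_of_nonneg_left (h0.mono hr) h1θ) (mul_le_mul_of_nonneg_left (h1.mono hr) hθ.1)

theorem ledk_one_prof : LedProf fun _ => (1 : ℝ) :=
  ⟨fun _ => zero_le_one, fun _ => le_rfl, fun _ _ _ => le_rfl⟩

theorem ledk_lam_prof (k : ℕ) {l : ℝ} (hl : l ∈ Set.Icc (0 : ℝ) 1) : LedProf (ledLam k l) := by
  refine ⟨fun r => ?_, fun r => ?_, fun r r' hr => ?_⟩
  · unfold ledLam; split_ifs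
    · exact hl.1
    · exact zero_le_one
  · unfold ledLam; split_ifs
    · exact hl.2
    · exact le_rfl
  · unfold ledLam
    by_cases h' : r' < k
    · rw [if_pos h', if_pos (lt_of_le_of_lt hr h')]
    · rw [if_neg h']; split_ifs
      · exact hl.2
      · exact le_rfl

theorem ledk_lam2_prof {k' k : ℕ} (hk : k' ≤ k) {θ l : ℝ} (hθ : θ ∈ Set.Icc (0 : ℝ) 1) (hl : l ∈ Set.Icc (0 : ℝ) 1) :
    LedProf (ledLam2 k' k θ l) := by
  have h1 : 0 ≤ θ * l := mul_nonneg hθ.1 hl.1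
  have h2 : θ * l ≤ l := mul_le_of_le_one_left hl.1 hθ.2
  have h3 : θ * l ≤ 1 := h2.trans hl.2
  refine ⟨fun r => ?_, fun r => ?_, fun r r' hr => ?_⟩
  · unfold ledLam2; split_ifs
    · exact h1
    · exact hl.1
    · exact zero_le_one
  · unfold ledLam2; split_ifs
    · exact h3
    · exact hl.2
    · exact le_rfl
  · unfold ledLam2
    by_cases a' : r' < k'
    · rw [if_pos a', if_pos (lt_of_le_of_lt hr a')]
    · rw [if_neg a']
      by_cases b' : r' < k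
      · rw [if_pos b']
        split_ifs
        · exact h2
        · exact le_rfl
        · omega
      · rw [if_neg b']
        split_ifs
        · exact h3
        · exact hl.2
        · exact le_rfl

theorem ledk_seg_lam (k : ℕ) (θ : ℝ) : ledSeg (ledLam k 0) (ledLam k 1) θ = ledLam k θ := by
  funext r
  unfold ledSeg ledLam
  split_ifs <;> ring

theorem ledk_seg_lam2 (k' k : ℕ) (θ l : ℝ) : ledSeg (ledLam2 k' k 0 l) (ledLam2 k' k 1 l) θ = ledLam2 k' k θ l := by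
  funext r
  unfold ledSeg ledLam2
  split_ifs <;> ring

theorem ledk_lam2_one {k' k : ℕ} (hk : k' ≤ k) (l : ℝ) : ledLam2 k' k 1 l = ledLam k l := by
  funext r
  unfold ledLam2 ledLam
  by_cases a : r < k'
  · rw [if_pos a, if_pos (lt_of_lt_of_le a hk), one_mul]
  · rw [if_neg a]

theorem ledk_pair_isTr (N r : ℕ) (hr : r ≤ N + 1) : IsTr N 2 (ledPair N r) := by
  refine ⟨fun x y _ _ => ?_, fun x _ => ?_, fun x y _ _ => ?_, fun x y z _ _ _ => ?_⟩
  · unfold ledPair; split_ifs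
    · exact le_rfl
    · exact hr
  · unfold ledPair; rw [if_pos rfl]
  · unfold ledPair
    by_cases h : x = y
    · rw [if_pos h, if_pos h.symm]
    · rw [if_neg h, if_neg fun e => h e.symm]
  · unfold ledPair
    by_cases h : x = z
    · rw [if_pos h]
      refine (min_le_left _ _).trans ?_
      split_ifs
      · exact le_rfl
      · exact hr
    · rw [if_neg h]
      by_cases h1 : x = y
      · have h2 : y ≠ z := fun e => h (h1.trans e)
        rw [if_neg h2]; exact min_le_right _ _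
      · rw [if_neg h1]; exact min_le_left _ _

theorem ledk_uses_mono {S : Type} {q q' : ℕ} (h : q ≤ q') {P : (ℕ → S) → ℝ} (hP : TrUses q P) : TrUses q' P :=
  fun σ σ' hσ => hP σ σ' fun i hi => hσ i (lt_of_lt_of_le hi h)

/-- the old labels: the new labels are pruned -/
theorem ledk_old (hY : Y.Ok) {lam : ℕ → ℝ} {t : ℝ} (hlam : LedProf lam) (ht : t ∈ Set.Icc (0 : ℝ) 1) {q : ℕ} (k : ℕ)
    {τ' : ℕ → ℕ → ℕ} (hτ' : IsTr Y.N (q + k) τ') (P : (ℕ → Bool × Ω) → ℝ) (hP : TrUses q P) :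
    Y.nu lam t (q + k) τ' P = Y.nu lam t q τ' P := by
  induction k with
  | zero => rfl
  | succ k ih =>
    have h1 := hY.prune lam t (q + k) τ' P hlam ht hτ' (ledk_uses_mono (Nat.le_add_right q k) hP)
    rw [show q + (k + 1) = q + k + 1 from rfl, h1]
    exact ih (tr_isTr_mono hτ' (by omega))

/-- a permutation of the labels `< Q` with prescribed images of `0` and `1` -/
theorem ledk_perm2 {Q c d : ℕ} (hc : c < Q) (hd : d < Q) (hcd : c ≠ d) :
    ∃ e : Equiv.Perm ℕ, e 0 = c ∧ e 1 = d ∧ ∀ y, Q ≤ y → e y = y := by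
  set c' : ℕ := Equiv.swap 0 c d with hc'
  have hc0 : c' ≠ 0 := by
    intro h
    have : Equiv.swap 0 c d = Equiv.swap 0 c c := by rw [← hc', h, Equiv.swap_apply_right]
    exact hcd ((Equiv.swap 0 c).injective this).symm
  have hcq : c' < Q := by
    rw [hc']
    by_cases h0 : d = 0
    · rw [h0, Equiv.swap_apply_left]; exact hc
    · rw [Equiv.swap_apply_of_ne_of_ne h0 (Ne.symm hcd)]; exact hd
  refine ⟨Equiv.swap 0 c * Equiv.swap 1 c', ?_, ?_, fun y hy => ?_⟩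
  · have i1 : Equiv.swap 1 c' 0 = 0 := Equiv.swap_apply_of_ne_of_ne (by omega) (Ne.symm hc0)
    rw [Equiv.Perm.mul_apply, i1, Equiv.swap_apply_left]
  · rw [Equiv.Perm.mul_apply, Equiv.swap_apply_left, hc', Equiv.swap_apply_self]
  · have i1 : Equiv.swap 1 c' y = y := Equiv.swap_apply_of_ne_of_ne (by omega) (by omega)
    have i2 : Equiv.swap 0 c y = y := Equiv.swap_apply_of_ne_of_ne (by omega) (by omega)
    rw [Equiv.Perm.mul_apply, i1, i2]

/-- the law of a pair of labels is the pair law at their split depth -/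
theorem ledk_pair (hY : Y.Ok) {lam : ℕ → ℝ} {t : ℝ} (hlam : LedProf lam) (ht : t ∈ Set.Icc (0 : ℝ) 1) {Q : ℕ}
    {τ : ℕ → ℕ → ℕ} (hτ : IsTr Y.N Q τ) {c d : ℕ} (hc : c < Q) (hd : d < Q) (hcd : c ≠ d) (f : Bool × Ω → Bool × Ω → ℝ) :
    Y.nu lam t Q τ (fun σ => f (σ c) (σ d)) = Y.nu lam t 2 (ledPair Y.N (τ c d)) fun σ => f (σ 0) (σ 1) := by
  obtain ⟨e, e0, e1, he⟩ := ledk_perm2 hc hd hcd
  have hu : TrUses Q (fun σ : ℕ → Bool × Ω => f (σ c) (σ d)) := fun σ σ' h => by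
    show f (σ c) (σ d) = f (σ' c) (σ' d)
    rw [h c hc, h d hd]
  have h1 := hY.perm lam t Q τ (fun σ => f (σ c) (σ d)) e hlam ht hτ hu he
  have s0 : e.symm c = 0 := by rw [Equiv.symm_apply_eq, e0]
  have s1 : e.symm d = 1 := by rw [Equiv.symm_apply_eq, e1]
  beta_reduce at h1
  rw [s0, s1] at h1
  rw [← h1]
  obtain ⟨r, rfl⟩ : ∃ r, Q = 2 + r := ⟨Q - 2, by omega⟩
  have hτe : IsTr Y.N (2 + r) (fun x y => τ (e x) (e y)) := tr_comap_isTr hτ _ fun x hx => tr5_perm_lt e he hx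
  have hu2 : TrUses 2 (fun σ : ℕ → Bool × Ω => f (σ 0) (σ 1)) := fun σ σ' h => by
    show f (σ 0) (σ 1) = f (σ' 0) (σ' 1)
    rw [h 0 (by omega), h 1 (by omega)]
  rw [ledk_old hY hlam ht r hτe _ hu2]
  refine hY.congr lam t 2 _ _ _ fun x y hx hy => ?_
  have hx' : x = 0 ∨ x = 1 := by omega
  have hy' : y = 0 ∨ y = 1 := by omega
  unfold ledPair
  rcases hx' with rfl | rfl <;> rcases hy' with rfl | rfl
  · rw [e0, if_pos rfl]; exact hτ.diag c hc
  · rw [e0, e1, if_neg (by omega)]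
  · rw [e0, e1, if_neg (by omega)]; exact hτ.symm d c hd hc
  · rw [e1, if_pos rfl]; exact hτ.diag d hd

/-! ## K3. PE Lemma 4.3: bounded row changes -/

theorem ledk_sg_abs (s : Bool) : |ledSg s| = 1 := by
  unfold ledSg; split_ifs <;> simp

/-- the kernels of the row family are bounded -/
theorem ledk_kRow_le (hY : Y.Ok) {Cb : ℝ} (hb : ∀ r, Y.b r ≤ Cb) (hh : ∀ r, Y.h r ≤ Cb) {t : ℝ} (ht : t ∈ Set.Icc (0 : ℝ) 1)
    (r : ℕ) (x y : Bool × Ω) : |Y.kRow t r x y| ≤ 4 * Cb ∧ |Y.kErr r x y| ≤ 2 * Cb := by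
  have hb0 : 0 ≤ Y.b r := by rw [← hY.b_zero]; exact hY.b_mono (Nat.zero_le r)
  have hh0 : 0 ≤ Y.h r := by rw [← hY.h_zero]; exact hY.h_mono (Nat.zero_le r)
  have hS0 := hY.S_nonneg r
  have hS1 := hY.S_le r
  have hR := abs_le.1 (hY.R_le x.2 y.2)
  have hd : |Y.dl r x.2 y.2| ≤ 2 * Cb := by
    unfold LedSys.dl
    rw [abs_mul, abs_of_nonneg hb0]
    have h1 : |Y.R x.2 y.2 - Y.S r| ≤ 2 := by rw [abs_le]; constructor <;> linarith [hR.1, hR.2]
    calc Y.b r * |Y.R x.2 y.2 - Y.S r| ≤ Y.b r * 2 := mul_le_mul_of_nonneg_left h1 hb0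
      _ ≤ 2 * Cb := by linarith [hb r]
  have hK : |Y.K r| ≤ 2 * Cb := by
    unfold LedSys.K
    rw [abs_of_nonneg (add_nonneg hh0 (mul_nonneg hb0 hS0))]
    have : Y.b r * Y.S r ≤ Y.b r * 1 := mul_le_mul_of_nonneg_left hS1 hb0
    linarith [hb r, hh r]
  constructor
  · unfold LedSys.kRow
    rw [abs_mul, abs_mul, ledk_sg_abs, ledk_sg_abs, one_mul, one_mul]
    refine (abs_add_le _ _).trans ?_
    rw [abs_mul, abs_of_nonneg ht.1]
    have : t * |Y.dl r x.2 y.2| ≤ 1 * |Y.dl r x.2 y.2| := mul_le_mul_of_nonneg_right ht.2 (abs_nonneg _)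
    linarith
  · unfold LedSys.kErr
    rw [abs_mul, abs_mul, ledk_sg_abs, ledk_sg_abs, one_mul, one_mul]
    exact hd

end sys

/-- **PE Lemma 4.3** (Gronwall in both directions).   TEX[PE:lem:cavity-row-change] -/
theorem ledk_gronwall (q : ℕ) (Cb : ℝ) : ∃ C : ℝ, 1 ≤ C ∧ ∀ (Ω : Type) (Y : LedSys Ω), Y.Ok →
    (∀ r, Y.b r ≤ Cb) → (∀ r, Y.h r ≤ Cb) →
    ∀ (lam lam' : ℕ → ℝ) (t t' : ℝ) (τ : ℕ → ℕ → ℕ) (P : (ℕ → Bool × Ω) → ℝ), LedProf lam → LedProf lam' →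
      t ∈ Set.Icc (0 : ℝ) 1 → t' ∈ Set.Icc (0 : ℝ) 1 → IsTr Y.N q τ → TrUses q P → (∀ σ, 0 ≤ P σ) →
      Y.nu lam t q τ P ≤ C * Y.nu lam' t' q τ P := by
  refine ⟨max 1 (ledbC Cb q), le_max_left _ _, ?_⟩
  intro Ω Y hY hb hh lam lam' t t' τ P hl hl' ht ht' hτ hP hP0
  have H : LedbHyp Y Cb := ⟨hY, hb, hh, hY.ms_top.le⟩
  refine (ledb_transfer H hl hl' ht ht' hτ hP hP0).trans ?_
  exact mul_le_mul_of_nonneg_right (le_max_right _ _) ((hY.mean lam' t' q τ hl' ht' hτ).nonneg P hP0)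

/-! ## K5. Hoelder bounds of the terms -/

/-- `L^r` norm of the kernel `V` at the depth `j`, under the ACTUAL pair law -/
noncomputable def LedSys.nK {Ω : Type} (Y : LedSys Ω) (r : ℝ) (V : LedKer Ω) (j : ℕ) : ℝ :=
  ledNm (Y.act 2 (ledPair Y.N j)) r fun σ => V j (σ 0) (σ 1)

/-- a factor with its Hoelder weight `w = 1 / p` and its cost at every depth -/
structure LedCF (Ω : Type) where
  c : ℕ
  d : ℕ
  V : LedKer Ω
  w : ℝ
  cost : ℕ → ℝ

/-- the underlying factor -/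
def LedCF.fac {Ω : Type} (f : LedCF Ω) : LedFac Ω := (f.c, f.d, f.V)

/-- admissible costed factor on the labels `< Q` -/
structure LedCF.Ok {Ω : Type} (f : LedCF Ω) (Y : LedSys Ω) (Q : ℕ) : Prop where
  c_lt : f.c < Q
  d_lt : f.d < Q
  ne : f.c ≠ f.d
  w_pos : 0 < f.w
  le : ∀ j, j ≤ Y.N + 1 → Y.nK (1 / f.w) f.V j ≤ f.cost j

theorem ledk_defs_eqns_cite : True := by
  have := @LedSys.nK.eq_1
  have := @LedCF.fac.eq_1
  trivial

theorem ledk_facs_cf {Ω : Type} (fs : List (LedCF Ω)) (τ' : ℕ → ℕ → ℕ) (σ : ℕ → Bool × Ω) :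
    ledFacs (fs.map LedCF.fac) τ' σ = (fs.map fun f => f.V (τ' f.c f.d) (σ f.c) (σ f.d)).prod := by
  unfold ledFacs
  rw [List.map_map]
  rfl

theorem ledk_prod_const_mul {α : Type} (c : ℝ) (l : List α) (g : α → ℝ) :
    (l.map fun a => c * g a).prod = c ^ l.length * (l.map g).prod := by
  induction l with
  | nil => simp
  | cons a l ih => simp only [List.map_cons, List.prod_cons, ih, List.length_cons]; ring

/-- **pointwise Hoelder bound**: ONE table `τ'` on `Q` labels; `J` uses the labels `< q ≤ Q`. -/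
theorem ledk_pw (Q nf : ℕ) (Cb : ℝ) : ∃ C : ℝ, 0 ≤ C ∧ ∀ (Ω : Type) (Y : LedSys Ω), Y.Ok → (∀ r, Y.b r ≤ Cb) → (∀ r, Y.h r ≤ Cb) →
    ∀ (lam : ℕ → ℝ) (t : ℝ) (q : ℕ) (τ' : ℕ → ℕ → ℕ) (J : (ℕ → Bool × Ω) → ℝ) (fs : List (LedCF Ω)) (wJ p0 : ℝ),
      LedProf lam → t ∈ Set.Icc (0 : ℝ) 1 → q ≤ Q → IsTr Y.N Q τ' → TrUses q J → fs.length ≤ nf → (∀ f ∈ fs, f.Ok Y Q) →
      0 < wJ → wJ + (fs.map fun f => f.w).sum ≤ 1 → ledNm (Y.act q τ') (1 / wJ) J ≤ p0 →
      |Y.nu lam t Q τ' fun σ => J σ * ledFacs (fs.map LedCF.fac) τ' σ| ≤ C * p0 * (fs.map fun f => f.cost (τ' f.c f.d)).prod := by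
  obtain ⟨Cg, hCg1, hG⟩ := ledk_gronwall Q Cb
  have hCg0 : 0 ≤ Cg := by linarith
  refine ⟨Cg ^ (nf + 1), pow_nonneg hCg0 _, ?_⟩
  intro Ω Y hY hb hh lam t q τ' J fs wJ p0 hlam ht hqQ hτ' hJ hlen hfs hwJ hsum hp0
  have h11 : (1 : ℝ) ∈ Set.Icc (0 : ℝ) 1 := ⟨zero_le_one, le_rfl⟩
  have hμ : LedMean (Y.nu lam t Q τ') := hY.mean lam t Q τ' hlam ht hτ'
  have hμ1 : LedMean (Y.act Q τ') := hY.mean _ 1 Q τ' ledk_one_prof h11 hτ'
  have hτq : IsTr Y.N q τ' := tr_isTr_mono hτ' hqQ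
  have hμq : LedMean (Y.act q τ') := hY.mean _ 1 q τ' ledk_one_prof h11 hτq
  have hcmp : ∀ g : (ℕ → Bool × Ω) → ℝ, TrUses Q g → (∀ σ, 0 ≤ g σ) → Y.nu lam t Q τ' g ≤ Cg * Y.act Q τ' g :=
    fun g hg hg0 => hG Ω Y hY hb hh lam (fun _ => 1) t 1 τ' g hlam ledk_one_prof ht h11 hτ' hg hg0
  have hw0 : ∀ x ∈ fs.map (fun f => f.w), (0 : ℝ) ≤ x := by
    intro x hx
    obtain ⟨f, hf, rfl⟩ := List.mem_map.1 hx
    exact (hfs f hf).w_pos.le
  have hp00 : 0 ≤ p0 := (ledk_nm_nonneg hμq _ _).trans hp0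
  have hcost0 : ∀ f ∈ fs, 0 ≤ f.cost (τ' f.c f.d) := by
    intro f hf
    have hj : τ' f.c f.d ≤ Y.N + 1 := hτ'.le _ _ (hfs f hf).c_lt (hfs f hf).d_lt
    refine le_trans ?_ ((hfs f hf).le _ hj)
    exact ledk_nm_nonneg (hY.mean _ 1 2 _ ledk_one_prof h11 (ledk_pair_isTr Y.N _ hj)) _ _
  -- the norm of the test
  have hJn : ledNm (Y.nu lam t Q τ') (1 / wJ) J ≤ Cg * p0 := by
    have hw1 : wJ ≤ 1 := by have := List.sum_nonneg hw0; linarith
    have hr : 1 ≤ 1 / wJ := by rw [le_div_iff₀ hwJ]; linarith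
    have hu : TrUses q (fun σ => |J σ| ^ (1 / wJ)) := fun σ σ' h => by
      show |J σ| ^ (1 / wJ) = |J σ'| ^ (1 / wJ)
      rw [hJ σ σ' h]
    obtain ⟨k, rfl⟩ : ∃ k, Q = q + k := ⟨Q - q, by omega⟩
    have h1 := hcmp _ (ledk_uses_mono hqQ hu) fun σ => Real.rpow_nonneg (abs_nonneg _) _
    have h2 : Y.act (q + k) τ' (fun σ => |J σ| ^ (1 / wJ)) = Y.act q τ' fun σ => |J σ| ^ (1 / wJ) :=
      ledk_old hY ledk_one_prof h11 k hτ' _ hu
    rw [h2] at h1
    exact (ledk_nm_le_of_le hμ hCg1 hr J h1).trans (mul_le_mul_of_nonneg_left hp0 hCg0)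
  -- the norms of the factors
  have hFn : ∀ f ∈ fs, ledNm (Y.nu lam t Q τ') (1 / f.w) (fun σ => f.V (τ' f.c f.d) (σ f.c) (σ f.d))
      ≤ Cg * f.cost (τ' f.c f.d) := by
    intro f hf
    have hfo := hfs f hf
    have hj : τ' f.c f.d ≤ Y.N + 1 := hτ'.le _ _ hfo.c_lt hfo.d_lt
    have hw1 : f.w ≤ 1 := by
      have := List.single_le_sum hw0 f.w (List.mem_map.2 ⟨f, hf, rfl⟩)
      linarith
    have hr : 1 ≤ 1 / f.w := by rw [le_div_iff₀ hfo.w_pos]; linarith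
    have hu : TrUses Q (fun σ : ℕ → Bool × Ω => |f.V (τ' f.c f.d) (σ f.c) (σ f.d)| ^ (1 / f.w)) := fun σ σ' h => by
      show |f.V (τ' f.c f.d) (σ f.c) (σ f.d)| ^ (1 / f.w) = |f.V (τ' f.c f.d) (σ' f.c) (σ' f.d)| ^ (1 / f.w)
      rw [h _ hfo.c_lt, h _ hfo.d_lt]
    have h1 := hcmp _ hu fun σ => Real.rpow_nonneg (abs_nonneg _) _
    have h3 := ledk_nm_le_of_le (μ' := Y.act Q τ') hμ hCg1 hr (fun σ => f.V (τ' f.c f.d) (σ f.c) (σ f.d)) h1
    have h4 : ledNm (Y.act Q τ') (1 / f.w) (fun σ => f.V (τ' f.c f.d) (σ f.c) (σ f.d)) = Y.nK (1 / f.w) f.V (τ' f.c f.d) := by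
      unfold LedSys.nK ledNm
      congr 1
      exact ledk_pair hY ledk_one_prof h11 hτ' hfo.c_lt hfo.d_lt hfo.ne fun x y => |f.V (τ' f.c f.d) x y| ^ (1 / f.w)
    rw [h4] at h3
    exact h3.trans (mul_le_mul_of_nonneg_left (hfo.le _ hj) hCg0)
  -- Hoelder
  have hH := ledk_holder_list hμ
    ((J, wJ, Cg * p0) :: fs.map fun f => ((fun σ => f.V (τ' f.c f.d) (σ f.c) (σ f.d)), f.w, Cg * f.cost (τ' f.c f.d)))
    (by
      intro e he
      rcases List.mem_cons.1 he with rfl | he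
      · exact ⟨hwJ, hJn⟩
      · obtain ⟨f, hf, rfl⟩ := List.mem_map.1 he
        exact ⟨(hfs f hf).w_pos, hFn f hf⟩)
    (by
      simp only [List.map_cons, List.map_map, List.sum_cons]
      exact hsum)
  simp only [List.map_cons, List.map_map, List.prod_cons] at hH
  have e1 : (fun σ => J σ * ledFacs (fs.map LedCF.fac) τ' σ)
      = fun x => J x * (List.map ((fun e : ((ℕ → Bool × Ω) → ℝ) × ℝ × ℝ => e.1 x) ∘ fun f : LedCF Ω =>
          ((fun σ => f.V (τ' f.c f.d) (σ f.c) (σ f.d)), f.w, Cg * f.cost (τ' f.c f.d))) fs).prod := by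
    funext σ
    rw [ledk_facs_cf]
    rfl
  rw [e1]
  refine hH.trans ?_
  have e2 : (List.map ((fun e : ((ℕ → Bool × Ω) → ℝ) × ℝ × ℝ => e.2.2) ∘ fun f : LedCF Ω =>
      ((fun σ => f.V (τ' f.c f.d) (σ f.c) (σ f.d)), f.w, Cg * f.cost (τ' f.c f.d))) fs).prod
      = Cg ^ fs.length * (fs.map fun f => f.cost (τ' f.c f.d)).prod := by
    rw [← ledk_prod_const_mul]
    rfl
  rw [e2]
  have hprod0 : 0 ≤ (fs.map fun f => f.cost (τ' f.c f.d)).prod := by
    refine List.prod_nonneg fun x hx => ?_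
    obtain ⟨f, hf, rfl⟩ := List.mem_map.1 hx
    exact hcost0 f hf
  have hpow : Cg ^ (fs.length + 1) ≤ Cg ^ (nf + 1) := pow_le_pow_right₀ hCg1 (by omega)
  calc Cg * p0 * (Cg ^ fs.length * (fs.map fun f => f.cost (τ' f.c f.d)).prod)
      = Cg ^ (fs.length + 1) * (p0 * (fs.map fun f => f.cost (τ' f.c f.d)).prod) := by ring
    _ ≤ Cg ^ (nf + 1) * (p0 * (fs.map fun f => f.cost (τ' f.c f.d)).prod) :=
        mul_le_mul_of_nonneg_right hpow (mul_nonneg hp00 hprod0)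
    _ = _ := by ring

/-- a sum over extended tables is bounded through a pointwise bound on the EXTENSIONS of `τ` -/
theorem ledk_sumK_le {N q : ℕ} {τ : ℕ → ℕ → ℕ} {ms : ℕ → ℝ} (hτ : IsTr N q τ) (k : ℕ) (Φ Ψ : (ℕ → ℕ → ℕ) → ℝ)
    (h : ∀ τ', IsTr N (q + k) τ' → (∀ y z, y < q → z < q → τ' y z = τ y z) → |Φ τ'| ≤ Ψ τ') :
    |trSumK ms N k q τ Φ| ≤ trAbsK ms N k q τ Ψ := by
  classical
  refine (tr_sumK_le k Φ).trans ?_
  rw [tr_absK_congr hτ k (fun τ' => |Φ τ'|)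
    (fun τ' => if (∀ y z, y < q → z < q → τ' y z = τ y z) then |Φ τ'| else Ψ τ') fun τ' _ h2 => by rw [if_pos h2]]
  refine tr_absK_mono hτ k _ _ fun τ' h1 => ?_
  split_ifs with h2
  · exact h τ' h1 h2
  · exact le_rfl

/-- **Hoelder bound of a term** by the total variation sum of the costs. -/
theorem ledk_tm_le (q k nf : ℕ) (Cb : ℝ) : ∃ C : ℝ, 0 ≤ C ∧ ∀ (Ω : Type) (Y : LedSys Ω), Y.Ok → (∀ r, Y.b r ≤ Cb) → (∀ r, Y.h r ≤ Cb) →
    ∀ (lam : ℕ → ℝ) (t : ℝ) (τ : ℕ → ℕ → ℕ) (κ : (ℕ → ℕ → ℕ) → ℝ) (J : (ℕ → Bool × Ω) → ℝ) (fs : List (LedCF Ω)) (wJ p0 : ℝ),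
      LedProf lam → t ∈ Set.Icc (0 : ℝ) 1 → IsTr Y.N q τ → TrUses q J → fs.length ≤ nf → (∀ f ∈ fs, f.Ok Y (q + k)) →
      0 < wJ → wJ + (fs.map fun f => f.w).sum ≤ 1 → ledNm (Y.act q τ) (1 / wJ) J ≤ p0 →
      |Y.tm lam t q τ k κ J (fs.map LedCF.fac)|
        ≤ C * p0 * trAbsK Y.ms Y.N k q τ fun τ' => |κ τ'| * (fs.map fun f => f.cost (τ' f.c f.d)).prod := by
  obtain ⟨C, hC, hpw⟩ := ledk_pw (q + k) nf Cb
  refine ⟨C, hC, ?_⟩
  intro Ω Y hY hb hh lam t τ κ J fs wJ p0 hlam ht hτ hJ hlen hfs hwJ hsum hp0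
  unfold LedSys.tm
  rw [← tra2_absK_const_mul]
  refine ledk_sumK_le hτ k _ _ fun τ' h1 h2 => ?_
  have hn : ledNm (Y.act q τ') (1 / wJ) J ≤ p0 := by
    have : Y.act q τ' (fun x => |J x| ^ (1 / wJ)) = Y.act q τ fun x => |J x| ^ (1 / wJ) :=
      hY.congr _ 1 q τ' τ _ h2
    unfold ledNm
    rw [this]
    exact hp0
  have h3 := hpw Ω Y hY hb hh lam t q τ' J fs wJ p0 hlam ht (Nat.le_add_right q k) h1 hJ hlen hfs hwJ hsum hn
  rw [abs_mul]
  calc |κ τ'| * |Y.nu lam t (q + k) τ' fun σ => J σ * ledFacs (fs.map LedCF.fac) τ' σ|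
      ≤ |κ τ'| * (C * p0 * (fs.map fun f => f.cost (τ' f.c f.d)).prod) := mul_le_mul_of_nonneg_left h3 (abs_nonneg _)
    _ = _ := by ring

theorem ledk_facs_bdd {Ω : Type} (fs : List (LedFac Ω × ℝ)) (h : ∀ f ∈ fs, ∀ j x y, |f.1.2.2 j x y| ≤ f.2)
    (τ' : ℕ → ℕ → ℕ) (σ : ℕ → Bool × Ω) : |ledFacs (fs.map Prod.fst) τ' σ| ≤ (fs.map Prod.snd).prod := by
  unfold ledFacs
  induction fs with
  | nil => simp
  | cons f fs ih =>
    simp only [List.map_cons, List.prod_cons, abs_mul]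
    exact mul_le_mul (h f List.mem_cons_self _ _ _) (ih fun f' hf' => h f' (List.mem_cons_of_mem _ hf')) (abs_nonneg _)
      ((abs_nonneg _).trans (h f List.mem_cons_self (τ' f.1.1 f.1.2.1) (σ f.1.1) (σ f.1.2.1)))

/-- bounded kernels, bounded test, bounded coefficient -/
theorem ledk_tm_bdd (q k : ℕ) : ∃ C : ℝ, 0 ≤ C ∧ ∀ (Ω : Type) (Y : LedSys Ω), Y.Ok →
    ∀ (lam : ℕ → ℝ) (t : ℝ) (τ : ℕ → ℕ → ℕ) (κ : (ℕ → ℕ → ℕ) → ℝ) (J : (ℕ → Bool × Ω) → ℝ) (fs : List (LedFac Ω × ℝ)) (M : ℝ),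
      LedProf lam → t ∈ Set.Icc (0 : ℝ) 1 → IsTr Y.N q τ → (∀ τ', |κ τ'| ≤ 1) → (∀ σ, |J σ| ≤ M) →
      (∀ f ∈ fs, ∀ j x y, |f.1.2.2 j x y| ≤ f.2) →
      |Y.tm lam t q τ k κ J (fs.map Prod.fst)| ≤ C * M * (fs.map Prod.snd).prod := by
  refine ⟨2 ^ k * ∏ i ∈ Finset.range k, ((q : ℝ) + i), by positivity, ?_⟩
  intro Ω Y hY lam t τ κ J fs M hlam ht hτ hκ hJ hfs
  unfold LedSys.tm
  refine (tr_sumK_le k _).trans ?_
  have h1 := tr_absK_le hτ hY.ms_ok k
    (fun τ' => κ τ' * Y.nu lam t (q + k) τ' fun σ => J σ * ledFacs (fs.map Prod.fst) τ' σ) (M * (fs.map Prod.snd).prod) (by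
      intro τ' hτ'
      have hμ : LedMean (Y.nu lam t (q + k) τ') := hY.mean lam t (q + k) τ' hlam ht hτ'
      have h2 : |Y.nu lam t (q + k) τ' fun σ => J σ * ledFacs (fs.map Prod.fst) τ' σ| ≤ M * (fs.map Prod.snd).prod := by
        refine (ledk_abs_le hμ _).trans ?_
        rw [← ledk_const hμ (M * (fs.map Prod.snd).prod)]
        refine ledk_mono hμ fun σ => ?_
        rw [abs_mul]
        exact mul_le_mul (hJ σ) (ledk_facs_bdd fs hfs τ' σ) (abs_nonneg _) ((abs_nonneg _).trans (hJ σ))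
      rw [abs_mul]
      calc |κ τ'| * |Y.nu lam t (q + k) τ' fun σ => J σ * ledFacs (fs.map Prod.fst) τ' σ|
          ≤ 1 * (M * (fs.map Prod.snd).prod) := mul_le_mul (hκ τ') h2 (abs_nonneg _) zero_le_one
        _ = _ := one_mul _)
  rw [hY.ms_top, mul_one] at h1
  refine h1.trans (le_of_eq ?_)
  ring

end Claimed.Agent.R286
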