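import Claimed.Agent.R286.Cav.Tst
import Claimed.Agent.R286.Cav.LedDefs
import Claimed.Agent.R286.Fd.TrA5

/-!
# Row 286 (S0533), folder Cav, file TstMod : THE MODEL FUNCTIONALS `nuM`, `LM` of the record `CvtMod`, on the `LedSys` of helper204 (`ℕ`-tables of `Defs/Tr`)      (owner helper218; prefix `cvt`, `led_t_`)

* `cvtStar N kI kS`   the star table: `x = y : N + 1`;  a pair which contains the label `0` (initial tooth) shares `kI` stages;  every other pair shares `kS` stages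
* `Y.eDl, Y.mEv`      the factor `Δ⁻_cd = R⁻_cd - S_{j(c,d)}` of an edge, the monomial as a REST test (deleted overlaps: this is the form in which (24) = `led_main` delivers and consumes tests; the only restoration is in the left side of (25))
* `Y.insM kU q τ a P` **`𝓛(P,a) = ν[P M_a]`** (PE (23)) for ANY table and ANY test `P : (ℕ → Bool × Ω) → ℝ` on the labels `< q`: new labels `c = q`, `e = q + 1`, `f = q + 2` in the block of `a` at the cut of depth `kU`
* `Y.nuQ, Y.nuM`, `Y.LQ, Y.LM`   the functionals on monomials (`q` labels; `q` = first label above the monomial)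
PROVED HERE (from `Y.Ok` and `Fd/TrA*`): `cvt_star_isTr`, `led_t_nu_del` (deletion of an unused label at ANY position), `led_t_nuQ_eq` (independence of `q`), `led_t_ins_relabel`, `led_t_ins_del`, `led_t_LQ_eq`, **`led_t_perm`** = the field `hperm` of `CvtMod`.
-/

set_option autoImplicit false

namespace Claimed.Agent.R286

open Finset

/-- the star table -/
def cvtStar (N kI kS : ℕ) : ℕ → ℕ → ℕ := fun x y => if x = y then N + 1 else if x = 0 ∨ y = 0 then kI else kS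

theorem cvt_star_isTr {N kI kS : ℕ} (h1 : kI ≤ kS) (h2 : kS ≤ N) (q : ℕ) : IsTr N q (cvtStar N kI kS) := by
  refine ⟨?_, ?_, ?_, ?_⟩
  · intro x y _ _
    unfold cvtStar
    split_ifs <;> omega
  · intro x _
    simp [cvtStar]
  · intro x y _ _
    unfold cvtStar
    by_cases h : x = y
    · rw [if_pos h, if_pos h.symm]
    · have h' : ¬ y = x := fun e => h e.symm
      simp only [if_neg h, if_neg h', or_comm]
  · intro x y z _ _ _
    unfold cvtStar
    split_ifs <;> omega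

/-- the shift which skips the label `p` -/
def cvtSk (p i : ℕ) : ℕ := if i < p then i else i + 1

namespace LedSys

variable {Ω : Type} (Y : LedSys Ω)

/-- the factor of an edge of the star table -/
def eDl (kI kS : ℕ) (ω : ℕ → Ω) (e : ℕ × ℕ) : ℝ := Y.R (ω e.1) (ω e.2) - Y.S (if e.1 = 0 ∨ e.2 = 0 then kI else kS)

/-- the monomial as a rest test -/
def mEv (kI kS : ℕ) (m : CvtMon) (ω : ℕ → Ω) : ℝ := (m.map (Y.eDl kI kS ω)).prod

/-- coefficient of the insertion `M_a`: `c = q`, `e = q + 1`, `f = q + 2` in the block of `a`, `e ≠ f` -/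
noncomputable def coefM (kU q a : ℕ) (τ' : ℕ → ℕ → ℕ) : ℝ :=
  if kU ≤ τ' a q ∧ kU ≤ τ' a (q + 1) ∧ kU ≤ τ' a (q + 2) ∧ τ' (q + 1) (q + 2) ≤ Y.N then
    1 / 2 * Y.kap4 kU (q + 3) τ' a q (q + 1) (q + 2) else 0

/-- **`𝓛(P,a) = ν[P M_a]`** on the table `τ` with `q` labels -/
noncomputable def insM (kU q : ℕ) (τ : ℕ → ℕ → ℕ) (a : ℕ) (P : (ℕ → Bool × Ω) → ℝ) : ℝ :=
  trSumK Y.ms Y.N 3 q τ fun τ' => Y.coefM kU q a τ' *
    Y.act (q + 3) τ' fun σ => P σ * Y.dl (τ' (q + 1) (q + 2)) (σ (q + 1)).2 (σ (q + 2)).2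

/-- `ν[m]` on the star table with `q` labels -/
def nuQ (kI kS q : ℕ) (m : CvtMon) : ℝ := Y.act q (cvtStar Y.N kI kS) fun σ => Y.mEv kI kS m fun i => (σ i).2

/-- `ν[m]` -/
def nuM (kI kS : ℕ) (m : CvtMon) : ℝ := Y.nuQ kI kS (cvtTopM m) m

/-- `𝓛(m,a)` on the star table with `q` labels -/
noncomputable def LQ (kI kS kU q : ℕ) (m : CvtMon) (a : ℕ) : ℝ := Y.insM kU q (cvtStar Y.N kI kS) a fun σ => Y.mEv kI kS m fun i => (σ i).2

/-- `𝓛(m,a)` -/
noncomputable def LM (kI kS kU : ℕ) (m : CvtMon) (a : ℕ) : ℝ := Y.LQ kI kS kU (max (cvtTopM m) (a + 1)) m a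

end LedSys

theorem cvt_eqns_cite8 : True := by
  have := @cvtStar.eq_1
  have := @cvtSk.eq_1
  have := @LedSys.eDl.eq_1
  have := @LedSys.mEv.eq_1
  have := @LedSys.coefM.eq_1
  have := @LedSys.insM.eq_1
  have := @LedSys.nuQ.eq_1
  have := @LedSys.nuM.eq_1
  have := @LedSys.LQ.eq_1
  have := @LedSys.LM.eq_1
  trivial

variable {Ω : Type} (Y : LedSys Ω)

/-- the monomial uses the labels below its top -/
theorem led_t_mEv_congr (kI kS : ℕ) (m : CvtMon) {ω ω' : ℕ → Ω} (h : ∀ i, i < cvtTopM m → ω i = ω' i) : Y.mEv kI kS m ω = Y.mEv kI kS m ω' := by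
  unfold LedSys.mEv
  congr 1
  refine List.map_congr_left fun e he => ?_
  have := cvt_lt_topM he
  unfold LedSys.eDl
  rw [h _ this.1, h _ this.2]

theorem led_t_mEv_uses (kI kS : ℕ) (m : CvtMon) {q : ℕ} (hq : cvtTopM m ≤ q) : TrUses q fun σ : ℕ → Bool × Ω => Y.mEv kI kS m fun i => (σ i).2 := by
  intro σ σ' h
  exact led_t_mEv_congr Y kI kS m fun i hi => by rw [h i (by omega)]

theorem led_t_prof1 : LedProf fun _ => (1 : ℝ) := ⟨fun _ => zero_le_one, fun _ => le_rfl, fun _ _ _ => le_rfl⟩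

theorem led_t_one_mem : (1 : ℝ) ∈ Set.Icc (0 : ℝ) 1 := ⟨zero_le_one, le_rfl⟩

theorem led_t_zero_mem : (0 : ℝ) ∈ Set.Icc (0 : ℝ) 1 := ⟨le_rfl, zero_le_one⟩

/-- marginalisation of several last labels -/
theorem led_t_prune (hY : Y.Ok) {lam : ℕ → ℝ} {t : ℝ} (hl : LedProf lam) (ht : t ∈ Set.Icc (0 : ℝ) 1) {q : ℕ} (k : ℕ) {τ : ℕ → ℕ → ℕ}
    (hτ : IsTr Y.N (q + k) τ) {P : (ℕ → Bool × Ω) → ℝ} (hP : TrUses q P) : Y.nu lam t (q + k) τ P = Y.nu lam t q τ P := by
  induction k with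
  | zero => rfl
  | succ k ih =>
    have h1 : TrUses (q + k) P := fun σ σ' h => hP σ σ' fun i hi => h i (by omega)
    rw [← ih (tr_isTr_mono hτ (by omega))]
    exact hY.prune lam t (q + k) τ P hl ht hτ h1

/-- `ν[m]` does not depend on the number of labels -/
theorem led_t_nuQ_eq (hY : Y.Ok) {kI kS : ℕ} (h1 : kI ≤ kS) (h2 : kS ≤ Y.N) (m : CvtMon) {q : ℕ} (hq : cvtTopM m ≤ q) :
    Y.nuQ kI kS q m = Y.nuM kI kS m := by
  obtain ⟨k, rfl⟩ := Nat.exists_eq_add_of_le hq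
  exact led_t_prune Y hY led_t_prof1 led_t_one_mem k (cvt_star_isTr h1 h2 _) (led_t_mEv_uses Y kI kS m le_rfl)

theorem cvt_sk_swap (p i : ℕ) : Equiv.swap p (p + 1) (cvtSk (p + 1) i) = cvtSk p i := by
  unfold cvtSk
  rcases lt_trichotomy i p with h | h | h
  · rw [if_pos (by omega), if_pos h]
    exact Equiv.swap_apply_of_ne_of_ne (by omega) (by omega)
  · subst h
    rw [if_pos (by omega), if_neg (by omega)]
    exact Equiv.swap_apply_left _ _
  · rw [if_neg (by omega), if_neg (by omega)]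
    exact Equiv.swap_apply_of_ne_of_ne (by omega) (by omega)

theorem cvt_del_eq (p : ℕ) (τ : ℕ → ℕ → ℕ) : trDel p τ = fun y z => τ (cvtSk p y) (cvtSk p z) := rfl

/-- **deletion of an unused label at any position** -/
theorem led_t_nu_del (hY : Y.Ok) {lam : ℕ → ℝ} {t : ℝ} (hl : LedProf lam) (ht : t ∈ Set.Icc (0 : ℝ) 1) {q : ℕ} (k : ℕ) :
    ∀ (p : ℕ), p + k = q → ∀ {τ : ℕ → ℕ → ℕ}, IsTr Y.N (q + 1) τ → ∀ {P : (ℕ → Bool × Ω) → ℝ}, TrUses q P →
    Y.nu lam t (q + 1) τ (fun σ => P fun i => σ (cvtSk p i)) = Y.nu lam t q (trDel p τ) P := by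
  induction k with
  | zero =>
    intro p hp τ hτ P hP
    have hpq : p = q := by omega
    subst hpq
    have e1 : (fun σ : ℕ → Bool × Ω => P fun i => σ (cvtSk p i)) = P := by
      funext σ
      exact hP _ _ fun i hi => by simp [cvtSk, hi]
    rw [e1, hY.prune lam t p τ P hl ht hτ hP]
    refine hY.congr lam t p τ _ P fun x y hx hy => ?_
    simp [trDel, hx, hy]
  | succ k ih =>
    intro p hp τ hτ P hP
    set e : Equiv.Perm ℕ := Equiv.swap p (p + 1) with he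
    have hes : e.symm = e := Equiv.symm_swap _ _
    have hfix : ∀ x, q + 1 ≤ x → e x = x := fun x hx => Equiv.swap_apply_of_ne_of_ne (by omega) (by omega)
    have hlt : ∀ x, x < q + 1 → e x < q + 1 := by
      intro x hx
      rcases eq_or_ne x p with h | h
      · rw [h, he, Equiv.swap_apply_left]; omega
      · rcases eq_or_ne x (p + 1) with h' | h'
        · rw [h', he, Equiv.swap_apply_right]; omega
        · rw [he, Equiv.swap_apply_of_ne_of_ne h h']; exact hx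
    have hP' : TrUses (q + 1) fun σ : ℕ → Bool × Ω => P fun i => σ (cvtSk p i) := by
      intro σ σ' h
      refine hP _ _ fun i hi => h _ ?_
      unfold cvtSk; split_ifs <;> omega
    have h1 := hY.perm lam t (q + 1) τ _ e hl ht hτ hP' hfix
    rw [← h1]
    have e2 : (fun σ : ℕ → Bool × Ω => (fun σ : ℕ → Bool × Ω => P fun i => σ (cvtSk p i)) fun i => σ (e.symm i))
        = fun σ : ℕ → Bool × Ω => P fun i => σ (cvtSk (p + 1) i) := by
      funext σ
      simp only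
      congr 1
      funext i
      rw [hes, ← cvt_sk_swap p i, he, Equiv.swap_apply_self]
    rw [e2, ih (p + 1) (by omega) (tr_comap_isTr hτ e hlt) hP]
    congr 1
    rw [cvt_del_eq, cvt_del_eq]
    funext y z
    simp only [he, cvt_sk_swap]

theorem cvt_perm_symm_fix {q : ℕ} {e : Equiv.Perm ℕ} (he : ∀ y, q ≤ y → e y = y) : ∀ y, q ≤ y → e.symm y = y := by
  intro y hy
  rw [Equiv.symm_apply_eq, he y hy]

theorem cvt_perm_symm_lt {q : ℕ} {e : Equiv.Perm ℕ} (he : ∀ y, q ≤ y → e y = y) : ∀ x, x < q → e.symm x < q := by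
  intro x hx
  by_contra h
  have h1 := he (e.symm x) (by omega)
  rw [Equiv.apply_symm_apply] at h1
  omega

/-- relabelling, in the form "table read through `e.symm`" -/
theorem led_t_nu_perm (hY : Y.Ok) {lam : ℕ → ℝ} {t : ℝ} (hl : LedProf lam) (ht : t ∈ Set.Icc (0 : ℝ) 1) {q : ℕ} {τ : ℕ → ℕ → ℕ}
    (hτ : IsTr Y.N q τ) {e : Equiv.Perm ℕ} (he : ∀ y, q ≤ y → e y = y) {P : (ℕ → Bool × Ω) → ℝ} (hP : TrUses q P) :
    Y.nu lam t q τ (fun σ => P fun i => σ (e.symm i)) = Y.nu lam t q (fun y z => τ (e.symm y) (e.symm z)) P := by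
  have h := hY.perm lam t q (fun y z => τ (e.symm y) (e.symm z)) P e hl ht (tr_comap_isTr hτ e.symm (cvt_perm_symm_lt he)) hP he
  simpa using h

theorem led_t_profLam (k : ℕ) : LedProf (ledLam k 0) := by
  refine ⟨fun r => ?_, fun r => ?_, fun r s hrs => ?_⟩
  · unfold ledLam; split_ifs <;> norm_num
  · unfold ledLam; split_ifs <;> norm_num
  · show ledLam k 0 r ≤ ledLam k 0 s
    unfold ledLam
    split_ifs with h1 h2 h2
    · exact le_rfl
    · exact zero_le_one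
    · exact absurd (lt_of_le_of_lt hrs h2) h1
    · exact le_rfl

/-- the four point test -/
theorem led_t_four_uses {q a c e f : ℕ} (ha : a < q) (hc : c < q) (he : e < q) (hf : f < q) :
    TrUses q fun σ : ℕ → Bool × Ω => ledSg (σ a).1 * ledSg (σ c).1 * ledSg (σ e).1 * ledSg (σ f).1 := by
  intro σ σ' h
  simp only [h a ha, h c hc, h e he, h f hf]

theorem led_t_kap4_congr (hY : Y.Ok) (kU q : ℕ) {τ₁ τ₂ : ℕ → ℕ → ℕ} (h : ∀ y z, y < q → z < q → τ₁ y z = τ₂ y z) {a c e f : ℕ}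
    (ha : a < q) (hc : c < q) (he : e < q) (hf : f < q) : Y.kap4 kU q τ₁ a c e f = Y.kap4 kU q τ₂ a c e f := by
  unfold LedSys.kap4 LedSys.nuS
  rw [hY.congr _ _ q τ₁ τ₂ _ h, h a c ha hc, h e f he hf]

theorem led_t_kap4_perm (hY : Y.Ok) (kU : ℕ) {q : ℕ} {τ : ℕ → ℕ → ℕ} (hτ : IsTr Y.N q τ) {π : Equiv.Perm ℕ} (hπ : ∀ y, q ≤ y → π y = y)
    {a c e f : ℕ} (ha : a < q) (hc : c < q) (he : e < q) (hf : f < q) :
    Y.kap4 kU q τ (π.symm a) (π.symm c) (π.symm e) (π.symm f) = Y.kap4 kU q (fun y z => τ (π.symm y) (π.symm z)) a c e f := by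
  unfold LedSys.kap4 LedSys.nuS
  have h := led_t_nu_perm Y hY (led_t_profLam kU) led_t_zero_mem hτ hπ (led_t_four_uses (Ω := Ω) ha hc he hf)
  rw [← h]

theorem led_t_kap4_del (hY : Y.Ok) (kU : ℕ) {q p : ℕ} (hp : p ≤ q) {τ : ℕ → ℕ → ℕ} (hτ : IsTr Y.N (q + 1) τ)
    {a c e f : ℕ} (ha : a < q) (hc : c < q) (he : e < q) (hf : f < q) :
    Y.kap4 kU (q + 1) τ (cvtSk p a) (cvtSk p c) (cvtSk p e) (cvtSk p f) = Y.kap4 kU q (trDel p τ) a c e f := by
  unfold LedSys.kap4 LedSys.nuS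
  obtain ⟨k, hk⟩ := Nat.exists_eq_add_of_le hp
  have h := led_t_nu_del Y hY (led_t_profLam kU) led_t_zero_mem k p hk.symm hτ (led_t_four_uses (Ω := Ω) ha hc he hf)
  rw [← h]
  rfl

/-- the summand of `insM` -/
noncomputable def LedSys.insS (kU q a : ℕ) (P : (ℕ → Bool × Ω) → ℝ) (τ' : ℕ → ℕ → ℕ) : ℝ :=
  Y.coefM kU q a τ' * Y.act (q + 3) τ' fun σ => P σ * Y.dl (τ' (q + 1) (q + 2)) (σ (q + 1)).2 (σ (q + 2)).2

theorem cvt_eqns_cite9 : True := by
  have := @LedSys.insS.eq_1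
  trivial

theorem led_t_ins_uses {q : ℕ} {P : (ℕ → Bool × Ω) → ℝ} (hP : TrUses q P) (r : ℕ) :
    TrUses (q + 3) fun σ : ℕ → Bool × Ω => P σ * Y.dl r (σ (q + 1)).2 (σ (q + 2)).2 := by
  intro σ σ' h
  simp only
  rw [h (q + 1) (by omega), h (q + 2) (by omega), hP σ σ' fun i hi => h i (by omega)]

theorem led_t_insS_congr (hY : Y.Ok) (kU : ℕ) {q a : ℕ} (ha : a < q) (P : (ℕ → Bool × Ω) → ℝ) {τ₁ τ₂ : ℕ → ℕ → ℕ}
    (h : ∀ y z, y < q + 3 → z < q + 3 → τ₁ y z = τ₂ y z) : Y.insS kU q a P τ₁ = Y.insS kU q a P τ₂ := by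
  unfold LedSys.insS LedSys.coefM LedSys.act
  rw [hY.congr _ _ (q + 3) τ₁ τ₂ _ h, led_t_kap4_congr Y hY kU (q + 3) h (by omega) (by omega) (by omega) (by omega),
    h a q (by omega) (by omega), h a (q + 1) (by omega) (by omega), h a (q + 2) (by omega) (by omega), h (q + 1) (q + 2) (by omega) (by omega)]

/-- **relabelling of the old labels in `𝓛`** -/
theorem led_t_ins_relabel (hY : Y.Ok) (kU : ℕ) {q : ℕ} {τ : ℕ → ℕ → ℕ} (hτ : IsTr Y.N q τ) {a : ℕ} (ha : a < q) {P : (ℕ → Bool × Ω) → ℝ} (hP : TrUses q P)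
    (π : Equiv.Perm ℕ) (hπ : ∀ y, q ≤ y → π y = y) :
    Y.insM kU q (fun y z => τ (π y) (π z)) (π.symm a) (fun ω => P fun i => ω (π.symm i)) = Y.insM kU q τ a P := by
  have hlt : ∀ x, x < q → π x < q := by
    intro x hx
    have := cvt_perm_symm_lt (e := π.symm) (q := q) (cvt_perm_symm_fix hπ) x hx
    simpa using this
  have h1 := tr_sumK_relabel (ms := Y.ms) hτ 3 (Y.insS kU q a P) (fun τ₁ τ₂ h => led_t_insS_congr Y hY kU ha P h) π hπ
  show trSumK Y.ms Y.N 3 q _ (Y.insS kU q (π.symm a) fun ω => P fun i => ω (π.symm i)) = trSumK Y.ms Y.N 3 q τ (Y.insS kU q a P)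
  rw [← h1]
  refine tr_sumK_congr (tr_comap_isTr hτ π hlt) 3 _ _ fun τ' hτ' _ => ?_
  have hπ3 : ∀ y, q + 3 ≤ y → π y = y := fun y hy => hπ y (by omega)
  have f0 : π.symm q = q := cvt_perm_symm_fix hπ q le_rfl
  have f1 : π.symm (q + 1) = q + 1 := cvt_perm_symm_fix hπ _ (by omega)
  have f2 : π.symm (q + 2) = q + 2 := cvt_perm_symm_fix hπ _ (by omega)
  unfold LedSys.insS LedSys.coefM LedSys.act
  have k1 := led_t_kap4_perm Y hY kU hτ' hπ3 (a := a) (c := q) (e := q + 1) (f := q + 2) (by omega) (by omega) (by omega) (by omega)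
  rw [f0, f1, f2] at k1
  have k2 := led_t_nu_perm Y hY led_t_prof1 led_t_one_mem hτ' hπ3 (led_t_ins_uses Y hP (τ' (q + 1) (q + 2)))
  simp only [f0, f1, f2] at k2 ⊢
  rw [k1, k2]

/-- **deletion of an unused old label in `𝓛`** -/
theorem led_t_ins_del (hY : Y.Ok) (kU : ℕ) {q p : ℕ} (hp : p ≤ q) {τ : ℕ → ℕ → ℕ} (hτ : IsTr Y.N (q + 1) τ) {a : ℕ} (ha : a < q)
    {P : (ℕ → Bool × Ω) → ℝ} (hP : TrUses q P) :
    Y.insM kU (q + 1) τ (cvtSk p a) (fun ω => P fun i => ω (cvtSk p i)) = Y.insM kU q (trDel p τ) a P := by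
  have h1 := tr_sumK_del (ms := Y.ms) hτ hp 3 (Y.insS kU q a P) (fun τ₁ τ₂ h => led_t_insS_congr Y hY kU ha P h)
  show trSumK Y.ms Y.N 3 (q + 1) τ (Y.insS kU (q + 1) (cvtSk p a) fun ω => P fun i => ω (cvtSk p i)) = trSumK Y.ms Y.N 3 q (trDel p τ) (Y.insS kU q a P)
  rw [← h1]
  refine tr_sumK_congr hτ 3 _ _ fun τ' hτ' _ => ?_
  have hτ4 : IsTr Y.N (q + 3 + 1) τ' := by
    have : q + 3 + 1 = q + 1 + 3 := by omega
    rw [this]; exact hτ'
  have f0 : cvtSk p q = q + 1 := by unfold cvtSk; rw [if_neg (by omega)]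
  have f1 : cvtSk p (q + 1) = q + 1 + 1 := by unfold cvtSk; rw [if_neg (by omega)]
  have f2 : cvtSk p (q + 2) = q + 1 + 2 := by unfold cvtSk; rw [if_neg (by omega)]
  unfold LedSys.insS LedSys.coefM LedSys.act
  have k1 := led_t_kap4_del Y hY kU (q := q + 3) (p := p) (by omega) hτ4 (a := a) (c := q) (e := q + 1) (f := q + 2) (by omega) (by omega) (by omega) (by omega)
  rw [f0, f1, f2] at k1
  obtain ⟨k, hk⟩ := Nat.exists_eq_add_of_le (show p ≤ q + 3 by omega)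
  have k2 := led_t_nu_del Y hY led_t_prof1 led_t_one_mem k p hk.symm hτ4 (led_t_ins_uses Y hP (τ' (q + 1 + 1) (q + 1 + 2)))
  simp only [f1, f2] at k2
  have g0 : trDel p τ' a q = τ' (cvtSk p a) (q + 1) := by rw [cvt_del_eq]; simp only [f0]
  have g1 : trDel p τ' a (q + 1) = τ' (cvtSk p a) (q + 1 + 1) := by rw [cvt_del_eq]; simp only [f1]
  have g2 : trDel p τ' a (q + 2) = τ' (cvtSk p a) (q + 1 + 2) := by rw [cvt_del_eq]; simp only [f2]
  have g3 : trDel p τ' (q + 1) (q + 2) = τ' (q + 1 + 1) (q + 1 + 2) := by rw [cvt_del_eq]; simp only [f1, f2]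
  rw [g0, g1, g2, g3, ← k1, ← k2]

theorem led_t_mEv_ruses (kI kS : ℕ) (m : CvtMon) {q : ℕ} (hq : cvtTopM m ≤ q) : TrUses q (Y.mEv kI kS m) :=
  fun _ _ h => led_t_mEv_congr Y kI kS m fun i hi => h i (by omega)

theorem cvt_star_del (N kI kS : ℕ) {q : ℕ} (hq : 1 ≤ q) : trDel q (cvtStar N kI kS) = cvtStar N kI kS := by
  rw [cvt_del_eq]
  funext y z
  have h0 : ∀ i, cvtSk q i = 0 ↔ i = 0 := by
    intro i; unfold cvtSk
    split_ifs with h
    · exact Iff.rfl
    · have hi : i ≠ 0 := by omega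
      simp [hi]
  have hinj : cvtSk q y = cvtSk q z ↔ y = z := by
    unfold cvtSk; split_ifs <;> omega
  unfold cvtStar
  simp only [h0, hinj]

/-- one more unused label -/
theorem led_t_LQ_succ (hY : Y.Ok) {kI kS : ℕ} (h1 : kI ≤ kS) (h2 : kS ≤ Y.N) (kU : ℕ) (m : CvtMon) {a q : ℕ} (hq : cvtTopM m ≤ q) (ha : a < q) :
    Y.LQ kI kS kU (q + 1) m a = Y.LQ kI kS kU q m a := by
  have h := led_t_ins_del Y hY kU (le_refl q) (cvt_star_isTr h1 h2 (q + 1)) ha (led_t_mEv_uses Y kI kS m hq)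
  rw [cvt_star_del Y.N kI kS (by omega)] at h
  have e1 : cvtSk q a = a := by unfold cvtSk; rw [if_pos ha]
  have e2 : (fun σ : ℕ → Bool × Ω => Y.mEv kI kS m fun i => (σ (cvtSk q i)).2) = fun σ : ℕ → Bool × Ω => Y.mEv kI kS m fun i => (σ i).2 := by
    funext σ
    refine led_t_mEv_congr Y kI kS m fun i hi => ?_
    unfold cvtSk; rw [if_pos (by omega)]
  rw [e1, e2] at h
  exact h

/-- `𝓛(m,a)` does not depend on the number of labels -/
theorem led_t_LQ_eq (hY : Y.Ok) {kI kS : ℕ} (h1 : kI ≤ kS) (h2 : kS ≤ Y.N) (kU : ℕ) (m : CvtMon) {a q : ℕ} (hq : cvtTopM m ≤ q) (ha : a < q) :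
    Y.LQ kI kS kU q m a = Y.LM kI kS kU m a := by
  unfold LedSys.LM
  have hle : max (cvtTopM m) (a + 1) ≤ q := max_le hq ha
  have a1 : cvtTopM m ≤ max (cvtTopM m) (a + 1) := le_max_left _ _
  have a2 : a + 1 ≤ max (cvtTopM m) (a + 1) := le_max_right _ _
  generalize max (cvtTopM m) (a + 1) = q0 at hle a1 a2
  obtain ⟨k, rfl⟩ := Nat.exists_eq_add_of_le hle
  clear hle hq ha
  induction k with
  | zero => rfl
  | succ k ih =>
    rw [← ih]
    exact led_t_LQ_succ Y hY h1 h2 kU m (q := q0 + k) (by omega) (by omega)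

theorem cvt_star_swap (N kI kS : ℕ) {u v : ℕ} (hu : u ≠ 0) (hv : v ≠ 0) :
    (fun y z => cvtStar N kI kS (Equiv.swap u v y) (Equiv.swap u v z)) = cvtStar N kI kS := by
  funext y z
  have h0 : ∀ i, Equiv.swap u v i = 0 ↔ i = 0 := by
    intro i
    constructor
    · intro h
      have : i = Equiv.swap u v 0 := by rw [← h, Equiv.swap_apply_self]
      rw [this, Equiv.swap_apply_of_ne_of_ne hu.symm hv.symm]
    · intro h
      rw [h, Equiv.swap_apply_of_ne_of_ne hu.symm hv.symm]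
  unfold cvtStar
  simp only [h0, (Equiv.swap u v).injective.eq_iff]

/-- **the field `hperm` of `CvtMod`**: the insertion at a fresh target does not depend on its name -/
theorem led_t_perm (hY : Y.Ok) {kI kS : ℕ} (h1 : kI ≤ kS) (h2 : kS ≤ Y.N) (kU : ℕ) (m : CvtMon) (u v : ℕ) (hu : cvtTopM m ≤ u) (hv : cvtTopM m ≤ v) :
    Y.LM kI kS kU m u = Y.LM kI kS kU m v := by
  have hpos := cvtTopM_pos m
  set q := max u v + 1 with hq
  have hu' : u < q := by have := le_max_left u v; omega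
  have hv' : v < q := by have := le_max_right u v; omega
  rw [← led_t_LQ_eq Y hY h1 h2 kU m (q := q) (by omega) hu', ← led_t_LQ_eq Y hY h1 h2 kU m (q := q) (by omega) hv']
  have hfix : ∀ y, q ≤ y → Equiv.swap u v y = y := fun y hy => Equiv.swap_apply_of_ne_of_ne (by omega) (by omega)
  have h := led_t_ins_relabel Y hY kU (cvt_star_isTr h1 h2 q) hu' (led_t_mEv_uses Y kI kS m (q := q) (by omega)) (Equiv.swap u v) hfix
  rw [cvt_star_swap Y.N kI kS (by omega) (by omega), Equiv.symm_swap, Equiv.swap_apply_left] at h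
  have e2 : (fun σ : ℕ → Bool × Ω => Y.mEv kI kS m fun i => (σ (Equiv.swap u v i)).2) = fun σ : ℕ → Bool × Ω => Y.mEv kI kS m fun i => (σ i).2 := by
    funext σ
    refine led_t_mEv_congr Y kI kS m fun i hi => ?_
    rw [Equiv.swap_apply_of_ne_of_ne (by omega) (by omega)]
  rw [e2] at h
  exact h.symm

end Claimed.Agent.R286
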