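import Claimed.Agent.R286.Cav.PreBd
import Claimed.Agent.R286.Cav.Sys
import Claimed.Agent.R286.Cav.TstMod
import Claimed.Agent.R286.Cav.Defs
import Claimed.Agent.R286.Cav.LedKit
import Claimed.Agent.R286.Fd.ObsTw

/-!
# Row 286 (S0533), folder Cav (PE Section 4), file Bdy : PE Lemma 4.5 (boundary covariance estimate), CONCRETE FORM = the hypothesis `hbd` of `led_main`      (owner helper169; head helper18 / helper223; prefix `cvb`, `Cvb`)

The abstract estimate is `sk_cvpb_hbd` (helper18, `Cav/PreBd`, any hierarchy).   THIS FILE brings it to the consumer (`led_main` of 204 on `cvySys` of 223/194, star tests `Y.mEv` of 218):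
* 0. `Y.LeA`, `Y.LeR` : `‖g‖_{2k} ≤ c` under the actual / the rest-only law of a `LedSys`;  `cvbE` (`LedMean` -> `CvExp`: all of `Cav/PreLp` applies);  `cvb_leR_of_leA` = PE Lemma 4.3 for norms (from `ledk_gronwall`)
* 1. `CvbRep Y B ls pr` : the rest-only law of `Y` is a family of tree numbers;   `cvb_abs` = Lemma 4.5 in the vocabulary of `LedSys`, any table, monomial test      PROVED
* 2. `CvbIn` (inputs under the ACTUAL law, deleted overlaps), **`cvb_star`** = shape `hbd` on the star table, `be = C Ce^d (om A²/x) (layers)`, `p₀ = cvtMsz W x m`      PROVED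
* 3. `cvb_rep_li` (instance of `CvbRep` for `liSys`), `cvb_in_of_cav` (`CvbIn` from `CavIn.Ok`, `CavIn.Star`), `cvb_lay_le` (layers absorbed by the saving)      PROVED;   kit: `cvbSk`, `cvb_leA_of_sk` (norms under the actual law of `cvySys` from SK norms at size `m + 1`, via `cvy_act`), `cvb_pair_sk`, `cvb_tri_sk`, `cvb_raw/mom/res` (fields of `CavIn` as `CvLe`), `cvb_del` (deleted site)
* **EXIT `cvb_hbd`** : `be = Cbe sv W x²`.      PROVED (0 own sorry in this file).      **`cvb_hbd_s`** (sec. 4) = the same on the STAR-ONLY table (`ji := I.js`, monomials without initial edge; via `CvbIn.star_only`, scale `x := W`).      USE: `led_main .. (hbd := fun τ₁ o h1 h2 h3 h4 h5 h6 => (hCbe ..).trans ..)` with `p0 ≥ cvtMsz W x mon`.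
-/

set_option autoImplicit false

namespace Claimed.Agent.R286

open Finset

/-! ## 0. norms under the laws of a `LedSys` -/

/-- a positive normalised functional as a `CvExp` (bridge `LedMean` -> `Cav/Hol`, `Cav/PreLp`) -/
def cvbE {X : Type} {μ : (X → ℝ) → ℝ} (h : LedMean μ) : CvExp X where
  E := μ
  add := h.add
  smul := h.smul
  mono := fun f g hfg => by
    have h1 : 0 ≤ μ (fun x => g x + (-1) * f x) := h.nonneg _ fun x => by linarith [hfg x]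
    rw [h.add g (fun x => (-1) * f x), h.smul] at h1
    linarith
  one := h.one

namespace LedSys

variable {Ω : Type} (Y : LedSys Ω)

/-- `‖g‖_{2k} ≤ c` under the REST-ONLY law -/
def LeR (q : ℕ) (τ : ℕ → ℕ → ℕ) (k : ℕ) (g : (ℕ → Ω) → ℝ) (c : ℝ) : Prop :=
  0 ≤ c ∧ Y.nuR q τ (fun ω => g ω ^ (2 * k)) ≤ c ^ (2 * k)

/-- `‖g‖_{2k} ≤ c` under the ACTUAL law (`g` = function of the rest spins) -/
def LeA (q : ℕ) (τ : ℕ → ℕ → ℕ) (k : ℕ) (g : (ℕ → Ω) → ℝ) (c : ℝ) : Prop :=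
  0 ≤ c ∧ Y.act q τ (fun σ => g (ledRs σ) ^ (2 * k)) ≤ c ^ (2 * k)

end LedSys

/-- the rest-only law of `Y` = the tree numbers of a hierarchy `(B, ls)` on a finite set `S`, read through `pr : S → Ω` -/
structure CvbRep {Ω : Type} (Y : LedSys Ω) {S ι : Type} [Fintype S] [Fintype ι] [Inhabited S] (B : GhB S) (ls : List (GhLv S ι))
    (pr : S → Ω) : Prop where
  okB : B.Ok
  adm : GhAdm B 0 ls
  len : ls.length = Y.N
  ms : trMs B ls = Y.ms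
  nuR : ∀ (q : ℕ) (τ : ℕ → ℕ → ℕ) (g : (ℕ → Ω) → ℝ), Y.nuR q τ g = trNu B ls q τ 0 fun σ => g fun i => pr (σ i)

theorem cvb_eqns_cite : True := by
  have := @cvbE.eq_1
  have := @LedSys.LeR.eq_1
  have := @LedSys.LeA.eq_1
  trivial

section
variable {Ω : Type} {Y : LedSys Ω}

theorem cvb_leA_iff (hY : Y.Ok) {q : ℕ} {τ : ℕ → ℕ → ℕ} (hτ : IsTr Y.N q τ) (k : ℕ) (g : (ℕ → Ω) → ℝ) (c : ℝ) :
    Y.LeA q τ k g c ↔ CvLe (cvbE (hY.mean _ 1 q τ led_t_prof1 led_t_one_mem hτ)) k (fun σ => g (ledRs σ)) c := Iff.rfl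

theorem cvb_leR_iff (hY : Y.Ok) {q : ℕ} {τ : ℕ → ℕ → ℕ} (hτ : IsTr Y.N q τ) (k : ℕ) (g : (ℕ → Ω) → ℝ) (c : ℝ) :
    Y.LeR q τ k g c ↔ CvLe (cvbE (hY.mean _ 0 q τ led_t_prof1 led_t_zero_mem hτ)) k (fun σ => g (ledRs σ)) c := Iff.rfl

theorem cvb_leA_mono (hY : Y.Ok) {q : ℕ} {τ : ℕ → ℕ → ℕ} (hτ : IsTr Y.N q τ) {j k : ℕ} (hjk : j ≤ k) {g : (ℕ → Ω) → ℝ} {c : ℝ}
    (h : Y.LeA q τ k g c) : Y.LeA q τ j g c :=
  (cvb_leA_iff hY hτ j g c).2 (((cvb_leA_iff hY hτ k g c).1 h).mono_exp hjk)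

theorem cvb_leR_mono (hY : Y.Ok) {q : ℕ} {τ : ℕ → ℕ → ℕ} (hτ : IsTr Y.N q τ) {j k : ℕ} (hjk : j ≤ k) {g : (ℕ → Ω) → ℝ} {c : ℝ}
    (h : Y.LeR q τ k g c) : Y.LeR q τ j g c :=
  (cvb_leR_iff hY hτ j g c).2 (((cvb_leR_iff hY hτ k g c).1 h).mono_exp hjk)

theorem LedSys.LeR.weaken {q : ℕ} {τ : ℕ → ℕ → ℕ} {k : ℕ} {g : (ℕ → Ω) → ℝ} {c c' : ℝ} (h : Y.LeR q τ k g c) (hc : c ≤ c') :
    Y.LeR q τ k g c' :=
  ⟨h.1.trans hc, h.2.trans (pow_le_pow_left₀ h.1 hc _)⟩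

theorem LedSys.LeA.weaken {q : ℕ} {τ : ℕ → ℕ → ℕ} {k : ℕ} {g : (ℕ → Ω) → ℝ} {c c' : ℝ} (h : Y.LeA q τ k g c) (hc : c ≤ c') :
    Y.LeA q τ k g c' :=
  ⟨h.1.trans hc, h.2.trans (pow_le_pow_left₀ h.1 hc _)⟩

theorem CvbRep.le_iff {S ι : Type} [Fintype S] [Fintype ι] [Inhabited S] {B : GhB S} {ls : List (GhLv S ι)} {pr : S → Ω}
    (hrep : CvbRep Y B ls pr) (q : ℕ) (τ : ℕ → ℕ → ℕ) (k : ℕ) (g : (ℕ → Ω) → ℝ) (c : ℝ) :
    Y.LeR q τ k g c ↔ CvLe (cvpE hrep.okB hrep.adm q τ 0) k (fun σ => g fun i => pr (σ i)) c := by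
  unfold LedSys.LeR CvLe
  rw [sk_cvpl_nu_E, hrep.nuR]

end

/-- **PE Lemma 4.3 for norms**: actual law -> rest-only law -/
theorem cvb_leR_of_leA (q : ℕ) (Cb : ℝ) : ∃ G : ℝ, 1 ≤ G ∧ ∀ (Ω : Type) (Y : LedSys Ω), Y.Ok → (∀ r, Y.b r ≤ Cb) → (∀ r, Y.h r ≤ Cb) →
    ∀ (τ : ℕ → ℕ → ℕ) (k : ℕ) (g : (ℕ → Ω) → ℝ) (c : ℝ), IsTr Y.N q τ → TrUses q g → Y.LeA q τ k g c → Y.LeR q τ k g (G * c) := by
  obtain ⟨G, hG1, hG⟩ := ledk_gronwall q Cb
  have hG0 : 0 ≤ G := by linarith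
  refine ⟨G, hG1, fun Ω Y hY hb hh τ k g c hτ hg h => ⟨mul_nonneg hG0 h.1, ?_⟩⟩
  rcases Nat.eq_zero_or_pos k with rfl | hk
  · have := (hY.mean (fun _ => 1) 0 q τ led_t_prof1 led_t_zero_mem hτ).one
    simp only [mul_zero, pow_zero]
    exact this.le
  · have h1 := hG Ω Y hY hb hh (fun _ => 1) (fun _ => 1) 0 1 τ (fun σ => g (ledRs σ) ^ (2 * k)) led_t_prof1 led_t_prof1
      led_t_zero_mem led_t_one_mem hτ
      (fun σ σ' hσ => by
        show g (ledRs σ) ^ (2 * k) = g (ledRs σ') ^ (2 * k)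
        rw [hg (ledRs σ) (ledRs σ') fun i hi => by unfold ledRs; rw [hσ i hi]])
      (fun σ => by rw [pow_mul]; positivity)
    have h2 : G ≤ G ^ (2 * k) := le_self_pow₀ hG1 (by omega)
    have h3 : 0 ≤ c ^ (2 * k) := pow_nonneg h.1 _
    calc Y.nuR q τ (fun ω => g ω ^ (2 * k)) ≤ G * Y.act q τ (fun σ => g (ledRs σ) ^ (2 * k)) := h1
      _ ≤ G * c ^ (2 * k) := mul_le_mul_of_nonneg_left h.2 hG0
      _ ≤ G ^ (2 * k) * c ^ (2 * k) := mul_le_mul_of_nonneg_right h2 h3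
      _ = (G * c) ^ (2 * k) := (mul_pow _ _ _).symm

/-! ## 1. Lemma 4.5 in the vocabulary of `LedSys` -/

/-- **PE Lemma 4.5, monomial test, rest-only law of a `LedSys`** (= `sk_cvpb_hbd` of helper18 read through `CvbRep`). -/
theorem cvb_abs {Ω : Type} (Y : LedSys Ω) {S ι : Type} [Fintype S] [Fintype ι] [Inhabited S] {B : GhB S} {ls : List (GhLv S ι)}
    {pr : S → Ω} (hrep : CvbRep Y B ls pr) (hsym : ∀ ω ω', Y.R ω ω' = Y.R ω' ω) {q : ℕ} {τ : ℕ → ℕ → ℕ} (hτ : IsTr Y.N q τ)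
    (cen : ℕ → ℕ → ℝ) (m : List (ℕ × ℕ)) {o c b kU : ℕ} (ho : o < q) (hc : c < q) (hb : b < q) (hkU : kU ≤ Y.N)
    (hoc : τ o c < kU) (hob : τ o b < kU) (hpos : 0 < Y.ms kU) (hm : ∀ e ∈ m, e.1 < q ∧ e.2 < q ∧ τ e.1 e.2 < kU)
    (r1 r2 : ℕ) (om xm D : ℝ) (sc : ℕ × ℕ → ℝ) (ρ : ℕ → ℝ)
    (hQ1 : Y.LeR 2 (ledPair Y.N (τ o c)) 2 (fun ω => Y.Q r1 (ω 0) (ω 1)) om)
    (hQ2 : Y.LeR 2 (ledPair Y.N (τ o b)) 2 (fun ω => Y.Q r2 (ω 0) (ω 1)) om)
    (hsc : ∀ e ∈ m, Y.LeR 2 (ledPair Y.N (τ e.1 e.2)) m.length (fun ω => Y.R (ω 0) (ω 1) - cen e.1 e.2) (sc e))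
    (hxm : 0 < xm) (hscx : ∀ e ∈ m, xm ≤ sc e)
    (hρ : ∀ t j, kU ≤ t → t ≤ Y.N → (j = τ o c ∨ j = τ o b ∨ ∃ e ∈ m, j = τ e.1 e.2) →
      Y.LeR 3 (cvpTri Y.N t j) (max 2 m.length) (fun ω => Y.R (ω 0) (ω 2) - Y.R (ω 1) (ω 2)) (ρ t))
    (hD : ∀ t, kU ≤ t → t ≤ Y.N → Y.ms t * ρ t ^ 2 ≤ D) :
    |trSumK Y.ms Y.N 1 q τ fun τ' => if kU ≤ τ' o q then
        Y.nuR (q + 1) τ' (fun ω => cvpMon Y.R cen m ω * Y.Q r1 (ω c) (ω q) * Y.Q r2 (ω q) (ω b))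
          - Y.nuR (q + 1) (trAtt Y.N q τ o kU) (fun ω => cvpMon Y.R cen m ω * Y.Q r1 (ω c) (ω q) * Y.Q r2 (ω q) (ω b))
      else 0|
      ≤ 6 * q * ((|Y.b r1| + |Y.b r2|) * om * (m.length / xm) * D) * cvpLay Y.N Y.ms kU * (m.map sc).prod := by
  have hlen := hrep.len
  have hms := hrep.ms
  have key := sk_cvpb_hbd hrep.okB hrep.adm (q := q) (τ := τ) (by rw [hlen]; exact hτ) 0 (fun s s' => Y.R (pr s) (pr s'))
    (fun s s' => hsym _ _) cen m ho hc hb (by rw [hlen]; exact hkU) hoc hob (by rw [hms]; exact hpos) hm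
    (Y.h r1) (Y.b r1) (Y.h r2) (Y.b r2) om xm D sc ρ
    (by rw [hlen]; exact (hrep.le_iff _ _ _ _ _).1 hQ1) (by rw [hlen]; exact (hrep.le_iff _ _ _ _ _).1 hQ2)
    (fun e he => by rw [hlen]; exact (hrep.le_iff _ _ _ _ _).1 (hsc e he)) hxm hscx
    (fun t j h1 h2 h3 => by
      rw [hlen] at h2 ⊢
      exact (hrep.le_iff _ _ _ _ _).1 (hρ t j h1 h2 h3))
    (fun t h1 h2 => by
      rw [hlen] at h2
      rw [hms]
      exact hD t h1 h2)
  rw [hlen, hms] at key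
  simp only [hrep.nuR]
  exact key
/-! ## 2. the star table: shape `hbd` of `led_main` -/

/-- **inputs of Lemma 4.5 on the star table, under the ACTUAL law** (deleted overlaps).   `om` = cost of a low factor (the `om` of `led_main`), `Ce x`, `Ce W` = sizes of the centred
initial / star edges, `A / √v` = resampling bound PE (16) after the depth `t` (`v = trPm ms t` = lower mass of the cut);  `A = C sv x³ / W^{3/2}` -/
structure CvbIn {Ω : Type} (Y : LedSys Ω) (kI kS kU d : ℕ) (x W om A Ce : ℝ) : Prop where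
  ord : kI ≤ kS ∧ kS < kU ∧ kU ≤ Y.N
  x_pos : 0 < x
  x_le : x ≤ W
  Ce_one : 1 ≤ Ce
  A_nonneg : 0 ≤ A
  U_pos : 0 < trPm Y.ms kU
  mesh : ∀ t, kU ≤ t → t ≤ Y.N → Y.ms t ≤ 2 * trPm Y.ms t
  low : ∀ j, j = kI ∨ j = kS → Y.LeA 2 (ledPair Y.N j) 2 (fun ω => Y.Q j (ω 0) (ω 1)) om
  cenI : Y.LeA 2 (ledPair Y.N kI) d (fun ω => Y.R (ω 0) (ω 1) - Y.S kI) (Ce * x)
  cenS : Y.LeA 2 (ledPair Y.N kS) d (fun ω => Y.R (ω 0) (ω 1) - Y.S kS) (Ce * W)
  res : ∀ t j, kU ≤ t → t ≤ Y.N → (j = kI ∨ j = kS) →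
    Y.LeA 3 (cvpTri Y.N t j) (max 2 d) (fun ω => Y.R (ω 0) (ω 2) - Y.R (ω 1) (ω 2)) (A / Real.sqrt (trPm Y.ms t))

theorem cvb_lay_nonneg {N : ℕ} {ms : ℕ → ℝ} (hms : IsMs N ms) {t : ℕ} (ht : t ≤ N) (hpos : 0 < ms t) : 0 ≤ cvpLay N ms t := by
  unfold cvpLay
  split_ifs
  · exact le_rfl
  · have h1 : 1 ≤ ms N / ms t := by
      rw [le_div_iff₀ hpos, one_mul]
      exact hms.mono t N ht le_rfl
    have := Real.logb_nonneg (b := 2) (by norm_num) h1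
    linarith

theorem cvb_prod_map_mul {α : Type} (l : List α) (a : ℝ) (f : α → ℝ) : (l.map fun e => a * f e).prod = a ^ l.length * (l.map f).prod := by
  induction l with
  | nil => simp
  | cons e l ih =>
    simp only [List.map_cons, List.prod_cons, List.length_cons, ih]
    ring

theorem cvb_star_val {N kI kS : ℕ} {u v : ℕ} (h : u ≠ v) : cvtStar N kI kS u v = if u = 0 ∨ v = 0 then kI else kS := by
  unfold cvtStar
  rw [if_neg h]

theorem cvb_star_cases {N kI kS : ℕ} {u v : ℕ} (h : u ≠ v) : cvtStar N kI kS u v = kI ∨ cvtStar N kI kS u v = kS := by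
  rw [cvb_star_val h]
  split_ifs
  · exact Or.inl rfl
  · exact Or.inr rfl

theorem cvb_star_ne {N kI kS kU : ℕ} (hU : kU ≤ N) {u v : ℕ} (h : cvtStar N kI kS u v < kU) : u ≠ v := by
  rintro rfl
  simp only [cvtStar, if_true] at h
  omega

theorem cvb_pm_mono {N : ℕ} {ms : ℕ → ℝ} (hms : IsMs N ms) {s t : ℕ} (hs : 1 ≤ s) (hst : s ≤ t) (ht : t ≤ N + 1) : trPm ms s ≤ trPm ms t := by
  unfold trPm
  rw [if_neg (by omega), if_neg (by omega)]
  exact hms.mono _ _ (by omega) (by omega)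

/-- **PE Lemma 4.5 on the star table, shape `hbd` of `led_main`**, `P = Y.mEv kI kS m`;   `be = C Ce^d (om A² / x) (number of layers)`, `p₀ = cvtMsz W x m`.      TEX[PE:lem:cavity-boundary] -/
theorem cvb_star (q d : ℕ) (Cb : ℝ) : ∃ C : ℝ, 0 ≤ C ∧ ∀ (Ω : Type) (Y : LedSys Ω) (S ι : Type) [Fintype S] [Fintype ι] [Inhabited S]
    (B : GhB S) (ls : List (GhLv S ι)) (pr : S → Ω), CvbRep Y B ls pr → Y.Ok → (∀ r, Y.b r ≤ Cb) → (∀ r, Y.h r ≤ Cb) →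
    ∀ (kI kS kU : ℕ) (x W om A Ce : ℝ), CvbIn Y kI kS kU d x W om A Ce →
    ∀ (m : CvtMon) (a b : ℕ), m.length ≤ d → (∀ e ∈ m, e.1 < q ∧ e.2 < q ∧ e.1 ≠ e.2) → a < q → b < q →
    ∀ (τ₁ : ℕ → ℕ → ℕ) (o : ℕ), IsTr Y.N (q + 1) τ₁ → (∀ x y, x < q → y < q → τ₁ x y = cvtStar Y.N kI kS x y) → kU ≤ τ₁ a q →
      o < q → cvtStar Y.N kI kS o a < kU → cvtStar Y.N kI kS o b < kU →
      |trSumK Y.ms Y.N 1 (q + 1) τ₁ fun τ' => if kU ≤ τ' o (q + 1) then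
          Y.nuR (q + 2) τ' (fun ω => Y.mEv kI kS m ω * Y.Q (cvtStar Y.N kI kS a o) (ω q) (ω (q + 1))
              * Y.Q (cvtStar Y.N kI kS o b) (ω (q + 1)) (ω b))
            - Y.nuR (q + 2) (trAtt Y.N (q + 1) τ₁ o kU)
                (fun ω => Y.mEv kI kS m ω * Y.Q (cvtStar Y.N kI kS a o) (ω q) (ω (q + 1))
                  * Y.Q (cvtStar Y.N kI kS o b) (ω (q + 1)) (ω b))
        else 0| ≤ C * Ce ^ d * (om * A ^ 2 / x * cvpLay Y.N Y.ms kU) * cvtMsz W x m := by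
  obtain ⟨G2, hG2, tr2⟩ := cvb_leR_of_leA 2 Cb
  obtain ⟨G3, hG3, tr3⟩ := cvb_leR_of_leA 3 Cb
  set G : ℝ := max G2 G3 with hGdef
  have hG1 : 1 ≤ G := hG2.trans (le_max_left _ _)
  have hG0 : 0 < G := by linarith
  refine ⟨24 * (q + 1) * |Cb| * d * G ^ (d + 2), by positivity, ?_⟩
  intro Ω Y S ι _ _ _ B ls pr hrep hY hb hh kI kS kU x W om A Ce hin m a b hlen hm ha hb' τ₁ o hτ₁ hold haq ho hoa hob
  obtain ⟨hIS, hSU, hUN⟩ := hin.ord
  have hx := hin.x_pos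
  have hW : 0 < W := hx.trans_le hin.x_le
  have hCe0 : 0 < Ce := by linarith [hin.Ce_one]
  have hms := hY.ms_ok
  -- the table
  have hoa' : o ≠ a := cvb_star_ne hUN hoa
  have hob' : o ≠ b := cvb_star_ne hUN hob
  have e_ao : τ₁ a o = cvtStar Y.N kI kS a o := hold a o ha ho
  have e_oa : τ₁ o a = cvtStar Y.N kI kS o a := hold o a ho ha
  have e_ob : τ₁ o b = cvtStar Y.N kI kS o b := hold o b ho hb'
  have s_ao : τ₁ a o = τ₁ o a := hτ₁.symm a o (by omega) (by omega)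
  have e_qo : τ₁ q o = τ₁ a o :=
    sk_cvpb_block_split hτ₁ (o := a) (x := q) (c := o) (k := kU) (by omega) (by omega) (by omega) haq (by rw [s_ao, e_oa]; exact hoa)
  have e_oq : τ₁ o q = cvtStar Y.N kI kS a o := by rw [hτ₁.symm o q (by omega) (by omega), e_qo, e_ao]
  have hoq : τ₁ o q < kU := by rw [e_oq, ← e_ao, s_ao, e_oa]; exact hoa
  have c_ao := cvb_star_cases (N := Y.N) (kI := kI) (kS := kS) (Ne.symm hoa')
  have c_ob := cvb_star_cases (N := Y.N) (kI := kI) (kS := kS) hob'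
  have hkS1 : kS ≤ Y.N + 1 := by omega
  have hkI1 : kI ≤ Y.N + 1 := by omega
  have hdep1 : ∀ j, j = kI ∨ j = kS → j ≤ Y.N + 1 := by rintro j (rfl | rfl) <;> omega
  have hdepU : ∀ j, j = kI ∨ j = kS → j < kU := by rintro j (rfl | rfl) <;> omega
  have hpmU := hin.U_pos
  have hkU1 : 1 ≤ kU := by omega
  have hpm : ∀ t, kU ≤ t → t ≤ Y.N → 0 < trPm Y.ms t := fun t h1 h2 => hpmU.trans_le (cvb_pm_mono hms hkU1 h1 (by omega))
  have hmsU : 0 < Y.ms kU := by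
    have h1 : trPm Y.ms kU ≤ Y.ms kU := by
      unfold trPm
      rw [if_neg (by omega)]
      exact hms.mono _ _ (by omega) hUN
    linarith
  have hom : 0 ≤ om := (hin.low kI (Or.inl rfl)).1
  -- transfer to the rest-only law
  have u2 : ∀ F : Ω → Ω → ℝ, TrUses 2 fun ω : ℕ → Ω => F (ω 0) (ω 1) := fun F ω ω' h => by
    show F (ω 0) (ω 1) = F (ω' 0) (ω' 1)
    rw [h 0 (by norm_num), h 1 (by norm_num)]
  have u3 : TrUses 3 fun ω : ℕ → Ω => Y.R (ω 0) (ω 2) - Y.R (ω 1) (ω 2) := fun ω ω' h => by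
    show Y.R (ω 0) (ω 2) - Y.R (ω 1) (ω 2) = Y.R (ω' 0) (ω' 2) - Y.R (ω' 1) (ω' 2)
    rw [h 0 (by norm_num), h 1 (by norm_num), h 2 (by norm_num)]
  have t2 : ∀ (j k : ℕ) (F : Ω → Ω → ℝ) (c : ℝ), j ≤ Y.N + 1 → Y.LeA 2 (ledPair Y.N j) k (fun ω => F (ω 0) (ω 1)) c →
      Y.LeR 2 (ledPair Y.N j) k (fun ω => F (ω 0) (ω 1)) (G * c) := fun j k F c hj h =>
    (tr2 Ω Y hY hb hh _ k _ c (sk_cvpb_pair_isTr hj) (u2 F) h).weaken (mul_le_mul_of_nonneg_right (le_max_left _ _) h.1)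
  have hlow : ∀ j, j = kI ∨ j = kS → Y.LeR 2 (ledPair Y.N j) 2 (fun ω => Y.Q j (ω 0) (ω 1)) (G * om) := fun j hj =>
    t2 j 2 (fun ω ω' => Y.Q j ω ω') om (hdep1 j hj) (hin.low j hj)
  have hres : ∀ t j, kU ≤ t → t ≤ Y.N → (j = kI ∨ j = kS) →
      Y.LeR 3 (cvpTri Y.N t j) (max 2 m.length) (fun ω => Y.R (ω 0) (ω 2) - Y.R (ω 1) (ω 2)) (G * (A / Real.sqrt (trPm Y.ms t))) := by
    intro t j h1 h2 hj
    have hT : IsTr Y.N 3 (cvpTri Y.N t j) := sk_cvpb_tri_isTr (by have := hdepU j hj; omega) (by omega)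
    have h3 := hin.res t j h1 h2 hj
    exact cvb_leR_mono hY hT (max_le_max le_rfl hlen)
      ((tr3 Ω Y hY hb hh _ _ _ _ hT u3 h3).weaken (mul_le_mul_of_nonneg_right (le_max_right _ _) h3.1))
  -- the edges
  have hedge : ∀ e ∈ m, τ₁ e.1 e.2 = if e.1 = 0 ∨ e.2 = 0 then kI else kS := fun e he => by
    obtain ⟨h1, h2, h3⟩ := hm e he
    rw [hold _ _ h1 h2, cvb_star_val h3]
  have hedgeC : ∀ e ∈ m, τ₁ e.1 e.2 = kI ∨ τ₁ e.1 e.2 = kS := fun e he => by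
    rw [hedge e he]
    split_ifs
    · exact Or.inl rfl
    · exact Or.inr rfl
  have key := cvb_abs Y hrep hY.R_symm hτ₁ (fun u v => Y.S (if u = 0 ∨ v = 0 then kI else kS)) m (o := o) (c := q) (b := b) (kU := kU)
    (by omega) (by omega) (by omega) hUN hoq (by rw [e_ob]; exact hob) hmsU
    (fun e he => ⟨by have := (hm e he).1; omega, by have := (hm e he).2.1; omega, hdepU _ (hedgeC e he)⟩)
    (cvtStar Y.N kI kS a o) (cvtStar Y.N kI kS o b) (G * om) (G * (Ce * x)) (2 * (G * A) ^ 2)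
    (fun e => G * (Ce * cvtEsz W x e)) (fun t => G * (A / Real.sqrt (trPm Y.ms t)))
    (by rw [e_oq]; exact hlow _ c_ao) (by rw [e_ob]; exact hlow _ c_ob)
    (by
      intro e he
      rw [hedge e he]
      unfold cvtEsz
      by_cases h0 : e.1 = 0 ∨ e.2 = 0
      · simp only [if_pos h0]
        exact cvb_leR_mono hY (sk_cvpb_pair_isTr hkI1) hlen (t2 kI d (fun ω ω' => Y.R ω ω' - Y.S kI) _ hkI1 hin.cenI)
      · simp only [if_neg h0]
        exact cvb_leR_mono hY (sk_cvpb_pair_isTr hkS1) hlen (t2 kS d (fun ω ω' => Y.R ω ω' - Y.S kS) _ hkS1 hin.cenS))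
    (by positivity)
    (by
      intro e _
      refine mul_le_mul_of_nonneg_left (mul_le_mul_of_nonneg_left ?_ hCe0.le) hG0.le
      unfold cvtEsz
      split_ifs
      · exact le_rfl
      · exact hin.x_le)
    (by
      intro t j h1 h2 hj
      refine hres t j h1 h2 ?_
      rcases hj with rfl | rfl | ⟨e, he, rfl⟩
      · rw [e_oq]; exact c_ao
      · rw [e_ob]; exact c_ob
      · exact hedgeC e he)
    (by
      intro t h1 h2
      have hp := hpm t h1 h2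
      have hs : Real.sqrt (trPm Y.ms t) ^ 2 = trPm Y.ms t := Real.sq_sqrt hp.le
      have e1 : Y.ms t * (G * (A / Real.sqrt (trPm Y.ms t))) ^ 2 = (Y.ms t / trPm Y.ms t) * (G * A) ^ 2 := by
        rw [mul_pow, div_pow, hs]
        field_simp
      rw [e1]
      refine mul_le_mul_of_nonneg_right ?_ (sq_nonneg _)
      rw [div_le_iff₀ hp]
      exact hin.mesh t h1 h2)
  refine le_trans key ?_
  -- arithmetic
  rw [cvb_prod_map_mul, cvb_prod_map_mul]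
  have hLay := cvb_lay_nonneg hms hUN hmsU
  have hMsz : 0 ≤ cvtMsz W x m := cvtMsz_nonneg hW.le hx.le m
  have hbabs : ∀ r, |Y.b r| ≤ |Cb| := fun r => by
    have h0 : 0 ≤ Y.b r := by
      have := hY.b_mono (Nat.zero_le r)
      rw [hY.b_zero] at this
      exact this
    rw [abs_of_nonneg h0]
    exact (hb r).trans (le_abs_self _)
  have hb12 : |Y.b (cvtStar Y.N kI kS a o)| + |Y.b (cvtStar Y.N kI kS o b)| ≤ 2 * |Cb| := by
    linarith [hbabs (cvtStar Y.N kI kS a o), hbabs (cvtStar Y.N kI kS o b)]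
  have hGl : G ^ m.length ≤ G ^ d := pow_le_pow_right₀ hG1 hlen
  have hCl : Ce ^ m.length ≤ Ce ^ d := pow_le_pow_right₀ hin.Ce_one hlen
  have hlenR : (m.length : ℝ) ≤ d := by exact_mod_cast hlen
  have e2 : 6 * ((q + 1 : ℕ) : ℝ) * ((|Y.b (cvtStar Y.N kI kS a o)| + |Y.b (cvtStar Y.N kI kS o b)|) * (G * om)
        * ((m.length : ℝ) / (G * (Ce * x))) * (2 * (G * A) ^ 2)) * cvpLay Y.N Y.ms kU
        * (G ^ m.length * (Ce ^ m.length * (m.map (cvtEsz W x)).prod))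
      = (12 * ((q : ℝ) + 1) * (|Y.b (cvtStar Y.N kI kS a o)| + |Y.b (cvtStar Y.N kI kS o b)|) * (m.length : ℝ) * (G ^ m.length * G ^ 2)
          * (Ce ^ m.length / Ce)) * ((om * A ^ 2 / x * cvpLay Y.N Y.ms kU) * cvtMsz W x m) := by
    unfold cvtMsz
    push_cast
    field_simp
    ring
  rw [e2]
  have e3 : 24 * ((q : ℝ) + 1) * |Cb| * d * G ^ (d + 2) * Ce ^ d * (om * A ^ 2 / x * cvpLay Y.N Y.ms kU) * cvtMsz W x m
      = (12 * ((q : ℝ) + 1) * (2 * |Cb|) * d * (G ^ d * G ^ 2) * Ce ^ d) * ((om * A ^ 2 / x * cvpLay Y.N Y.ms kU) * cvtMsz W x m) := by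
    rw [pow_add]; ring
  rw [e3]
  refine mul_le_mul_of_nonneg_right ?_ (by positivity)
  have hCdiv : Ce ^ m.length / Ce ≤ Ce ^ d := (div_le_self (by positivity) hin.Ce_one).trans hCl
  gcongr
/-! ## 3. the SK instance: inputs from `CavIn` -/

/-- the rest-only law of `liSys` (194) is a family of tree numbers -/
theorem cvb_rep_li (m : ℕ) {D : LiDat} (hD : D.Ok) :
    CvbRep (liSys m D) (liB m) (liLs m D (D.clk (fun _ => 1) 0)) Prod.snd where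
  okB := li_B_ok m
  adm := li_ls_adm m hD (li_clk_inc hD led_t_prof1 led_t_zero_mem)
  len := li_ls_len m D _
  ms := li_ls_ms m hD (li_clk_inc hD led_t_prof1 led_t_zero_mem)
  nuR := fun _ _ _ => rfl

/-- the SK law of size `n` on a table, as a `CvExp` -/
noncomputable def cvbSk (n : ℕ) {P : SkStp} (hP : SkAdm 1 P) (q : ℕ) (τ : ℕ → ℕ → ℕ) : CvExp (ℕ → SkCfg n) :=
  cvpE (obt_base_ok n one_pos) (sk_sy_adm hP) q τ 0

theorem cvb_eqns_cite2 : True := by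
  have := @cvbSk.eq_1
  have := @cvbSk.eq_def
  trivial

theorem cvb_sk_E (n : ℕ) {P : SkStp} (hP : SkAdm 1 P) (q : ℕ) (τ : ℕ → ℕ → ℕ) (f : (ℕ → SkCfg n) → ℝ) :
    (cvbSk n hP q τ).E f = trNu (skBase n 1) (skLvs n P) q τ 0 f := rfl

/-- norms under the actual law of `cvySys` from norms under the SK law of size `m + 1` -/
theorem cvb_leA_of_sk (m : ℕ) {P : SkStp} (hP : SkAdm 1 P) {q : ℕ} {τ : ℕ → ℕ → ℕ} (hτ : IsTr P.length q τ) (k : ℕ)
    (g : (ℕ → SkCfg m) → ℝ) (hg : TrUses q g) (c : ℝ)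
    (h : CvLe (cvbSk (m + 1) hP q τ) k (fun σ => g fun i => Fin.tail (σ i)) c) : (cvySys m P).LeA q τ k g c := by
  refine ⟨h.1, ?_⟩
  have h1 := cvy_act m P hP q τ hτ (fun σ => g (fun i => Fin.tail (σ i)) ^ (2 * k)) (fun σ σ' hσ => by
    show g (fun i => Fin.tail (σ i)) ^ (2 * k) = g (fun i => Fin.tail (σ' i)) ^ (2 * k)
    rw [hg (fun i => Fin.tail (σ i)) (fun i => Fin.tail (σ' i)) fun i hi => by rw [hσ i hi]])
  have e : (fun σ : ℕ → Bool × SkCfg m => g (fun i => Fin.tail (cvyJoin (σ i))) ^ (2 * k)) = fun σ => g (ledRs σ) ^ (2 * k) := by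
    funext σ
    simp only [cvyJoin, Fin.tail_cons]
    rfl
  rw [e] at h1
  rw [h1]
  exact h.2

theorem cvb_R_tail {m : ℕ} (σ σ' : SkCfg (m + 1)) :
    liR (Fin.tail σ) (Fin.tail σ') = skOv σ σ' - skSp σ 0 * skSp σ' 0 / ((m : ℝ) + 1) := by
  have hn := li_n_pos m
  unfold liR skOv
  rw [Fin.sum_univ_succ]
  have e : ∀ i : Fin m, skSp (Fin.tail σ) i * skSp (Fin.tail σ') i = skSp σ i.succ * skSp σ' i.succ := fun i => rfl
  simp only [e]
  push_cast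
  field_simp
  ring

theorem cvb_ov_symm {n : ℕ} (σ σ' : SkCfg n) : skOv σ σ' = skOv σ' σ := by
  unfold skOv
  congr 1
  exact Finset.sum_congr rfl fun i _ => mul_comm _ _

theorem cvb_site_abs {m : ℕ} (σ σ' : SkCfg (m + 1)) : |skSp σ 0 * skSp σ' 0 / ((m : ℝ) + 1)| = 1 / ((m : ℝ) + 1) := by
  rw [abs_div, abs_mul, li_sp_abs, li_sp_abs, abs_of_pos (li_n_pos m)]
  norm_num

theorem cvb_lvs_len (n : ℕ) (P : SkStp) : (skLvs n P).length = P.length := by simp [skLvs]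

/-- two leaves: `GhTree` -> table -/
theorem cvb_pair_sk (n : ℕ) (P : SkStp) {j : ℕ} (hj : j ≤ P.length + 1) (F : SkCfg n → SkCfg n → ℝ) :
    cvNu n P (obT2 j) (fun σ => F (σ 0) (σ 1))
      = trNu (skBase n 1) (skLvs n P) 2 (ledPair P.length j) 0 fun σ => F (σ 0) (σ 1) := by
  unfold cvNu
  have h := tr_nu_of_ghTree (skBase n 1) (skLvs n P) (obT2 j) 0 (fun σ : Fin 2 → SkCfg n => F (σ 0) (σ 1))
  rw [cvb_lvs_len] at h
  refine h.trans (tr_nu_congr _ _ (fun x y hx hy => ?_) 0 _)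
  simp only [trOf, hx, hy, and_self, dite_true, obT2, ledPair]
  split_ifs
  · rfl
  · exact min_eq_left hj

/-- three leaves: the star tree of `cvRes` -> the canonical triple table of `Cav/PreBd` -/
theorem cvb_tri_sk (n : ℕ) {P : SkStp} (hP : SkAdm 1 P) {j0 jv : ℕ} (h0 : j0 ≤ jv) (hv : jv ≤ P.length)
    (F : SkCfg n → SkCfg n → SkCfg n → ℝ) :
    cvNu n P (cvStar 3 j0 jv) (fun σ => F (σ 0) (σ 1) (σ 2))
      = trNu (skBase n 1) (skLvs n P) 3 (cvpTri P.length jv j0) 0 fun σ => F (σ 2) (σ 0) (σ 1) := by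
  unfold cvNu
  have h := tr_nu_of_ghTree (skBase n 1) (skLvs n P) (cvStar 3 j0 jv) 0 (fun σ : Fin 3 → SkCfg n => F (σ 0) (σ 1) (σ 2))
  refine h.trans ?_
  have hl := cvb_lvs_len n P
  have ht := sk_cvpb_transfer (obt_base_ok n one_pos) (sk_sy_adm (n := n) hP) (q := 3) (q' := 3) (p := 3)
    (τ := trOf (cvStar 3 j0 jv) (skLvs n P).length) (τ' := cvpTri P.length jv j0)
    (tr_of_isTr _ _) (by rw [hl]; exact sk_cvpb_tri_isTr h0 (by omega)) 0 id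
    (fun i => if i = 0 then 2 else if i = 1 then 0 else 1) (fun x hx => hx)
    (fun x _ => by
      show (if x = 0 then 2 else if x = 1 then 0 else 1) < 3
      split_ifs <;> omega)
    (by
      intro x y hx hy
      rw [hl]
      interval_cases x <;> interval_cases y <;> simp [trOf, cvStar, cvpTri, h0] <;> omega)
    (fun σ => F (σ 0) (σ 1) (σ 2))
    (fun σ σ' hσ => by
      show F (σ 0) (σ 1) (σ 2) = F (σ' 0) (σ' 1) (σ' 2)
      rw [hσ 0 (by norm_num), hσ 1 (by norm_num), hσ 2 (by norm_num)])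
  simpa using ht
theorem cvb_cumB_le (m : ℕ) {P : SkStp} (hP : SkAdm 1 P) (r : ℕ) : skCumB P r ≤ skTotB P := by
  have hD := cvy_dat_ok m P hP
  have h1 : skCumB P r ≤ skCumB P (max r P.length) := hD.b_mono (le_max_left _ _)
  have h2 : skCumB P (max r P.length) = skCumB P P.length := (hD.flat _ (le_max_right _ _)).1
  have h3 : skCumB P P.length = skTotB P := by
    unfold skCumB skTotB
    rw [List.take_length]
  linarith

theorem cvb_cumH_le (m : ℕ) {P : SkStp} (hP : SkAdm 1 P) (r : ℕ) : skCumH P r ≤ skTotH P := by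
  have hD := cvy_dat_ok m P hP
  have h1 : skCumH P r ≤ skCumH P (max r P.length) := hD.h_mono (le_max_left _ _)
  have h2 : skCumH P (max r P.length) = skCumH P P.length := (hD.flat _ (le_max_right _ _)).2.1
  have h3 : skCumH P P.length = skTotH P := by
    unfold skCumH skTotH
    rw [List.take_length]
  linarith

section cav
variable {c C ρ : ℝ} {Cp : ℕ → ℝ} {kM : ℕ} {I : CavIn} {m : ℕ}

/-- (12) on the canonical pair table -/
theorem cvb_raw (hn : I.n = m + 1) (hOk : I.Ok c C ρ Cp kM) {j k : ℕ} (hj : j ≤ I.P.length) (hk : k ≤ kM) :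
    CvLe (cvbSk (m + 1) hOk.adm 2 (ledPair I.P.length j)) k (fun σ => skOv (σ 0) (σ 1)) |Cp k * (cvLo I.P j + I.x)| := by
  refine ⟨abs_nonneg _, ?_⟩
  have h := hOk.raw j k hj hk
  rw [hn] at h
  rw [cvb_sk_E, ← cvb_pair_sk (m + 1) I.P (by omega) (fun s s' => skOv s s' ^ (2 * k)), (even_two_mul k).pow_abs]
  exact h

/-- the centre is a mean -/
theorem cvb_S_eq (hOk : I.Ok c C ρ Cp kM) {j : ℕ} (hj : j ≤ I.P.length) :
    cvS (m + 1) I.P j = (cvbSk (m + 1) hOk.adm 2 (ledPair I.P.length j)).E fun σ => skOv (σ 0) (σ 1) := by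
  rw [cvb_sk_E, ← cvb_pair_sk (m + 1) I.P (by omega) (fun s s' => skOv s s')]
  exact (obt_S_two (Nat.succ_pos m) one_pos I.P hOk.adm 0 j hj).symm

theorem cvb_S_abs (hn : I.n = m + 1) (hOk : I.Ok c C ρ Cp kM) (hkM : 1 ≤ kM) {j : ℕ} (hj : j ≤ I.P.length) :
    |cvS (m + 1) I.P j| ≤ |Cp 1 * (cvLo I.P j + I.x)| := by
  rw [cvb_S_eq hOk hj]
  exact (cvb_raw hn hOk hj hkM).abs_mean_le le_rfl

/-- (17) on the canonical pair table -/
theorem cvb_mom (hn : I.n = m + 1) (hOk : I.Ok c C ρ Cp kM) (hSt : I.Star c C Cp kM) {k : ℕ} (hk : k ≤ kM) :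
    CvLe (cvbSk (m + 1) hOk.adm 2 (ledPair I.P.length I.js)) k (fun σ => skOv (σ 0) (σ 1) - cvS (m + 1) I.P I.js)
      |Cp k * I.sv * I.W| := by
  refine ⟨abs_nonneg _, ?_⟩
  have h := hSt.mom k hk
  rw [hn] at h
  have hjs : I.js ≤ I.P.length := (hSt.jsU.trans hSt.jUN.le)
  rw [cvb_sk_E, ← cvb_pair_sk (m + 1) I.P (by omega) (fun s s' => (skOv s s' - cvS (m + 1) I.P I.js) ^ (2 * k)),
    (even_two_mul k).pow_abs]
  exact h

/-- (16) on the canonical triple table -/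
theorem cvb_res (hn : I.n = m + 1) (hOk : I.Ok c C ρ Cp kM) (hSt : I.Star c C Cp kM) {j0 jv k : ℕ} (h0 : j0 ≤ I.jB ∨ j0 = I.js)
    (hv : I.jU < jv) (hvN : jv ≤ I.P.length) (hk : k ≤ kM) :
    CvLe (cvbSk (m + 1) hOk.adm 3 (cvpTri I.P.length jv j0)) k (fun σ => skOv (σ 0) (σ 2) - skOv (σ 1) (σ 2))
      |Cp k * I.sv * (I.x ^ 3 / (I.W * Real.sqrt I.W * Real.sqrt (cvLo I.P jv)))| := by
  refine ⟨abs_nonneg _, ?_⟩
  have h := hSt.resU j0 jv k h0 hv hvN hk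
  unfold cvRes at h
  rw [hn] at h
  have hj0 : j0 ≤ jv := by
    have h1 := hSt.jBs
    have h2 := hSt.jsU
    rcases h0 with h0 | h0 <;> omega
  rw [cvb_tri_sk (m + 1) hOk.adm hj0 hvN (fun s0 s1 s2 => (skOv s0 s1 - skOv s0 s2) ^ (2 * k))] at h
  rw [cvb_sk_E, (even_two_mul k).pow_abs]
  refine le_trans (le_of_eq ?_) h
  congr 1
  funext σ
  rw [cvb_ov_symm (σ 2) (σ 0), cvb_ov_symm (σ 2) (σ 1)]

end cav

/-- deletion of the site in a centred overlap -/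
theorem cvb_del {m : ℕ} (ν : CvExp (ℕ → SkCfg (m + 1))) (k a b : ℕ) (s c : ℝ) (h : CvLe ν k (fun σ => skOv (σ a) (σ b) - s) c) :
    CvLe ν k (fun σ => liR (Fin.tail (σ a)) (Fin.tail (σ b)) - s) (c + 1 / ((m : ℝ) + 1)) := by
  have e : (fun σ : ℕ → SkCfg (m + 1) => liR (Fin.tail (σ a)) (Fin.tail (σ b)) - s)
      = fun σ => (skOv (σ a) (σ b) - s) - skSp (σ a) 0 * skSp (σ b) 0 / ((m : ℝ) + 1) := by
    funext σ
    rw [cvb_R_tail]
    ring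
  rw [e]
  exact h.sub (CvLe.of_bound k fun σ => (cvb_site_abs _ _).le)

set_option maxHeartbeats 1600000 in
/-- **the inputs of Lemma 4.5 from the inputs of the section**: (12) -> `low`, `cenI`;  (17) -> `cenS`;  (16) -> `res`;  deleted site: `1/n ≤ sv² x⁶` -/
theorem cvb_in_of_cav (c C ρ : ℝ) (Cp : ℕ → ℝ) (hc : 0 < c) (hρ : 0 < ρ) (d : ℕ) : ∃ Com CA Ce : ℝ, 0 ≤ Com ∧ 0 ≤ CA ∧ 1 ≤ Ce ∧
    ∀ (kM : ℕ) (I : CavIn) (m : ℕ), max 2 d ≤ kM → I.n = m + 1 → I.Ok c C ρ Cp kM → I.Star c C Cp kM → ∀ ji, ji ≤ I.jB →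
      CvbIn (cvySys m I.P) ji I.js (I.jU + 1) d I.x I.W (Com * I.W) (CA * (I.sv * I.x ^ 3 / (I.W * Real.sqrt I.W))) Ce := by
  set C1 : ℝ := max C 1 with hC1def
  have hC1 : 1 ≤ C1 := le_max_right _ _
  have hCC : C ≤ C1 := le_max_left _ _
  have hC10 : 0 < C1 := by linarith
  set Sv : ℝ := C1 ^ ρ with hSvdef
  have hSv1 : 1 ≤ Sv := Real.one_le_rpow hC1 hρ.le
  have hSv0 : 0 < Sv := by linarith
  set dn : ℝ := Sv ^ 2 * C1 ^ 5 with hdn
  have hdn0 : 0 ≤ dn := by positivity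
  set K : ℕ := max 2 d with hK
  refine ⟨C1 ^ 3 + C1 * (2 * C1 * |Cp 2| + dn), |Cp K| + 2 * (Sv * C1 ^ 5),
    1 + Sv * |Cp d| + dn + 2 * C1 * |Cp d| + 2 * C1 * |Cp 1|, by positivity, by positivity, ?_, ?_⟩
  · have : 0 ≤ Sv * |Cp d| + dn + 2 * C1 * |Cp d| + 2 * C1 * |Cp 1| := by positivity
    linarith
  intro kM I m hk hn hOk hSt ji hji
  have hP := hOk.adm
  have hD := cvy_dat_ok m I.P hP
  have hx := hOk.x0
  have hW : 0 < I.W := hx.trans_le hOk.xW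
  have hsv := hOk.sv0
  have hWC : I.W ≤ C1 := hOk.WC.trans hCC
  have hxC : I.x ≤ C1 := hOk.xW.trans hWC
  have hsvS : I.sv ≤ Sv := hOk.sv1.trans (Real.rpow_le_rpow hx.le hxC hρ.le)
  have hn' := li_n_pos m
  have hnR : (I.n : ℝ) = (m : ℝ) + 1 := by rw [hn]; push_cast; ring
  have hk2 : 2 ≤ kM := (le_max_left _ _).trans hk
  have hkd : d ≤ kM := (le_max_right _ _).trans hk
  -- deleted site
  have hdel : 1 / ((m : ℝ) + 1) ≤ I.sv ^ 2 * I.x ^ 6 := by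
    rw [div_le_iff₀ hn']
    have := hOk.nx
    rw [hnR] at this
    calc (1 : ℝ) ≤ I.sv ^ 2 * ((m : ℝ) + 1) * I.x ^ 6 := this
      _ = I.sv ^ 2 * I.x ^ 6 * ((m : ℝ) + 1) := by ring
  have hdelx : 1 / ((m : ℝ) + 1) ≤ dn * I.x := by
    refine hdel.trans ?_
    have h1 : I.sv ^ 2 ≤ Sv ^ 2 := pow_le_pow_left₀ hsv.le hsvS 2
    have h2 : I.x ^ 5 ≤ C1 ^ 5 := pow_le_pow_left₀ hx.le hxC 5
    calc I.sv ^ 2 * I.x ^ 6 = I.sv ^ 2 * (I.x ^ 5 * I.x) := by ring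
      _ ≤ Sv ^ 2 * (C1 ^ 5 * I.x) := by gcongr
      _ = dn * I.x := by rw [hdn]; ring
  have hdelW : 1 / ((m : ℝ) + 1) ≤ dn * I.W := hdelx.trans (mul_le_mul_of_nonneg_left hOk.xW hdn0)
  -- cuts
  have hjsU := hSt.jsU
  have hjUN : I.jU < I.P.length := hSt.jUN
  have hjs : I.js ≤ I.P.length := by omega
  have hjis : ji ≤ I.js := hji.trans hSt.jBs.le
  have hjiN : ji ≤ I.P.length := hjis.trans hjs
  -- masses
  have hlo_le : ∀ j j', j ≤ j' + 1 → cvLo I.P j ≤ skMs 1 I.P j' := by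
    intro j j' h
    unfold cvLo
    split_ifs with h0
    · exact hD.ms_nonneg j'
    · exact hD.ms_mono (by omega)
  have hlo0 : ∀ j, 0 ≤ cvLo I.P j := by
    intro j
    unfold cvLo
    split_ifs
    · exact le_rfl
    · exact hD.ms_nonneg _
  have hloI : cvLo I.P ji ≤ C1 * I.x :=
    ((hlo_le ji I.jB (by omega)).trans hOk.band).trans (mul_le_mul_of_nonneg_right hCC hx.le)
  have hloS : cvLo I.P I.js ≤ C1 * I.W :=
    ((hlo_le I.js I.jU (by omega)).trans hSt.UHi).trans (mul_le_mul_of_nonneg_right hCC hW.le)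
  have hloIx : cvLo I.P ji + I.x ≤ 2 * C1 * I.x := by nlinarith
  have hloW : ∀ j, j = ji ∨ j = I.js → cvLo I.P j + I.x ≤ 2 * C1 * I.W := by
    have := hOk.xW
    rintro j (rfl | rfl)
    · nlinarith
    · nlinarith
  have habs : ∀ (a t : ℝ), 0 ≤ t → |a * t| = |a| * t := fun a t ht => by rw [abs_mul, abs_of_nonneg ht]
  have u2 : ∀ F : SkCfg m → SkCfg m → ℝ, TrUses 2 fun ω : ℕ → SkCfg m => F (ω 0) (ω 1) := fun F ω ω' h => by
    show F (ω 0) (ω 1) = F (ω' 0) (ω' 1)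
    rw [h 0 (by norm_num), h 1 (by norm_num)]
  refine ⟨⟨hjis, by omega, hjUN⟩, hx, hOk.xW, ?_, by positivity, ?_, ?_, ?_, ?_, ?_, ?_⟩
  · have : 0 ≤ Sv * |Cp d| + dn + 2 * C1 * |Cp d| + 2 * C1 * |Cp 1| := by positivity
    linarith
  · -- U_pos
    show 0 < trPm (skMs 1 I.P) (I.jU + 1)
    unfold trPm
    rw [if_neg (by omega)]
    exact (mul_pos hc hW).trans_le hSt.ULo
  · -- mesh
    intro t h1 h2
    exact hOk.mesh t (by have := hSt.jXU; omega) h2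
  · -- low
    intro j hj
    have hjN : j ≤ I.P.length := by rcases hj with rfl | rfl <;> assumption
    have hjjs : j ≤ I.js := by rcases hj with rfl | rfl <;> omega
    refine cvb_leA_of_sk m hP (sk_cvpb_pair_isTr (by omega)) 2 _ (u2 fun ω ω' => (cvySys m I.P).Q j ω ω') _ ?_
    have r := cvb_raw hn hOk hjN hk2
    have r' : CvLe (cvbSk (m + 1) hOk.adm 2 (ledPair I.P.length j)) 2 (fun σ => skOv (σ 0) (σ 1) - 0) |Cp 2 * (cvLo I.P j + I.x)| := by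
      simpa using r
    have q' := (CvLe.const (cvbSk (m + 1) hOk.adm 2 (ledPair I.P.length j)) 2 (skCumH I.P j)).add
      ((cvb_del _ 2 0 1 0 _ r').smul (skCumB I.P j))
    have e : (fun σ : ℕ → SkCfg (m + 1) => (cvySys m I.P).Q j (Fin.tail (σ 0)) (Fin.tail (σ 1)))
        = fun σ => skCumH I.P j + skCumB I.P j * (liR (Fin.tail (σ 0)) (Fin.tail (σ 1)) - 0) := by
      funext σ
      rw [sub_zero]
      rfl
    rw [e]
    refine q'.weaken ?_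
    have hh0 : 0 ≤ skCumH I.P j := hD.h_nonneg j
    have hb0 : 0 ≤ skCumB I.P j := hD.b_nonneg j
    have hh1 : skCumH I.P j ≤ C1 ^ 3 * I.W := by
      have h1 : skCumH I.P j ≤ skCumH I.P I.js := hD.h_mono hjjs
      have h2 : C * I.W ^ 3 ≤ C1 * I.W ^ 3 := mul_le_mul_of_nonneg_right hCC (by positivity)
      have h3 : I.W ^ 2 ≤ C1 ^ 2 := pow_le_pow_left₀ hW.le hWC 2
      have h4 : C1 * I.W ^ 3 ≤ C1 ^ 3 * I.W := by
        calc C1 * I.W ^ 3 = C1 * (I.W ^ 2 * I.W) := by ring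
          _ ≤ C1 * (C1 ^ 2 * I.W) := by gcongr
          _ = C1 ^ 3 * I.W := by ring
      linarith [hSt.hst]
    have hb1 : skCumB I.P j ≤ C1 := ((cvb_cumB_le m hP j).trans hOk.totB).trans hCC
    rw [abs_of_nonneg hh0, abs_of_nonneg hb0, habs _ _ (add_nonneg (hlo0 j) hx.le)]
    have h5 : |Cp 2| * (cvLo I.P j + I.x) ≤ |Cp 2| * (2 * C1 * I.W) := mul_le_mul_of_nonneg_left (hloW j hj) (abs_nonneg _)
    have h6 : skCumB I.P j * (|Cp 2| * (cvLo I.P j + I.x) + 1 / ((m : ℝ) + 1)) ≤ C1 * (|Cp 2| * (2 * C1 * I.W) + dn * I.W) := by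
      have h7 : 0 ≤ |Cp 2| * (cvLo I.P j + I.x) + 1 / ((m : ℝ) + 1) := by
        have := hlo0 j
        positivity
      exact mul_le_mul hb1 (add_le_add h5 hdelW) h7 hC10.le
    calc skCumH I.P j + skCumB I.P j * (|Cp 2| * (cvLo I.P j + I.x) + 1 / ((m : ℝ) + 1))
        ≤ C1 ^ 3 * I.W + C1 * (|Cp 2| * (2 * C1 * I.W) + dn * I.W) := add_le_add hh1 h6
      _ = (C1 ^ 3 + C1 * (2 * C1 * |Cp 2| + dn)) * I.W := by ring
  · -- cenI
    refine cvb_leA_of_sk m hP (sk_cvpb_pair_isTr (by omega)) d _ (u2 fun ω ω' => (cvySys m I.P).R ω ω' - (cvySys m I.P).S ji) _ ?_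
    have r := (cvb_raw hn hOk hjiN hkd).sub (CvLe.const (cvbSk (m + 1) hOk.adm 2 (ledPair I.P.length ji)) d (cvS (m + 1) I.P ji))
    refine (cvb_del _ d 0 1 _ _ r).weaken ?_
    have hS := cvb_S_abs hn hOk (by omega) hjiN
    rw [habs _ _ (add_nonneg (hlo0 ji) hx.le)] at hS ⊢
    have h1 : |Cp d| * (cvLo I.P ji + I.x) ≤ |Cp d| * (2 * C1 * I.x) := mul_le_mul_of_nonneg_left hloIx (abs_nonneg _)
    have h2 : |Cp 1| * (cvLo I.P ji + I.x) ≤ |Cp 1| * (2 * C1 * I.x) := mul_le_mul_of_nonneg_left hloIx (abs_nonneg _)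
    have h3 : 0 ≤ (1 + Sv * |Cp d|) * I.x := by positivity
    nlinarith
  · -- cenS
    refine cvb_leA_of_sk m hP (sk_cvpb_pair_isTr (by omega)) d _ (u2 fun ω ω' => (cvySys m I.P).R ω ω' - (cvySys m I.P).S I.js) _ ?_
    refine (cvb_del _ d 0 1 _ _ (cvb_mom hn hOk hSt hkd)).weaken ?_
    have e1 : |Cp d * I.sv * I.W| = |Cp d| * (I.sv * I.W) := by rw [mul_assoc, habs _ _ (by positivity)]
    rw [e1]
    have h1 : |Cp d| * (I.sv * I.W) ≤ |Cp d| * (Sv * I.W) := by gcongr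
    have h3 : 0 ≤ (1 + 2 * C1 * |Cp d| + 2 * C1 * |Cp 1|) * I.W := by positivity
    nlinarith
  · -- res
    intro t j h1 h2 hj
    replace h2 : t ≤ I.P.length := h2
    have hT : IsTr I.P.length 3 (cvpTri I.P.length t j) := sk_cvpb_tri_isTr (by rcases hj with rfl | rfl <;> omega) (by omega)
    refine cvb_leA_of_sk m hP hT K (fun ω => (cvySys m I.P).R (ω 0) (ω 2) - (cvySys m I.P).R (ω 1) (ω 2)) (fun ω ω' h => by
      show (cvySys m I.P).R (ω 0) (ω 2) - (cvySys m I.P).R (ω 1) (ω 2) = (cvySys m I.P).R (ω' 0) (ω' 2) - (cvySys m I.P).R (ω' 1) (ω' 2)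
      rw [h 0 (by norm_num), h 1 (by norm_num), h 2 (by norm_num)]) _ ?_
    have r := cvb_res hn hOk hSt (j0 := j) (jv := t) (k := K) (by rcases hj with rfl | rfl; exact Or.inl hji; exact Or.inr rfl)
      (by omega) h2 hk
    have e : (fun σ : ℕ → SkCfg (m + 1) => (cvySys m I.P).R (Fin.tail (σ 0)) (Fin.tail (σ 2)) - (cvySys m I.P).R (Fin.tail (σ 1)) (Fin.tail (σ 2)))
        = fun σ => (skOv (σ 0) (σ 2) - skOv (σ 1) (σ 2))
            - (skSp (σ 0) 0 * skSp (σ 2) 0 / ((m : ℝ) + 1) - skSp (σ 1) 0 * skSp (σ 2) 0 / ((m : ℝ) + 1)) := by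
      funext σ
      show liR (Fin.tail (σ 0)) (Fin.tail (σ 2)) - liR (Fin.tail (σ 1)) (Fin.tail (σ 2)) = _
      rw [cvb_R_tail, cvb_R_tail]
      ring
    rw [e]
    have bd : ∀ σ : ℕ → SkCfg (m + 1), |skSp (σ 0) 0 * skSp (σ 2) 0 / ((m : ℝ) + 1) - skSp (σ 1) 0 * skSp (σ 2) 0 / ((m : ℝ) + 1)|
        ≤ 2 * (1 / ((m : ℝ) + 1)) := fun σ => by
      have := abs_sub (skSp (σ 0) 0 * skSp (σ 2) 0 / ((m : ℝ) + 1)) (skSp (σ 1) 0 * skSp (σ 2) 0 / ((m : ℝ) + 1))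
      rw [cvb_site_abs, cvb_site_abs] at this
      linarith
    refine (r.sub (CvLe.of_bound K bd)).weaken ?_
    -- numerics
    have hlo : trPm (cvySys m I.P).ms t = cvLo I.P t := rfl
    rw [hlo]
    have hlop : 0 < cvLo I.P t := by
      have h3 : skMs 1 I.P I.jU ≤ cvLo I.P t := by
        unfold cvLo
        rw [if_neg (by omega)]
        exact hD.ms_mono (by omega)
      exact ((mul_pos hc hW).trans_le hSt.ULo).trans_le h3
    have hlo1 : cvLo I.P t ≤ 1 := by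
      have h3 := hlo_le t I.P.length (by omega)
      have hN1 : skMs 1 I.P I.P.length = 1 := hD.ms_top _ le_rfl
      rwa [hN1] at h3
    set sl := Real.sqrt (cvLo I.P t) with hsl
    have hsl0 : 0 < sl := Real.sqrt_pos.2 hlop
    have hsl1 : sl ≤ 1 := by
      rw [hsl]
      exact Real.sqrt_le_one.2 hlo1 |>.trans le_rfl
    set sW := Real.sqrt I.W with hsW
    have hsW0 : 0 < sW := Real.sqrt_pos.2 hW
    have hsWC : sW ≤ C1 := by
      rw [hsW]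
      exact Real.sqrt_le_iff.2 ⟨hC10.le, by nlinarith⟩
    have hsW2 : sW ^ 2 = I.W := Real.sq_sqrt hW.le
    set z := I.sv * I.x ^ 3 / (I.W * sW) with hz
    have hz0 : 0 < z := by positivity
    have e1 : |Cp K * I.sv * (I.x ^ 3 / (I.W * sW * sl))| = |Cp K| * (z / sl) := by
      have : Cp K * I.sv * (I.x ^ 3 / (I.W * sW * sl)) = Cp K * (z / sl) := by
        rw [hz]; field_simp
      rw [this, habs _ _ (by positivity)]
    rw [e1]
    have h4 : I.sv ^ 2 * I.x ^ 6 ≤ Sv * C1 ^ 5 * z := by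
      have e2 : I.sv ^ 2 * I.x ^ 6 = z * (I.sv * I.x ^ 3 * I.W * sW) := by
        rw [hz]; field_simp
      rw [e2]
      have h5 : I.x ^ 3 ≤ C1 ^ 3 := pow_le_pow_left₀ hx.le hxC 3
      calc z * (I.sv * I.x ^ 3 * I.W * sW) ≤ z * (Sv * C1 ^ 3 * C1 * C1) := by gcongr
        _ = Sv * C1 ^ 5 * z := by ring
    have h6 : z ≤ z / sl := by
      rw [le_div_iff₀ hsl0]
      nlinarith
    have h7 : 2 * (1 / ((m : ℝ) + 1)) ≤ 2 * (Sv * C1 ^ 5) * (z / sl) := by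
      have h8 : 0 ≤ Sv * C1 ^ 5 := by positivity
      have h9 := mul_le_mul_of_nonneg_left h6 h8
      linarith
    calc |Cp K| * (z / sl) + 2 * (1 / ((m : ℝ) + 1)) ≤ |Cp K| * (z / sl) + 2 * (Sv * C1 ^ 5) * (z / sl) := by linarith
      _ = (|Cp K| + 2 * (Sv * C1 ^ 5)) * z / sl := by ring

/-- the number of layers is absorbed by the saving: `sv (log₂ (1/U) + 1) ≤ C` -/
theorem cvb_lay_le (c C ρ : ℝ) (hc : 0 < c) (hρ : 0 < ρ) : ∃ CL : ℝ, 0 ≤ CL ∧ ∀ (Cp : ℕ → ℝ) (kM : ℕ) (I : CavIn) (m : ℕ),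
    I.Ok c C ρ Cp kM → I.Star c C Cp kM → I.sv * cvpLay (cvySys m I.P).N (cvySys m I.P).ms (I.jU + 1) ≤ CL := by
  have hl2 : 0 < Real.log 2 := Real.log_pos (by norm_num)
  refine ⟨(1 / c) ^ ρ / (ρ * Real.log 2) + (max C 1) ^ ρ, by positivity, ?_⟩
  intro Cp kM I m hOk hSt
  have hD := cvy_dat_ok m I.P hOk.adm
  have hx := hOk.x0
  have hW : 0 < I.W := hx.trans_le hOk.xW
  have hN : I.jU + 1 ≤ I.P.length := hSt.jUN
  have hmsN : skMs 1 I.P I.P.length = 1 := hD.ms_top _ le_rfl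
  have hmsU : c * I.x ≤ skMs 1 I.P (I.jU + 1) :=
    calc c * I.x ≤ c * I.W := mul_le_mul_of_nonneg_left hOk.xW hc.le
      _ ≤ skMs 1 I.P I.jU := hSt.ULo
      _ ≤ skMs 1 I.P (I.jU + 1) := hD.ms_mono (Nat.le_succ _)
  have hcx : 0 < c * I.x := mul_pos hc hx
  have hpos : 0 < skMs 1 I.P (I.jU + 1) := hcx.trans_le hmsU
  have hLay0 : 0 ≤ cvpLay I.P.length (skMs 1 I.P) (I.jU + 1) :=
    cvb_lay_nonneg (cvy_ok m I.P hOk.adm).ms_ok hN hpos
  have hLay : cvpLay I.P.length (skMs 1 I.P) (I.jU + 1) ≤ (1 / (c * I.x)) ^ ρ / (ρ * Real.log 2) + 1 := by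
    unfold cvpLay
    rw [if_neg (by omega), hmsN]
    have h1 : Real.logb 2 (1 / skMs 1 I.P (I.jU + 1)) ≤ Real.logb 2 (1 / (c * I.x)) :=
      Real.logb_le_logb_of_le (by norm_num) (by positivity) (one_div_le_one_div_of_le hcx hmsU)
    have h2 : Real.logb 2 (1 / (c * I.x)) ≤ (1 / (c * I.x)) ^ ρ / (ρ * Real.log 2) := by
      unfold Real.logb
      rw [div_le_iff₀ hl2]
      have := Real.log_le_rpow_div (x := 1 / (c * I.x)) (by positivity) hρ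
      refine this.trans (le_of_eq ?_)
      field_simp
    linarith
  have hxr : 0 ≤ I.x ^ ρ := Real.rpow_nonneg hx.le _
  have hxC : I.x ^ ρ ≤ (max C 1) ^ ρ :=
    Real.rpow_le_rpow hx.le ((hOk.xW.trans hOk.WC).trans (le_max_left _ _)) hρ.le
  have e1 : I.x ^ ρ * (1 / (c * I.x)) ^ ρ = (1 / c) ^ ρ := by
    rw [← Real.mul_rpow hx.le (by positivity)]
    congr 1
    field_simp
  calc I.sv * cvpLay I.P.length (skMs 1 I.P) (I.jU + 1) ≤ I.x ^ ρ * cvpLay I.P.length (skMs 1 I.P) (I.jU + 1) :=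
        mul_le_mul_of_nonneg_right hOk.sv1 hLay0
    _ ≤ I.x ^ ρ * ((1 / (c * I.x)) ^ ρ / (ρ * Real.log 2) + 1) := mul_le_mul_of_nonneg_left hLay hxr
    _ = (I.x ^ ρ * (1 / (c * I.x)) ^ ρ) / (ρ * Real.log 2) + I.x ^ ρ := by ring
    _ ≤ (1 / c) ^ ρ / (ρ * Real.log 2) + (max C 1) ^ ρ := by rw [e1]; linarith

/-- **EXIT: PE Lemma 4.5 for the SK instance = the hypothesis `hbd` of `led_main`** at `Y = cvySys m I.P`, `τ = cvtStar Y.N ji I.js`, `kS = I.js`, `kU = I.jU + 1`, `P = Y.mEv ji I.js mon`,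
`be = Cbe sv W x²`, `p₀ = cvtMsz W x mon`.      TEX[PE:lem:cavity-boundary] -/
theorem cvb_hbd (c C ρ : ℝ) (Cp : ℕ → ℝ) (hc : 0 < c) (hρ : 0 < ρ) (q d : ℕ) : ∃ Cbe : ℝ, 0 ≤ Cbe ∧
    ∀ (kM : ℕ) (I : CavIn) (m : ℕ), max 2 d ≤ kM → I.n = m + 1 → I.Ok c C ρ Cp kM → I.Star c C Cp kM → ∀ ji, ji ≤ I.jB →
    ∀ (mon : CvtMon) (a b : ℕ), mon.length ≤ d → (∀ e ∈ mon, e.1 < q ∧ e.2 < q ∧ e.1 ≠ e.2) → a < q → b < q →
    ∀ (τ₁ : ℕ → ℕ → ℕ) (o : ℕ), IsTr (cvySys m I.P).N (q + 1) τ₁ →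
      (∀ x y, x < q → y < q → τ₁ x y = cvtStar (cvySys m I.P).N ji I.js x y) → I.jU + 1 ≤ τ₁ a q →
      o < q → cvtStar (cvySys m I.P).N ji I.js o a < I.jU + 1 → cvtStar (cvySys m I.P).N ji I.js o b < I.jU + 1 →
      |trSumK (cvySys m I.P).ms (cvySys m I.P).N 1 (q + 1) τ₁ fun τ' => if I.jU + 1 ≤ τ' o (q + 1) then
          (cvySys m I.P).nuR (q + 2) τ' (fun ω => (cvySys m I.P).mEv ji I.js mon ω
              * (cvySys m I.P).Q (cvtStar (cvySys m I.P).N ji I.js a o) (ω q) (ω (q + 1))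
              * (cvySys m I.P).Q (cvtStar (cvySys m I.P).N ji I.js o b) (ω (q + 1)) (ω b))
            - (cvySys m I.P).nuR (q + 2) (trAtt (cvySys m I.P).N (q + 1) τ₁ o (I.jU + 1))
                (fun ω => (cvySys m I.P).mEv ji I.js mon ω
                  * (cvySys m I.P).Q (cvtStar (cvySys m I.P).N ji I.js a o) (ω q) (ω (q + 1))
                  * (cvySys m I.P).Q (cvtStar (cvySys m I.P).N ji I.js o b) (ω (q + 1)) (ω b))
        else 0| ≤ Cbe * I.sv * I.W * I.x ^ 2 * cvtMsz I.W I.x mon := by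
  obtain ⟨Com, CA, Ce, hCom, hCA, hCe, hin⟩ := cvb_in_of_cav c C ρ Cp hc hρ d
  obtain ⟨CL, hCL, hlay⟩ := cvb_lay_le c C ρ hc hρ
  obtain ⟨C1, hC1, hstar⟩ := cvb_star q d C
  have hCe0 : 0 ≤ Ce := by linarith
  refine ⟨C1 * Ce ^ d * Com * CA ^ 2 * CL, by positivity, ?_⟩
  intro kM I m hk hn hOk hSt ji hji mon a b hlen hmon ha hb τ₁ o hτ₁ hold haq ho hoa hob
  have hP := hOk.adm
  have hD := cvy_dat_ok m I.P hP
  have hY := cvy_ok m I.P hP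
  have key := hstar _ (cvySys m I.P) _ _ (liB m) (liLs m (cvyDat m I.P) ((cvyDat m I.P).clk (fun _ => 1) 0)) Prod.snd
    (cvb_rep_li m hD) hY (fun r => (cvb_cumB_le m hP r).trans hOk.totB) (fun r => (cvb_cumH_le m hP r).trans hOk.totH)
    ji I.js (I.jU + 1) I.x I.W _ _ Ce (hin kM I m hk hn hOk hSt ji hji) mon a b hlen hmon ha hb τ₁ o hτ₁ hold haq ho hoa hob
  refine key.trans ?_
  have hx := hOk.x0
  have hW : 0 < I.W := hx.trans_le hOk.xW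
  have hsv := hOk.sv0
  have hMsz : 0 ≤ cvtMsz I.W I.x mon := cvtMsz_nonneg hW.le hx.le mon
  have hL := hlay Cp kM I m hOk hSt
  have hsq : Real.sqrt I.W ^ 2 = I.W := Real.sq_sqrt hW.le
  have hsq0 : 0 < Real.sqrt I.W := Real.sqrt_pos.2 hW
  set L := cvpLay (cvySys m I.P).N (cvySys m I.P).ms (I.jU + 1) with hLdef
  have e1 : Com * I.W * (CA * (I.sv * I.x ^ 3 / (I.W * Real.sqrt I.W))) ^ 2 / I.x * L
      = Com * CA ^ 2 * I.sv * (I.sv * L) * (I.x ^ 2 * (I.x ^ 3 / I.W ^ 2)) := by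
    rw [mul_pow, div_pow, mul_pow I.W, hsq]
    field_simp
  have h3 : I.x ^ 3 / I.W ^ 2 ≤ I.W := by
    rw [div_le_iff₀ (by positivity)]
    calc I.x ^ 3 ≤ I.W ^ 3 := pow_le_pow_left₀ hx.le hOk.xW 3
      _ = I.W * I.W ^ 2 := by ring
  have h4 : Com * I.W * (CA * (I.sv * I.x ^ 3 / (I.W * Real.sqrt I.W))) ^ 2 / I.x * L ≤ Com * CA ^ 2 * I.sv * CL * (I.x ^ 2 * I.W) := by
    rw [e1]
    have h5 : 0 ≤ I.x ^ 3 / I.W ^ 2 := by positivity
    have h6 : 0 ≤ Com * CA ^ 2 * I.sv := by positivity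
    calc Com * CA ^ 2 * I.sv * (I.sv * L) * (I.x ^ 2 * (I.x ^ 3 / I.W ^ 2))
        ≤ Com * CA ^ 2 * I.sv * CL * (I.x ^ 2 * (I.x ^ 3 / I.W ^ 2)) := by gcongr
      _ ≤ Com * CA ^ 2 * I.sv * CL * (I.x ^ 2 * I.W) := by gcongr
  calc C1 * Ce ^ d * (Com * I.W * (CA * (I.sv * I.x ^ 3 / (I.W * Real.sqrt I.W))) ^ 2 / I.x * L) * cvtMsz I.W I.x mon
      ≤ C1 * Ce ^ d * (Com * CA ^ 2 * I.sv * CL * (I.x ^ 2 * I.W)) * cvtMsz I.W I.x mon := by gcongr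
    _ = C1 * Ce ^ d * Com * CA ^ 2 * CL * I.sv * I.W * I.x ^ 2 * cvtMsz I.W I.x mon := by ring

/-! ## 4. the star-only table (`kI = kS`, scale `x := W`)      (ask of 204 for `cve_24`) -/

/-- the inputs on the star-only table, at the scale `x := W`, are contained in the inputs with an initial cut -/
theorem CvbIn.star_only {Ω : Type} {Y : LedSys Ω} {kI kS kU d : ℕ} {x W om A Ce : ℝ} (H : CvbIn Y kI kS kU d x W om A Ce) :
    CvbIn Y kS kS kU d W W om A Ce where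
  ord := ⟨le_rfl, H.ord.2.1, H.ord.2.2⟩
  x_pos := H.x_pos.trans_le H.x_le
  x_le := le_rfl
  Ce_one := H.Ce_one
  A_nonneg := H.A_nonneg
  U_pos := H.U_pos
  mesh := H.mesh
  low := fun j hj => H.low j (Or.inr (hj.elim id id))
  cenI := H.cenS
  cenS := H.cenS
  res := fun t j h1 h2 hj => H.res t j h1 h2 (Or.inr (hj.elim id id))

theorem cvb_msz_star (W x : ℝ) (mon : CvtMon) (h : ∀ e ∈ mon, e.1 ≠ 0 ∧ e.2 ≠ 0) : cvtMsz W W mon = cvtMsz W x mon := by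
  unfold cvtMsz
  congr 1
  apply List.map_congr_left
  intro e he
  have := h e he
  unfold cvtEsz
  rw [if_neg (by tauto), if_neg (by tauto)]

/-- **EXIT, star-only form**: `cvb_hbd` at `ji := I.js` for monomials without initial edge      TEX[PE:lem:cavity-boundary] -/
theorem cvb_hbd_s (c C ρ : ℝ) (Cp : ℕ → ℝ) (hc : 0 < c) (hρ : 0 < ρ) (q d : ℕ) : ∃ Cbe : ℝ, 0 ≤ Cbe ∧
    ∀ (kM : ℕ) (I : CavIn) (m : ℕ), max 2 d ≤ kM → I.n = m + 1 → I.Ok c C ρ Cp kM → I.Star c C Cp kM →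
    ∀ (mon : CvtMon) (a b : ℕ), mon.length ≤ d → (∀ e ∈ mon, e.1 < q ∧ e.2 < q ∧ e.1 ≠ e.2) → (∀ e ∈ mon, e.1 ≠ 0 ∧ e.2 ≠ 0) →
      a < q → b < q →
    ∀ (τ₁ : ℕ → ℕ → ℕ) (o : ℕ), IsTr (cvySys m I.P).N (q + 1) τ₁ →
      (∀ x y, x < q → y < q → τ₁ x y = cvtStar (cvySys m I.P).N I.js I.js x y) → I.jU + 1 ≤ τ₁ a q →
      o < q → cvtStar (cvySys m I.P).N I.js I.js o a < I.jU + 1 → cvtStar (cvySys m I.P).N I.js I.js o b < I.jU + 1 →
      |trSumK (cvySys m I.P).ms (cvySys m I.P).N 1 (q + 1) τ₁ fun τ' => if I.jU + 1 ≤ τ' o (q + 1) then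
          (cvySys m I.P).nuR (q + 2) τ' (fun ω => (cvySys m I.P).mEv I.js I.js mon ω
              * (cvySys m I.P).Q (cvtStar (cvySys m I.P).N I.js I.js a o) (ω q) (ω (q + 1))
              * (cvySys m I.P).Q (cvtStar (cvySys m I.P).N I.js I.js o b) (ω (q + 1)) (ω b))
            - (cvySys m I.P).nuR (q + 2) (trAtt (cvySys m I.P).N (q + 1) τ₁ o (I.jU + 1))
                (fun ω => (cvySys m I.P).mEv I.js I.js mon ω
                  * (cvySys m I.P).Q (cvtStar (cvySys m I.P).N I.js I.js a o) (ω q) (ω (q + 1))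
                  * (cvySys m I.P).Q (cvtStar (cvySys m I.P).N I.js I.js o b) (ω (q + 1)) (ω b))
        else 0| ≤ Cbe * I.sv * I.W * I.x ^ 2 * cvtMsz I.W I.x mon := by
  obtain ⟨Com, CA, Ce, hCom, hCA, hCe, hin⟩ := cvb_in_of_cav c C ρ Cp hc hρ d
  obtain ⟨CL, hCL, hlay⟩ := cvb_lay_le c C ρ hc hρ
  obtain ⟨C1, hC1, hstar⟩ := cvb_star q d C
  have hCe0 : 0 ≤ Ce := by linarith
  refine ⟨C1 * Ce ^ d * Com * CA ^ 2 * CL, by positivity, ?_⟩
  intro kM I m hk hn hOk hSt mon a b hlen hmon hmon0 ha hb τ₁ o hτ₁ hold haq ho hoa hob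
  have hP := hOk.adm
  have hD := cvy_dat_ok m I.P hP
  have hY := cvy_ok m I.P hP
  have key := hstar _ (cvySys m I.P) _ _ (liB m) (liLs m (cvyDat m I.P) ((cvyDat m I.P).clk (fun _ => 1) 0)) Prod.snd
    (cvb_rep_li m hD) hY (fun r => (cvb_cumB_le m hP r).trans hOk.totB) (fun r => (cvb_cumH_le m hP r).trans hOk.totH)
    I.js I.js (I.jU + 1) I.W I.W _ _ Ce (hin kM I m hk hn hOk hSt 0 (Nat.zero_le _)).star_only mon a b hlen hmon ha hb τ₁ o hτ₁ hold haq ho hoa hob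
  refine key.trans ?_
  rw [cvb_msz_star I.W I.x mon hmon0]
  have hx := hOk.x0
  have hW : 0 < I.W := hx.trans_le hOk.xW
  have hsv := hOk.sv0
  have hMsz : 0 ≤ cvtMsz I.W I.x mon := cvtMsz_nonneg hW.le hx.le mon
  have hL := hlay Cp kM I m hOk hSt
  have hsq : Real.sqrt I.W ^ 2 = I.W := Real.sq_sqrt hW.le
  have hsq0 : 0 < Real.sqrt I.W := Real.sqrt_pos.2 hW
  set L := cvpLay (cvySys m I.P).N (cvySys m I.P).ms (I.jU + 1) with hLdef
  have e1 : Com * I.W * (CA * (I.sv * I.x ^ 3 / (I.W * Real.sqrt I.W))) ^ 2 / I.W * L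
      = Com * CA ^ 2 * I.sv * (I.sv * L) * (I.x ^ 2 * (I.x ^ 4 / I.W ^ 3)) := by
    rw [mul_pow, div_pow, mul_pow I.W, hsq]
    field_simp
  have h3 : I.x ^ 4 / I.W ^ 3 ≤ I.W := by
    rw [div_le_iff₀ (by positivity)]
    calc I.x ^ 4 ≤ I.W ^ 4 := pow_le_pow_left₀ hx.le hOk.xW 4
      _ = I.W * I.W ^ 3 := by ring
  have h4 : Com * I.W * (CA * (I.sv * I.x ^ 3 / (I.W * Real.sqrt I.W))) ^ 2 / I.W * L ≤ Com * CA ^ 2 * I.sv * CL * (I.x ^ 2 * I.W) := by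
    rw [e1]
    have h5 : 0 ≤ I.x ^ 4 / I.W ^ 3 := by positivity
    have h6 : 0 ≤ Com * CA ^ 2 * I.sv := by positivity
    calc Com * CA ^ 2 * I.sv * (I.sv * L) * (I.x ^ 2 * (I.x ^ 4 / I.W ^ 3))
        ≤ Com * CA ^ 2 * I.sv * CL * (I.x ^ 2 * (I.x ^ 4 / I.W ^ 3)) := by gcongr
      _ ≤ Com * CA ^ 2 * I.sv * CL * (I.x ^ 2 * I.W) := by gcongr
  calc C1 * Ce ^ d * (Com * I.W * (CA * (I.sv * I.x ^ 3 / (I.W * Real.sqrt I.W))) ^ 2 / I.W * L) * cvtMsz I.W I.x mon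
      ≤ C1 * Ce ^ d * (Com * CA ^ 2 * I.sv * CL * (I.x ^ 2 * I.W)) * cvtMsz I.W I.x mon := by gcongr
    _ = C1 * Ce ^ d * Com * CA ^ 2 * CL * I.sv * I.W * I.x ^ 2 * cvtMsz I.W I.x mon := by ring

end Claimed.Agent.R286
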