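import Claimed.Agent.R286.Cav.Defs
import Claimed.Agent.R286.Cav.Asm
import Claimed.Agent.R286.Exit.ClkLim
import Claimed.Agent.R286.Exit.CavGam

/-!
# Row 286 (S0533), PE Section 4 (cavity): CONTRACT OF THE SECTION      (owner helper223, head of PE Sec 4; deputy helper185)      prefix `cav_`, types `CavIn`

## EXITS TO OTHER UNITS (frozen by 207): `R286/Exit/Cav.lean` (`exit_cav`: Prop 4.1 modulus form at a minimiser of (6), vocabulary `CmI` of PE Sec 3), `R286/Exit/CavOm.lean` (`exit_cav_om`: omitted lower cuts).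
## THIS FILE: the ABSTRACT form (D7 of the ledger of 142: "CavityInputs", so that LL 07 re-uses the proof), sorried here, proved in `Cav/Ret*`, `Cav/Wrap*`
* `cav_closure_small`   Prop 4.1, MODULUS FORM, step paths, regime `W ≤ w0` (star calibration).            TEX[PE:prop:cavity-closure]
* `cav_closure_large`   Prop 4.1, MODULUS FORM, step paths, regime `∫_0^1 D ≤ et x²` (R2 of 266: `W ≥ w0`, (19) with `C = 1/w0`).
* `cav_omitted`         Prop 4.1, omitted lower cuts (`W ≤ C x`): `O(x³)` at EVERY cut of the low band, no lower bound on the mass, no (4) there.      (used by PE L7.3)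
* `cav_clk_small`, `cav_clk_large`, `cav_clk_omitted`      the same for bounded monotone clocks (`Defs/Clk`): hypotheses = the step inputs hold EVENTUALLY ALONG THE NET OF CHAINS.
* the normalised `L¹` claims of Prop 4.1 = modulus form + (19) + Jensen: abstract lemma already proved in `Cav/AbsL1.lean` (218); no further exit.
All statements are NON-ASYMPTOTIC, CONSTANTS FIRST (D2): `∃ kM C0 θ w0, ∀ ε, ∃ δ, ∀ instance`.   Only the moment orders `2k`, `k ≤ kM`, are used (so that "eventually along the net" is a finite intersection).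
## THE INPUTS = `CavIn` (data) + `CavIn.Ok` (scale `x`) + `CavIn.Star` (calibration scale `W`) / `CavIn.Large`
`sv` = the polynomial saving `n^{-κ}` (one number for `κ, c_2`), `et` = the rate-free little-oh of (19).   `Cp k` = constant of the moment order `2k`.   Cuts: `jB` top of the low band (all targets and omitted cuts are `≤ jB`), `jX` = `U_x`, `js` = `*`, `jU` = `U`.
INSTANCES (captain's rule #3):  PE: `exit_cav_inst_s`, `exit_cav_inst_l` (`R286/Exit/CavInstS.lean`, `CavInstL.lean`; owner helper18 with 295/247/294) from `exit_cmp_raw/res/split/dir*` + (13) at the step level + `exit_clk_lim_nu`.      LL 07 ("modified closure"): owner 162/198, same fields.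
SOURCES: (11) -> `nx`, `sv1`;  (12) -> `raw`;  (13) POINTWISE in (field, V) -> `prj`, `prjR` (rest-only system = SK path `cvRest` of size `n-1`);  (16) -> `resU`;  (17) -> `mom`;  (18) -> `highX`, `highU`, `Dst`;  (19) -> `lowX`, `lowU`, `Large.all`;  (4) in O-form (R3 of 266) -> `bst`, `hst`;  geometry -> `hHi`, masses of the cuts.
## IMPORTS used inside the proofs (theorems, not hypotheses)
* PE Sec 2 (118; 150, 42, 16, 278, 193): `Fd/TrA*` (signed rows, collapse, total variation, split density, order symmetry, MARG), `Fd/TrB*` (`tr_nu_comap/prune/perm/coinc/cut/indep/cov_congr/sym/block_sym/const/prod`, `tr_coupling`), `Fd/TrC*` (`tr_cov_deriv(_iter)` = (2), `tr_taylor`, `tr_gronwall`, `tr_nu_merge`), `Fd/CSym` (`sk_sy_*`), `Exit/ClkLim`, `Exit/ClkLip`.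
* scalar block (183; 205 `Sc/Link`): derivative bounds of the scalar recursion, `c0 ≤ χ ≤ 1`, `γ(v) ≤ K_v`, low expansion `Γ(K_*) = χ² K_* + O(W³)`.
## INTERNAL DAG (files, owners)      TEX tags are carried by the files of the owners
`Sys` 223 (SK instance of `LedSys`, star table, `nuM`, `LM`)  |  `Tst*` 218 (star tests; TEX[PE:def:cavity-tests], TEX[PE:lem:cavity-family])  |  `Pre*` 18 (L4.3-4.5, χ, γ; TEX[PE:lem:cavity-row-change], TEX[PE:lem:cavity-truncation], TEX[PE:lem:cavity-boundary])  |  `Led*` 204 (parametric ledger ⇒ (24); TEX[PE:lem:cavity-row-identity])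
`Rep*`, `Alg*` 244 (L4.8, (25'), L4.9, L4.10; TEX[PE:lem:cavity-replacements], TEX[PE:lem:cavity-recursion], TEX[PE:lem:cavity-calibration])  |  `Ret*` 137 (return, cut change, omitted cuts)  |  `Wrap*` 185 (clocks, U-frame).
-/

set_option autoImplicit false

namespace Claimed.Agent.R286

open MeasureTheory ProbabilityTheory Filter


/-! ## step paths -/

/-- **Prop 4.1, modulus form, `W ≤ w0`**      TEX[PE:prop:cavity-closure] -/
theorem cav_closure_small (c C ρ : ℝ) (Cp : ℕ → ℝ) (hc : 0 < c) (hρ : 0 < ρ) :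
    ∃ (kM : ℕ) (C0 θ w0 : ℝ), 0 < θ ∧ θ ≤ 1 ∧ 0 < w0 ∧ ∀ ε : ℝ, 0 < ε → ∃ δ : ℝ, 0 < δ ∧ ∀ I : CavIn,
      I.Ok c C ρ Cp kM → I.Star c C Cp kM → I.W ≤ w0 → I.x ≤ δ → I.sv ≤ δ → I.et ≤ δ →
      ∀ ji, ji ≤ I.jB → c * I.x ≤ cvLo I.P ji →
        |I.err ji| ≤ C0 * I.x ^ 3 * (ε + (cvD I.n I.P ji / I.x) ^ θ) :=
  asm_closure_small c C ρ Cp hc hρ

/-- **Prop 4.1, modulus form, `W` bounded below**      TEX[PE:prop:cavity-closure] -/
theorem cav_closure_large (c C ρ : ℝ) (Cp : ℕ → ℝ) (hc : 0 < c) (hρ : 0 < ρ) :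
    ∃ (kM : ℕ) (C0 θ : ℝ), 0 < θ ∧ θ ≤ 1 ∧ ∀ ε : ℝ, 0 < ε → ∃ δ : ℝ, 0 < δ ∧ ∀ I : CavIn,
      I.Ok c C ρ Cp kM → I.Large → I.x ≤ δ → I.sv ≤ δ → I.et ≤ δ →
      ∀ ji, ji ≤ I.jB → c * I.x ≤ cvLo I.P ji →
        |I.err ji| ≤ C0 * I.x ^ 3 * (ε + (cvD I.n I.P ji / I.x) ^ θ) :=
  asm_closure_large c C ρ Cp hc hρ

/-- **Prop 4.1, omitted lower cuts** (`W ≤ C x`)      TEX[PE:prop:cavity-closure] -/
theorem cav_omitted (c C ρ : ℝ) (Cp : ℕ → ℝ) (hc : 0 < c) (hρ : 0 < ρ) :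
    ∃ (kM : ℕ) (C0 δ : ℝ), 0 < δ ∧ ∀ I : CavIn,
      I.Ok c C ρ Cp kM → I.Star c C Cp kM → I.W ≤ C * I.x → I.x ≤ δ → I.sv ≤ δ → I.et ≤ δ →
      ∀ ji, ji ≤ I.jB → |I.err ji| ≤ C0 * I.x ^ 3 :=
  asm_omitted c C ρ Cp hc hρ

/-! ## bounded monotone clocks -/


/-! #### W1 (helper231): the clock forms follow from the step forms; limits `exit_clk_lim_stat`, `exit_cav_gam` (1); helpers `cvw_*` -/

/-! ### chains: indices and masses -/

theorem cvw_idx_coe (ps : List GhPos) (p : GhPos) :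
    ghIdx ps (p : WithTop GhPos) = (ps.filter fun x : GhPos => decide (x ≤ p)).length := by
  unfold ghIdx
  have : (do let a ← ps; pure (a : WithTop GhPos)) = ps.map (fun a : GhPos => (a : WithTop GhPos)) := by
    simp [List.map_eq_flatMap]
  rw [this, List.filter_map, List.length_map]
  simp [Function.comp_def]

theorem cvw_idx_mono (ps : List GhPos) {p p' : GhPos} (h : p ≤ p') :
    ghIdx ps (p : WithTop GhPos) ≤ ghIdx ps (p' : WithTop GhPos) := by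
  rw [cvw_idx_coe, cvw_idx_coe]
  apply List.Sublist.length_le
  apply List.monotone_filter_right
  intro x hx
  simp only [decide_eq_true_eq] at hx ⊢
  exact hx.trans h

theorem cvw_map_m (a : ℝ) (b h : ℝ → ℝ) (ps : List GhPos) (b0 h0 : ℝ) :
    (skCStp a b h b0 h0 ps).map SkInc.m = ps.map GhPos.u := by
  induction ps generalizing b0 h0 with
  | nil => rfl
  | cons p ps ih => simp only [skCStp, List.map_cons, ih]

theorem cvw_idx_at {ps : List GhPos} (hs : ps.Pairwise (· < ·)) {p : GhPos} (hp : p ∈ ps) (a : ℝ) :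
    1 ≤ ghIdx ps (p : WithTop GhPos) ∧ (ps.map GhPos.u).getD (ghIdx ps (p : WithTop GhPos) - 1) a = p.u := by
  obtain ⟨l₁, l₂, rfl⟩ := List.append_of_mem hp
  rw [List.pairwise_append] at hs
  obtain ⟨-, h2, h3⟩ := hs
  rw [List.pairwise_cons] at h2
  have e1 : l₁.filter (fun x : GhPos => decide (x ≤ p)) = l₁ := by
    rw [List.filter_eq_self]
    intro x hx
    simpa using (h3 x hx p (by simp)).le
  have e2 : l₂.filter (fun x : GhPos => decide (x ≤ p)) = [] := by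
    rw [List.filter_eq_nil_iff]
    intro x hx
    simpa using h2.1 x hx
  have e3 : ghIdx (l₁ ++ p :: l₂) (p : WithTop GhPos) = l₁.length + 1 := by
    rw [cvw_idx_coe, List.filter_append, e1, List.filter_cons_of_pos (by simp), e2]
    simp
  rw [e3]
  refine ⟨by omega, ?_⟩
  simp [List.getD_eq_getElem?_getD]

theorem cvw_ps_sorted (a : ℝ) (F : Finset GhPos) : (ghPs a F).Pairwise (· < ·) := by
  unfold ghPs
  exact (Finset.sortedLT_sort _).pairwise

theorem cvw_mem_ps {a : ℝ} {F : Finset GhPos} {p : GhPos} (hp : p ∈ F) (ho : p.Ok a) : p ∈ ghPs a F := by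
  unfold ghPs
  simp [hp, ho]

theorem cvw_lo {b h : ℝ → ℝ} {F : Finset GhPos} {p : GhPos} (hp : p ∈ F) (ho : p.Ok 1) :
    cvLo (skCStp 1 b h 0 0 (ghPs 1 F)) (ghIdx (ghPs 1 F) (p : WithTop GhPos)) = p.u := by
  obtain ⟨h1, h2⟩ := cvw_idx_at (cvw_ps_sorted 1 F) (cvw_mem_ps hp ho) 1
  unfold cvLo skMs
  rw [if_neg (by omega), cvw_map_m, h2]


/-! ### limits along the net of chains -/

theorem cvw_lim_SB {n : ℕ} (hn : 0 < n) {b h : ℝ → ℝ} (hb : GhClk1 1 b) (hh : GhClk1 1 h) {p : GhPos} (hp : p.Ok 1) :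
    Tendsto (fun F : Finset GhPos => cvS n (skCStp 1 b h 0 0 (ghPs 1 F)) (ghIdx (ghPs 1 F) (p : WithTop GhPos))) atTop
        (nhds (skCS n 1 b h p)) ∧
      Tendsto (fun F : Finset GhPos => obB n 1 (skCStp 1 b h 0 0 (ghPs 1 F)) 0 (ghIdx (ghPs 1 F) (p : WithTop GhPos))) atTop
        (nhds (skCB n 1 b h p)) := by
  classical
  constructor
  · rw [Metric.tendsto_atTop]
    intro ε hε
    obtain ⟨F0, hF0⟩ := exit_clk_lim_stat hn one_pos (⟨hb, hh⟩ : CkAdm 1 b h) (half_pos hε)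
    refine ⟨F0 ∪ {p}, fun F hF => ?_⟩
    have h1 := (hF0 F (Finset.union_subset_left hF) p (hF (by simp)) hp).1
    rw [Real.dist_eq]
    exact lt_of_le_of_lt h1 (half_lt_self hε)
  · rw [Metric.tendsto_atTop]
    intro ε hε
    obtain ⟨F0, hF0⟩ := exit_clk_lim_stat hn one_pos (⟨hb, hh⟩ : CkAdm 1 b h) (half_pos hε)
    refine ⟨F0 ∪ {p}, fun F hF => ?_⟩
    have h1 := (hF0 F (Finset.union_subset_left hF) p (hF (by simp)) hp).2.1
    rw [Real.dist_eq]
    exact lt_of_le_of_lt h1 (half_lt_self hε)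

theorem cvw_lim_D {n : ℕ} (hn : 0 < n) {b h : ℝ → ℝ} (hb : GhClk1 1 b) (hh : GhClk1 1 h) {p : GhPos} (hp : p.Ok 1) :
    Tendsto (fun F : Finset GhPos => cvD n (skCStp 1 b h 0 0 (ghPs 1 F)) (ghIdx (ghPs 1 F) (p : WithTop GhPos))) atTop
      (nhds (cvDC n b h p)) := by
  obtain ⟨h1, h2⟩ := cvw_lim_SB hn hb hh hp
  unfold cvD cvDC obD2
  exact (Real.continuous_sqrt.tendsto _).comp (h2.sub (h1.pow 2))

theorem cvw_lim_G {n : ℕ} (hn : 0 < n) {b h : ℝ → ℝ} (hb : GhClk1 1 b) (hh : GhClk1 1 h) {p : GhPos} (hp : p.Ok 1) :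
    Tendsto (fun F : Finset GhPos => cvGam n (skCStp 1 b h 0 0 (ghPs 1 F)) (ghIdx (ghPs 1 F) (p : WithTop GhPos))) atTop
      (nhds (cvGamC n b h p)) :=
  (exit_cav_gam n hn b h hb hh).1 p hp

/-- passage to the limit in the modulus form -/
theorem cvw_pass {S G D : Finset GhPos → ℝ} {s g d : ℝ} (hS : Tendsto S atTop (nhds s)) (hG : Tendsto G atTop (nhds g))
    (hD : Tendsto D atTop (nhds d)) (A x ε θ : ℝ) (hθ : 0 < θ)
    (hev : ∀ᶠ F in atTop, |S F - G F| ≤ A * (ε + (D F / x) ^ θ)) : |s - g| ≤ A * (ε + (d / x) ^ θ) := by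
  have h1 : Tendsto (fun F => |S F - G F|) atTop (nhds |s - g|) := (hS.sub hG).abs
  have h2 : Tendsto (fun F => A * (ε + (D F / x) ^ θ)) atTop (nhds (A * (ε + (d / x) ^ θ))) :=
    ((((hD.div_const x).rpow_const (Or.inr hθ.le)).const_add ε).const_mul A)
  exact le_of_tendsto_of_tendsto h1 h2 hev

theorem cvw_ev_mem (p : GhPos) : ∀ᶠ F : Finset GhPos in atTop, p ∈ F := by
  classical
  filter_upwards [eventually_ge_atTop ({p} : Finset GhPos)] with F hF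
  exact hF (by simp)

theorem cav_clk_small (c C ρ : ℝ) (Cp : ℕ → ℝ) (hc : 0 < c) (hρ : 0 < ρ) :
    ∃ (kM : ℕ) (C0 θ w0 : ℝ), 0 < θ ∧ θ ≤ 1 ∧ 0 < w0 ∧ ∀ ε : ℝ, 0 < ε → ∃ δ : ℝ, 0 < δ ∧
      ∀ (n : ℕ) (b h : ℝ → ℝ) (x W sv et T : ℝ) (pB pX ps pU : GhPos), GhClk1 1 b → GhClk1 1 h →
      (∀ᶠ F : Finset GhPos in atTop, (cvInC n b h x W sv et T pB pX ps pU (ghPs 1 F)).Ok c C ρ Cp kM
        ∧ (cvInC n b h x W sv et T pB pX ps pU (ghPs 1 F)).Star c C Cp kM) →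
      W ≤ w0 → x ≤ δ → sv ≤ δ → et ≤ δ →
      ∀ p : GhPos, p.Ok 1 → p ≤ pB → c * x ≤ p.u →
        |skCS n 1 b h p - cvGamC n b h p| ≤ C0 * x ^ 3 * (ε + (cvDC n b h p / x) ^ θ) := by
  obtain ⟨kM, C0, θ, w0, hθ, hθ1, hw0, H⟩ := cav_closure_small c C ρ Cp hc hρ
  refine ⟨kM, C0, θ, w0, hθ, hθ1, hw0, fun ε hε => ?_⟩
  obtain ⟨δ, hδ, H⟩ := H ε hε
  refine ⟨δ, hδ, ?_⟩
  intro n b h x W sv et T pB pX ps pU hb hh hev hW hx hsv het p hp hpB hpu
  have hn : 0 < n := by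
    obtain ⟨F, hF⟩ := hev.exists
    have := hF.1.n2
    exact lt_of_lt_of_le two_pos this
  refine cvw_pass (cvw_lim_SB hn hb hh hp).1 (cvw_lim_G hn hb hh hp) (cvw_lim_D hn hb hh hp) _ x ε θ hθ ?_
  filter_upwards [hev, cvw_ev_mem p] with F hF hpF
  refine H _ hF.1 hF.2 hW hx hsv het _ (cvw_idx_mono _ hpB) ?_
  exact hpu.trans (cvw_lo hpF hp).ge

theorem cav_clk_large (c C ρ : ℝ) (Cp : ℕ → ℝ) (hc : 0 < c) (hρ : 0 < ρ) :
    ∃ (kM : ℕ) (C0 θ : ℝ), 0 < θ ∧ θ ≤ 1 ∧ ∀ ε : ℝ, 0 < ε → ∃ δ : ℝ, 0 < δ ∧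
      ∀ (n : ℕ) (b h : ℝ → ℝ) (x W sv et T : ℝ) (pB pX ps pU : GhPos), GhClk1 1 b → GhClk1 1 h →
      (∀ᶠ F : Finset GhPos in atTop, (cvInC n b h x W sv et T pB pX ps pU (ghPs 1 F)).Ok c C ρ Cp kM
        ∧ (cvInC n b h x W sv et T pB pX ps pU (ghPs 1 F)).Large) →
      x ≤ δ → sv ≤ δ → et ≤ δ →
      ∀ p : GhPos, p.Ok 1 → p ≤ pB → c * x ≤ p.u →
        |skCS n 1 b h p - cvGamC n b h p| ≤ C0 * x ^ 3 * (ε + (cvDC n b h p / x) ^ θ) := by
  obtain ⟨kM, C0, θ, hθ, hθ1, H⟩ := cav_closure_large c C ρ Cp hc hρ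
  refine ⟨kM, C0, θ, hθ, hθ1, fun ε hε => ?_⟩
  obtain ⟨δ, hδ, H⟩ := H ε hε
  refine ⟨δ, hδ, ?_⟩
  intro n b h x W sv et T pB pX ps pU hb hh hev hx hsv het p hp hpB hpu
  have hn : 0 < n := by
    obtain ⟨F, hF⟩ := hev.exists
    have := hF.1.n2
    exact lt_of_lt_of_le two_pos this
  refine cvw_pass (cvw_lim_SB hn hb hh hp).1 (cvw_lim_G hn hb hh hp) (cvw_lim_D hn hb hh hp) _ x ε θ hθ ?_
  filter_upwards [hev, cvw_ev_mem p] with F hF hpF
  refine H _ hF.1 hF.2 hx hsv het _ (cvw_idx_mono _ hpB) ?_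
  exact hpu.trans (cvw_lo hpF hp).ge

theorem cav_clk_omitted (c C ρ : ℝ) (Cp : ℕ → ℝ) (hc : 0 < c) (hρ : 0 < ρ) :
    ∃ (kM : ℕ) (C0 δ : ℝ), 0 < δ ∧
      ∀ (n : ℕ) (b h : ℝ → ℝ) (x W sv et T : ℝ) (pB pX ps pU : GhPos), GhClk1 1 b → GhClk1 1 h →
      (∀ᶠ F : Finset GhPos in atTop, (cvInC n b h x W sv et T pB pX ps pU (ghPs 1 F)).Ok c C ρ Cp kM
        ∧ (cvInC n b h x W sv et T pB pX ps pU (ghPs 1 F)).Star c C Cp kM) →
      W ≤ C * x → x ≤ δ → sv ≤ δ → et ≤ δ →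
      ∀ p : GhPos, p.Ok 1 → p ≤ pB → |skCS n 1 b h p - cvGamC n b h p| ≤ C0 * x ^ 3 := by
  obtain ⟨kM, C0, δ, hδ, H⟩ := cav_omitted c C ρ Cp hc hρ
  refine ⟨kM, C0, δ, hδ, ?_⟩
  intro n b h x W sv et T pB pX ps pU hb hh hev hW hx hsv het p hp hpB
  have hn : 0 < n := by
    obtain ⟨F, hF⟩ := hev.exists
    have := hF.1.n2
    exact lt_of_lt_of_le two_pos this
  have h1 := ((cvw_lim_SB hn hb hh hp).1.sub (cvw_lim_G hn hb hh hp)).abs
  refine le_of_tendsto h1 ?_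
  filter_upwards [hev] with F hF
  exact H _ hF.1 hF.2 hW hx hsv het _ (cvw_idx_mono _ hpB)

end Claimed.Agent.R286
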