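import Claimed.Agent.R286.Cav.LedTay

/-!
# Row 286 (S0533), unit Cav, file LedTayC      (owner: helper201; head of `Led*`: helper204; prefix `ledy_`, exits `led_ins_*`, `led_ch_*`)

Task T3 of origin/helper204:notes/R286/LED_PLAN_204.md: THE CHAINS OF DERIVATIVES (`LedtCh` of `Cav/LedCalc`) of the families of `Cav/LedTerms`.
* rules of `ins`: a derivative appends a kernel at the END of the list: `led_ins_deriv_l` (`kLow kU t`), `led_ins_deriv_t` (`kE kU l`), `led_ins_cont_l`, `led_ins_cont_t`;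
* `led_ch_gD   : LedtCh fun i l => gD kU kS i l`
* `led_ch_FF_t : LedtCh fun m t => FF n m l t s`            `led_ch_FF_l : LedtCh fun n l => FF n 0 l t t`
* `led_ch_CC_t : LedtCh fun m t => CC m 0 l t`              `led_ch_CC_l : LedtCh fun n l => CC 0 n l 1`
* `led_ch_HH_t : LedtCh fun m t => HH m 0 l t`              `led_ch_HH_l : LedtCh fun n l => HH 0 n l 1`
-/

set_option autoImplicit false

namespace Claimed.Agent.R286

open Finset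

variable {Ω : Type} {Y : LedSys Ω}

/-! ### lists of pairs -/

theorem ledy_pairs_append (Vs Ws : List (LedKer Ω)) : ∀ q0 : ℕ,
    ledPairs q0 (Vs ++ Ws) = ledPairs q0 Vs ++ ledPairs (q0 + 2 * Vs.length) Ws := by
  induction Vs with
  | nil => intro q0; rfl
  | cons V Vs ih =>
    intro q0
    rw [List.cons_append, ledPairs, ledPairs, ih (q0 + 2), List.cons_append, List.length_cons,
      show q0 + 2 + 2 * Vs.length = q0 + 2 * (Vs.length + 1) by ring]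

theorem ledy_pairs_snoc (Vs : List (LedKer Ω)) (V : LedKer Ω) (q0 : ℕ) :
    ledPairs q0 (Vs ++ [V]) = ledPairs q0 Vs ++ [(q0 + 2 * Vs.length, q0 + 2 * Vs.length + 1, V)] := by
  rw [ledy_pairs_append]; rfl

theorem ledy_pairs_lt (Vs : List (LedKer Ω)) : ∀ q0 : ℕ, ∀ f ∈ ledPairs q0 Vs,
    f.1 < q0 + 2 * Vs.length ∧ f.2.1 < q0 + 2 * Vs.length := by
  induction Vs with
  | nil => intro q0 f hf; simp [ledPairs] at hf
  | cons V Vs ih =>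
    intro q0 f hf
    rw [ledPairs, List.mem_cons] at hf
    rw [List.length_cons]
    rcases hf with rfl | hf
    · exact ⟨by show q0 < _; omega, by show q0 + 1 < _; omega⟩
    · have := ih (q0 + 2) f hf
      constructor <;> omega

theorem ledy_tm_cast (Y : LedSys Ω) (lam : ℕ → ℝ) (t : ℝ) (q : ℕ) (τ : ℕ → ℕ → ℕ) {k k' : ℕ} (hk : k = k')
    (κ : (ℕ → ℕ → ℕ) → ℝ) (J : (ℕ → Bool × Ω) → ℝ) {fs fs' : List (LedFac Ω)} (hfs : fs = fs') :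
    Y.tm lam t q τ k κ J fs = Y.tm lam t q τ k' κ J fs' := by
  subst hk; subst hfs; rfl

/-! ### the kernels of the derivatives -/

theorem ledy_kLow_eq (Y : LedSys Ω) (kU : ℕ) (t : ℝ) :
    (fun (r : ℕ) (x y : Bool × Ω) => 1 / 2 * ((ledLam kU 1 r - ledLam kU 0 r) * Y.kRow t r x y)) = Y.kLow kU t := by
  funext r x y
  unfold LedSys.kLow ledLam
  split_ifs <;> ring

/-- **`∂_l` of a term**: the kernel `kLow kU t` on the two new last labels -/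
theorem led_tm_deriv_l (hY : Y.Ok) (kU : ℕ) {t : ℝ} (ht : t ∈ Set.Icc (0 : ℝ) 1) {q : ℕ} {τ : ℕ → ℕ → ℕ}
    (hτ : IsTr Y.N q τ) (k : ℕ) {κ : (ℕ → ℕ → ℕ) → ℝ}
    (hκ : ∀ τ₁ τ₂ : ℕ → ℕ → ℕ, (∀ y z, y < q + k → z < q + k → τ₁ y z = τ₂ y z) → κ τ₁ = κ τ₂)
    {J : (ℕ → Bool × Ω) → ℝ} (hJ : TrUses (q + k) J) {fs : List (LedFac Ω)} (hfs : ∀ f ∈ fs, f.1 < q + k ∧ f.2.1 < q + k)
    {l : ℝ} (hl : l ∈ Set.Ioo (0 : ℝ) 1) :
    HasDerivAt (fun l => Y.tm (ledLam kU l) t q τ k κ J fs)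
      (Y.tm (ledLam kU l) t q τ (k + 2) κ J (fs ++ [(q + k, q + k + 1, Y.kLow kU t)])) l := by
  have := led_tm_derivL hY (ledt_prof kU (l := 0) (by simp)) (ledt_prof kU (l := 1) (by simp)) ht hτ k hκ hJ hfs hl
  simpa only [ledt_seg, ledy_kLow_eq] using this

theorem led_tm_cont_l (hY : Y.Ok) (kU : ℕ) {t : ℝ} (ht : t ∈ Set.Icc (0 : ℝ) 1) {q : ℕ} {τ : ℕ → ℕ → ℕ}
    (hτ : IsTr Y.N q τ) (k : ℕ) (κ : (ℕ → ℕ → ℕ) → ℝ) {J : (ℕ → Bool × Ω) → ℝ} (hJ : TrUses (q + k) J)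
    {fs : List (LedFac Ω)} (hfs : ∀ f ∈ fs, f.1 < q + k ∧ f.2.1 < q + k) :
    ContinuousOn (fun l => Y.tm (ledLam kU l) t q τ k κ J fs) (Set.Icc 0 1) := by
  have := led_tm_contL hY (ledt_prof kU (l := 0) (by simp)) (ledt_prof kU (l := 1) (by simp)) ht hτ k κ hJ hfs
  simpa only [ledt_seg] using this

/-- **`∂_t` of a term**: the kernel `kE kU l` on the two new last labels -/
theorem led_tm_deriv_t (hY : Y.Ok) (kU : ℕ) {l : ℝ} (hl : l ∈ Set.Icc (0 : ℝ) 1) {q : ℕ} {τ : ℕ → ℕ → ℕ}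
    (hτ : IsTr Y.N q τ) (k : ℕ) {κ : (ℕ → ℕ → ℕ) → ℝ}
    (hκ : ∀ τ₁ τ₂ : ℕ → ℕ → ℕ, (∀ y z, y < q + k → z < q + k → τ₁ y z = τ₂ y z) → κ τ₁ = κ τ₂)
    {J : (ℕ → Bool × Ω) → ℝ} (hJ : TrUses (q + k) J) {fs : List (LedFac Ω)} (hfs : ∀ f ∈ fs, f.1 < q + k ∧ f.2.1 < q + k)
    {t : ℝ} (ht : t ∈ Set.Ioo (0 : ℝ) 1) :
    HasDerivAt (fun t => Y.tm (ledLam kU l) t q τ k κ J fs)
      (Y.tm (ledLam kU l) t q τ (k + 2) κ J (fs ++ [(q + k, q + k + 1, Y.kE kU l)])) t :=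
  led_tm_derivT hY (ledt_prof kU hl) hτ k hκ hJ hfs ht

/-! ### rules of `ins` -/

theorem ledy_ins_snoc (Y : LedSys Ω) (lam : ℕ → ℝ) (t : ℝ) (q : ℕ) (τ : ℕ → ℕ → ℕ) (J : (ℕ → Bool × Ω) → ℝ)
    (Vs : List (LedKer Ω)) (V : LedKer Ω) :
    Y.ins lam t q τ J (Vs ++ [V]) = Y.tm lam t q τ (2 * Vs.length + 2) (fun _ => 1) J
      (ledPairs q Vs ++ [(q + 2 * Vs.length, q + 2 * Vs.length + 1, V)]) := by
  unfold LedSys.ins
  exact ledy_tm_cast Y lam t q τ (by rw [List.length_append, List.length_singleton]; ring) _ J (ledy_pairs_snoc Vs V q)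

theorem led_ins_deriv_l (hY : Y.Ok) (kU : ℕ) {t : ℝ} (ht : t ∈ Set.Icc (0 : ℝ) 1) {q : ℕ} {τ : ℕ → ℕ → ℕ}
    (hτ : IsTr Y.N q τ) {J : (ℕ → Bool × Ω) → ℝ} (hJ : TrUses q J) (Vs : List (LedKer Ω)) {l : ℝ} (hl : l ∈ Set.Ioo (0 : ℝ) 1) :
    HasDerivAt (fun l => Y.ins (ledLam kU l) t q τ J Vs) (Y.ins (ledLam kU l) t q τ J (Vs ++ [Y.kLow kU t])) l := by
  rw [ledy_ins_snoc]
  exact led_tm_deriv_l hY kU ht hτ (2 * Vs.length) (fun _ _ _ => rfl) (ledy_uses_mono (by omega) hJ) (ledy_pairs_lt Vs q) hl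

theorem led_ins_cont_l (hY : Y.Ok) (kU : ℕ) {t : ℝ} (ht : t ∈ Set.Icc (0 : ℝ) 1) {q : ℕ} {τ : ℕ → ℕ → ℕ}
    (hτ : IsTr Y.N q τ) {J : (ℕ → Bool × Ω) → ℝ} (hJ : TrUses q J) (Vs : List (LedKer Ω)) :
    ContinuousOn (fun l => Y.ins (ledLam kU l) t q τ J Vs) (Set.Icc 0 1) :=
  led_tm_cont_l hY kU ht hτ (2 * Vs.length) _ (ledy_uses_mono (by omega) hJ) (ledy_pairs_lt Vs q)

theorem led_ins_deriv_t (hY : Y.Ok) (kU : ℕ) {l : ℝ} (hl : l ∈ Set.Icc (0 : ℝ) 1) {q : ℕ} {τ : ℕ → ℕ → ℕ}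
    (hτ : IsTr Y.N q τ) {J : (ℕ → Bool × Ω) → ℝ} (hJ : TrUses q J) (Vs : List (LedKer Ω)) {t : ℝ} (ht : t ∈ Set.Ioo (0 : ℝ) 1) :
    HasDerivAt (fun t => Y.ins (ledLam kU l) t q τ J Vs) (Y.ins (ledLam kU l) t q τ J (Vs ++ [Y.kE kU l])) t := by
  rw [ledy_ins_snoc]
  exact led_tm_deriv_t hY kU hl hτ (2 * Vs.length) (fun _ _ _ => rfl) (ledy_uses_mono (by omega) hJ) (ledy_pairs_lt Vs q) ht

theorem led_ins_cont_t (hY : Y.Ok) {lam : ℕ → ℝ} (hl : LedProf lam) {q : ℕ} {τ : ℕ → ℕ → ℕ}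
    (hτ : IsTr Y.N q τ) {J : (ℕ → Bool × Ω) → ℝ} (hJ : TrUses q J) (Vs : List (LedKer Ω)) :
    ContinuousOn (fun t => Y.ins lam t q τ J Vs) (Set.Icc 0 1) :=
  led_tm_contT hY hl hτ (2 * Vs.length) _ (ledy_uses_mono (by omega) hJ) (ledy_pairs_lt Vs q)

/-- chain in `l` of the insertions of the low kernel -/
theorem led_ch_ins_l (hY : Y.Ok) (kU : ℕ) {t : ℝ} (ht : t ∈ Set.Icc (0 : ℝ) 1) {q : ℕ} {τ : ℕ → ℕ → ℕ}
    (hτ : IsTr Y.N q τ) {J : (ℕ → Bool × Ω) → ℝ} (hJ : TrUses q J) :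
    LedtCh fun n l => Y.ins (ledLam kU l) t q τ J (List.replicate n (Y.kLow kU t)) := by
  refine ⟨fun n => led_ins_cont_l hY kU ht hτ hJ _, fun n l hl => ?_⟩
  have := led_ins_deriv_l hY kU ht hτ hJ (List.replicate n (Y.kLow kU t)) hl
  rwa [← List.replicate_succ'] at this

/-- chain in `t` of the insertions of the error kernel, after a fixed list -/
theorem led_ch_ins_t (hY : Y.Ok) (kU : ℕ) {l : ℝ} (hl : l ∈ Set.Icc (0 : ℝ) 1) {q : ℕ} {τ : ℕ → ℕ → ℕ}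
    (hτ : IsTr Y.N q τ) {J : (ℕ → Bool × Ω) → ℝ} (hJ : TrUses q J) (Vs : List (LedKer Ω)) :
    LedtCh fun m t => Y.ins (ledLam kU l) t q τ J (Vs ++ List.replicate m (Y.kE kU l)) := by
  refine ⟨fun m => led_ins_cont_t hY (ledt_prof kU hl) hτ hJ _, fun m t ht => ?_⟩
  have := led_ins_deriv_t hY kU hl hτ hJ (Vs ++ List.replicate m (Y.kE kU l)) ht
  rwa [List.append_assoc, ← List.replicate_succ'] at this

/-! ### terms with a fixed head and a tail of consecutive pairs -/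

theorem ledy_tail_lt {q k0 : ℕ} {hd : List (LedFac Ω)} (hhd : ∀ f ∈ hd, f.1 < q + k0 ∧ f.2.1 < q + k0) (Ws : List (LedKer Ω)) :
    ∀ f ∈ hd ++ ledPairs (q + k0) Ws, f.1 < q + (k0 + 2 * Ws.length) ∧ f.2.1 < q + (k0 + 2 * Ws.length) := by
  intro f hf
  rcases List.mem_append.1 hf with hf | hf
  · have := hhd f hf
    constructor <;> omega
  · have := ledy_pairs_lt Ws (q + k0) f hf
    constructor <;> omega

theorem ledy_tail_snoc (Y : LedSys Ω) (lam : ℕ → ℝ) (t : ℝ) (q : ℕ) (τ : ℕ → ℕ → ℕ) (k0 : ℕ) (κ : (ℕ → ℕ → ℕ) → ℝ)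
    (J : (ℕ → Bool × Ω) → ℝ) (hd : List (LedFac Ω)) (Ws : List (LedKer Ω)) (V : LedKer Ω) :
    Y.tm lam t q τ (k0 + 2 * Ws.length + 2) κ J
        ((hd ++ ledPairs (q + k0) Ws) ++ [(q + (k0 + 2 * Ws.length), q + (k0 + 2 * Ws.length) + 1, V)])
      = Y.tm lam t q τ (k0 + 2 * (Ws ++ [V]).length) κ J (hd ++ ledPairs (q + k0) (Ws ++ [V])) := by
  refine ledy_tm_cast Y lam t q τ (by rw [List.length_append, List.length_singleton]; ring) κ J ?_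
  rw [ledy_pairs_snoc, List.append_assoc, show q + k0 + 2 * Ws.length = q + (k0 + 2 * Ws.length) by ring]

theorem ledy_loc_mono {q k0 k : ℕ} (hk : k0 ≤ k) {κ : (ℕ → ℕ → ℕ) → ℝ}
    (hκ : ∀ τ₁ τ₂ : ℕ → ℕ → ℕ, (∀ y z, y < q + k0 → z < q + k0 → τ₁ y z = τ₂ y z) → κ τ₁ = κ τ₂) :
    ∀ τ₁ τ₂ : ℕ → ℕ → ℕ, (∀ y z, y < q + k → z < q + k → τ₁ y z = τ₂ y z) → κ τ₁ = κ τ₂ :=
  fun τ₁ τ₂ h => hκ τ₁ τ₂ fun y z hy hz => h y z (by omega) (by omega)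

/-- chain in `t`: error kernels are appended to the tail -/
theorem led_ch_tm_t (hY : Y.Ok) (kU : ℕ) {l : ℝ} (hl : l ∈ Set.Icc (0 : ℝ) 1) {q : ℕ} {τ : ℕ → ℕ → ℕ} (hτ : IsTr Y.N q τ)
    (k0 : ℕ) {κ : (ℕ → ℕ → ℕ) → ℝ}
    (hκ : ∀ τ₁ τ₂ : ℕ → ℕ → ℕ, (∀ y z, y < q + k0 → z < q + k0 → τ₁ y z = τ₂ y z) → κ τ₁ = κ τ₂)
    {J : (ℕ → Bool × Ω) → ℝ} (hJ : TrUses (q + k0) J) {hd : List (LedFac Ω)} (hhd : ∀ f ∈ hd, f.1 < q + k0 ∧ f.2.1 < q + k0)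
    (Vs : List (LedKer Ω)) :
    LedtCh fun m t => Y.tm (ledLam kU l) t q τ (k0 + 2 * (Vs ++ List.replicate m (Y.kE kU l)).length) κ J
      (hd ++ ledPairs (q + k0) (Vs ++ List.replicate m (Y.kE kU l))) := by
  refine ⟨fun m => ?_, fun m t ht => ?_⟩
  · exact led_tm_contT hY (ledt_prof kU hl) hτ _ κ (ledy_uses_mono (by omega) hJ) (ledy_tail_lt hhd _)
  · have := led_tm_deriv_t hY kU hl hτ (k0 + 2 * (Vs ++ List.replicate m (Y.kE kU l)).length) (ledy_loc_mono (by omega) hκ)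
      (ledy_uses_mono (by omega) hJ) (ledy_tail_lt hhd _) ht
    rwa [ledy_tail_snoc, List.append_assoc, ← List.replicate_succ'] at this

/-- chain in `l`: low kernels are appended to the tail (the kernels of `Vs` and of the head do not depend on `l`) -/
theorem led_ch_tm_l (hY : Y.Ok) (kU : ℕ) {t : ℝ} (ht : t ∈ Set.Icc (0 : ℝ) 1) {q : ℕ} {τ : ℕ → ℕ → ℕ} (hτ : IsTr Y.N q τ)
    (k0 : ℕ) {κ : (ℕ → ℕ → ℕ) → ℝ}
    (hκ : ∀ τ₁ τ₂ : ℕ → ℕ → ℕ, (∀ y z, y < q + k0 → z < q + k0 → τ₁ y z = τ₂ y z) → κ τ₁ = κ τ₂)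
    {J : (ℕ → Bool × Ω) → ℝ} (hJ : TrUses (q + k0) J) {hd : List (LedFac Ω)} (hhd : ∀ f ∈ hd, f.1 < q + k0 ∧ f.2.1 < q + k0)
    (Vs : List (LedKer Ω)) :
    LedtCh fun n l => Y.tm (ledLam kU l) t q τ (k0 + 2 * (Vs ++ List.replicate n (Y.kLow kU t)).length) κ J
      (hd ++ ledPairs (q + k0) (Vs ++ List.replicate n (Y.kLow kU t))) := by
  refine ⟨fun n => ?_, fun n l hl => ?_⟩
  · exact led_tm_cont_l hY kU ht hτ _ κ (ledy_uses_mono (by omega) hJ) (ledy_tail_lt hhd _)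
  · have := led_tm_deriv_l hY kU ht hτ (k0 + 2 * (Vs ++ List.replicate n (Y.kLow kU t)).length) (ledy_loc_mono (by omega) hκ)
      (ledy_uses_mono (by omega) hJ) (ledy_tail_lt hhd _) hl
    rwa [ledy_tail_snoc, List.append_assoc, ← List.replicate_succ'] at this

/-! ### locality of the coefficients -/

theorem ledy_loc_kapC (Y : LedSys Ω) (kU : ℕ) {q a b : ℕ} (ha : a < q) (hb : b < q) :
    ∀ τ₁ τ₂ : ℕ → ℕ → ℕ, (∀ y z, y < q + 2 → z < q + 2 → τ₁ y z = τ₂ y z) → Y.kapC kU q a b τ₁ = Y.kapC kU q a b τ₂ := by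
  intro τ₁ τ₂ h
  unfold LedSys.kapC
  rw [h a q (by omega) (by omega), h b (q + 1) (by omega) (by omega)]

theorem ledy_loc_kap4 (hY : Y.Ok) (kU : ℕ) {p a c e f : ℕ} (ha : a < p) (hc : c < p) (he : e < p) (hf : f < p)
    {τ₁ τ₂ : ℕ → ℕ → ℕ} (h : ∀ y z, y < p → z < p → τ₁ y z = τ₂ y z) : Y.kap4 kU p τ₁ a c e f = Y.kap4 kU p τ₂ a c e f := by
  unfold LedSys.kap4 LedSys.nuS
  rw [hY.congr _ 0 p τ₁ τ₂ _ h, h a c ha hc, h e f he hf]

theorem ledy_loc_coef2 (hY : Y.Ok) (kU : ℕ) {q a b : ℕ} (ha : a < q) (hb : b < q) :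
    ∀ τ₁ τ₂ : ℕ → ℕ → ℕ, (∀ y z, y < q + 4 → z < q + 4 → τ₁ y z = τ₂ y z) → Y.coef2 kU q a b τ₁ = Y.coef2 kU q a b τ₂ := by
  intro τ₁ τ₂ h
  unfold LedSys.coef2
  rw [h a q (by omega) (by omega), h b (q + 1) (by omega) (by omega), h (q + 2) (q + 3) (by omega) (by omega),
    h a (q + 2) (by omega) (by omega), h a (q + 3) (by omega) (by omega), h b (q + 2) (by omega) (by omega),
    h b (q + 3) (by omega) (by omega),
    ledy_loc_kap4 hY kU (by omega) (by omega) (by omega) (by omega) h (a := a),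
    ledy_loc_kap4 hY kU (by omega) (by omega) (by omega) (by omega) h (a := b)]

/-! ### the tests -/

theorem ledy_uses_S01 : TrUses 2 fun σ : ℕ → Bool × Ω => ledSg (σ 0).1 * ledSg (σ 1).1 := by
  intro σ σ' h
  show ledSg (σ 0).1 * ledSg (σ 1).1 = ledSg (σ' 0).1 * ledSg (σ' 1).1
  rw [h 0 (by norm_num), h 1 (by norm_num)]

theorem ledy_uses_J0 {X : LedCtx Ω} (hP : TrUses X.q X.P) : TrUses X.q X.J0 := by
  intro σ σ' h
  unfold LedCtx.J0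
  rw [hP (ledRs σ) (ledRs σ') fun i hi => by unfold ledRs; rw [h i hi]]

theorem ledy_uses_J1 {X : LedCtx Ω} (ha : X.a < X.q) (hb : X.b < X.q) (hP : TrUses X.q X.P) : TrUses X.q X.J1 := by
  intro σ σ' h
  unfold LedCtx.J1
  rw [h _ ha, h _ hb, hP (ledRs σ) (ledRs σ') fun i hi => by unfold ledRs; rw [h i hi]]

/-! ### the chains -/

theorem led_ch_gD (hY : Y.Ok) (kU : ℕ) {kS : ℕ} (hS : kS ≤ Y.N + 1) : LedtCh fun i l => Y.gD kU kS i l :=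
  led_ch_ins_l hY kU (t := 0) (by simp) (ledt_pair_isTr hS 2) ledy_uses_S01

section ctx

variable {X : LedCtx Ω} {r : ℕ} {Cb : ℝ}

/-- `∂_t FF n m l t s = FF n (m+1) l t s` -/
theorem led_ch_FF_t (h : X.Ok r Cb) (n : ℕ) {l : ℝ} (hl : l ∈ Set.Icc (0 : ℝ) 1) (s : ℝ) : LedtCh fun m t => X.FF n m l t s := by
  have c1 := led_ch_ins_t h.sys X.kU hl h.tr (ledy_uses_J1 h.a_lt h.b_lt h.uses) (List.replicate n (X.Y.kLow X.kU s))
  have c0 := fun i => led_ch_ins_t h.sys X.kU hl h.tr (ledy_uses_J0 h.uses) (List.replicate (n - i) (X.Y.kLow X.kU s))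
  refine ⟨fun m => ?_, fun m t ht => ?_⟩
  · unfold LedCtx.FF
    exact (c1.cont m).sub (continuousOn_finsetSum _ fun i _ => continuousOn_const.mul ((c0 i).cont m))
  · unfold LedCtx.FF
    exact (c1.deriv m t ht).fun_sub (HasDerivAt.fun_sum fun i _ => ((c0 i).deriv m t ht).const_mul _)

/-- `∂_l FF n 0 l t t = FF (n+1) 0 l t t` -/
theorem led_ch_FF_l (h : X.Ok r Cb) {t : ℝ} (ht : t ∈ Set.Icc (0 : ℝ) 1) : LedtCh fun n l => X.FF n 0 l t t := by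
  have c1 := led_ch_ins_l h.sys X.kU ht h.tr (ledy_uses_J1 h.a_lt h.b_lt h.uses)
  have c0 := led_ch_ins_l h.sys X.kU ht h.tr (ledy_uses_J0 h.uses)
  have cg := led_ch_gD h.sys X.kU (kS := X.kS) (by have := h.kS_lt; have := h.kU_le; omega)
  have := ledt_W_chain c1 c0 cg
  have e : (fun n l => X.FF n 0 l t t) = ledtW (fun n l => X.Y.ins (ledLam X.kU l) t X.q X.τ X.J1 (List.replicate n (X.Y.kLow X.kU t)))
      (fun n l => X.Y.ins (ledLam X.kU l) t X.q X.τ X.J0 (List.replicate n (X.Y.kLow X.kU t))) (fun i l => X.Y.gD X.kU X.kS i l) := by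
    funext n l
    unfold LedCtx.FF ledtW
    simp only [List.replicate_zero, List.append_nil]
  rw [e]; exact this

/-- `∂_t CC m 0 l t = CC (m+1) 0 l t` -/
theorem led_ch_CC_t (h : X.Ok r Cb) {l : ℝ} (hl : l ∈ Set.Icc (0 : ℝ) 1) : LedtCh fun m t => X.CC m 0 l t := by
  have c := led_ch_tm_t h.sys X.kU hl h.tr 2 (ledy_loc_kapC X.Y X.kU h.a_lt h.b_lt) (ledy_uses_mono (by omega) (ledy_uses_J0 h.uses))
    (hd := [(X.q, X.q + 1, fun _ x y => X.Y.dl X.kS x.2 y.2)]) (by intro f hf; simp at hf; subst hf; constructor <;> simp) []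
  have e : (fun m t => X.CC m 0 l t) = fun m t => X.Y.tm (ledLam X.kU l) t X.q X.τ
      (2 + 2 * ([] ++ List.replicate m (X.Y.kE X.kU l)).length) (X.Y.kapC X.kU X.q X.a X.b) X.J0
      ([(X.q, X.q + 1, fun _ x y => X.Y.dl X.kS x.2 y.2)] ++ ledPairs (X.q + 2) ([] ++ List.replicate m (X.Y.kE X.kU l))) := by
    funext m t
    unfold LedCtx.CC
    exact ledy_tm_cast _ _ _ _ _ (by simp) _ _ (by simp)
  rw [e]; exact c

/-- `∂_l CC 0 n l 1 = CC 0 (n+1) l 1` -/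
theorem led_ch_CC_l (h : X.Ok r Cb) : LedtCh fun n l => X.CC 0 n l 1 := by
  have c := led_ch_tm_l h.sys X.kU (t := 1) (by simp) h.tr 2 (ledy_loc_kapC X.Y X.kU h.a_lt h.b_lt)
    (ledy_uses_mono (by omega) (ledy_uses_J0 h.uses))
    (hd := [(X.q, X.q + 1, fun _ x y => X.Y.dl X.kS x.2 y.2)]) (by intro f hf; simp at hf; subst hf; constructor <;> simp) []
  have e : (fun n l => X.CC 0 n l 1) = fun n l => X.Y.tm (ledLam X.kU l) 1 X.q X.τ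
      (2 + 2 * ([] ++ List.replicate n (X.Y.kLow X.kU 1)).length) (X.Y.kapC X.kU X.q X.a X.b) X.J0
      ([(X.q, X.q + 1, fun _ x y => X.Y.dl X.kS x.2 y.2)] ++ ledPairs (X.q + 2) ([] ++ List.replicate n (X.Y.kLow X.kU 1))) := by
    funext n l
    unfold LedCtx.CC
    exact ledy_tm_cast _ _ _ _ _ (by simp) _ _ (by simp)
  rw [e]; exact c

/-- `∂_t HH m 0 l t = HH (m+1) 0 l t` -/
theorem led_ch_HH_t (h : X.Ok r Cb) {l : ℝ} (hl : l ∈ Set.Icc (0 : ℝ) 1) : LedtCh fun m t => X.HH m 0 l t := by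
  have c := led_ch_tm_t h.sys X.kU hl h.tr 4 (ledy_loc_coef2 h.sys X.kU h.a_lt h.b_lt) (ledy_uses_mono (by omega) (ledy_uses_J0 h.uses))
    (hd := [(X.q + 2, X.q + 3, X.Y.kD), (X.q, X.q + 1, fun _ x y => X.Y.Q X.kS x.2 y.2)])
    (by intro f hf; simp at hf; rcases hf with rfl | rfl <;> constructor <;> simp) []
  have e : (fun m t => X.HH m 0 l t) = fun m t => X.Y.tm (ledLam X.kU l) t X.q X.τ
      (4 + 2 * ([] ++ List.replicate m (X.Y.kE X.kU l)).length) (X.Y.coef2 X.kU X.q X.a X.b) X.J0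
      ([(X.q + 2, X.q + 3, X.Y.kD), (X.q, X.q + 1, fun _ x y => X.Y.Q X.kS x.2 y.2)]
        ++ ledPairs (X.q + 4) ([] ++ List.replicate m (X.Y.kE X.kU l))) := by
    funext m t
    unfold LedCtx.HH
    exact ledy_tm_cast _ _ _ _ _ (by simp) _ _ (by simp)
  rw [e]; exact c

/-- `∂_l HH 0 n l 1 = HH 0 (n+1) l 1` -/
theorem led_ch_HH_l (h : X.Ok r Cb) : LedtCh fun n l => X.HH 0 n l 1 := by
  have c := led_ch_tm_l h.sys X.kU (t := 1) (by simp) h.tr 4 (ledy_loc_coef2 h.sys X.kU h.a_lt h.b_lt)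
    (ledy_uses_mono (by omega) (ledy_uses_J0 h.uses))
    (hd := [(X.q + 2, X.q + 3, X.Y.kD), (X.q, X.q + 1, fun _ x y => X.Y.Q X.kS x.2 y.2)])
    (by intro f hf; simp at hf; rcases hf with rfl | rfl <;> constructor <;> simp) []
  have e : (fun n l => X.HH 0 n l 1) = fun n l => X.Y.tm (ledLam X.kU l) 1 X.q X.τ
      (4 + 2 * ([] ++ List.replicate n (X.Y.kLow X.kU 1)).length) (X.Y.coef2 X.kU X.q X.a X.b) X.J0
      ([(X.q + 2, X.q + 3, X.Y.kD), (X.q, X.q + 1, fun _ x y => X.Y.Q X.kS x.2 y.2)]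
        ++ ledPairs (X.q + 4) ([] ++ List.replicate n (X.Y.kLow X.kU 1))) := by
    funext n l
    unfold LedCtx.HH
    exact ledy_tm_cast _ _ _ _ _ (by simp) _ _ (by simp)
  rw [e]; exact c

end ctx

end Claimed.Agent.R286
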