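import Claimed.Agent.R286.Cav.LedPar
import Claimed.Agent.R286.Cav.LedTayC
import Claimed.Agent.R286.Cav.LedTbIns

/-!
# Row 286 (S0533), unit Cav, file LedBd      (owner: helper32; prefix `ledb_`)

The leaves Bd1-Bd4 (and G1) of `Cav/LedLeaves` = PE ledger lines 1-4 (cavity.tex l.471-556): third low remainder (measure derivative, mixed covariance), `A''`, `B'`.
GLUE on `ledk_ins_err1`, `ledk_ins_err2` (`Cav/LedPar`), `ledk_tm_bdd` (`Cav/LedKit`).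
-/

set_option autoImplicit false

namespace Claimed.Agent.R286

open Finset

variable {Ω : Type}

/-! ### sums over the split depths -/

theorem ledb_at_nonneg (q : ℕ) (τ : ℕ → ℕ → ℕ) (k0 k1 : ℕ) {f : ℕ → ℝ} (hf : ∀ j, 0 ≤ f j) : 0 ≤ ledAt q τ k0 k1 f :=
  Finset.sum_nonneg fun j _ => hf j

/-- comparison of two sums over split depths -/
theorem ledb_tot_le {N : ℕ} {ms : ℕ → ℝ} (hms : IsMs N ms) (q : ℕ) (τ : ℕ → ℕ → ℕ) {k0 k1 k0' k1' : ℕ} (hk1 : k1 ≤ N + 1)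
    (hk1' : k1' ≤ N + 1) {f g : ℕ → ℝ} (hg : ∀ j, 0 ≤ g j) (h : ∀ j, k0 ≤ j → j < k1 → f j ≤ if k0' ≤ j ∧ j < k1' then g j else 0) :
    ledTot ms q τ k0 k1 f ≤ ledTot ms q τ k0' k1' g := by
  unfold ledTot ledAt
  refine add_le_add ?_ ?_
  · calc ∑ j ∈ Finset.Ico k0 k1, (ms j - trPm ms j) * f j
        ≤ ∑ j ∈ Finset.Ico k0 k1, (if k0' ≤ j ∧ j < k1' then (ms j - trPm ms j) * g j else 0) := by
          refine Finset.sum_le_sum fun j hj => ?_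
          have hj' := Finset.mem_Ico.1 hj
          have hd : 0 ≤ ms j - trPm ms j := trw_step_nonneg hms (by omega)
          have := mul_le_mul_of_nonneg_left (h j hj'.1 hj'.2) hd
          refine this.trans (le_of_eq ?_)
          split_ifs <;> simp
      _ = ∑ j ∈ (Finset.Ico k0 k1).filter (fun j => k0' ≤ j ∧ j < k1'), (ms j - trPm ms j) * g j := by
          rw [Finset.sum_filter]
      _ ≤ ∑ j ∈ Finset.Ico k0' k1', (ms j - trPm ms j) * g j := by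
          refine Finset.sum_le_sum_of_subset_of_nonneg ?_ ?_
          · intro j hj
            exact Finset.mem_Ico.2 (Finset.mem_filter.1 hj).2
          · intro j hj _
            have hj' := Finset.mem_Ico.1 hj
            exact mul_nonneg (trw_step_nonneg hms (by omega)) (hg j)
  · calc ∑ j ∈ (ledForks q τ).filter (fun j => k0 ≤ j ∧ j < k1), f j
        ≤ ∑ j ∈ (ledForks q τ).filter (fun j => k0 ≤ j ∧ j < k1), (if k0' ≤ j ∧ j < k1' then g j else 0) := by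
          refine Finset.sum_le_sum fun j hj => ?_
          have hj' := (Finset.mem_filter.1 hj).2
          exact h j hj'.1 hj'.2
      _ = ∑ j ∈ ((ledForks q τ).filter (fun j => k0 ≤ j ∧ j < k1)).filter (fun j => k0' ≤ j ∧ j < k1'), g j :=
          (Finset.sum_filter (s := (ledForks q τ).filter (fun j => k0 ≤ j ∧ j < k1)) (fun j => k0' ≤ j ∧ j < k1') g).symm
      _ ≤ ∑ j ∈ (ledForks q τ).filter (fun j => k0' ≤ j ∧ j < k1'), g j := by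
          refine Finset.sum_le_sum_of_subset_of_nonneg ?_ (fun j _ _ => hg j)
          intro j hj
          have h1 := Finset.mem_filter.1 hj
          exact Finset.mem_filter.2 ⟨(Finset.mem_filter.1 h1.1).1, h1.2⟩

theorem ledb_tot_split (ms : ℕ → ℝ) (q : ℕ) (τ : ℕ → ℕ → ℕ) {k0 k1 k2 : ℕ} (h01 : k0 ≤ k1) (h12 : k1 ≤ k2) (f : ℕ → ℝ) :
    ledTot ms q τ k0 k2 f = ledTot ms q τ k0 k1 f + ledTot ms q τ k1 k2 f := by
  unfold ledTot ledAt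
  rw [← Finset.sum_Ico_consecutive _ h01 h12]
  have hU : (ledForks q τ).filter (fun j => k0 ≤ j ∧ j < k2)
      = (ledForks q τ).filter (fun j => k0 ≤ j ∧ j < k1) ∪ (ledForks q τ).filter (fun j => k1 ≤ j ∧ j < k2) := by
    ext j
    simp only [Finset.mem_filter, Finset.mem_union]
    constructor
    · rintro ⟨hj, h1, h2⟩
      by_cases hc : j < k1
      · exact Or.inl ⟨hj, h1, hc⟩
      · exact Or.inr ⟨hj, by omega, h2⟩
    · rintro (⟨hj, h1, h2⟩ | ⟨hj, h1, h2⟩)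
      · exact ⟨hj, h1, by omega⟩
      · exact ⟨hj, by omega, h2⟩
  have hD : Disjoint ((ledForks q τ).filter (fun j => k0 ≤ j ∧ j < k1)) ((ledForks q τ).filter (fun j => k1 ≤ j ∧ j < k2)) := by
    rw [Finset.disjoint_left]
    intro j h1 h2
    have a := (Finset.mem_filter.1 h1).2
    have b := (Finset.mem_filter.1 h2).2
    omega
  rw [hU, Finset.sum_union hD]
  ring

theorem ledb_tot_nonneg {N : ℕ} {ms : ℕ → ℝ} (hms : IsMs N ms) (q : ℕ) (τ : ℕ → ℕ → ℕ) {k0 k1 : ℕ} (hk1 : k1 ≤ N + 1)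
    {f : ℕ → ℝ} (hf : ∀ j, 0 ≤ f j) : 0 ≤ ledTot ms q τ k0 k1 f := by
  unfold ledTot
  refine add_nonneg (Finset.sum_nonneg fun j hj => ?_) (ledb_at_nonneg _ _ _ _ hf)
  have hj' := Finset.mem_Ico.1 hj
  exact mul_nonneg (trw_step_nonneg hms (by omega)) (hf j)

theorem ledb_D_nonneg (Y : LedSys Ω) (j : ℕ) : 0 ≤ Y.D j := Real.sqrt_nonneg _

/-- `T1 ≤ EL + EH1` -/
theorem ledb_T1 (X : LedCtx Ω) {r : ℕ} {Cb : ℝ} (h : X.Ok r Cb) {e : ℕ → ℝ} (he0 : ∀ j, 0 ≤ e j) (he1 : ∀ j, e j ≤ 1) :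
    ledTot X.Y.ms X.q X.τ X.kV (X.Y.N + 1) (fun j => e j * X.Y.D j) ≤ X.EL + X.EH1 := by
  have hms := h.sys.ms_ok
  have hkU : X.kU ≤ X.Y.N + 1 := h.kU_le.trans (Nat.le_succ _)
  have hVU : X.kV ≤ X.kU := h.kV_le.trans h.kS_lt.le
  have h1 : ledTot X.Y.ms X.q X.τ X.kV (X.Y.N + 1) (fun j => e j * X.Y.D j) ≤ ledTot X.Y.ms X.q X.τ X.kV (X.Y.N + 1) X.Y.D := by
    refine ledb_tot_le hms _ _ le_rfl le_rfl (ledb_D_nonneg X.Y) fun j h0 h1 => ?_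
    rw [if_pos ⟨h0, h1⟩]
    have := mul_le_mul_of_nonneg_right (he1 j) (ledb_D_nonneg X.Y j)
    simpa using this
  have hs := ledb_tot_split X.Y.ms X.q X.τ hVU hkU X.Y.D
  have h2 : ledTot X.Y.ms X.q X.τ X.kV X.kU X.Y.D ≤ X.EL := by
    unfold ledTot LedCtx.EL LedSys.intM LedSys.dM
    refine add_le_add ?_ le_rfl
    refine Finset.sum_le_sum_of_subset_of_nonneg ?_ ?_
    · intro j hj
      have := Finset.mem_Ico.1 hj
      exact Finset.mem_Ico.2 ⟨Nat.zero_le _, this.2⟩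
    · intro j hj _
      have := Finset.mem_Ico.1 hj
      exact mul_nonneg (trw_step_nonneg hms (by omega)) (ledb_D_nonneg X.Y j)
  have h3 : ledTot X.Y.ms X.q X.τ X.kU (X.Y.N + 1) X.Y.D = X.EH1 := rfl
  linarith

/-- `T2 ≤ ∫_0^U D + EV` -/
theorem ledb_T2 (X : LedCtx Ω) {r : ℕ} {Cb : ℝ} (h : X.Ok r Cb) {e : ℕ → ℝ} (he0 : ∀ j, 0 ≤ e j) (he1 : ∀ j, e j ≤ 1) :
    ledTot X.Y.ms X.q X.τ 0 X.kV (fun j => e j * X.Y.D j) ≤ X.EL + X.EV := by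
  have hms := h.sys.ms_ok
  have hkU : X.kU ≤ X.Y.N + 1 := h.kU_le.trans (Nat.le_succ _)
  have hVU : X.kV ≤ X.kU := h.kV_le.trans h.kS_lt.le
  have h1 : ledTot X.Y.ms X.q X.τ 0 X.kV (fun j => e j * X.Y.D j) ≤ ledTot X.Y.ms X.q X.τ 0 X.kV X.Y.D := by
    refine ledb_tot_le hms _ _ (hVU.trans hkU) (hVU.trans hkU) (ledb_D_nonneg X.Y) fun j h0 h1 => ?_
    rw [if_pos ⟨h0, h1⟩]
    have := mul_le_mul_of_nonneg_right (he1 j) (ledb_D_nonneg X.Y j)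
    simpa using this
  refine h1.trans ?_
  unfold ledTot LedCtx.EL LedCtx.EV LedSys.intM LedSys.dM
  have h2 : ∑ j ∈ Finset.Ico 0 X.kV, (X.Y.ms j - trPm X.Y.ms j) * X.Y.D j ≤ ∑ j ∈ Finset.Ico 0 X.kU, (X.Y.ms j - trPm X.Y.ms j) * X.Y.D j := by
    refine Finset.sum_le_sum_of_subset_of_nonneg ?_ ?_
    · intro j hj
      have := Finset.mem_Ico.1 hj
      exact Finset.mem_Ico.2 ⟨Nat.zero_le _, by omega⟩
    · intro j hj _
      have := Finset.mem_Ico.1 hj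
      exact mul_nonneg (trw_step_nonneg hms (by omega)) (ledb_D_nonneg X.Y j)
  have h3 := ledb_at_nonneg X.q X.τ X.kV X.kU (ledb_D_nonneg X.Y)
  linarith

/-- high errors only -/
theorem ledb_T1_high (X : LedCtx Ω) {r : ℕ} {Cb : ℝ} (h : X.Ok r Cb) :
    ledTot X.Y.ms X.q X.τ X.kV (X.Y.N + 1) (fun j => (if j ≤ X.Y.N then ledLam X.kU 0 j else 0) * X.Y.D j) ≤ X.EH1 := by
  have hms := h.sys.ms_ok
  have h3 : ledTot X.Y.ms X.q X.τ X.kU (X.Y.N + 1) X.Y.D = X.EH1 := rfl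
  rw [← h3]
  refine ledb_tot_le hms _ _ le_rfl le_rfl (ledb_D_nonneg X.Y) fun j _ h1 => ?_
  unfold ledLam
  by_cases hc : j < X.kU
  · rw [if_neg (by omega : ¬ (X.kU ≤ j ∧ j < X.Y.N + 1))]
    simp [hc]
  · rw [if_pos (by omega : X.kU ≤ j ∧ j < X.Y.N + 1)]
    simp [hc, (by omega : j ≤ X.Y.N)]

theorem ledb_T2_high (X : LedCtx Ω) {r : ℕ} {Cb : ℝ} (h : X.Ok r Cb) :
    ledTot X.Y.ms X.q X.τ 0 X.kV (fun j => (if j ≤ X.Y.N then ledLam X.kU 0 j else 0) * X.Y.D j) = 0 := by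
  have hVU : X.kV ≤ X.kU := h.kV_le.trans h.kS_lt.le
  have hz : ∀ j, j < X.kV → (if j ≤ X.Y.N then ledLam X.kU 0 j else 0) * X.Y.D j = 0 := by
    intro j hj
    unfold ledLam
    simp [(by omega : j < X.kU)]
  unfold ledTot ledAt
  rw [Finset.sum_eq_zero, Finset.sum_eq_zero, add_zero]
  · intro j hj
    exact hz j (Finset.mem_filter.1 hj).2.2
  · intro j hj
    beta_reduce
    rw [hz j (Finset.mem_Ico.1 hj).2, mul_zero]

theorem ledb_S_high (X : LedCtx Ω) {r : ℕ} {Cb : ℝ} (h : X.Ok r Cb) :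
    ledTot X.Y.ms X.q X.τ 0 (X.Y.N + 1) (fun j => (if j ≤ X.Y.N then ledLam X.kU 0 j else 0) * X.Y.D j ^ (1 - 1 / (r : ℝ))) ^ 2
      + ledTot X.Y.ms X.q X.τ 0 (X.Y.N + 1) (fun j => ((if j ≤ X.Y.N then ledLam X.kU 0 j else 0) * X.Y.D j ^ (1 - 1 / (r : ℝ))) ^ 2)
      ≤ X.EH2 r := by
  have hms := h.sys.ms_ok
  have hp : ∀ j, 0 ≤ X.Y.D j ^ (1 - 1 / (r : ℝ)) := fun j => Real.rpow_nonneg (ledb_D_nonneg X.Y j) _
  have he : ∀ j, (0 : ℝ) ≤ (if j ≤ X.Y.N then ledLam X.kU 0 j else 0) := by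
    intro j; unfold ledLam; split_ifs <;> norm_num
  have hA : ledTot X.Y.ms X.q X.τ 0 (X.Y.N + 1) (fun j => (if j ≤ X.Y.N then ledLam X.kU 0 j else 0) * X.Y.D j ^ (1 - 1 / (r : ℝ)))
      ≤ ledTot X.Y.ms X.q X.τ X.kU (X.Y.N + 1) fun j => X.Y.D j ^ (1 - 1 / (r : ℝ)) := by
    refine ledb_tot_le hms _ _ le_rfl le_rfl hp fun j _ h1 => ?_
    unfold ledLam
    by_cases hc : j < X.kU
    · rw [if_neg (by omega : ¬ (X.kU ≤ j ∧ j < X.Y.N + 1))]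
      simp [hc]
    · rw [if_pos (by omega : X.kU ≤ j ∧ j < X.Y.N + 1)]
      simp [hc, (by omega : j ≤ X.Y.N)]
  have hA0 : 0 ≤ ledTot X.Y.ms X.q X.τ 0 (X.Y.N + 1) (fun j => (if j ≤ X.Y.N then ledLam X.kU 0 j else 0) * X.Y.D j ^ (1 - 1 / (r : ℝ))) :=
    ledb_tot_nonneg hms _ _ le_rfl fun j => mul_nonneg (he j) (hp j)
  have hB : ledTot X.Y.ms X.q X.τ 0 (X.Y.N + 1) (fun j => ((if j ≤ X.Y.N then ledLam X.kU 0 j else 0) * X.Y.D j ^ (1 - 1 / (r : ℝ))) ^ 2)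
      ≤ ledTot X.Y.ms X.q X.τ X.kU (X.Y.N + 1) fun j => X.Y.D j ^ (2 * (1 - 1 / (r : ℝ))) := by
    refine ledb_tot_le hms _ _ le_rfl le_rfl (fun j => Real.rpow_nonneg (ledb_D_nonneg X.Y j) _) fun j _ h1 => ?_
    have e2 : X.Y.D j ^ (2 * (1 - 1 / (r : ℝ))) = (X.Y.D j ^ (1 - 1 / (r : ℝ))) ^ 2 := by
      rw [mul_comm, show ((1 - 1 / (r : ℝ)) * 2) = (1 - 1 / (r : ℝ)) * ((2 : ℕ) : ℝ) by norm_num,
        Real.rpow_mul_natCast (ledb_D_nonneg X.Y j)]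
    unfold ledLam
    by_cases hc : j < X.kU
    · rw [if_neg (by omega : ¬ (X.kU ≤ j ∧ j < X.Y.N + 1))]
      simp [hc]
    · rw [if_pos (by omega : X.kU ≤ j ∧ j < X.Y.N + 1), e2]
      simp [hc, (by omega : j ≤ X.Y.N)]
  have hEH : X.EH2 r = (ledTot X.Y.ms X.q X.τ X.kU (X.Y.N + 1) fun j => X.Y.D j ^ (1 - 1 / (r : ℝ))) ^ 2
      + ledTot X.Y.ms X.q X.τ X.kU (X.Y.N + 1) fun j => X.Y.D j ^ (2 * (1 - 1 / (r : ℝ))) := rfl
  rw [hEH]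
  exact add_le_add (pow_le_pow_left₀ hA0 hA 2) hB

/-! ### G1, telescoping of the low kernels -/

theorem ledb_pairs_mem (Vs : List (LedKer Ω)) : ∀ q0 : ℕ, ∀ f ∈ ledPairs q0 Vs, f.2.2 ∈ Vs := by
  induction Vs with
  | nil => intro q0 f hf; simp [ledPairs] at hf
  | cons V Vs ih =>
    intro q0 f hf
    rw [ledPairs, List.mem_cons] at hf
    rcases hf with rfl | hf
    · exact List.mem_cons_self
    · exact List.mem_cons_of_mem _ (ih (q0 + 2) f hf)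

theorem ledb_pairs_length (Vs : List (LedKer Ω)) : ∀ q0 : ℕ, (ledPairs q0 Vs).length = Vs.length := by
  induction Vs with
  | nil => intro q0; rfl
  | cons V Vs ih => intro q0; rw [ledPairs, List.length_cons, List.length_cons, ih]

theorem ledb_G1 (i : ℕ) (Cb : ℝ) : ∃ C : ℝ, 0 ≤ C ∧ ∀ (Ω : Type) (X : LedCtx Ω) (r : ℕ), X.Ok r Cb →
    ∀ l ∈ Set.Icc (0 : ℝ) 1, |X.Y.gD X.kU X.kS i l| ≤ C * X.om ^ i := by
  obtain ⟨C, hC, h⟩ := ledk_tm_bdd 2 (2 * i)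
  refine ⟨C, hC, ?_⟩
  intro Ω X r hX l hl
  have hom : 0 ≤ X.om := hX.xi_nonneg.trans hX.xi_le
  have hk : ∀ j x y, |X.Y.kLow X.kU 0 j x y| ≤ X.om := by
    intro j x y
    unfold LedSys.kLow
    split_ifs with hj
    · unfold LedSys.kRow
      rw [abs_mul, abs_mul, abs_mul, ledk_sg_abs, ledk_sg_abs, zero_mul, add_zero,
        abs_of_nonneg (ledk_p97_K_nonneg hX.sys j), abs_of_nonneg (by norm_num : (0 : ℝ) ≤ 1 / 2)]
      have h1 := (hX.low j hj).2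
      have h2 := ledk_p97_K_nonneg hX.sys j
      linarith
    · rw [abs_zero]; exact hom
  have h1 := h Ω X.Y hX.sys (ledLam X.kU l) 0 (ledPair X.Y.N X.kS) (fun _ => 1)
    (fun σ => ledSg (σ 0).1 * ledSg (σ 1).1)
    ((ledPairs 2 (List.replicate i (X.Y.kLow X.kU 0))).map fun f => (f, X.om)) 1 (ledk_lam_prof _ hl)
    ⟨le_rfl, zero_le_one⟩ (ledk_pair_isTr X.Y.N X.kS (by have := hX.kS_lt; have := hX.kU_le; omega))
    (fun _ => by simp) (fun σ => by rw [abs_mul, ledk_sg_abs, ledk_sg_abs, one_mul])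
    (by
      intro f hf j x y
      obtain ⟨g, hg, rfl⟩ := List.mem_map.1 hf
      have := ledb_pairs_mem _ _ g hg
      rw [List.eq_of_mem_replicate this]
      exact hk j x y)
  have e1 : (((ledPairs 2 (List.replicate i (X.Y.kLow X.kU 0))).map fun f => (f, X.om)).map Prod.fst)
      = ledPairs 2 (List.replicate i (X.Y.kLow X.kU 0)) := by
    rw [List.map_map]
    exact List.map_id _
  have e2 : (((ledPairs 2 (List.replicate i (X.Y.kLow X.kU 0))).map fun f => (f, X.om)).map Prod.snd).prod = X.om ^ i := by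
    rw [List.map_map]
    have : (Prod.snd ∘ fun f : LedFac Ω => (f, X.om)) = fun _ => X.om := rfl
    rw [this, List.map_const', List.prod_replicate, ledb_pairs_length, List.length_replicate]
  rw [e1, e2, mul_one] at h1
  unfold LedSys.gD LedSys.ins
  rw [List.length_replicate]
  exact h1

/-- an insertion is additive in each kernel -/
theorem ledb_ins_add {Y : LedSys Ω} (hY : Y.Ok) {lam : ℕ → ℝ} {t : ℝ} (hlam : LedProf lam) (ht : t ∈ Set.Icc (0 : ℝ) 1) {q : ℕ}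
    {τ : ℕ → ℕ → ℕ} (hτ : IsTr Y.N q τ) (J : (ℕ → Bool × Ω) → ℝ) (As Bs : List (LedKer Ω)) {V W D : LedKer Ω}
    (hV : ∀ j x y, V j x y = W j x y + D j x y) :
    Y.ins lam t q τ J (As ++ V :: Bs) = Y.ins lam t q τ J (As ++ W :: Bs) + Y.ins lam t q τ J (As ++ D :: Bs) := by
  unfold LedSys.ins LedSys.tm
  simp only [List.length_append, List.length_cons]
  rw [← ledi_sumK_add]
  refine tr_sumK_congr hτ _ _ _ fun τ' hτ' _ => ?_
  rw [one_mul, one_mul, one_mul, ← (hY.mean lam t _ τ' hlam ht hτ').add]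
  congr 1
  funext σ
  simp only [ledy_pairs_append, ledPairs, ledy_facs_append, ledy_facs_cons, hV]
  ring

theorem ledb_tel {Y : LedSys Ω} (hY : Y.Ok) {lam : ℕ → ℝ} {t : ℝ} (hlam : LedProf lam) (ht : t ∈ Set.Icc (0 : ℝ) 1) {q : ℕ}
    {τ : ℕ → ℕ → ℕ} (hτ : IsTr Y.N q τ) (J : (ℕ → Bool × Ω) → ℝ) (kU n : ℕ) :
    Y.ins lam t q τ J (List.replicate n (Y.kLow kU 1)) - Y.ins lam t q τ J (List.replicate n (Y.kLow kU 0))
      = ∑ a ∈ Finset.range n, Y.ins lam t q τ J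
          (List.replicate a (Y.kLow kU 1) ++ Y.kDl kU :: List.replicate (n - 1 - a) (Y.kLow kU 0)) := by
  have hV : ∀ j x y, Y.kLow kU 1 j x y = Y.kLow kU 0 j x y + Y.kDl kU j x y := by
    intro j x y
    unfold LedSys.kLow LedSys.kDl LedSys.kRow LedSys.kErr
    split_ifs <;> ring
  have h1 := Finset.sum_range_sub (fun a => Y.ins lam t q τ J
    (List.replicate a (Y.kLow kU 1) ++ List.replicate (n - a) (Y.kLow kU 0))) n
  simp only [Nat.sub_self, List.replicate_zero, List.append_nil, Nat.sub_zero, List.nil_append] at h1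
  rw [← h1]
  refine Finset.sum_congr rfl fun a ha => ?_
  have ha' := Finset.mem_range.1 ha
  have e1 : List.replicate (a + 1) (Y.kLow kU 1) ++ List.replicate (n - (a + 1)) (Y.kLow kU 0)
      = List.replicate a (Y.kLow kU 1) ++ Y.kLow kU 1 :: List.replicate (n - 1 - a) (Y.kLow kU 0) := by
    rw [List.replicate_succ', List.append_assoc, List.singleton_append, show n - (a + 1) = n - 1 - a by omega]
  have e2 : List.replicate a (Y.kLow kU 1) ++ List.replicate (n - a) (Y.kLow kU 0)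
      = List.replicate a (Y.kLow kU 1) ++ Y.kLow kU 0 :: List.replicate (n - 1 - a) (Y.kLow kU 0) := by
    rw [show n - a = (n - 1 - a) + 1 by omega, List.replicate_succ]
  rw [e1, e2, ledb_ins_add hY hlam ht hτ J _ _ hV]
  ring

/-! ### the families `FF n 1`, `FF 1 2` -/

/-- profile of the error kernel `kE kU l` -/
noncomputable def ledbE (N kU : ℕ) (l : ℝ) (j : ℕ) : ℝ := if j ≤ N then ledLam kU l j else 0

theorem ledb_E_nonneg (N kU : ℕ) {l : ℝ} (hl : l ∈ Set.Icc (0 : ℝ) 1) (j : ℕ) : 0 ≤ ledbE N kU l j := by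
  unfold ledbE ledLam
  split_ifs <;> first | exact hl.1 | norm_num

theorem ledb_E_le (N kU : ℕ) {l : ℝ} (hl : l ∈ Set.Icc (0 : ℝ) 1) (j : ℕ) : ledbE N kU l j ≤ 1 := by
  unfold ledbE ledLam
  split_ifs <;> first | exact hl.2 | norm_num

theorem ledb_EL_nonneg (X : LedCtx Ω) {r : ℕ} {Cb : ℝ} (h : X.Ok r Cb) : 0 ≤ X.EL := by
  have hms := h.sys.ms_ok
  unfold LedCtx.EL LedSys.intM LedSys.dM
  refine add_nonneg (Finset.sum_nonneg fun j hj => ?_) (ledb_at_nonneg _ _ _ _ (ledb_D_nonneg X.Y))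
  have hj' := Finset.mem_Ico.1 hj
  have := h.kU_le
  exact mul_nonneg (trw_step_nonneg hms (by omega)) (ledb_D_nonneg X.Y j)

theorem ledb_EH1_nonneg (X : LedCtx Ω) {r : ℕ} {Cb : ℝ} (h : X.Ok r Cb) : 0 ≤ X.EH1 := by
  have h3 : ledTot X.Y.ms X.q X.τ X.kU (X.Y.N + 1) X.Y.D = X.EH1 := rfl
  rw [← h3]
  exact ledb_tot_nonneg h.sys.ms_ok _ _ le_rfl (ledb_D_nonneg X.Y)

theorem ledb_EV_nonneg (X : LedCtx Ω) : 0 ≤ X.EV := ledb_at_nonneg _ _ _ _ (ledb_D_nonneg X.Y)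

theorem ledb_om_nonneg (X : LedCtx Ω) {r : ℕ} {Cb : ℝ} (h : X.Ok r Cb) : 0 ≤ X.om := h.xi_nonneg.trans h.xi_le

theorem ledb_step {om xi T1 T2 : ℝ} (h0 : 0 ≤ om) (h1 : om ≤ 1) (hxi : 0 ≤ xi) (hT1 : 0 ≤ T1) (hT2 : 0 ≤ T2) {i a b a' b' : ℕ}
    (ha : a' ≤ i + a) (hb : b' ≤ i + b) : om ^ i * (om ^ a * T1 + xi * om ^ b * T2) ≤ om ^ a' * T1 + xi * om ^ b' * T2 := by
  have e1 : om ^ (i + a) ≤ om ^ a' := pow_le_pow_of_le_one h0 h1 ha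
  have e2 : om ^ (i + b) ≤ om ^ b' := pow_le_pow_of_le_one h0 h1 hb
  have e3 := mul_le_mul_of_nonneg_right e1 hT1
  have e4 := mul_le_mul_of_nonneg_right (mul_le_mul_of_nonneg_left e2 hxi) hT2
  calc om ^ i * (om ^ a * T1 + xi * om ^ b * T2) = om ^ (i + a) * T1 + xi * om ^ (i + b) * T2 := by rw [pow_add, pow_add]; ring
    _ ≤ _ := add_le_add e3 e4

theorem ledb_leib (n : ℕ) (A0 K0 Z : ℝ) (g a Kc : ℕ → ℝ) (h0 : |A0| ≤ K0 * Z) (h : ∀ i, i ≤ n → |g i * a i| ≤ Kc i * Z) :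
    |A0 - ∑ i ∈ Finset.range (n + 1), (n.choose i : ℝ) * g i * a i|
      ≤ (K0 + ∑ i ∈ Finset.range (n + 1), (n.choose i : ℝ) * Kc i) * Z := by
  rw [add_mul, Finset.sum_mul]
  refine (abs_sub _ _).trans (add_le_add h0 ((Finset.abs_sum_le_sum_abs _ _).trans (Finset.sum_le_sum fun i hi => ?_)))
  have hi' : i ≤ n := by have := Finset.mem_range.1 hi; omega
  rw [mul_assoc, abs_mul, Nat.abs_cast, mul_assoc]
  exact mul_le_mul_of_nonneg_left (h i hi') (Nat.cast_nonneg _)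

/-- product of a bound of `g^{(i)}` and of a bound of an insertion -/
theorem ledb_gmul {g a G om C p0 W W' : ℝ} {i : ℕ} (hg : |g| ≤ G * om ^ i) (ha : |a| ≤ C * p0 * W) (hG : 0 ≤ G) (hC : 0 ≤ C)
    (hp : 0 ≤ p0) (hom : 0 ≤ om) (hW : om ^ i * W ≤ W') : |g * a| ≤ G * C * (p0 * W') := by
  rw [abs_mul]
  calc |g| * |a| ≤ (G * om ^ i) * (C * p0 * W) := mul_le_mul hg ha (abs_nonneg _) (mul_nonneg hG (pow_nonneg hom _))
    _ = G * C * (p0 * (om ^ i * W)) := by ring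
    _ ≤ G * C * (p0 * W') := mul_le_mul_of_nonneg_left (mul_le_mul_of_nonneg_left hW hp) (mul_nonneg hG hC)

theorem ledb_FF1 (q n r : ℕ) (hr : n + 2 ≤ r) (Cb : ℝ) : ∃ C : ℝ, 0 ≤ C ∧ ∀ (Ω : Type) (X : LedCtx Ω), X.q = q → X.Ok r Cb →
    ∀ l ∈ Set.Icc (0 : ℝ) 1, ∀ t ∈ Set.Icc (0 : ℝ) 1, ∀ s ∈ Set.Icc (0 : ℝ) 1,
      |X.FF n 1 l t s| ≤ C * X.p0 * (X.om ^ n * ledTot X.Y.ms q X.τ X.kV (X.Y.N + 1) (fun j => ledbE X.Y.N X.kU l j * X.Y.D j)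
        + X.xi * X.om ^ (n - 1) * ledTot X.Y.ms q X.τ 0 X.kV fun j => ledbE X.Y.N X.kU l j * X.Y.D j) := by
  have hex : ∀ m : ℕ, ∃ C : ℝ, 0 ≤ C ∧ (m ≤ n → ∀ (Ω : Type) (X : LedCtx Ω), X.q = q → X.Ok r Cb →
    ∀ l ∈ Set.Icc (0 : ℝ) 1, ∀ t ∈ Set.Icc (0 : ℝ) 1, ∀ (J : (ℕ → Bool × Ω) → ℝ) (As Bs : List (LedKer Ω)) (Er : LedKer Ω) (e : ℕ → ℝ),
      LedTst X r J → As.length = m → Bs.length = 0 → (∀ V ∈ As, LedLowK X.Y r X.kV X.kU X.om X.xi V) →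
      (∀ V ∈ Bs, LedLowK X.Y r X.kV X.kU X.om X.xi V) → LedErrK X.Y e Er →
      |X.Y.ins (ledLam X.kU l) t q X.τ J (As ++ Er :: Bs)|
        ≤ C * X.p0 * (X.om ^ (m + 0) * ledTot X.Y.ms q X.τ X.kV (X.Y.N + 1) (fun j => e j * X.Y.D j)
            + X.xi * X.om ^ (m + 0 - 1) * ledTot X.Y.ms q X.τ 0 X.kV fun j => e j * X.Y.D j)) := by
    intro m
    by_cases hm : m ≤ n
    · obtain ⟨C, hC, h⟩ := ledk_ins_err1 q m 0 r (by omega) Cb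
      exact ⟨C, hC, fun _ => h⟩
    · exact ⟨0, le_rfl, fun h => absurd h hm⟩
  choose C1 hC1 h1 using hex
  choose G hG hg using fun i => ledb_G1 i Cb
  refine ⟨C1 n + ∑ i ∈ Finset.range (n + 1), (n.choose i : ℝ) * (G i * C1 (n - i)),
    add_nonneg (hC1 n) (Finset.sum_nonneg fun i _ => mul_nonneg (Nat.cast_nonneg _) (mul_nonneg (hG i) (hC1 _))), ?_⟩
  intro Ω X hq hX l hl t ht s hs
  have hr1 : 1 ≤ r := by omega
  have hL := ledk_kLow_low X hr1 hX hs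
  have hE := ledk_kE_err X.Y X.kU hl
  have hom := ledb_om_nonneg X hX
  have hf0 : ∀ j, 0 ≤ ledbE X.Y.N X.kU l j * X.Y.D j := fun j => mul_nonneg (ledb_E_nonneg _ _ hl j) (ledb_D_nonneg X.Y j)
  have hkV : X.kV ≤ X.Y.N + 1 := by have := hX.kV_le; have := hX.kS_lt; have := hX.kU_le; omega
  have hT1 : 0 ≤ ledTot X.Y.ms q X.τ X.kV (X.Y.N + 1) (fun j => ledbE X.Y.N X.kU l j * X.Y.D j) :=
    ledb_tot_nonneg hX.sys.ms_ok _ _ le_rfl hf0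
  have hT2 : 0 ≤ ledTot X.Y.ms q X.τ 0 X.kV (fun j => ledbE X.Y.N X.kU l j * X.Y.D j) :=
    ledb_tot_nonneg hX.sys.ms_ok _ _ hkV hf0
  have key : ∀ m, m ≤ n → ∀ J, LedTst X r J →
      |X.Y.ins (ledLam X.kU l) t q X.τ J (List.replicate m (X.Y.kLow X.kU s) ++ List.replicate 1 (X.Y.kE X.kU l))|
        ≤ C1 m * X.p0 * (X.om ^ m * ledTot X.Y.ms q X.τ X.kV (X.Y.N + 1) (fun j => ledbE X.Y.N X.kU l j * X.Y.D j)
          + X.xi * X.om ^ (m - 1) * ledTot X.Y.ms q X.τ 0 X.kV fun j => ledbE X.Y.N X.kU l j * X.Y.D j) := by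
    intro m hm J hJ
    exact h1 m hm Ω X hq hX l hl t ht J (List.replicate m _) [] _ _ hJ List.length_replicate rfl
      (fun V hV => by rw [List.eq_of_mem_replicate hV]; exact hL) (fun V hV => by simp at hV) hE
  unfold LedCtx.FF
  rw [hq, mul_assoc]
  refine ledb_leib n _ (C1 n) _ (fun i => X.Y.gD X.kU X.kS i l) _ (fun i => G i * C1 (n - i)) ?_ ?_
  · rw [← mul_assoc]
    exact key n le_rfl _ (ledk_J1_tst X hr1 hX)
  · intro i hi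
    exact ledb_gmul (hg i Ω X r hX l hl) (key (n - i) (Nat.sub_le _ _) _ (ledk_J0_tst X hr1 hX)) (hG i) (hC1 _) hX.p0_nonneg hom
      (ledb_step hom hX.om_le hX.xi_nonneg hT1 hT2 (by omega) (by omega))

theorem ledb_FF2 (q r : ℕ) (hr : 2 ≤ r) (Cb : ℝ) : ∃ C : ℝ, 0 ≤ C ∧ ∀ (Ω : Type) (X : LedCtx Ω), X.q = q → X.Ok r Cb →
    ∀ l ∈ Set.Icc (0 : ℝ) 1, ∀ t ∈ Set.Icc (0 : ℝ) 1, ∀ s ∈ Set.Icc (0 : ℝ) 1,
      |X.FF 1 2 l t s| ≤ C * X.p0 * (X.om *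
        (ledTot X.Y.ms q X.τ 0 (X.Y.N + 1) (fun j => ledbE X.Y.N X.kU l j * X.Y.D j ^ (1 - 1 / (r : ℝ))) ^ 2
          + ledTot X.Y.ms q X.τ 0 (X.Y.N + 1) fun j => (ledbE X.Y.N X.kU l j * X.Y.D j ^ (1 - 1 / (r : ℝ))) ^ 2)) := by
  have hex : ∀ m : ℕ, ∃ C : ℝ, 0 ≤ C ∧ (m ≤ 1 → ∀ (Ω : Type) (X : LedCtx Ω), X.q = q → X.Ok r Cb →
    ∀ l ∈ Set.Icc (0 : ℝ) 1, ∀ t ∈ Set.Icc (0 : ℝ) 1, ∀ (J : (ℕ → Bool × Ω) → ℝ) (As : List (LedKer Ω)) (E₁ E₂ : LedKer Ω) (e : ℕ → ℝ),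
      LedTst X r J → As.length = m → (∀ V ∈ As, LedLowK X.Y r X.kV X.kU X.om X.xi V) → LedErrK X.Y e E₁ → LedErrK X.Y e E₂ →
      |X.Y.ins (ledLam X.kU l) t q X.τ J (As ++ [E₁, E₂])|
        ≤ C * X.p0 * (X.om ^ m * (ledTot X.Y.ms q X.τ 0 (X.Y.N + 1) (fun j => e j * X.Y.D j ^ (1 - 1 / (r : ℝ))) ^ 2
            + ledTot X.Y.ms q X.τ 0 (X.Y.N + 1) fun j => (e j * X.Y.D j ^ (1 - 1 / (r : ℝ))) ^ 2))) := by
    intro m
    by_cases hm : m ≤ 1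
    · obtain ⟨C, hC, h⟩ := ledk_ins_err2 q m r hm hr Cb
      exact ⟨C, hC, fun _ => h⟩
    · exact ⟨0, le_rfl, fun h => absurd h hm⟩
  choose C1 hC1 h1 using hex
  choose G hG hg using fun i => ledb_G1 i Cb
  refine ⟨C1 1 + ∑ i ∈ Finset.range (1 + 1), ((1 : ℕ).choose i : ℝ) * (G i * C1 (1 - i)),
    add_nonneg (hC1 1) (Finset.sum_nonneg fun i _ => mul_nonneg (Nat.cast_nonneg _) (mul_nonneg (hG i) (hC1 _))), ?_⟩
  intro Ω X hq hX l hl t ht s hs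
  have hr1 : 1 ≤ r := by omega
  have hL := ledk_kLow_low X hr1 hX hs
  have hE := ledk_kE_err X.Y X.kU hl
  have hom := ledb_om_nonneg X hX
  have hS : 0 ≤ ledTot X.Y.ms q X.τ 0 (X.Y.N + 1) (fun j => ledbE X.Y.N X.kU l j * X.Y.D j ^ (1 - 1 / (r : ℝ))) ^ 2
          + ledTot X.Y.ms q X.τ 0 (X.Y.N + 1) fun j => (ledbE X.Y.N X.kU l j * X.Y.D j ^ (1 - 1 / (r : ℝ))) ^ 2 :=
    add_nonneg (sq_nonneg _) (ledb_tot_nonneg hX.sys.ms_ok _ _ le_rfl fun j => sq_nonneg _)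
  have key : ∀ m, m ≤ 1 → ∀ J, LedTst X r J →
      |X.Y.ins (ledLam X.kU l) t q X.τ J (List.replicate m (X.Y.kLow X.kU s) ++ List.replicate 2 (X.Y.kE X.kU l))|
        ≤ C1 m * X.p0 * (X.om ^ m *
        (ledTot X.Y.ms q X.τ 0 (X.Y.N + 1) (fun j => ledbE X.Y.N X.kU l j * X.Y.D j ^ (1 - 1 / (r : ℝ))) ^ 2
          + ledTot X.Y.ms q X.τ 0 (X.Y.N + 1) fun j => (ledbE X.Y.N X.kU l j * X.Y.D j ^ (1 - 1 / (r : ℝ))) ^ 2)) := by
    intro m hm J hJ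
    exact h1 m hm Ω X hq hX l hl t ht J (List.replicate m _) _ _ _ hJ List.length_replicate
      (fun V hV => by rw [List.eq_of_mem_replicate hV]; exact hL) hE hE
  unfold LedCtx.FF
  rw [hq, mul_assoc]
  refine ledb_leib 1 _ (C1 1) _ (fun i => X.Y.gD X.kU X.kS i l) _ (fun i => G i * C1 (1 - i)) ?_ ?_
  · rw [← mul_assoc]
    have := key 1 le_rfl _ (ledk_J1_tst X hr1 hX)
    rwa [pow_one] at this
  · intro i hi
    refine ledb_gmul (hg i Ω X r hX l hl) (key (1 - i) (Nat.sub_le _ _) _ (ledk_J0_tst X hr1 hX)) (hG i) (hC1 _) hX.p0_nonneg hom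
      (le_of_eq ?_)
    rw [← mul_assoc, ← pow_add, show i + (1 - i) = 1 by omega, pow_one]

/-- the difference of the insertions of `L_1^{⊗m}` and `L_0^{⊗m}` -/
theorem ledb_brk (q m r : ℕ) (hr : m + 1 ≤ r) (Cb : ℝ) : ∃ C : ℝ, 0 ≤ C ∧ ∀ (Ω : Type) (X : LedCtx Ω), X.q = q → X.Ok r Cb →
    ∀ l ∈ Set.Icc (0 : ℝ) 1, ∀ t ∈ Set.Icc (0 : ℝ) 1, ∀ J : (ℕ → Bool × Ω) → ℝ, LedTst X r J →
      |X.Y.ins (ledLam X.kU l) t q X.τ J (List.replicate m (X.Y.kLow X.kU 1))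
          - X.Y.ins (ledLam X.kU l) t q X.τ J (List.replicate m (X.Y.kLow X.kU 0))| ≤ C * X.p0 *
        (X.om ^ (m - 1) * ledTot X.Y.ms q X.τ X.kV (X.Y.N + 1) (fun j => (if j < X.kU then 1 else 0) * X.Y.D j)
        + X.xi * X.om ^ (m - 2) * ledTot X.Y.ms q X.τ 0 X.kV fun j => (if j < X.kU then 1 else 0) * X.Y.D j) := by
  have hex : ∀ a : ℕ, ∃ C : ℝ, 0 ≤ C ∧ (a < m → ∀ (Ω : Type) (X : LedCtx Ω), X.q = q → X.Ok r Cb →
    ∀ l ∈ Set.Icc (0 : ℝ) 1, ∀ t ∈ Set.Icc (0 : ℝ) 1, ∀ (J : (ℕ → Bool × Ω) → ℝ) (As Bs : List (LedKer Ω)) (Er : LedKer Ω) (e : ℕ → ℝ),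
      LedTst X r J → As.length = a → Bs.length = m - 1 - a → (∀ V ∈ As, LedLowK X.Y r X.kV X.kU X.om X.xi V) →
      (∀ V ∈ Bs, LedLowK X.Y r X.kV X.kU X.om X.xi V) → LedErrK X.Y e Er →
      |X.Y.ins (ledLam X.kU l) t q X.τ J (As ++ Er :: Bs)|
        ≤ C * X.p0 * (X.om ^ (a + (m - 1 - a)) * ledTot X.Y.ms q X.τ X.kV (X.Y.N + 1) (fun j => e j * X.Y.D j)
            + X.xi * X.om ^ (a + (m - 1 - a) - 1) * ledTot X.Y.ms q X.τ 0 X.kV fun j => e j * X.Y.D j)) := by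
    intro a
    by_cases ha : a < m
    · obtain ⟨C, hC, h⟩ := ledk_ins_err1 q a (m - 1 - a) r (by omega) Cb
      exact ⟨C, hC, fun _ => h⟩
    · exact ⟨0, le_rfl, fun h => absurd h ha⟩
  choose C1 hC1 h1 using hex
  refine ⟨∑ a ∈ Finset.range m, C1 a, Finset.sum_nonneg fun a _ => hC1 a, ?_⟩
  intro Ω X hq hX l hl t ht J hJ
  have hr1 : 1 ≤ r := by omega
  have hL1 := ledk_kLow_low X hr1 hX (s := 1) ⟨zero_le_one, le_rfl⟩
  have hL0 := ledk_kLow_low X hr1 hX (s := 0) ⟨le_rfl, zero_le_one⟩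
  have hE := ledk_kDl_err X.Y hX.kU_le
  have hτ : IsTr X.Y.N q X.τ := hq ▸ hX.tr
  rw [ledb_tel hX.sys (ledk_lam_prof _ hl) ht hτ, mul_assoc, Finset.sum_mul]
  refine (Finset.abs_sum_le_sum_abs _ _).trans (Finset.sum_le_sum fun a ha => ?_)
  have ha' := Finset.mem_range.1 ha
  have h2 := h1 a ha' Ω X hq hX l hl t ht J (List.replicate a _) (List.replicate (m - 1 - a) _) _ _ hJ List.length_replicate
    List.length_replicate (fun V hV => by rw [List.eq_of_mem_replicate hV]; exact hL1)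
    (fun V hV => by rw [List.eq_of_mem_replicate hV]; exact hL0) hE
  rw [show a + (m - 1 - a) - 1 = m - 2 by omega, show a + (m - 1 - a) = m - 1 by omega, mul_assoc] at h2
  exact h2

theorem ledb_FFd (q n r : ℕ) (hn : 1 ≤ n) (hr : n + 1 ≤ r) (Cb : ℝ) : ∃ C : ℝ, 0 ≤ C ∧ ∀ (Ω : Type) (X : LedCtx Ω), X.q = q → X.Ok r Cb →
    ∀ l ∈ Set.Icc (0 : ℝ) 1, ∀ t ∈ Set.Icc (0 : ℝ) 1,
      |X.FF n 0 l t 1 - X.FF n 0 l t 0| ≤ C * X.p0 *
        (X.om ^ (n - 1) * ledTot X.Y.ms q X.τ X.kV (X.Y.N + 1) (fun j => (if j < X.kU then 1 else 0) * X.Y.D j)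
        + X.xi * X.om ^ (n - 2) * ledTot X.Y.ms q X.τ 0 X.kV fun j => (if j < X.kU then 1 else 0) * X.Y.D j) := by
  have hex : ∀ m : ℕ, ∃ C : ℝ, 0 ≤ C ∧ (m ≤ n → ∀ (Ω : Type) (X : LedCtx Ω), X.q = q → X.Ok r Cb →
    ∀ l ∈ Set.Icc (0 : ℝ) 1, ∀ t ∈ Set.Icc (0 : ℝ) 1, ∀ J : (ℕ → Bool × Ω) → ℝ, LedTst X r J →
      |X.Y.ins (ledLam X.kU l) t q X.τ J (List.replicate m (X.Y.kLow X.kU 1))
          - X.Y.ins (ledLam X.kU l) t q X.τ J (List.replicate m (X.Y.kLow X.kU 0))| ≤ C * X.p0 *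
        (X.om ^ (m - 1) * ledTot X.Y.ms q X.τ X.kV (X.Y.N + 1) (fun j => (if j < X.kU then 1 else 0) * X.Y.D j)
        + X.xi * X.om ^ (m - 2) * ledTot X.Y.ms q X.τ 0 X.kV fun j => (if j < X.kU then 1 else 0) * X.Y.D j)) := by
    intro m
    by_cases hm : m ≤ n
    · obtain ⟨C, hC, h⟩ := ledb_brk q m r (by omega) Cb
      exact ⟨C, hC, fun _ => h⟩
    · exact ⟨0, le_rfl, fun h => absurd h hm⟩
  choose C1 hC1 h1 using hex
  choose G hG hg using fun i => ledb_G1 i Cb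
  refine ⟨C1 n + ∑ i ∈ Finset.range (n + 1), (n.choose i : ℝ) * (G i * C1 (n - i)),
    add_nonneg (hC1 n) (Finset.sum_nonneg fun i _ => mul_nonneg (Nat.cast_nonneg _) (mul_nonneg (hG i) (hC1 _))), ?_⟩
  intro Ω X hq hX l hl t ht
  have hr1 : 1 ≤ r := by omega
  have hom := ledb_om_nonneg X hX
  have hf0 : ∀ j, 0 ≤ (if j < X.kU then (1 : ℝ) else 0) * X.Y.D j := fun j =>
    mul_nonneg (by split_ifs <;> norm_num) (ledb_D_nonneg X.Y j)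
  have hkV : X.kV ≤ X.Y.N + 1 := by have := hX.kV_le; have := hX.kS_lt; have := hX.kU_le; omega
  have hT1 : 0 ≤ ledTot X.Y.ms q X.τ X.kV (X.Y.N + 1) (fun j => (if j < X.kU then (1 : ℝ) else 0) * X.Y.D j) :=
    ledb_tot_nonneg hX.sys.ms_ok _ _ le_rfl hf0
  have hT2 : 0 ≤ ledTot X.Y.ms q X.τ 0 X.kV (fun j => (if j < X.kU then (1 : ℝ) else 0) * X.Y.D j) :=
    ledb_tot_nonneg hX.sys.ms_ok _ _ hkV hf0
  unfold LedCtx.FF
  simp only [List.replicate_zero, List.append_nil]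
  rw [hq, sub_sub_sub_comm, ← Finset.sum_sub_distrib]
  simp only [← mul_sub]
  rw [mul_assoc]
  refine ledb_leib n _ (C1 n) _ (fun i => X.Y.gD X.kU X.kS i l) _ (fun i => G i * C1 (n - i)) ?_ ?_
  · rw [← mul_assoc]
    exact h1 n le_rfl Ω X hq hX l hl t ht _ (ledk_J1_tst X hr1 hX)
  · intro i hi
    exact ledb_gmul (hg i Ω X r hX l hl) (h1 (n - i) (Nat.sub_le _ _) Ω X hq hX l hl t ht _ (ledk_J0_tst X hr1 hX)) (hG i) (hC1 _)
      hX.p0_nonneg hom (ledb_step hom hX.om_le hX.xi_nonneg hT1 hT2 (by omega) (by omega))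

/-- real arithmetic of the third low remainder -/
theorem ledb_arith {om xi T1 T2 EL EH1 EV A B : ℝ} (hxi : 0 ≤ xi) (hxo : xi ≤ om) (ho : om ≤ 1) (hEL : 0 ≤ EL) (hEH : 0 ≤ EH1)
    (hEV : 0 ≤ EV) (h1 : T1 ≤ EL + EH1) (h2 : T2 ≤ EL + EV) (hA0 : 0 ≤ A) (hA : A ≤ om ^ 2) (hB0 : 0 ≤ B) (hB : B ≤ om) :
    A * T1 + xi * B * T2 ≤ 2 * (om ^ 2 * (EL + EH1) + om * xi * EV) := by
  have ho0 : 0 ≤ om := hxi.trans hxo
  have e1 : A * T1 ≤ om ^ 2 * (EL + EH1) :=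
    (mul_le_mul_of_nonneg_left h1 hA0).trans (mul_le_mul_of_nonneg_right hA (by linarith))
  have hxB : xi * B ≤ xi * om := mul_le_mul_of_nonneg_left hB hxi
  have e2 : xi * B * T2 ≤ xi * om * (EL + EV) :=
    (mul_le_mul_of_nonneg_left h2 (mul_nonneg hxi hB0)).trans (mul_le_mul_of_nonneg_right hxB (by linarith))
  have e3 : xi * om * EL ≤ om ^ 2 * EL := by
    have : xi * om ≤ om ^ 2 := by nlinarith
    exact mul_le_mul_of_nonneg_right this hEL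
  have e4 : 0 ≤ om ^ 2 * EH1 := by positivity
  have e5 : 0 ≤ om * xi * EV := by positivity
  have e6 : xi * om * (EL + EV) = xi * om * EL + om * xi * EV := by ring
  have e7 : om ^ 2 * (EL + EH1) = om ^ 2 * EL + om ^ 2 * EH1 := by ring
  have e8 : 0 ≤ om ^ 2 * EL := by positivity
  linarith

/-- **Bd2** (= `led_Bd2`). -/
theorem ledb_Bd2 (q r : ℕ) (hr : 5 ≤ r) (Cb : ℝ) : ∃ C : ℝ, 0 ≤ C ∧ ∀ (Ω : Type) (X : LedCtx Ω), X.q = q → X.Ok r Cb →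
    ∀ l ∈ Set.Icc (0 : ℝ) 1, ∀ t ∈ Set.Icc (0 : ℝ) 1,
      |X.FF 3 1 l t 0| ≤ C * X.p0 * (X.om ^ 2 * (X.EL + X.EH1) + X.om * X.xi * X.EV) := by
  obtain ⟨C, hC0, hC⟩ := ledb_FF1 q 3 r (by omega) Cb
  refine ⟨C * 2, by positivity, fun Ω X hq h l hl t ht => ?_⟩
  have h1 := hC Ω X hq h l hl t ht 0 ⟨le_rfl, zero_le_one⟩
  refine h1.trans ?_
  have ho0 := ledb_om_nonneg X h
  have hT1 := ledb_T1 X h (ledb_E_nonneg X.Y.N X.kU hl) (ledb_E_le X.Y.N X.kU hl)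
  have hT2 := ledb_T2 X h (ledb_E_nonneg X.Y.N X.kU hl) (ledb_E_le X.Y.N X.kU hl)
  rw [hq] at hT1 hT2
  have ha := ledb_arith h.xi_nonneg h.xi_le h.om_le (ledb_EL_nonneg X h) (ledb_EH1_nonneg X h) (ledb_EV_nonneg X) hT1 hT2
    (A := X.om ^ 3) (B := X.om ^ (3 - 1)) (by positivity) (by nlinarith [h.om_le, sq_nonneg X.om]) (by positivity)
    (by norm_num; nlinarith [h.om_le])
  have hp : 0 ≤ C * X.p0 := mul_nonneg hC0 h.p0_nonneg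
  calc _ ≤ C * X.p0 * (2 * (X.om ^ 2 * (X.EL + X.EH1) + X.om * X.xi * X.EV)) := mul_le_mul_of_nonneg_left ha hp
    _ = _ := by ring

/-- **Bd1** (= `led_Bd1`). -/
theorem ledb_Bd1 (q r : ℕ) (hr : 5 ≤ r) (Cb : ℝ) : ∃ C : ℝ, 0 ≤ C ∧ ∀ (Ω : Type) (X : LedCtx Ω), X.q = q → X.Ok r Cb →
    ∀ l ∈ Set.Icc (0 : ℝ) 1,
      |X.FF 3 0 l 1 1 - X.FF 3 0 l 1 0| ≤ C * X.p0 * (X.om ^ 2 * (X.EL + X.EH1) + X.om * X.xi * X.EV) := by
  obtain ⟨C, hC0, hC⟩ := ledb_FFd q 3 r (by omega) (by omega) Cb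
  refine ⟨C * 2, by positivity, fun Ω X hq h l hl => ?_⟩
  have h1 := hC Ω X hq h l hl 1 ⟨zero_le_one, le_rfl⟩
  refine h1.trans ?_
  have ho0 := ledb_om_nonneg X h
  have he0 : ∀ j, (0 : ℝ) ≤ if j < X.kU then 1 else 0 := fun j => by split_ifs <;> norm_num
  have he1 : ∀ j, (if j < X.kU then 1 else 0 : ℝ) ≤ 1 := fun j => by split_ifs <;> norm_num
  have hT1 := ledb_T1 X h he0 he1
  have hT2 := ledb_T2 X h he0 he1
  rw [hq] at hT1 hT2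
  have ha := ledb_arith h.xi_nonneg h.xi_le h.om_le (ledb_EL_nonneg X h) (ledb_EH1_nonneg X h) (ledb_EV_nonneg X) hT1 hT2
    (A := X.om ^ (3 - 1)) (B := X.om ^ (3 - 2)) (by positivity) (by norm_num) (by positivity) (by norm_num)
  have hp : 0 ≤ C * X.p0 := mul_nonneg hC0 h.p0_nonneg
  calc _ ≤ C * X.p0 * (2 * (X.om ^ 2 * (X.EL + X.EH1) + X.om * X.xi * X.EV)) := mul_le_mul_of_nonneg_left ha hp
    _ = _ := by ring

/-- **Bd3** (= `led_Bd3`). -/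
theorem ledb_Bd3 (q r : ℕ) (hr : 5 ≤ r) (Cb : ℝ) : ∃ C : ℝ, 0 ≤ C ∧ ∀ (Ω : Type) (X : LedCtx Ω), X.q = q → X.Ok r Cb →
    ∀ t ∈ Set.Icc (0 : ℝ) 1, |X.FF 1 2 0 t 1| ≤ C * X.p0 * (X.om * X.EH2 r) := by
  obtain ⟨C, hC0, hC⟩ := ledb_FF2 q r (by omega) Cb
  refine ⟨C, hC0, fun Ω X hq h t ht => ?_⟩
  have h1 := hC Ω X hq h 0 ⟨le_rfl, zero_le_one⟩ t ht 1 ⟨zero_le_one, le_rfl⟩
  refine h1.trans ?_
  have hS := ledb_S_high X h
  rw [hq] at hS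
  exact mul_le_mul_of_nonneg_left (mul_le_mul_of_nonneg_left hS (ledb_om_nonneg X h)) (mul_nonneg hC0 h.p0_nonneg)

/-- **Bd4** (= `led_Bd4`). -/
theorem ledb_Bd4 (q r : ℕ) (hr : 5 ≤ r) (Cb : ℝ) : ∃ C : ℝ, 0 ≤ C ∧ ∀ (Ω : Type) (X : LedCtx Ω), X.q = q → X.Ok r Cb →
    ∀ t ∈ Set.Icc (0 : ℝ) 1, |X.FF 2 1 0 t 1| ≤ C * X.p0 * (X.om ^ 2 * X.EH1) := by
  obtain ⟨C, hC0, hC⟩ := ledb_FF1 q 2 r (by omega) Cb
  refine ⟨C, hC0, fun Ω X hq h t ht => ?_⟩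
  have h1 := hC Ω X hq h 0 ⟨le_rfl, zero_le_one⟩ t ht 1 ⟨zero_le_one, le_rfl⟩
  refine h1.trans ?_
  have hT1 := ledb_T1_high X h
  have hT2 := ledb_T2_high X h
  rw [hq] at hT1 hT2
  have e : (fun j => ledbE X.Y.N X.kU 0 j * X.Y.D j) = fun j => (if j ≤ X.Y.N then ledLam X.kU 0 j else 0) * X.Y.D j := rfl
  rw [e, hT2, mul_zero, add_zero]
  exact mul_le_mul_of_nonneg_left (mul_le_mul_of_nonneg_left hT1 (by have := ledb_om_nonneg X h; positivity))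
    (mul_nonneg hC0 h.p0_nonneg)

theorem ledb_eqns_cite : True := by
  have := @ledbE.eq_1
  trivial

end Claimed.Agent.R286
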