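import Claimed.Agent.R286.Cav.LedGen
import Claimed.Agent.R286.Cav.RetKit

/-!
# Row 286 (S0533), unit Cav, file LedBd58      (owner: helper204; prefix `ledc_`)

The leaves Bd5-Bd8 of `Cav/LedLeaves` (PE cavity.tex l.576-587: restorations of the retained terms `C` and `H`): four instances of the master bound `led_gen`.
 * costs of the standard kernels: `ledc_low_kLow1`, `ledc_low_QS`, `ledc_low_dlS`, `ledc_err_kE0`, `ledc_err_kD`, `ledc_err_dlS`
 * coefficients: `ledc_kapC_le`, `ledc_kapC_supp`, `ledc_coef2_le`, `ledc_coef2_supp`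
-/

set_option autoImplicit false

namespace Claimed.Agent.R286

open Finset

/-- two labels in the blocks of `a` and of `b` split where `a` and `b` do -/
theorem ledc_split {N Q : ℕ} {τ' : ℕ → ℕ → ℕ} (hτ : IsTr N Q τ') {a b x y kS kU : ℕ} (ha : a < Q) (hb : b < Q) (hx : x < Q) (hy : y < Q)
    (hab : τ' a b = kS) (hk : kS < kU) (hax : kU ≤ τ' a x) (hby : kU ≤ τ' b y) : τ' x y = kS := by
  have u1 := hτ.ultra x a b hx ha hb
  have u2 := hτ.ultra a x b ha hx hb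
  have u3 := hτ.ultra x b y hx hb hy
  have u4 := hτ.ultra x y b hx hy hb
  have s1 := hτ.symm x a hx ha
  have s2 := hτ.symm y b hy hb
  omega

variable {Ω : Type}

/-! ### costs of the kernels -/

theorem ledc_om_nonneg (X : LedCtx Ω) {r : ℕ} {Cb : ℝ} (h : X.Ok r Cb) : 0 ≤ X.om := h.xi_nonneg.trans h.xi_le

theorem ledc_low_kLow1 (X : LedCtx Ω) {r : ℕ} {Cb : ℝ} (h : X.Ok r Cb) {Q : ℕ} {τ' : ℕ → ℕ → ℕ} (hτ' : IsTr X.Y.N Q τ') {x y : ℕ}
    (hx : x < Q) (hy : y < Q) : X.Y.IsLow r τ' (x, y, X.Y.kLow X.kU 1) X.om := by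
  unfold LedSys.IsLow
  dsimp only
  set j := τ' x y with hj
  have hm := ledg_act_mean h.sys (ledk_pair_isTr X.Y.N j (hτ'.le x y hx hy))
  by_cases hjk : j < X.kU
  · refine (ledk_mono hm fun σ => ?_).trans (h.low j hjk).1
    unfold LedSys.kLow
    rw [if_pos hjk, ← Even.pow_abs (even_two_mul r), ← Even.pow_abs (even_two_mul r) (X.Y.Q j _ _)]
    refine pow_le_pow_left₀ (abs_nonneg _) ?_ _
    unfold LedSys.kRow
    rw [abs_mul, abs_mul, abs_mul, ret_sg_abs, ret_sg_abs, one_mul, one_mul, one_mul, ← ret_Q_eq]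
    rw [abs_of_pos (by norm_num : (0 : ℝ) < 1 / 2)]
    have := abs_nonneg (X.Y.Q j (σ 0).2 (σ 1).2)
    linarith
  · have e : (fun σ : ℕ → Bool × Ω => X.Y.kLow X.kU 1 j (σ 0) (σ 1) ^ (2 * r)) = fun _ => (0 : ℝ) ^ (2 * r) := by
      funext σ; unfold LedSys.kLow; rw [if_neg hjk]
    rw [e, ledk_const hm]
    exact pow_le_pow_left₀ le_rfl (ledc_om_nonneg X h) _

theorem ledc_low_QS (X : LedCtx Ω) {r : ℕ} {Cb : ℝ} (h : X.Ok r Cb) {τ' : ℕ → ℕ → ℕ} {x y : ℕ} (hxy : τ' x y = X.kS) :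
    X.Y.IsLow r τ' (x, y, fun _ u v => X.Y.Q X.kS u.2 v.2) X.om := by
  unfold LedSys.IsLow
  dsimp only
  rw [hxy]
  exact (h.low X.kS h.kS_lt).1

theorem ledc_low_dlS (X : LedCtx Ω) {r : ℕ} {Cb : ℝ} (h : X.Ok r Cb) {τ' : ℕ → ℕ → ℕ} {x y : ℕ} (hxy : τ' x y = X.kS) :
    X.Y.IsLow r τ' (x, y, fun _ u v => X.Y.dl X.kS u.2 v.2) (2 * X.om) := by
  unfold LedSys.IsLow
  dsimp only
  rw [hxy]
  have hkN : X.kS ≤ X.Y.N + 1 := by have := h.kS_lt; have := h.kU_le; omega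
  have hm := ledg_act_mean h.sys (ledk_pair_isTr X.Y.N X.kS hkN)
  obtain ⟨hQ, hK⟩ := h.low X.kS h.kS_lt
  have hK0 := ret_K_nonneg h.sys X.kS
  have hpt : ∀ σ : ℕ → Bool × Ω, X.Y.dl X.kS (σ 0).2 (σ 1).2 ^ (2 * r)
      ≤ 2 ^ (2 * r) * (1 / 2) * X.Y.Q X.kS (σ 0).2 (σ 1).2 ^ (2 * r) + 2 ^ (2 * r) * (1 / 2) * X.Y.K X.kS ^ (2 * r) := by
    intro σ
    have hc := (Even.convexOn_pow (𝕜 := ℝ) (even_two_mul r)).2 (Set.mem_univ (X.Y.Q X.kS (σ 0).2 (σ 1).2)) (Set.mem_univ (- X.Y.K X.kS))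
      (by norm_num : (0 : ℝ) ≤ 1 / 2) (by norm_num : (0 : ℝ) ≤ 1 / 2) (by norm_num)
    simp only [smul_eq_mul] at hc
    rw [Even.neg_pow (even_two_mul r)] at hc
    have e : X.Y.dl X.kS (σ 0).2 (σ 1).2 = 2 * (1 / 2 * X.Y.Q X.kS (σ 0).2 (σ 1).2 + 1 / 2 * - X.Y.K X.kS) := by
      rw [ret_Q_eq]; ring
    rw [e, mul_pow]
    have h2 : (0 : ℝ) ≤ 2 ^ (2 * r) := by positivity
    calc _ ≤ (2 : ℝ) ^ (2 * r) * (1 / 2 * X.Y.Q X.kS (σ 0).2 (σ 1).2 ^ (2 * r) + 1 / 2 * X.Y.K X.kS ^ (2 * r)) :=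
          mul_le_mul_of_nonneg_left hc h2
      _ = _ := by ring
  refine (ledk_mono hm hpt).trans ?_
  rw [hm.add, hm.smul, ledk_const hm, mul_pow]
  have hK' : X.Y.K X.kS ^ (2 * r) ≤ X.om ^ (2 * r) := pow_le_pow_left₀ hK0 hK _
  have h2 : (0 : ℝ) ≤ 2 ^ (2 * r) * (1 / 2) := by positivity
  have a1 := mul_le_mul_of_nonneg_left hQ h2
  have a2 := mul_le_mul_of_nonneg_left hK' h2
  unfold LedSys.mQ at a1
  calc _ ≤ 2 ^ (2 * r) * (1 / 2) * X.om ^ (2 * r) + 2 ^ (2 * r) * (1 / 2) * X.om ^ (2 * r) := add_le_add a1 a2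
    _ = _ := by ring

theorem ledc_err_kE0 (Y : LedSys Ω) (kU : ℕ) (τ' : ℕ → ℕ → ℕ) (x y : ℕ) : Y.IsErr kU (Y.N + 1) τ' (x, y, Y.kE kU 0) := by
  intro u v
  dsimp only
  set j := τ' x y
  unfold LedSys.kE ledLam
  by_cases h1 : j ≤ Y.N
  · rw [if_pos h1]
    by_cases h2 : j < kU
    · rw [if_pos h2, zero_mul, mul_zero, abs_zero]
      split_ifs
      · exact abs_nonneg _
      · exact le_rfl
    · rw [if_neg h2, if_pos ⟨by omega, by omega⟩, one_mul]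
      unfold LedSys.kErr
      rw [abs_mul, abs_mul, abs_mul, ret_sg_abs, ret_sg_abs, one_mul, one_mul, abs_of_pos (by norm_num : (0 : ℝ) < 1 / 2)]
      have := abs_nonneg (Y.dl j u.2 v.2)
      linarith
  · rw [if_neg h1, abs_zero]
    split_ifs
    · exact abs_nonneg _
    · exact le_rfl

theorem ledc_err_kD (Y : LedSys Ω) {kU : ℕ} {τ' : ℕ → ℕ → ℕ} {x y : ℕ} (h1 : kU ≤ τ' x y) (h2 : τ' x y ≤ Y.N) :
    Y.IsErr kU (Y.N + 1) τ' (x, y, Y.kD) := by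
  intro u v
  dsimp only
  rw [if_pos ⟨h1, by omega⟩]
  exact le_rfl

theorem ledc_err_dlS (Y : LedSys Ω) {kS : ℕ} {τ' : ℕ → ℕ → ℕ} {x y : ℕ} (h1 : τ' x y = kS) :
    Y.IsErr kS (kS + 1) τ' (x, y, fun _ u v => Y.dl kS u.2 v.2) := by
  intro u v
  dsimp only
  rw [h1, if_pos ⟨le_rfl, by omega⟩]

/-! ### the coefficients -/

theorem ledc_kapC_le {Y : LedSys Ω} (hY : Y.Ok) (kU : ℕ) {q a b Q : ℕ} {τ' : ℕ → ℕ → ℕ} (hτ' : IsTr Y.N Q τ') (ha : a < Q) (hb : b < Q)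
    (hq : q + 1 < Q) : |Y.kapC kU q a b τ'| ≤ 1 := by
  unfold LedSys.kapC
  split_ifs
  · rw [abs_mul]
    have h1 := ret_gam_abs_le hY kU _ (hτ'.le a q ha (by omega))
    have h2 := ret_gam_abs_le hY kU _ (hτ'.le b (q + 1) hb hq)
    calc _ ≤ (1 : ℝ) * 1 := mul_le_mul h1 h2 (abs_nonneg _) zero_le_one
      _ = 1 := one_mul 1
  · rw [abs_zero]; exact zero_le_one

theorem ledc_kapC_supp {Y : LedSys Ω} {kU q a b : ℕ} {τ' : ℕ → ℕ → ℕ} (h : Y.kapC kU q a b τ' ≠ 0) : kU ≤ τ' a q ∧ kU ≤ τ' b (q + 1) := by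
  unfold LedSys.kapC at h
  by_contra hc
  rw [if_neg hc] at h
  exact h rfl

theorem ledc_coef2_le {Y : LedSys Ω} (hY : Y.Ok) (kU : ℕ) {q a b : ℕ} {τ' : ℕ → ℕ → ℕ} (hτ' : IsTr Y.N (q + 4) τ') (ha : a < q) (hb : b < q) :
    |Y.coef2 kU q a b τ'| ≤ 2 := by
  have g1 := ret_gam_abs_le hY kU _ (hτ'.le a q (by omega) (by omega))
  have g2 := ret_gam_abs_le hY kU _ (hτ'.le b (q + 1) (by omega) (by omega))
  have k1 := ret_kap4_abs_le hY kU hτ' (a := a) (c := q) (e := q + 2) (f := q + 3) (by omega) (by omega) (by omega) (by omega)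
  have k2 := ret_kap4_abs_le hY kU hτ' (a := b) (c := q + 1) (e := q + 2) (f := q + 3) (by omega) (by omega) (by omega) (by omega)
  have p1 : |Y.kap4 kU (q + 4) τ' a q (q + 2) (q + 3) * Y.gam kU (τ' b (q + 1))| ≤ 2 := by
    rw [abs_mul]
    calc _ ≤ (2 : ℝ) * 1 := mul_le_mul k1 g2 (abs_nonneg _) (by norm_num)
      _ = 2 := by norm_num
  have p2 : |Y.gam kU (τ' a q) * Y.kap4 kU (q + 4) τ' b (q + 1) (q + 2) (q + 3)| ≤ 2 := by
    rw [abs_mul]
    calc _ ≤ (1 : ℝ) * 2 := mul_le_mul g1 k2 (abs_nonneg _) (by norm_num)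
      _ = 2 := by norm_num
  unfold LedSys.coef2
  split_ifs
  all_goals first
    | (rw [abs_mul, abs_of_pos (by norm_num : (0 : ℝ) < 1 / 2)]
       have := abs_add_le (Y.kap4 kU (q + 4) τ' a q (q + 2) (q + 3) * Y.gam kU (τ' b (q + 1)))
         (Y.gam kU (τ' a q) * Y.kap4 kU (q + 4) τ' b (q + 1) (q + 2) (q + 3))
       linarith)
    | (rw [add_zero, abs_mul, abs_of_pos (by norm_num : (0 : ℝ) < 1 / 2)]; linarith)
    | (rw [zero_add, abs_mul, abs_of_pos (by norm_num : (0 : ℝ) < 1 / 2)]; linarith)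
    | (simp)

theorem ledc_coef2_supp {Y : LedSys Ω} {kU q a b Q : ℕ} {τ' : ℕ → ℕ → ℕ} (hτ' : IsTr Y.N Q τ') (ha : a < Q) (hb : b < Q) (hq : q + 3 < Q)
    (h : Y.coef2 kU q a b τ' ≠ 0) : kU ≤ τ' a q ∧ kU ≤ τ' b (q + 1) ∧ kU ≤ τ' (q + 2) (q + 3) ∧ τ' (q + 2) (q + 3) ≤ Y.N := by
  unfold LedSys.coef2 at h
  by_cases hc : kU ≤ τ' a q ∧ kU ≤ τ' b (q + 1) ∧ τ' (q + 2) (q + 3) ≤ Y.N
  · refine ⟨hc.1, hc.2.1, ?_, hc.2.2⟩
    rw [if_pos hc] at h
    by_cases h1 : kU ≤ τ' a (q + 2) ∧ kU ≤ τ' a (q + 3)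
    · have u := hτ'.ultra (q + 2) a (q + 3) (by omega) ha hq
      have s := hτ'.symm (q + 2) a (by omega) ha
      omega
    · by_cases h2 : kU ≤ τ' b (q + 2) ∧ kU ≤ τ' b (q + 3)
      · have u := hτ'.ultra (q + 2) b (q + 3) (by omega) hb hq
        have s := hτ'.symm (q + 2) b (by omega) hb
        omega
      · rw [if_neg h1, if_neg h2] at h
        exact absurd (by ring) h
  · rw [if_neg hc] at h
    exact absurd rfl h

/-! ### the test -/

theorem ledc_J0_uses (X : LedCtx Ω) {r : ℕ} {Cb : ℝ} (h : X.Ok r Cb) : TrUses X.q X.J0 := fun σ σ' hσ =>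
  h.uses _ _ fun i hi => by unfold ledRs; rw [hσ i hi]

theorem ledc_zero_mem : (0 : ℝ) ∈ Set.Icc (0 : ℝ) 1 := ⟨le_rfl, zero_le_one⟩

theorem ledc_one_mem : (1 : ℝ) ∈ Set.Icc (0 : ℝ) 1 := ⟨zero_le_one, le_rfl⟩

/-- the pair `(c, d) = (q, q + 1)` splits at `kS` -/
theorem ledc_cd (X : LedCtx Ω) {r : ℕ} {Cb : ℝ} (h : X.Ok r Cb) {k : ℕ} (hk : 2 ≤ k) {τ' : ℕ → ℕ → ℕ} (hτ' : IsTr X.Y.N (X.q + k) τ')
    (hold : ∀ x y, x < X.q → y < X.q → τ' x y = X.τ x y) (h1 : X.kU ≤ τ' X.a X.q) (h2 : X.kU ≤ τ' X.b (X.q + 1)) :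
    τ' X.q (X.q + 1) = X.kS := by
  have ha := h.a_lt
  have hb := h.b_lt
  exact ledc_split hτ' (by omega) (by omega) (by omega) (by omega) ((hold _ _ ha hb).trans h.split) h.kS_lt h1 h2

/-! ### the leaves -/

/-- **Bd5** (= `led_Bd5`). -/
theorem ledc_Bd5 (q r : ℕ) (hr : 5 ≤ r) (Cb : ℝ) : ∃ C : ℝ, 0 ≤ C ∧ ∀ (Ω : Type) (X : LedCtx Ω), X.q = q → X.Ok r Cb →
    ∀ t ∈ Set.Icc (0 : ℝ) 1, |X.CC 2 0 0 t| ≤ C * X.p0 * (X.om * X.EH2 r) := by
  obtain ⟨C, hC0, hC⟩ := led_gen q 6 r hr Cb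
  refine ⟨C * 2, by positivity, fun Ω X hq h t ht => ?_⟩
  subst hq
  have ha := h.a_lt
  have hb := h.b_lt
  have hg := hC Ω X.Y h.sys h.b_le h.h_le (ledLam X.kU 0) t X.τ (X.Y.kapC X.kU X.q X.a X.b) X.J0 1 X.p0
    [(X.q, X.q + 1, fun _ x y => X.Y.dl X.kS x.2 y.2), (X.q + 2, X.q + 3, X.Y.kE X.kU 0), (X.q + 4, X.q + 5, X.Y.kE X.kU 0)]
    [(X.q, X.q + 1, fun _ x y => X.Y.dl X.kS x.2 y.2)] [(X.q + 2, X.q + 3, X.Y.kE X.kU 0), (X.q + 4, X.q + 5, X.Y.kE X.kU 0)]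
    (fun _ => 2 * X.om) X.kU (X.Y.N + 1) (ledk_lam_prof X.kU ledc_zero_mem) ht h.tr (ledc_J0_uses X h) h.p0_nonneg h.test zero_le_one
    (fun τ' h1 _ => ledc_kapC_le h.sys X.kU h1 (by omega) (by omega) (by omega)) (List.Perm.refl _) le_rfl
    (by
      intro f hf
      simp only [List.mem_cons, List.not_mem_nil, or_false] at hf
      subst hf
      exact ⟨by dsimp only; omega, by dsimp only; omega, by dsimp only; omega, by have := ledc_om_nonneg X h; positivity⟩)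
    (by
      intro f hf
      simp only [List.mem_cons, List.not_mem_nil, or_false] at hf
      rcases hf with rfl | rfl <;> exact ⟨by dsimp only; omega, by dsimp only; omega, by dsimp only; omega, by dsimp only; omega⟩)
    (by
      intro τ' h1 h2 h3
      obtain ⟨s1, s2⟩ := ledc_kapC_supp h3
      have hcd := ledc_cd X h (by norm_num) h1 h2 s1 s2
      refine ⟨fun f hf => ?_, fun f hf => ?_⟩
      · simp only [List.mem_cons, List.not_mem_nil, or_false] at hf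
        subst hf
        exact ledc_low_dlS X h hcd
      · simp only [List.mem_cons, List.not_mem_nil, or_false] at hf
        rcases hf with rfl | rfl <;> exact ledc_err_kE0 _ _ _ _ _)
    (Or.inr ⟨rfl, le_rfl⟩)
  have e : X.Y.eCost r X.q X.τ X.kU (X.Y.N + 1)
      [(X.q + 2, X.q + 3, X.Y.kE X.kU 0), (X.q + 4, X.q + 5, X.Y.kE X.kU 0)].length = X.EH2 r := by
    unfold LedSys.eCost LedCtx.EH2; simp
  rw [e] at hg
  refine (le_of_eq_of_le rfl hg).trans (le_of_eq ?_)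
  simp only [List.map_cons, List.map_nil, List.prod_cons, List.prod_nil]
  ring

/-- **Bd6** (= `led_Bd6`). -/
theorem ledc_Bd6 (q r : ℕ) (hr : 5 ≤ r) (Cb : ℝ) : ∃ C : ℝ, 0 ≤ C ∧ ∀ (Ω : Type) (X : LedCtx Ω), X.q = q → X.Ok r Cb →
    ∀ l ∈ Set.Icc (0 : ℝ) 1, |X.CC 0 2 l 1| ≤ C * X.p0 * (X.om ^ 2 * X.Y.D X.kS) := by
  obtain ⟨C, hC0, hC⟩ := led_gen q 6 r hr Cb
  refine ⟨C * 2, by positivity, fun Ω X hq h l hl => ?_⟩
  subst hq
  have ha := h.a_lt
  have hb := h.b_lt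
  have hkS := h.kS_lt
  have hkU := h.kU_le
  have ho := ledc_om_nonneg X h
  have hg := hC Ω X.Y h.sys h.b_le h.h_le (ledLam X.kU l) 1 X.τ (X.Y.kapC X.kU X.q X.a X.b) X.J0 1 X.p0
    [(X.q, X.q + 1, fun _ x y => X.Y.dl X.kS x.2 y.2), (X.q + 2, X.q + 3, X.Y.kLow X.kU 1), (X.q + 4, X.q + 5, X.Y.kLow X.kU 1)]
    [(X.q + 2, X.q + 3, X.Y.kLow X.kU 1), (X.q + 4, X.q + 5, X.Y.kLow X.kU 1)] [(X.q, X.q + 1, fun _ x y => X.Y.dl X.kS x.2 y.2)]
    (fun _ => X.om) X.kS (X.kS + 1) (ledk_lam_prof X.kU hl) ledc_one_mem h.tr (ledc_J0_uses X h) h.p0_nonneg h.test zero_le_one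
    (fun τ' h1 _ => ledc_kapC_le h.sys X.kU h1 (by omega) (by omega) (by omega))
    (List.perm_append_comm (l₁ := [((X.q, X.q + 1, fun _ x y => X.Y.dl X.kS x.2 y.2) : LedFac Ω)])) (by omega)
    (by
      intro f hf
      simp only [List.mem_cons, List.not_mem_nil, or_false] at hf
      rcases hf with rfl | rfl <;> exact ⟨by dsimp only; omega, by dsimp only; omega, by dsimp only; omega, ho⟩)
    (by
      intro f hf
      simp only [List.mem_cons, List.not_mem_nil, or_false] at hf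
      subst hf
      exact ⟨by dsimp only; omega, by dsimp only; omega, by dsimp only; omega, by dsimp only; omega⟩)
    (by
      intro τ' h1 h2 h3
      obtain ⟨s1, s2⟩ := ledc_kapC_supp h3
      have hcd := ledc_cd X h (by norm_num) h1 h2 s1 s2
      refine ⟨fun f hf => ?_, fun f hf => ?_⟩
      · simp only [List.mem_cons, List.not_mem_nil, or_false] at hf
        rcases hf with rfl | rfl <;> exact ledc_low_kLow1 X h h1 (by omega) (by omega)
      · simp only [List.mem_cons, List.not_mem_nil, or_false] at hf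
        subst hf
        exact ledc_err_dlS _ hcd)
    (Or.inl ⟨le_rfl, by norm_num⟩)
  have hD := ledg_D_nonneg X.Y X.kS
  have e : X.Y.eCost r X.q X.τ X.kS (X.kS + 1) [((X.q, X.q + 1, fun _ x y => X.Y.dl X.kS x.2 y.2) : LedFac Ω)].length ≤ 2 * X.Y.D X.kS := by
    unfold LedSys.eCost LedSys.tot LedSys.intM ledAt
    simp only [List.length_cons, List.length_nil, zero_add, one_ne_zero, if_false, if_true, Nat.Ico_succ_singleton, Finset.sum_singleton]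
    have h1 : X.Y.dM X.kS ≤ 1 := by
      unfold LedSys.dM
      have a1 : X.Y.ms X.kS ≤ X.Y.ms X.Y.N := h.sys.ms_ok.mono _ _ (by omega) le_rfl
      have a2 : 0 ≤ trPm X.Y.ms X.kS := by
        unfold trPm; split_ifs
        · exact le_rfl
        · exact h.sys.ms_ok.nonneg _
      rw [h.sys.ms_top] at a1
      linarith
    have h2 : ∑ j ∈ (ledForks X.q X.τ).filter (fun j => X.kS ≤ j ∧ j < X.kS + 1), X.Y.D j ≤ ∑ j ∈ ({X.kS} : Finset ℕ), X.Y.D j := by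
      refine Finset.sum_le_sum_of_subset_of_nonneg (fun j hj => ?_) fun j _ _ => ledg_D_nonneg X.Y j
      have := (Finset.mem_filter.1 hj).2
      rw [Finset.mem_singleton]; omega
    rw [Finset.sum_singleton] at h2
    nlinarith
  have hpos : 0 ≤ C * 1 * X.p0 * (List.map (fun _ : LedFac Ω => X.om)
      [(X.q + 2, X.q + 3, X.Y.kLow X.kU 1), (X.q + 4, X.q + 5, X.Y.kLow X.kU 1)]).prod := by
    simp only [List.map_cons, List.map_nil, List.prod_cons, List.prod_nil]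
    have := h.p0_nonneg
    positivity
  refine (le_of_eq_of_le rfl hg).trans ((mul_le_mul_of_nonneg_left e hpos).trans (le_of_eq ?_))
  simp only [List.map_cons, List.map_nil, List.prod_cons, List.prod_nil]
  ring

/-- **Bd7** (= `led_Bd7`). -/
theorem ledc_Bd7 (q r : ℕ) (hr : 5 ≤ r) (Cb : ℝ) : ∃ C : ℝ, 0 ≤ C ∧ ∀ (Ω : Type) (X : LedCtx Ω), X.q = q → X.Ok r Cb →
    ∀ t ∈ Set.Icc (0 : ℝ) 1, |X.HH 1 0 0 t| ≤ C * X.p0 * (X.om * X.EH2 r) := by
  obtain ⟨C, hC0, hC⟩ := led_gen q 6 r hr Cb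
  refine ⟨C * 2, by positivity, fun Ω X hq h t ht => ?_⟩
  subst hq
  have ha := h.a_lt
  have hb := h.b_lt
  have ho := ledc_om_nonneg X h
  have hg := hC Ω X.Y h.sys h.b_le h.h_le (ledLam X.kU 0) t X.τ (X.Y.coef2 X.kU X.q X.a X.b) X.J0 2 X.p0
    [(X.q + 2, X.q + 3, X.Y.kD), (X.q, X.q + 1, fun _ x y => X.Y.Q X.kS x.2 y.2), (X.q + 4, X.q + 5, X.Y.kE X.kU 0)]
    [(X.q, X.q + 1, fun _ x y => X.Y.Q X.kS x.2 y.2)] [(X.q + 2, X.q + 3, X.Y.kD), (X.q + 4, X.q + 5, X.Y.kE X.kU 0)]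
    (fun _ => X.om) X.kU (X.Y.N + 1) (ledk_lam_prof X.kU ledc_zero_mem) ht h.tr (ledc_J0_uses X h) h.p0_nonneg h.test (by norm_num)
    (fun τ' h1 _ => ledc_coef2_le h.sys X.kU (tr_isTr_mono h1 (by omega)) ha hb) (List.Perm.swap _ _ _) le_rfl
    (by
      intro f hf
      simp only [List.mem_cons, List.not_mem_nil, or_false] at hf
      subst hf
      exact ⟨by dsimp only; omega, by dsimp only; omega, by dsimp only; omega, ho⟩)
    (by
      intro f hf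
      simp only [List.mem_cons, List.not_mem_nil, or_false] at hf
      rcases hf with rfl | rfl <;> exact ⟨by dsimp only; omega, by dsimp only; omega, by dsimp only; omega, by dsimp only; omega⟩)
    (by
      intro τ' h1 h2 h3
      obtain ⟨s1, s2, s3, s4⟩ := ledc_coef2_supp h1 (by omega) (by omega) (by omega) h3
      have hcd := ledc_cd X h (by norm_num) h1 h2 s1 s2
      refine ⟨fun f hf => ?_, fun f hf => ?_⟩
      · simp only [List.mem_cons, List.not_mem_nil, or_false] at hf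
        subst hf
        exact ledc_low_QS X h hcd
      · simp only [List.mem_cons, List.not_mem_nil, or_false] at hf
        rcases hf with rfl | rfl
        · exact ledc_err_kD _ s3 s4
        · exact ledc_err_kE0 _ _ _ _ _)
    (Or.inr ⟨rfl, le_rfl⟩)
  have e : X.Y.eCost r X.q X.τ X.kU (X.Y.N + 1)
      [(X.q + 2, X.q + 3, X.Y.kD), (X.q + 4, X.q + 5, X.Y.kE X.kU 0)].length = X.EH2 r := by
    unfold LedSys.eCost LedCtx.EH2; simp
  rw [e] at hg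
  refine (le_of_eq_of_le rfl hg).trans (le_of_eq ?_)
  simp only [List.map_cons, List.map_nil, List.prod_cons, List.prod_nil]
  ring

/-- **Bd8** (= `led_Bd8`). -/
theorem ledc_Bd8 (q r : ℕ) (hr : 5 ≤ r) (Cb : ℝ) : ∃ C : ℝ, 0 ≤ C ∧ ∀ (Ω : Type) (X : LedCtx Ω), X.q = q → X.Ok r Cb →
    ∀ l ∈ Set.Icc (0 : ℝ) 1, |X.HH 0 1 l 1| ≤ C * X.p0 * (X.om ^ 2 * X.EH1) := by
  obtain ⟨C, hC0, hC⟩ := led_gen q 6 r hr Cb
  refine ⟨C * 2, by positivity, fun Ω X hq h l hl => ?_⟩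
  subst hq
  have ha := h.a_lt
  have hb := h.b_lt
  have ho := ledc_om_nonneg X h
  have hg := hC Ω X.Y h.sys h.b_le h.h_le (ledLam X.kU l) 1 X.τ (X.Y.coef2 X.kU X.q X.a X.b) X.J0 2 X.p0
    [(X.q + 2, X.q + 3, X.Y.kD), (X.q, X.q + 1, fun _ x y => X.Y.Q X.kS x.2 y.2), (X.q + 4, X.q + 5, X.Y.kLow X.kU 1)]
    [(X.q, X.q + 1, fun _ x y => X.Y.Q X.kS x.2 y.2), (X.q + 4, X.q + 5, X.Y.kLow X.kU 1)] [(X.q + 2, X.q + 3, X.Y.kD)]
    (fun _ => X.om) X.kU (X.Y.N + 1) (ledk_lam_prof X.kU hl) ledc_one_mem h.tr (ledc_J0_uses X h) h.p0_nonneg h.test (by norm_num)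
    (fun τ' h1 _ => ledc_coef2_le h.sys X.kU (tr_isTr_mono h1 (by omega)) ha hb)
    (List.perm_append_comm (l₁ := [((X.q + 2, X.q + 3, X.Y.kD) : LedFac Ω)])) le_rfl
    (by
      intro f hf
      simp only [List.mem_cons, List.not_mem_nil, or_false] at hf
      rcases hf with rfl | rfl <;> exact ⟨by dsimp only; omega, by dsimp only; omega, by dsimp only; omega, ho⟩)
    (by
      intro f hf
      simp only [List.mem_cons, List.not_mem_nil, or_false] at hf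
      subst hf
      exact ⟨by dsimp only; omega, by dsimp only; omega, by dsimp only; omega, by dsimp only; omega⟩)
    (by
      intro τ' h1 h2 h3
      obtain ⟨s1, s2, s3, s4⟩ := ledc_coef2_supp h1 (by omega) (by omega) (by omega) h3
      have hcd := ledc_cd X h (by norm_num) h1 h2 s1 s2
      refine ⟨fun f hf => ?_, fun f hf => ?_⟩
      · simp only [List.mem_cons, List.not_mem_nil, or_false] at hf
        rcases hf with rfl | rfl
        · exact ledc_low_QS X h hcd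
        · exact ledc_low_kLow1 X h h1 (by omega) (by omega)
      · simp only [List.mem_cons, List.not_mem_nil, or_false] at hf
        subst hf
        exact ledc_err_kD _ s3 s4)
    (Or.inl ⟨le_rfl, by norm_num⟩)
  have e : X.Y.eCost r X.q X.τ X.kU (X.Y.N + 1) [((X.q + 2, X.q + 3, X.Y.kD) : LedFac Ω)].length = X.EH1 := by
    unfold LedSys.eCost LedCtx.EH1; simp
  rw [e] at hg
  refine (le_of_eq_of_le rfl hg).trans (le_of_eq ?_)
  simp only [List.map_cons, List.map_nil, List.prod_cons, List.prod_nil]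
  ring

end Claimed.Agent.R286
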