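import Claimed.Agent.R286.Cav.LedSc
import Claimed.Agent.R286.Cav.LedRet
import Claimed.Agent.R286.Cav.LedTbIns
import Claimed.Agent.R286.Cav.LedComb9

/-!
# Row 286 (S0533), unit Cav, file LedId      (owner: helper217; prefix `ledq_`)

Leaf I3 of `Cav/LedLeaves` (PE cavity.tex l.590-606): `B(0) / 2` = the third block sum.
* `ledq_low2`  GENERIC: two low insertions `(1/2) s s' W` under `ν_{0,0}` on the test `s_a s_b g` = `2 ∑ kapT ν_{0,0}[g W W]`   (six spins table `ledsc_six_low` + symmetrisation `ledq_sym6`)      0 sorry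
* `ledq_I3`    = `led_I3`, verbatim
-/

set_option autoImplicit false

namespace Claimed.Agent.R286

open Finset

variable {Ω : Type}

/-- the number `ν_{0,0}[g W_{xy} W_{zw}]` on the table `τ'` with `p` labels -/
def LedSys.idH (Y : LedSys Ω) (kU p : ℕ) (g : (ℕ → Ω) → ℝ) (W : ℕ → Ω → Ω → ℝ) (τ' : ℕ → ℕ → ℕ) (x y z w : ℕ) : ℝ :=
  Y.nu (ledLam kU 0) 0 p τ' fun σ => g (ledRs σ) * (W (τ' x y) (σ x).2 (σ y).2 * (W (τ' z w) (σ z).2 (σ w).2 * 1))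

theorem ledq_eqns_cite : True := by
  have := @LedSys.idH.eq_1
  trivial

/-- one relabelling step -/
theorem ledq_sym_step {N q : ℕ} {τ : ℕ → ℕ → ℕ} {ms : ℕ → ℝ} (Y : LedSys Ω) (kU : ℕ) (hτ : IsTr N q τ) {a b : ℕ} (ha : a < q) (hb : b < q)
    (Ψ : (ℕ → ℕ → ℕ) → ℝ)
    (hc : ∀ τ₁ τ₂ : ℕ → ℕ → ℕ, (∀ y z, y < q + 4 → z < q + 4 → τ₁ y z = τ₂ y z) → Ψ τ₁ = Ψ τ₂)
    (e : Equiv.Perm ℕ) (he : ∀ y, y < q ∨ q + 4 ≤ y → e y = y)
    (h1 : ∀ τ', IsTr N (q + 4) τ' → Ψ (fun y z => τ' (e y) (e z)) = Ψ τ') {x y z w : ℕ} (hx : x < q + 4) (hy : y < q + 4)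
    (hz : z < q + 4) (hw : w < q + 4) :
    trSumK ms N 4 q τ (fun τ' => Y.tri kU τ' a b (e x) (e y) (e z) (e w) * Ψ τ')
      = trSumK ms N 4 q τ (fun τ' => Y.tri kU τ' a b x y z w * Ψ τ') := by
  have h := tr_sumK_perm (ms := ms) hτ 4 (fun τ' => Y.tri kU τ' a b x y z w * Ψ τ') (by
    intro τ₁ τ₂ h
    show Y.tri kU τ₁ a b x y z w * Ψ τ₁ = Y.tri kU τ₂ a b x y z w * Ψ τ₂
    rw [hc τ₁ τ₂ h]
    unfold LedSys.tri
    rw [h a x (by omega) hx, h y z hy hz, h w b hw (by omega)]) e he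
  rw [h]
  refine tr_sumK_congr hτ 4 _ _ fun τ' hτ' _ => ?_
  rw [h1 τ' hτ']
  unfold LedSys.tri
  simp only [he a (Or.inl ha), he b (Or.inl hb)]

theorem ledq_e3 (q : ℕ) : (Equiv.swap q (q + 2) * Equiv.swap (q + 1) (q + 3)) q = q + 2 ∧
    (Equiv.swap q (q + 2) * Equiv.swap (q + 1) (q + 3)) (q + 1) = q + 3 ∧
    (Equiv.swap q (q + 2) * Equiv.swap (q + 1) (q + 3)) (q + 2) = q ∧
    (Equiv.swap q (q + 2) * Equiv.swap (q + 1) (q + 3)) (q + 3) = q + 1 ∧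
    ∀ x, x < q ∨ q + 4 ≤ x → (Equiv.swap q (q + 2) * Equiv.swap (q + 1) (q + 3)) x = x := by
  refine ⟨?_, ?_, ?_, ?_, ?_⟩
  · have i : Equiv.swap (q + 1) (q + 3) q = q := Equiv.swap_apply_of_ne_of_ne (by omega) (by omega)
    rw [Equiv.Perm.mul_apply, i, Equiv.swap_apply_left]
  · rw [Equiv.Perm.mul_apply, Equiv.swap_apply_left, Equiv.swap_apply_of_ne_of_ne (by omega) (by omega)]
  · have i : Equiv.swap (q + 1) (q + 3) (q + 2) = q + 2 := Equiv.swap_apply_of_ne_of_ne (by omega) (by omega)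
    rw [Equiv.Perm.mul_apply, i, Equiv.swap_apply_right]
  · rw [Equiv.Perm.mul_apply, Equiv.swap_apply_right, Equiv.swap_apply_of_ne_of_ne (by omega) (by omega)]
  · intro x hx
    have i : Equiv.swap (q + 1) (q + 3) x = x := Equiv.swap_apply_of_ne_of_ne (by omega) (by omega)
    rw [Equiv.Perm.mul_apply, i, Equiv.swap_apply_of_ne_of_ne (by omega) (by omega)]

theorem ledq_sym6 {N q : ℕ} {τ : ℕ → ℕ → ℕ} {ms : ℕ → ℝ} (Y : LedSys Ω) (kU : ℕ) (hτ : IsTr N q τ) {a b : ℕ} (ha : a < q) (hb : b < q)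
    (Ψ : (ℕ → ℕ → ℕ) → ℝ)
    (hc : ∀ τ₁ τ₂ : ℕ → ℕ → ℕ, (∀ y z, y < q + 4 → z < q + 4 → τ₁ y z = τ₂ y z) → Ψ τ₁ = Ψ τ₂)
    (h1 : ∀ τ', IsTr N (q + 4) τ' → Ψ (fun y z => τ' (Equiv.swap q (q + 1) y) (Equiv.swap q (q + 1) z)) = Ψ τ')
    (h2 : ∀ τ', IsTr N (q + 4) τ' → Ψ (fun y z => τ' (Equiv.swap (q + 2) (q + 3) y) (Equiv.swap (q + 2) (q + 3) z)) = Ψ τ')
    (h3 : ∀ τ', IsTr N (q + 4) τ' → Ψ (fun y z => τ' ((Equiv.swap q (q + 2) * Equiv.swap (q + 1) (q + 3)) y)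
      ((Equiv.swap q (q + 2) * Equiv.swap (q + 1) (q + 3)) z)) = Ψ τ') :
    trSumK ms N 4 q τ (fun τ' => Y.tri8 kU τ' a b q (q + 1) (q + 2) (q + 3) * Ψ τ')
      = 8 * trSumK ms N 4 q τ (fun τ' => Y.tri kU τ' a b q (q + 1) (q + 2) (q + 3) * Ψ τ') := by
  -- values of the three relabellings
  have a0 : Equiv.swap q (q + 1) q = q + 1 := Equiv.swap_apply_left _ _
  have a1 : Equiv.swap q (q + 1) (q + 1) = q := Equiv.swap_apply_right _ _
  have a2 : Equiv.swap q (q + 1) (q + 2) = q + 2 := Equiv.swap_apply_of_ne_of_ne (by omega) (by omega)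
  have a3 : Equiv.swap q (q + 1) (q + 3) = q + 3 := Equiv.swap_apply_of_ne_of_ne (by omega) (by omega)
  have af : ∀ y, y < q ∨ q + 4 ≤ y → Equiv.swap q (q + 1) y = y := fun y hy =>
    Equiv.swap_apply_of_ne_of_ne (by omega) (by omega)
  have b0 : Equiv.swap (q + 2) (q + 3) q = q := Equiv.swap_apply_of_ne_of_ne (by omega) (by omega)
  have b1 : Equiv.swap (q + 2) (q + 3) (q + 1) = q + 1 := Equiv.swap_apply_of_ne_of_ne (by omega) (by omega)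
  have b2 : Equiv.swap (q + 2) (q + 3) (q + 2) = q + 3 := Equiv.swap_apply_left _ _
  have b3 : Equiv.swap (q + 2) (q + 3) (q + 3) = q + 2 := Equiv.swap_apply_right _ _
  have bf : ∀ y, y < q ∨ q + 4 ≤ y → Equiv.swap (q + 2) (q + 3) y = y := fun y hy =>
    Equiv.swap_apply_of_ne_of_ne (by omega) (by omega)
  obtain ⟨c0, c1, c2, c3, cf⟩ := ledq_e3 q
  have A := fun {x y z w : ℕ} (hx : x < q + 4) (hy : y < q + 4) (hz : z < q + 4) (hw : w < q + 4) =>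
    ledq_sym_step (ms := ms) Y kU hτ ha hb Ψ hc (Equiv.swap q (q + 1)) af h1 hx hy hz hw
  have B := fun {x y z w : ℕ} (hx : x < q + 4) (hy : y < q + 4) (hz : z < q + 4) (hw : w < q + 4) =>
    ledq_sym_step (ms := ms) Y kU hτ ha hb Ψ hc (Equiv.swap (q + 2) (q + 3)) bf h2 hx hy hz hw
  have C := fun {x y z w : ℕ} (hx : x < q + 4) (hy : y < q + 4) (hz : z < q + 4) (hw : w < q + 4) =>
    ledq_sym_step (ms := ms) Y kU hτ ha hb Ψ hc (Equiv.swap q (q + 2) * Equiv.swap (q + 1) (q + 3)) cf h3 hx hy hz hw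
  have l0 : q < q + 4 := by omega
  have l1 : q + 1 < q + 4 := by omega
  have l2 : q + 2 < q + 4 := by omega
  have l3 : q + 3 < q + 4 := by omega
  -- the eight paths
  have t2 := B l0 l1 l2 l3
  simp only [b0, b1, b2, b3] at t2
  have t3 := A l0 l1 l2 l3
  simp only [a0, a1, a2, a3] at t3
  have t4 := A l0 l1 l3 l2
  simp only [a0, a1, a2, a3] at t4
  have t5 := C l0 l1 l2 l3
  simp only [c0, c1, c2, c3] at t5
  have t6 := C l0 l1 l3 l2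
  simp only [c0, c1, c2, c3] at t6
  have t7 := C l1 l0 l2 l3
  simp only [c0, c1, c2, c3] at t7
  have t8 := C l1 l0 l3 l2
  simp only [c0, c1, c2, c3] at t8
  unfold LedSys.tri8
  simp only [add_mul, lrt_sumK_add]
  rw [t8, t7, t6, t5, t4, t3, t2]
  ring

section

variable {Y : LedSys Ω} (hY : Y.Ok) {kU p : ℕ}

include hY

/-- equivariance under relabelling -/
theorem ledq_H_perm {q : ℕ} {g : (ℕ → Ω) → ℝ} (hg : TrUses q g) (W : ℕ → Ω → Ω → ℝ) {τ' : ℕ → ℕ → ℕ} (hτ' : IsTr Y.N p τ')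
    (e : Equiv.Perm ℕ) (he : ∀ x, p ≤ x → e x = x) (he' : ∀ x, x < q → e x = x) (hqp : q ≤ p) {x y z w : ℕ}
    (hx : x < p) (hy : y < p) (hz : z < p) (hw : w < p) :
    Y.idH kU p g W (fun u v => τ' (e u) (e v)) x y z w = Y.idH kU p g W τ' (e x) (e y) (e z) (e w) := by
  have hlt : ∀ {u : ℕ}, u < p → e u < p := fun hu => tr5_perm_lt e he hu
  have hU : TrUses p fun σ : ℕ → Bool × Ω =>
      g (ledRs σ) * (W (τ' (e x) (e y)) (σ (e x)).2 (σ (e y)).2 * (W (τ' (e z) (e w)) (σ (e z)).2 (σ (e w)).2 * 1)) := by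
    intro σ σ' h
    have e1 : g (ledRs σ) = g (ledRs σ') := hg _ _ fun i hi => by unfold ledRs; rw [h i (by omega)]
    simp only [e1, h _ (hlt hx), h _ (hlt hy), h _ (hlt hz), h _ (hlt hw)]
  have h := hY.perm (ledLam kU 0) 0 p τ' _ e (ledsc_prof0 kU) (by simp) hτ' hU he
  unfold LedSys.idH
  rw [← h]
  congr 1
  funext σ
  simp only [Equiv.symm_apply_apply]
  congr 1
  refine hg _ _ fun i hi => ?_
  unfold ledRs
  have : e.symm i = i := by rw [Equiv.symm_apply_eq, he' i hi]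
  show (σ i).2 = (σ (e.symm i)).2
  rw [this]

omit hY in
theorem ledq_H_swap1 {g : (ℕ → Ω) → ℝ} {W : ℕ → Ω → Ω → ℝ} (hW : ∀ r ω ω', W r ω ω' = W r ω' ω) {τ' : ℕ → ℕ → ℕ} (hτ' : IsTr Y.N p τ')
    {x y : ℕ} (z w : ℕ) (hx : x < p) (hy : y < p) : Y.idH kU p g W τ' y x z w = Y.idH kU p g W τ' x y z w := by
  unfold LedSys.idH
  congr 1
  funext σ
  rw [hτ'.symm y x hy hx, hW]

omit hY in
theorem ledq_H_swap2 {g : (ℕ → Ω) → ℝ} {W : ℕ → Ω → Ω → ℝ} (hW : ∀ r ω ω', W r ω ω' = W r ω' ω) {τ' : ℕ → ℕ → ℕ} (hτ' : IsTr Y.N p τ')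
    (x y : ℕ) {z w : ℕ} (hz : z < p) (hw : w < p) : Y.idH kU p g W τ' x y w z = Y.idH kU p g W τ' x y z w := by
  unfold LedSys.idH
  congr 1
  funext σ
  rw [hτ'.symm w z hw hz, hW _ (σ w).2]

omit hY in
theorem ledq_H_swap3 (g : (ℕ → Ω) → ℝ) (W : ℕ → Ω → Ω → ℝ) (τ' : ℕ → ℕ → ℕ) (x y z w : ℕ) :
    Y.idH kU p g W τ' z w x y = Y.idH kU p g W τ' x y z w := by
  unfold LedSys.idH
  congr 1
  funext σ
  ring

/-- the low kernel `(1/2) s s' W` -/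
noncomputable def ledqV (kU : ℕ) (W : ℕ → Ω → Ω → ℝ) : LedKer Ω :=
  fun r x y => if r < kU then 1 / 2 * (ledSg x.1 * ledSg y.1 * W r x.2 y.2) else 0

/-- the rest kernel `W` -/
def ledqW (W : ℕ → Ω → Ω → ℝ) : LedKer Ω := fun r x y => W r x.2 y.2

/-- the invariant part of the summand -/
noncomputable def LedSys.idPsi (Y : LedSys Ω) (kU q : ℕ) (g : (ℕ → Ω) → ℝ) (W : ℕ → Ω → Ω → ℝ) (τ' : ℕ → ℕ → ℕ) : ℝ :=
  (if τ' q (q + 1) < kU ∧ τ' (q + 2) (q + 3) < kU then 1 else 0) * Y.idH kU (q + 4) g W τ' q (q + 1) (q + 2) (q + 3)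

omit hY in
theorem ledq_eqns_cite2 : True := by
  have := @ledqV.eq_1
  have := @ledqW.eq_1
  have := @LedSys.idPsi.eq_1
  trivial

/-- one table: factorisation and the table of six spins -/
theorem ledq_low2_pt {q : ℕ} (hU : kU ≤ Y.N) {a b : ℕ} (ha : a < q) (hb : b < q) (g : (ℕ → Ω) → ℝ) (W : ℕ → Ω → Ω → ℝ)
    {τ' : ℕ → ℕ → ℕ} (hτ' : IsTr Y.N (q + 4) τ') (hab : τ' a b < kU) :
    Y.nu (ledLam kU 0) 0 (q + 4) τ' (fun σ => ledSg (σ a).1 * ledSg (σ b).1 * g (ledRs σ) *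
        ledFacs [(q, q + 1, ledqV kU W), (q + 2, q + 3, ledqV kU W)] τ' σ)
      = 1 / 4 * (Y.tri8 kU τ' a b q (q + 1) (q + 2) (q + 3) * Y.idPsi kU q g W τ') := by
  have hm := hY.mean (ledLam kU 0) 0 (q + 4) τ' (ledsc_prof0 kU) (by simp) hτ'
  unfold LedSys.idPsi
  by_cases h : τ' q (q + 1) < kU ∧ τ' (q + 2) (q + 3) < kU
  · rw [if_pos h, one_mul, ← ledsc_six_low hY hU hτ' (by omega) (by omega) (by omega) (by omega) (by omega) (by omega) hab h.1 h.2]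
    unfold LedSys.idH
    have hf := hY.factor (ledLam kU 0) (q + 4) τ' (ledSp [a, b, q, q + 1, q + 2, q + 3])
      (fun ω => g ω * (W (τ' q (q + 1)) (ω q) (ω (q + 1)) * (W (τ' (q + 2) (q + 3)) (ω (q + 2)) (ω (q + 3)) * 1))) (ledsc_prof0 kU) hτ'
    unfold LedSys.nuS
    have e2 : (fun σ : ℕ → Bool × Ω => g (ledRs σ) * (W (τ' q (q + 1)) (σ q).2 (σ (q + 1)).2 * (W (τ' (q + 2) (q + 3)) (σ (q + 2)).2 (σ (q + 3)).2 * 1)))
        = fun σ => (fun ω : ℕ → Ω => g ω * (W (τ' q (q + 1)) (ω q) (ω (q + 1)) * (W (τ' (q + 2) (q + 3)) (ω (q + 2)) (ω (q + 3)) * 1))) fun i => (σ i).2 := rfl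
    rw [e2, ← hf, ← hm.smul]
    congr 1
    funext σ
    simp only [ledFacs, ledqV, List.map_cons, List.map_nil, List.prod_cons, List.prod_nil, if_pos h.1, if_pos h.2, ledsc_sp6,
      show ledRs σ = fun i => (σ i).2 from rfl]
    ring
  · rw [if_neg h, zero_mul, mul_zero, mul_zero]
    have e0 : (fun σ : ℕ → Bool × Ω => ledSg (σ a).1 * ledSg (σ b).1 * g (ledRs σ) *
        ledFacs [(q, q + 1, ledqV kU W), (q + 2, q + 3, ledqV kU W)] τ' σ) = fun _ => 0 := by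
      funext σ
      simp only [ledFacs, ledqV, List.map_cons, List.map_nil, List.prod_cons, List.prod_nil]
      by_cases h1 : τ' q (q + 1) < kU
      · have h2 : ¬ τ' (q + 2) (q + 3) < kU := fun h2 => h ⟨h1, h2⟩
        rw [if_neg h2]; ring
      · rw [if_neg h1]; ring
    rw [e0]
    exact lrt_mean_zero hm

omit hY in
/-- the coefficient `kapT` = one path and the two low indicators -/
theorem ledq_kapT_pt {q : ℕ} (hU : kU ≤ Y.N) {a b : ℕ} (ha : a < q) (hb : b < q) (g : (ℕ → Ω) → ℝ) (W : ℕ → Ω → Ω → ℝ)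
    {τ' : ℕ → ℕ → ℕ} (hτ' : IsTr Y.N (q + 4) τ') :
    Y.kapT kU q a b τ' * Y.idH kU (q + 4) g W τ' q (q + 1) (q + 2) (q + 3)
      = Y.tri kU τ' a b q (q + 1) (q + 2) (q + 3) * Y.idPsi kU q g W τ' := by
  have B := fun x y (hx : x < q + 4) (hy : y < q + 4) => lrt_blk hτ' (k := kU) (by omega) x y hx hy
  have b1 := B a q (by omega) (by omega)
  have b2 := B b (q + 3) (by omega) (by omega)
  have b3 := B (q + 1) (q + 2) (by omega) (by omega)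
  have b4 := B (q + 1) a (by omega) (by omega)
  have b5 := B (q + 1) b (by omega) (by omega)
  have b6 := B (q + 3) b (by omega) (by omega)
  have b7 := B q (q + 1) (by omega) (by omega)
  have b8 := B (q + 2) (q + 3) (by omega) (by omega)
  unfold LedSys.kapT LedSys.tri LedSys.idPsi
  by_cases h : kU ≤ τ' a q ∧ kU ≤ τ' b (q + 3) ∧ kU ≤ τ' (q + 1) (q + 2) ∧ τ' (q + 1) a < kU ∧ τ' (q + 1) b < kU
  · rw [if_pos h, if_pos (by omega), if_pos (by omega), one_mul]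
  · rw [if_neg h]
    by_cases h' : kU ≤ τ' a q ∧ kU ≤ τ' (q + 1) (q + 2) ∧ kU ≤ τ' (q + 3) b
    · rw [if_pos h', if_neg (by omega)]; ring
    · rw [if_neg h']; ring

/-- `idPsi` only sees the labels `< q + 4` -/
theorem ledq_Psi_congr (q : ℕ) (g : (ℕ → Ω) → ℝ) (W : ℕ → Ω → Ω → ℝ) (τ₁ τ₂ : ℕ → ℕ → ℕ)
    (h : ∀ y z, y < q + 4 → z < q + 4 → τ₁ y z = τ₂ y z) : Y.idPsi kU q g W τ₁ = Y.idPsi kU q g W τ₂ := by
  unfold LedSys.idPsi LedSys.idH
  rw [h q (q + 1) (by omega) (by omega), h (q + 2) (q + 3) (by omega) (by omega)]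
  congr 1
  exact hY.congr _ _ _ _ _ _ h

theorem ledq_Psi_inv1 {q : ℕ} {g : (ℕ → Ω) → ℝ} (hg : TrUses q g) {W : ℕ → Ω → Ω → ℝ} (hW : ∀ r ω ω', W r ω ω' = W r ω' ω)
    {τ' : ℕ → ℕ → ℕ} (hτ' : IsTr Y.N (q + 4) τ') :
    Y.idPsi kU q g W (fun y z => τ' (Equiv.swap q (q + 1) y) (Equiv.swap q (q + 1) z)) = Y.idPsi kU q g W τ' := by
  have e0 : Equiv.swap q (q + 1) q = q + 1 := Equiv.swap_apply_left _ _
  have e1 : Equiv.swap q (q + 1) (q + 1) = q := Equiv.swap_apply_right _ _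
  have e2 : Equiv.swap q (q + 1) (q + 2) = q + 2 := Equiv.swap_apply_of_ne_of_ne (by omega) (by omega)
  have e3 : Equiv.swap q (q + 1) (q + 3) = q + 3 := Equiv.swap_apply_of_ne_of_ne (by omega) (by omega)
  unfold LedSys.idPsi
  rw [ledq_H_perm hY hg W hτ' (Equiv.swap q (q + 1)) (fun x hx => Equiv.swap_apply_of_ne_of_ne (by omega) (by omega))
    (fun x hx => Equiv.swap_apply_of_ne_of_ne (by omega) (by omega)) (by omega) (by omega) (by omega) (by omega) (by omega)]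
  simp only [e0, e1, e2, e3]
  rw [ledq_H_swap1 hW hτ' _ _ (by omega) (by omega), hτ'.symm (q + 1) q (by omega) (by omega)]

theorem ledq_Psi_inv2 {q : ℕ} {g : (ℕ → Ω) → ℝ} (hg : TrUses q g) {W : ℕ → Ω → Ω → ℝ} (hW : ∀ r ω ω', W r ω ω' = W r ω' ω)
    {τ' : ℕ → ℕ → ℕ} (hτ' : IsTr Y.N (q + 4) τ') :
    Y.idPsi kU q g W (fun y z => τ' (Equiv.swap (q + 2) (q + 3) y) (Equiv.swap (q + 2) (q + 3) z)) = Y.idPsi kU q g W τ' := by
  have e0 : Equiv.swap (q + 2) (q + 3) q = q := Equiv.swap_apply_of_ne_of_ne (by omega) (by omega)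
  have e1 : Equiv.swap (q + 2) (q + 3) (q + 1) = q + 1 := Equiv.swap_apply_of_ne_of_ne (by omega) (by omega)
  have e2 : Equiv.swap (q + 2) (q + 3) (q + 2) = q + 3 := Equiv.swap_apply_left _ _
  have e3 : Equiv.swap (q + 2) (q + 3) (q + 3) = q + 2 := Equiv.swap_apply_right _ _
  unfold LedSys.idPsi
  rw [ledq_H_perm hY hg W hτ' (Equiv.swap (q + 2) (q + 3)) (fun x hx => Equiv.swap_apply_of_ne_of_ne (by omega) (by omega))
    (fun x hx => Equiv.swap_apply_of_ne_of_ne (by omega) (by omega)) (by omega) (by omega) (by omega) (by omega) (by omega)]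
  simp only [e0, e1, e2, e3]
  rw [ledq_H_swap2 hW hτ' _ _ (by omega) (by omega), hτ'.symm (q + 3) (q + 2) (by omega) (by omega)]

theorem ledq_Psi_inv3 {q : ℕ} {g : (ℕ → Ω) → ℝ} (hg : TrUses q g) (W : ℕ → Ω → Ω → ℝ)
    {τ' : ℕ → ℕ → ℕ} (hτ' : IsTr Y.N (q + 4) τ') :
    Y.idPsi kU q g W (fun y z => τ' ((Equiv.swap q (q + 2) * Equiv.swap (q + 1) (q + 3)) y)
      ((Equiv.swap q (q + 2) * Equiv.swap (q + 1) (q + 3)) z)) = Y.idPsi kU q g W τ' := by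
  have e0 : (Equiv.swap q (q + 2) * Equiv.swap (q + 1) (q + 3)) q = q + 2 := by
    have i : Equiv.swap (q + 1) (q + 3) q = q := Equiv.swap_apply_of_ne_of_ne (by omega) (by omega)
    rw [Equiv.Perm.mul_apply, i, Equiv.swap_apply_left]
  have e1 : (Equiv.swap q (q + 2) * Equiv.swap (q + 1) (q + 3)) (q + 1) = q + 3 := by
    rw [Equiv.Perm.mul_apply, Equiv.swap_apply_left, Equiv.swap_apply_of_ne_of_ne (by omega) (by omega)]
  have e2 : (Equiv.swap q (q + 2) * Equiv.swap (q + 1) (q + 3)) (q + 2) = q := by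
    have i : Equiv.swap (q + 1) (q + 3) (q + 2) = q + 2 := Equiv.swap_apply_of_ne_of_ne (by omega) (by omega)
    rw [Equiv.Perm.mul_apply, i, Equiv.swap_apply_right]
  have e3 : (Equiv.swap q (q + 2) * Equiv.swap (q + 1) (q + 3)) (q + 3) = q + 1 := by
    rw [Equiv.Perm.mul_apply, Equiv.swap_apply_right, Equiv.swap_apply_of_ne_of_ne (by omega) (by omega)]
  have efix : ∀ x, x < q ∨ q + 4 ≤ x → (Equiv.swap q (q + 2) * Equiv.swap (q + 1) (q + 3)) x = x := by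
    intro x hx
    have i : Equiv.swap (q + 1) (q + 3) x = x := Equiv.swap_apply_of_ne_of_ne (by omega) (by omega)
    rw [Equiv.Perm.mul_apply, i, Equiv.swap_apply_of_ne_of_ne (by omega) (by omega)]
  unfold LedSys.idPsi
  rw [ledq_H_perm hY hg W hτ' (Equiv.swap q (q + 2) * Equiv.swap (q + 1) (q + 3)) (fun x hx => efix x (Or.inr hx))
    (fun x hx => efix x (Or.inl hx)) (by omega) (by omega) (by omega) (by omega) (by omega)]
  simp only [e0, e1, e2, e3]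
  rw [ledq_H_swap3]
  congr 1
  exact if_congr and_comm rfl rfl

/-- **two low insertions at `l = t = 0`** -/
theorem ledq_low2 {q : ℕ} (hU : kU ≤ Y.N) {τ : ℕ → ℕ → ℕ} (hτ : IsTr Y.N q τ) {a b : ℕ} (ha : a < q) (hb : b < q) (hab : τ a b < kU)
    {g : (ℕ → Ω) → ℝ} (hg : TrUses q g) {W : ℕ → Ω → Ω → ℝ} (hW : ∀ r ω ω', W r ω ω' = W r ω' ω) :
    Y.ins (ledLam kU 0) 0 q τ (fun σ => ledSg (σ a).1 * ledSg (σ b).1 * g (ledRs σ)) [ledqV kU W, ledqV kU W]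
      = 2 * Y.tm (ledLam kU 0) 0 q τ 4 (Y.kapT kU q a b) (fun σ => g (ledRs σ)) [(q, q + 1, ledqW W), (q + 2, q + 3, ledqW W)] := by
  have h1 : Y.ins (ledLam kU 0) 0 q τ (fun σ => ledSg (σ a).1 * ledSg (σ b).1 * g (ledRs σ)) [ledqV kU W, ledqV kU W]
      = trSumK Y.ms Y.N 4 q τ fun τ' => 1 / 4 * (Y.tri8 kU τ' a b q (q + 1) (q + 2) (q + 3) * Y.idPsi kU q g W τ') := by
    show trSumK Y.ms Y.N 4 q τ (fun τ' => 1 * Y.nu (ledLam kU 0) 0 (q + 4) τ' fun σ =>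
      ledSg (σ a).1 * ledSg (σ b).1 * g (ledRs σ) * ledFacs [(q, q + 1, ledqV kU W), (q + 2, q + 3, ledqV kU W)] τ' σ) = _
    refine tr_sumK_congr hτ 4 _ _ fun τ' hτ' hext => ?_
    rw [one_mul, ledq_low2_pt hY hU ha hb g W hτ' (by rw [hext a b ha hb]; exact hab)]
  have h2 : Y.tm (ledLam kU 0) 0 q τ 4 (Y.kapT kU q a b) (fun σ => g (ledRs σ)) [(q, q + 1, ledqW W), (q + 2, q + 3, ledqW W)]
      = trSumK Y.ms Y.N 4 q τ fun τ' => Y.tri kU τ' a b q (q + 1) (q + 2) (q + 3) * Y.idPsi kU q g W τ' := by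
    unfold LedSys.tm
    refine tr_sumK_congr hτ 4 _ _ fun τ' hτ' _ => ?_
    rw [← ledq_kapT_pt hU ha hb g W hτ']
    rfl
  rw [h1, h2, lrt_sumK_smul, ledq_sym6 Y kU hτ ha hb _ (ledq_Psi_congr hY q g W) (fun τ' hτ' => ledq_Psi_inv1 hY hg hW hτ')
    (fun τ' hτ' => ledq_Psi_inv2 hY hg hW hτ') (fun τ' hτ' => ledq_Psi_inv3 hY hg W hτ')]
  ring

/-- **one low insertion on a rest test vanishes at `l = t = 0`** -/
theorem ledq_low1 {q : ℕ} (hU : kU ≤ Y.N) {τ : ℕ → ℕ → ℕ} (hτ : IsTr Y.N q τ) (g : (ℕ → Ω) → ℝ) (W : ℕ → Ω → Ω → ℝ) :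
    Y.ins (ledLam kU 0) 0 q τ (fun σ => g (ledRs σ)) [ledqV kU W] = 0 := by
  show trSumK Y.ms Y.N 2 q τ (fun τ' => 1 * Y.nu (ledLam kU 0) 0 (q + 2) τ' fun σ =>
      g (ledRs σ) * ledFacs [(q, q + 1, ledqV kU W)] τ' σ) = 0
  refine (tr_sumK_congr hτ 2 _ (fun _ => 0) fun τ' hτ' _ => ?_).trans (lrt_sumK_zero Y.ms Y.N 2 q τ)
  have hm := hY.mean (ledLam kU 0) 0 (q + 2) τ' (ledsc_prof0 kU) (by simp) hτ'
  rw [one_mul]
  by_cases h : τ' q (q + 1) < kU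
  · have hf := hY.factor (ledLam kU 0) (q + 2) τ' (ledSp [q, q + 1])
      (fun ω => g ω * W (τ' q (q + 1)) (ω q) (ω (q + 1))) (ledsc_prof0 kU) hτ'
    have h2 := ledsc_two hY hU hτ' (x := q) (y := q + 1) (by omega) (by omega)
    rw [if_neg (by omega)] at h2
    unfold LedSys.nuS at h2
    rw [h2, zero_mul] at hf
    have e : (fun σ : ℕ → Bool × Ω => g (ledRs σ) * ledFacs [(q, q + 1, ledqV kU W)] τ' σ)
        = fun σ => 1 / 2 * ((ledSp [q, q + 1] fun i => (σ i).1) * ((fun ω : ℕ → Ω => g ω * W (τ' q (q + 1)) (ω q) (ω (q + 1))) fun i => (σ i).2)) := by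
      funext σ
      simp only [ledFacs, ledqV, List.map_cons, List.map_nil, List.prod_cons, List.prod_nil, if_pos h, ledsc_sp2,
        show ledRs σ = fun i => (σ i).2 from rfl]
      ring
    rw [e, hm.smul, hf, mul_zero]
  · have e : (fun σ : ℕ → Bool × Ω => g (ledRs σ) * ledFacs [(q, q + 1, ledqV kU W)] τ' σ) = fun _ => 0 := by
      funext σ
      simp only [ledFacs, ledqV, List.map_cons, List.map_nil, List.prod_cons, List.prod_nil, if_neg h]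
      ring
    rw [e]
    exact lrt_mean_zero hm

/-- constant kernels leave the law -/
theorem ledq_tmK {q : ℕ} {τ : ℕ → ℕ → ℕ} (hτ : IsTr Y.N q τ) (a b : ℕ) {g : (ℕ → Ω) → ℝ} (hg : TrUses q g) (k : ℕ → ℝ) :
    Y.tm (ledLam kU 0) 0 q τ 4 (Y.kapT kU q a b) (fun σ => g (ledRs σ))
        [(q, q + 1, ledqW fun r _ _ => k r), (q + 2, q + 3, ledqW fun r _ _ => k r)]
      = Y.nu (ledLam kU 0) 0 q τ (fun σ => g (ledRs σ))
        * trSumK Y.ms Y.N 4 q τ fun τ' => Y.kapT kU q a b τ' * (k (τ' q (q + 1)) * k (τ' (q + 2) (q + 3))) := by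
  unfold LedSys.tm
  rw [← lrt_sumK_smul]
  refine tr_sumK_congr hτ 4 _ _ fun τ' hτ' hext => ?_
  have hm := hY.mean (ledLam kU 0) 0 (q + 4) τ' (ledsc_prof0 kU) (by simp) hτ'
  have hJ : TrUses q fun σ : ℕ → Bool × Ω => g (ledRs σ) := fun σ σ' h => hg _ _ fun i hi => by unfold ledRs; rw [h i hi]
  have e : (fun σ : ℕ → Bool × Ω => g (ledRs σ) * ledFacs [(q, q + 1, ledqW fun r _ _ => k r), (q + 2, q + 3, ledqW fun r _ _ => k r)] τ' σ)
      = fun σ => g (ledRs σ) * (k (τ' q (q + 1)) * k (τ' (q + 2) (q + 3))) := by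
    funext σ
    simp only [ledFacs, ledqW, List.map_cons, List.map_nil, List.prod_cons, List.prod_nil, mul_one]
  rw [e, lrt_mean_mul_right hm, ledt_prune hY (ledsc_prof0 kU) (by simp) 4 hτ' hJ, hY.congr _ _ _ τ' τ _ hext]
  ring

omit hY in
/-- the scalar sum only sees the pair `(a, b)` -/
theorem ledq_marg {q : ℕ} {τ : ℕ → ℕ → ℕ} (hτ : IsTr Y.N q τ) {a b : ℕ} (ha : a < q) (hb : b < q) (hab : a ≠ b) (k : ℕ → ℝ) :
    trSumK Y.ms Y.N 4 q τ (fun τ' => Y.kapT kU q a b τ' * (k (τ' q (q + 1)) * k (τ' (q + 2) (q + 3))))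
      = trSumK Y.ms Y.N 4 2 (ledPair Y.N (τ a b)) fun τ' => Y.kapT kU 2 0 1 τ' * (k (τ' 2 (2 + 1)) * k (τ' (2 + 2) (2 + 3))) := by
  rw [← led_marg2 hτ ha hb hab 4 (fun τ' => Y.kapT kU 2 0 1 τ' * (k (τ' 2 (2 + 1)) * k (τ' (2 + 2) (2 + 3))))]
  · have e0 : ledEm q a b 0 = a := by simp [ledEm]
    have e1 : ledEm q a b 1 = b := by simp [ledEm]
    have e2 : ledEm q a b 2 = q := by simp [ledEm]
    have e3 : ledEm q a b (2 + 1) = q + 1 := by simp [ledEm]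
    have e4 : ledEm q a b (2 + 2) = q + 2 := by simp [ledEm]
    have e5 : ledEm q a b (2 + 3) = q + 3 := by simp [ledEm]
    simp only [LedSys.kapT, e0, e1, e2, e3, e4, e5]
  · intro τ₁ τ₂ h
    simp only [LedSys.kapT]
    rw [h 0 2 (by omega) (by omega), h 1 (2 + 3) (by omega) (by omega), h (2 + 1) (2 + 2) (by omega) (by omega),
      h (2 + 1) 0 (by omega) (by omega), h (2 + 1) 1 (by omega) (by omega), h (2 + 3) 1 (by omega) (by omega),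
      h 2 (2 + 1) (by omega) (by omega), h (2 + 2) (2 + 3) (by omega) (by omega)]

end

/-- **I3** (PE l.590-606): `B(0) / 2` = the third block sum. -/
theorem ledq_I3 (X : LedCtx Ω) (r : ℕ) (Cb : ℝ) (h : X.Ok r Cb) : X.FF 2 0 0 0 1 = 2 * X.TB := by
  have hY := h.sys
  have hU := h.kU_le
  have hτ := h.tr
  have ha := h.a_lt
  have hb := h.b_lt
  have hab : X.τ X.a X.b < X.kU := by rw [h.split]; exact h.kS_lt
  have hne : X.a ≠ X.b := by
    intro e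
    have := hτ.diag X.a ha
    rw [← e] at hab
    omega
  have kL1 : X.Y.kLow X.kU 1 = ledqV X.kU fun r ω ω' => X.Y.Q r ω ω' := by
    funext r x y
    unfold LedSys.kLow ledqV LedSys.kRow LedSys.Q LedSys.K LedSys.dl
    split_ifs <;> ring
  have kL0 : X.Y.kLow X.kU 0 = ledqV X.kU fun r _ _ => X.Y.K r := by
    funext r x y
    unfold LedSys.kLow ledqV LedSys.kRow
    split_ifs <;> ring
  have hQs : ∀ (r : ℕ) (ω ω' : Ω), X.Y.Q r ω ω' = X.Y.Q r ω' ω := fun r ω ω' => by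
    unfold LedSys.Q; rw [hY.R_symm]
  -- the pieces
  have hpair : IsTr X.Y.N 2 (ledPair X.Y.N X.kS) := ledt_pair_isTr (by have := h.kS_lt; omega) 2
  have g0 : X.Y.gD X.kU X.kS 0 0 = 0 := by
    refine Eq.trans ?_ (ledsc_gam_low hY hU h.kS_lt)
    show 1 * X.Y.nu (ledLam X.kU 0) 0 2 (ledPair X.Y.N X.kS) (fun σ => ledSg (σ 0).1 * ledSg (σ 1).1 * 1) = _
    simp only [mul_one, one_mul]
    rfl
  have i1 : X.Y.ins (ledLam X.kU 0) 0 X.q X.τ X.J0 [X.Y.kLow X.kU 1] = 0 := by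
    rw [kL1]; exact ledq_low1 hY hU hτ X.P _
  have i0 : X.Y.ins (ledLam X.kU 0) 0 X.q X.τ X.J0 [] = X.Y.nu (ledLam X.kU 0) 0 X.q X.τ fun σ => X.P (ledRs σ) := by
    show 1 * X.Y.nu (ledLam X.kU 0) 0 X.q X.τ (fun σ => X.P (ledRs σ) * 1) = _
    simp only [mul_one, one_mul]
  have g2 : X.Y.gD X.kU X.kS 2 0 = 2 * trSumK X.Y.ms X.Y.N 4 2 (ledPair X.Y.N X.kS) fun τ' =>
      X.Y.kapT X.kU 2 0 1 τ' * (X.Y.K (τ' 2 (2 + 1)) * X.Y.K (τ' (2 + 2) (2 + 3))) := by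
    have e : X.Y.gD X.kU X.kS 2 0 = X.Y.ins (ledLam X.kU 0) 0 2 (ledPair X.Y.N X.kS)
        (fun σ => ledSg (σ 0).1 * ledSg (σ 1).1 * (fun _ : ℕ → Ω => (1 : ℝ)) (ledRs σ)) [X.Y.kLow X.kU 0, X.Y.kLow X.kU 0] := by
      simp only [mul_one]
      rfl
    rw [e, kL0, ledq_low2 hY hU hpair (a := 0) (b := 1) (by omega) (by omega) (by simp [ledPair]; exact h.kS_lt)
      (g := fun _ => 1) (fun _ _ _ => rfl) (W := fun r _ _ => X.Y.K r) (fun _ _ _ => rfl)]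
    have e2 := ledq_tmK (kU := X.kU) hY hpair 0 1 (g := fun _ => 1) (fun _ _ _ => rfl) X.Y.K
    rw [(hY.mean _ 0 2 _ (ledsc_prof0 X.kU) (by simp) hpair).one, one_mul] at e2
    rw [← e2]
  have m1 : X.Y.ins (ledLam X.kU 0) 0 X.q X.τ X.J1 [X.Y.kLow X.kU 1, X.Y.kLow X.kU 1]
      = 2 * X.Y.tm (ledLam X.kU 0) 0 X.q X.τ 4 (X.Y.kapT X.kU X.q X.a X.b) X.J0 [(X.q, X.q + 1, X.Y.kQ), (X.q + 2, X.q + 3, X.Y.kQ)] := by
    rw [kL1]
    exact ledq_low2 hY hU hτ ha hb hab h.uses hQs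
  have m2 : X.Y.tm (ledLam X.kU 0) 0 X.q X.τ 4 (X.Y.kapT X.kU X.q X.a X.b) X.J0 [(X.q, X.q + 1, X.Y.kK), (X.q + 2, X.q + 3, X.Y.kK)]
      = X.Y.nu (ledLam X.kU 0) 0 X.q X.τ (fun σ => X.P (ledRs σ)) * trSumK X.Y.ms X.Y.N 4 2 (ledPair X.Y.N X.kS) fun τ' =>
      X.Y.kapT X.kU 2 0 1 τ' * (X.Y.K (τ' 2 (2 + 1)) * X.Y.K (τ' (2 + 2) (2 + 3))) := by
    rw [← h.split, ← ledq_marg hτ ha hb hne X.Y.K]
    exact ledq_tmK hY hτ X.a X.b h.uses X.Y.K
  have hFF : X.FF 2 0 0 0 1 = X.Y.ins (ledLam X.kU 0) 0 X.q X.τ X.J1 [X.Y.kLow X.kU 1, X.Y.kLow X.kU 1]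
      - (1 * X.Y.gD X.kU X.kS 0 0 * X.Y.ins (ledLam X.kU 0) 0 X.q X.τ X.J0 [X.Y.kLow X.kU 1, X.Y.kLow X.kU 1]
        + 2 * X.Y.gD X.kU X.kS 1 0 * X.Y.ins (ledLam X.kU 0) 0 X.q X.τ X.J0 [X.Y.kLow X.kU 1]
        + 1 * X.Y.gD X.kU X.kS 2 0 * X.Y.ins (ledLam X.kU 0) 0 X.q X.τ X.J0 []) := by
    unfold LedCtx.FF
    rw [Finset.sum_range_succ, Finset.sum_range_succ, Finset.sum_range_succ, Finset.sum_range_zero]
    norm_num [Nat.choose, List.replicate]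
  rw [hFF, m1, g0, i1, i0, g2]
  unfold LedCtx.TB
  rw [m2]
  ring

/-! ### the second derivative of the pair function at `l = 0` (helper116, for `cvs_low` of helper81) -/

/-- indicator: the label `q` opens a new block of the cut `kU` -/
def lrtNw (q kU : ℕ) (τ' : ℕ → ℕ → ℕ) : ℝ := if ∀ o, o < q → τ' o q < kU then 1 else 0

theorem lrt_nw_eqns_cite : True := by
  have := @lrtNw.eq_1
  trivial

theorem lrt_nw_nonneg (q kU : ℕ) (τ' : ℕ → ℕ → ℕ) : 0 ≤ lrtNw q kU τ' := by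
  unfold lrtNw; split_ifs <;> norm_num

/-- telescoping of the incoming masses -/
theorem lrt_pm_tel (ms : ℕ → ℝ) (k : ℕ) : ∑ j ∈ Finset.range k, (ms j - trPm ms j) * (fun _ : ℕ => (1 : ℝ)) j = trPm ms k := by
  induction k with
  | zero => simp [trPm]
  | succ k ih =>
    rw [Finset.sum_range_succ, ih]
    simp only [trPm, Nat.succ_ne_zero, if_false, Nat.add_sub_cancel, mul_one]
    ring

/-- at most `q ^ 2` forks -/
theorem lrt_at_one (q : ℕ) (τ : ℕ → ℕ → ℕ) (k0 k1 : ℕ) : ledAt q τ k0 k1 (fun _ => (1 : ℝ)) ≤ (q : ℝ) * q := by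
  unfold ledAt ledForks
  rw [Finset.sum_const, nsmul_eq_mul, mul_one]
  have h1 := Finset.card_filter_le ((Finset.range q ×ˢ Finset.range q).image fun z : ℕ × ℕ => τ z.1 z.2) (fun j => k0 ≤ j ∧ j < k1)
  have h2 := Finset.card_image_le (s := Finset.range q ×ˢ Finset.range q) (f := fun z : ℕ × ℕ => τ z.1 z.2)
  rw [Finset.card_product, Finset.card_range] at h2
  exact_mod_cast h1.trans h2

theorem lrt_K_nonneg {Ω : Type} {Y : LedSys Ω} (hY : Y.Ok) (r : ℕ) : 0 ≤ Y.K r := by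
  unfold LedSys.K
  have h1 : 0 ≤ Y.h r := by rw [← hY.h_zero]; exact hY.h_mono (Nat.zero_le r)
  have h2 : 0 ≤ Y.b r := by rw [← hY.b_zero]; exact hY.b_mono (Nat.zero_le r)
  have h3 := hY.S_nonneg r
  positivity

/-- the second derivative of the pair function at `l = 0` as a third block sum -/
theorem lrt_gD2_eq {Ω : Type} {Y : LedSys Ω} (hY : Y.Ok) {kS kU : ℕ} (hS : kS < kU) (hU : kU ≤ Y.N) :
    Y.gD kU kS 2 0 = 2 * trSumK Y.ms Y.N 4 2 (ledPair Y.N kS) fun τ' =>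
      Y.kapT kU 2 0 1 τ' * (Y.K (τ' 2 (2 + 1)) * Y.K (τ' (2 + 2) (2 + 3))) := by
  have hpair : IsTr Y.N 2 (ledPair Y.N kS) := ledt_pair_isTr (by omega) 2
  have kL0 : Y.kLow kU 0 = ledqV kU fun r _ _ => Y.K r := by
    funext r x y
    unfold LedSys.kLow ledqV LedSys.kRow
    split_ifs <;> ring
  have e : Y.gD kU kS 2 0 = Y.ins (ledLam kU 0) 0 2 (ledPair Y.N kS)
      (fun σ => ledSg (σ 0).1 * ledSg (σ 1).1 * (fun _ : ℕ → Ω => (1 : ℝ)) (ledRs σ)) [Y.kLow kU 0, Y.kLow kU 0] := by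
    simp only [mul_one]
    rfl
  rw [e, kL0, ledq_low2 hY hU hpair (a := 0) (b := 1) (by omega) (by omega) (by simp [ledPair]; exact hS)
    (g := fun _ => 1) (fun _ _ _ => rfl) (W := fun r _ _ => Y.K r) (fun _ _ _ => rfl)]
  have e2 := ledq_tmK (kU := kU) hY hpair 0 1 (g := fun _ => 1) (fun _ _ _ => rfl) Y.K
  rw [(hY.mean _ 0 2 _ (ledsc_prof0 kU) (by simp) hpair).one, one_mul] at e2
  rw [← e2]

/-- one table of the third block sum -/
theorem lrt_gD2_pt {Ω : Type} {Y : LedSys Ω} (hY : Y.Ok) {kU : ℕ} {om : ℝ} (hom : ∀ j, j < kU → Y.K j ≤ om)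
    {τ' : ℕ → ℕ → ℕ} (hτ' : IsTr Y.N 6 τ') :
    |Y.kapT kU 2 0 1 τ' * (Y.K (τ' 2 (2 + 1)) * Y.K (τ' (2 + 2) (2 + 3)))|
      ≤ om ^ 2 * lrtNw 3 kU τ' := by
  have S := @ledsc_blk_symm Y.N 6 kU τ' hτ'
  have T := @ledsc_blk_trans Y.N 6 kU τ' hτ'
  unfold LedSys.kapT
  by_cases hc : kU ≤ τ' 0 2 ∧ kU ≤ τ' 1 (2 + 3) ∧ kU ≤ τ' (2 + 1) (2 + 2) ∧ τ' (2 + 1) 0 < kU ∧ τ' (2 + 1) 1 < kU
  · rw [if_pos hc]
    obtain ⟨c1, c2, c3, c4, c5⟩ := hc
    have n23 : τ' 2 (2 + 1) < kU := by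
      by_contra hh
      have := T (x := 0) (y := 2) (z := 2 + 1) (by omega) (by omega) (by omega) c1 (by omega)
      have := S (x := 0) (y := 2 + 1) (by omega) (by omega) this
      omega
    have n45 : τ' (2 + 2) (2 + 3) < kU := by
      by_contra hh
      have h1 := T (x := 2 + 1) (y := 2 + 2) (z := 2 + 3) (by omega) (by omega) (by omega) c3 (by omega)
      have h2 := T (x := 2 + 1) (y := 2 + 3) (z := 1) (by omega) (by omega) (by omega) h1 (S (by omega) (by omega) c2)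
      omega
    have hall : ∀ o, o < 3 → τ' o 3 < kU := by
      intro o ho
      have : o = 0 ∨ o = 1 ∨ o = 2 := by omega
      rcases this with rfl | rfl | rfl
      · rw [hτ'.symm 0 3 (by omega) (by omega)]; exact c4
      · rw [hτ'.symm 1 3 (by omega) (by omega)]; exact c5
      · exact n23
    rw [show lrtNw 3 kU τ' = 1 from if_pos hall, mul_one]
    have g1 := ledsc_gam_abs hY (kU := kU) (hτ'.le 0 2 (by omega) (by omega))
    have g2 := ledsc_gam_abs hY (kU := kU) (hτ'.le (2 + 1) (2 + 2) (by omega) (by omega))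
    have g3 := ledsc_gam_abs hY (kU := kU) (hτ'.le (2 + 3) 1 (by omega) (by omega))
    have k1 := lrt_K_nonneg hY (τ' 2 (2 + 1))
    have k2 := lrt_K_nonneg hY (τ' (2 + 2) (2 + 3))
    have k1' := hom _ n23
    have k2' := hom _ n45
    rw [abs_mul, abs_mul, abs_mul, abs_mul, abs_of_nonneg k1, abs_of_nonneg k2]
    have hg : |Y.gam kU (τ' 0 2)| * |Y.gam kU (τ' (2 + 1) (2 + 2))| * |Y.gam kU (τ' (2 + 3) 1)| ≤ 1 := by
      have := mul_le_mul (mul_le_mul g1 g2 (abs_nonneg _) zero_le_one) g3 (abs_nonneg _) (by norm_num)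
      simpa using this
    have hk : Y.K (τ' 2 (2 + 1)) * Y.K (τ' (2 + 2) (2 + 3)) ≤ om ^ 2 := by
      have := mul_le_mul k1' k2' k2 (k1.trans k1')
      rwa [← sq] at this
    calc _ ≤ 1 * om ^ 2 := mul_le_mul hg hk (mul_nonneg k1 k2) zero_le_one
      _ = _ := by ring
  · rw [if_neg hc, zero_mul, abs_zero]
    exact mul_nonneg (by positivity) (lrt_nw_nonneg 3 kU τ')

/-- **`|g''(0)| ≤ C U ω²`** (PE l.590-624 for the pair function): the third block is new. -/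
theorem lrt_gD2 : ∃ C : ℝ, 0 ≤ C ∧ ∀ (Ω : Type) (Y : LedSys Ω) (kS kU : ℕ) (om : ℝ), Y.Ok → kS < kU → kU ≤ Y.N →
    (∀ j, j < kU → Y.K j ≤ om) → |Y.gD kU kS 2 0| ≤ C * (trPm Y.ms kU * om ^ 2) := by
  obtain ⟨Ce, hCe, hE⟩ := tk9_led_entry 3
  refine ⟨2 * (4 * (80 * (Ce * 10))), by positivity, ?_⟩
  intro Ω Y kS kU om hY hS hU hom
  have hpair : IsTr Y.N 2 (ledPair Y.N kS) := ledt_pair_isTr (by omega) 2
  have hU0 : 0 ≤ trPm Y.ms kU := tk9_pm_nonneg hY.ms_ok kU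
  have hms := hY.ms_ok
  have htop := hY.ms_top
  rw [lrt_gD2_eq hY hS hU, abs_mul, abs_of_nonneg (by norm_num : (0 : ℝ) ≤ 2), mul_assoc]
  refine mul_le_mul_of_nonneg_left ?_ (by norm_num)
  have m := ledi_sumK_le_absK (ms := Y.ms) hpair 4 _
    (fun τ' => om ^ 2 * lrtNw 3 kU τ')
    (fun τ' h => lrt_gD2_pt hY hom h.tr)
  refine m.trans ?_
  -- the last two labels
  have s2 : ∀ τ2, IsTr Y.N 4 τ2 → trAbsK Y.ms Y.N 2 4 τ2
        (fun τ' => om ^ 2 * lrtNw 3 kU τ')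
      ≤ 80 * (om ^ 2 * lrtNw 3 kU τ2) := by
    intro τ2 h2
    have e : trAbsK Y.ms Y.N 2 4 τ2
        (fun τ' => om ^ 2 * lrtNw 3 kU τ')
        = trAbsK Y.ms Y.N 2 4 τ2 fun _ => om ^ 2 * lrtNw 3 kU τ2 := by
      refine tr_absK_congr h2 2 _ _ fun τ' _ hold => ?_
      have : (∀ o, o < 3 → τ' o 3 < kU) ↔ ∀ o, o < 3 → τ2 o 3 < kU := by
        constructor
        · intro H o ho; rw [← hold o 3 (by omega) (by omega)]; exact H o ho
        · intro H o ho; rw [hold o 3 (by omega) (by omega)]; exact H o ho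
      unfold lrtNw
      simp only [this]
    rw [e]
    refine (ledi_absK_const h2 hms 2 _ (mul_nonneg (by positivity) (lrt_nw_nonneg 3 kU τ2))).trans (le_of_eq ?_)
    rw [htop]
    norm_num [Finset.prod_range_succ]
  -- the new block
  have s1 : ∀ τ1, IsTr Y.N 3 τ1 → trAbsK Y.ms Y.N 3 3 τ1
        (fun τ' => om ^ 2 * lrtNw 3 kU τ')
      ≤ 80 * (Ce * 10) * (trPm Y.ms kU * om ^ 2) := by
    intro τ1 h1
    have a1 : trAbsK Y.ms Y.N 3 3 τ1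
        (fun τ' => om ^ 2 * lrtNw 3 kU τ')
        ≤ trAbsK Y.ms Y.N 1 3 τ1
          (fun τ2 => 80 * (om ^ 2 * lrtNw 3 kU τ2)) :=
      ledi_absK_mono (ms := Y.ms) h1 1 (fun τ2 => trAbsK Y.ms Y.N 2 4 τ2
        (fun τ' => om ^ 2 * lrtNw 3 kU τ')) _
        fun τ2 h2 => s2 τ2 h2.tr
    refine a1.trans ?_
    rw [ledi_absK_smul, ledi_absK_smul]
    have e1 := hE Y.N τ1 Y.ms h1 hms htop.le 0 kU (by omega) hU (fun _ => 1) (fun _ => zero_le_one)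
    rw [lrt_pm_tel] at e1
    have e2 := lrt_at_one 3 τ1 0 kU
    have e3 : trAbsK Y.ms Y.N 1 3 τ1 (fun τ2 => lrtNw 3 kU τ2)
        ≤ Ce * 10 * trPm Y.ms kU := by
      refine (show _ ≤ _ from e1).trans ?_
      rw [mul_assoc]
      refine mul_le_mul_of_nonneg_left ?_ hCe
      have : trPm Y.ms kU * ledAt 3 τ1 0 kU (fun _ => 1) ≤ trPm Y.ms kU * 9 :=
        mul_le_mul_of_nonneg_left (e2.trans (by norm_num)) hU0
      linarith
    have ho : 0 ≤ om ^ 2 := by positivity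
    calc _ ≤ 80 * (om ^ 2 * (Ce * 10 * trPm Y.ms kU)) := by gcongr
      _ = _ := by ring
  -- the first label
  have a0 : trAbsK Y.ms Y.N 4 2 (ledPair Y.N kS)
        (fun τ' => om ^ 2 * lrtNw 3 kU τ')
      ≤ trAbsK Y.ms Y.N 1 2 (ledPair Y.N kS) (fun _ => 80 * (Ce * 10) * (trPm Y.ms kU * om ^ 2)) :=
    ledi_absK_mono (ms := Y.ms) hpair 1 (fun τ1 => trAbsK Y.ms Y.N 3 3 τ1
      (fun τ' => om ^ 2 * lrtNw 3 kU τ')) _
      fun τ1 h1 => s1 τ1 h1.tr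
  refine a0.trans ((ledi_absK_const hpair hms 1 _ (by positivity)).trans (le_of_eq ?_))
  rw [htop]
  norm_num [Finset.prod_range_succ]
  ring

end Claimed.Agent.R286
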