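import Claimed.Agent.R286.Cav.LedTbS

/-!
# Row 286 (S0533), unit Cav, file LedTb      (interface typed by helper116, 04:35Z; prefix `ltb_`)      LEAF Bd9 of `led_main`: THE ESTIMATES

PE cavity.tex l.608-651 (third block, unobserved and observed).   Exact reductions: `Cav/LedTbS` (helper191; read its HANDOVER docstring: steps 1-6), moment bounds: `Cav/LedTbR`.
Labels `f = q ∈ A`, `c = q + 1`, `e = q + 2`, `d = q + 3`.      `TB = ∑_f ∑_c Ph2`,   `Ph2 τ2` = the sums over `e`, `d` (done exactly by `leds_stepD`, `leds_stepE`).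
OWNERS (ruling of 204, 04:25Z); each proves IN PLACE, auxiliary lemmas above his leaf:
 * helper63  : `ltb_cst`, `ltb_Ph2_le`, `ltb_new`            (steps 1-3: unobserved third block, `tk9_led_entry`)
 * helper217 : `ltb_ErS`                                      (step 4: `proj`, `gamPi`, `ledr_coinc`, `ledr_sqrt`)
 * helper116 : `ltb_obs`                                      (step 5: observed third block, `leds_stepE`, `bdry`, baseline of mass `U`)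
 * helper204 : `ltb_In_le`, `ltb_At_eq`, `ltb_Bd9`            (step 6: assembly, ledger arithmetic, patch of `LedLeaves`)
This file must not import `LedLeaves`.
-/

set_option autoImplicit false

namespace Claimed.Agent.R286

open Finset

namespace LedCtx

variable {Ω : Type} (X : LedCtx Ω)

/-- the summand of `TB` after the exact sums over `d` and `e` -/
def Ph2 (τ2 : ℕ → ℕ → ℕ) : ℝ := trSum X.Y.ms X.Y.N (X.q + 2) τ2 fun τ3 => X.k3 τ3 * X.chiR * X.G3 τ3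

/-- the block of `c = q + 1` is unobserved -/
def nw (τ2 : ℕ → ℕ → ℕ) : Prop := ∀ o, o < X.q + 1 → τ2 o (X.q + 1) < X.kU

instance nw_dec (τ2 : ℕ → ℕ → ℕ) : Decidable (X.nw τ2) := by
  unfold nw; infer_instance

/-- old atoms below the cut, with their costs -/
noncomputable def At : ℝ := ledAt X.q X.τ 0 X.kU X.fA

/-- integral below the cut, with its costs -/
noncomputable def In : ℝ := ∑ j ∈ Finset.range X.kU, (X.Y.ms j - trPm X.Y.ms j) * X.fA j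

end LedCtx

theorem ltb_defs_eqns_cite : True := by
  have := @LedCtx.Ph2.eq_1
  have := @LedCtx.nw.eq_1
  have := @LedCtx.At.eq_1
  have := @LedCtx.In.eq_1
  trivial

variable {Ω : Type} {X : LedCtx Ω} {r : ℕ} {Cb : ℝ}

/-! ### steps 1-3 (helper63) -/

/-- step 1: the two exterior splits of a label have the same cost (`τ a b = kS ≥ kV`) -/
theorem ltb_cst (h : X.Ok r Cb) {Q : ℕ} {τ' : ℕ → ℕ → ℕ} (hτ' : LediExt X.Y.N X.q Q X.τ τ') (hQ : X.q ≤ Q) {c : ℕ} (hc : c < Q) :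
    X.cst (τ' X.a c) = X.cst (τ' X.b c) := by
  have ha := h.a_lt
  have hb := h.b_lt
  have hab : X.kV ≤ τ' X.a X.b := by
    rw [hτ'.old X.a X.b ha hb, h.split]
    exact h.kV_le
  have hba : X.kV ≤ τ' X.b X.a := by
    rw [hτ'.tr.symm X.b X.a (by omega) (by omega)]
    exact hab
  by_cases h1 : τ' X.a c < X.kV
  · rw [leds_iso hτ'.tr (by omega : X.a < Q) (by omega : X.b < Q) hc hab h1]
  · have h2 : X.kV ≤ τ' X.b c := leds_trans hτ'.tr (by omega : X.b < Q) (by omega : X.a < Q) hc hba (not_lt.1 h1)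
    unfold LedCtx.cst
    rw [if_neg h1, if_neg (not_lt.2 h2)]

theorem ltb_k3_le (h : X.Ok r Cb) {τ3 : ℕ → ℕ → ℕ} (h3 : IsTr X.Y.N (X.q + 3) τ3) : |X.k3 τ3| ≤ 1 := by
  have ha := h.a_lt
  unfold LedCtx.k3
  rw [abs_mul]
  have h1 : |if X.c2 τ3 then X.Y.gam X.kU (τ3 X.a X.q) else 0| ≤ 1 := by
    split_ifs
    · exact leds_gam_le h (h3.le _ _ (by omega) (by omega))
    · simp
  have h2 := leds_gB_le h (h3.le (X.q + 1) (X.q + 2) (by omega) (by omega))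
  calc _ ≤ (1 : ℝ) * 1 := mul_le_mul h1 h2 (abs_nonneg _) zero_le_one
    _ = 1 := one_mul 1

/-- the bound of `G3` on the support of `k3` -/
theorem ltb_G3_le (h : X.Ok r Cb) (hr : 2 ≤ r) {τ3 : ℕ → ℕ → ℕ} (h3 : LediExt X.Y.N X.q (X.q + 3) X.τ τ3) (hc : X.c2 τ3)
    (he : X.kU ≤ τ3 (X.q + 1) (X.q + 2)) :
    |X.G3 τ3| ≤ ledbC Cb (X.q + 3) * (X.p0 * Cb * (X.fA (τ3 X.a (X.q + 1)) + X.fA (τ3 X.b (X.q + 1)))) := by
  have ha := h.a_lt
  have hb := h.b_lt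
  obtain ⟨c1, c2, c3⟩ := hc
  have s1 : τ3 X.a (X.q + 1) < X.kU := by rw [h3.tr.symm X.a (X.q + 1) (by omega) (by omega)]; exact c2
  have s2 : τ3 X.b (X.q + 1) = τ3 (X.q + 1) X.b := h3.tr.symm X.b (X.q + 1) (by omega) (by omega)
  have j1 : τ3 X.q (X.q + 1) = τ3 X.a (X.q + 1) :=
    leds_iso h3.tr (by omega : X.a < X.q + 3) (by omega) (by omega) c1 s1
  have j2 : τ3 (X.q + 2) X.b = τ3 X.b (X.q + 1) := by
    rw [leds_iso h3.tr (by omega : X.q + 1 < X.q + 3) (by omega) (by omega) he c3, s2]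
  have hd := ledr_diff h hr h3 (x := X.q) (y := X.q + 1) (z := X.q + 2) (w := X.b) (by omega) (by omega) (by omega) (by omega)
    (by omega) (by omega) j1 j2 s1 (by rw [s2]; exact c3)
  have hcs := ltb_cst h h3 (by omega) (c := X.q + 1) (by omega)
  unfold LedCtx.G3
  rw [j1, j2]
  refine hd.trans (le_of_eq ?_)
  unfold LedCtx.fA
  rw [hcs]
  ring

/-- the bound of `G2` on the support of `k2` (same estimate on `q + 2` labels) -/
theorem ltb_G2_le (h : X.Ok r Cb) (hr : 2 ≤ r) {τ2 : ℕ → ℕ → ℕ} (h2 : LediExt X.Y.N X.q (X.q + 2) X.τ τ2) (hc : X.c2 τ2) :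
    |X.G2 τ2| ≤ ledbC Cb (X.q + 2) * (X.p0 * Cb * (X.fA (τ2 X.a (X.q + 1)) + X.fA (τ2 X.b (X.q + 1)))) := by
  have ha := h.a_lt
  have hb := h.b_lt
  obtain ⟨c1, c2, c3⟩ := hc
  have s1 : τ2 X.a (X.q + 1) < X.kU := by rw [h2.tr.symm X.a (X.q + 1) (by omega) (by omega)]; exact c2
  have s2 : τ2 (X.q + 1) X.b = τ2 X.b (X.q + 1) := h2.tr.symm (X.q + 1) X.b (by omega) (by omega)
  have j1 : τ2 X.q (X.q + 1) = τ2 X.a (X.q + 1) :=
    leds_iso h2.tr (by omega : X.a < X.q + 2) (by omega) (by omega) c1 s1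
  have hd := ledr_diff h hr h2 (x := X.q) (y := X.q + 1) (z := X.q + 1) (w := X.b) (by omega) (by omega) (by omega) (by omega)
    (by omega) (by omega) j1 s2 s1 (by rw [← s2]; exact c3)
  have hcs := ltb_cst h h2 (by omega) (c := X.q + 1) (by omega)
  unfold LedCtx.G2
  rw [j1, s2]
  refine hd.trans (le_of_eq ?_)
  unfold LedCtx.fA
  rw [hcs]
  ring

/-- step 2 -/
theorem ltb_Ph2_le (h : X.Ok r Cb) (hr : 2 ≤ r) {τ2 : ℕ → ℕ → ℕ} (h2 : LediExt X.Y.N X.q (X.q + 2) X.τ τ2) :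
    |X.Ph2 τ2| ≤ 2 * (X.q + 2 : ℕ) * (2 * ledbC Cb (X.q + 3) * (X.p0 * Cb * (X.fA (τ2 X.a (X.q + 1)) + X.fA (τ2 X.b (X.q + 1))))) := by
  have ha := h.a_lt
  have hb := h.b_lt
  have hCb := ledb_Cb_nonneg (ledr_hyp h)
  have hC := (ledb_C_pos Cb (X.q + 3)).le
  have hp := h.p0_nonneg
  have f1 := ledr_fA_nonneg h (τ2 X.a (X.q + 1))
  have f2 := ledr_fA_nonneg h (τ2 X.b (X.q + 1))
  obtain ⟨M, hM⟩ : ∃ M : ℝ, M = ledbC Cb (X.q + 3) * (X.p0 * Cb * (X.fA (τ2 X.a (X.q + 1)) + X.fA (τ2 X.b (X.q + 1)))) := ⟨_, rfl⟩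
  have hM0 : 0 ≤ M := by rw [hM]; positivity
  have key : ∀ τ3, LediExt X.Y.N (X.q + 2) (X.q + 2 + 1) τ2 τ3 → |X.k3 τ3 * X.chiR * X.G3 τ3| ≤ 2 * M := by
    intro τ3 h3
    have h3' : LediExt X.Y.N X.q (X.q + 3) X.τ τ3 := ledi_ext_trans h2 h3 (by omega)
    by_cases hc : X.c2 τ3
    · by_cases he : X.kU ≤ τ3 (X.q + 1) (X.q + 2)
      · have g := ltb_G3_le h hr h3' hc he
        rw [h3.old X.a (X.q + 1) (by omega) (by omega), h3.old X.b (X.q + 1) (by omega) (by omega), ← hM] at g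
        rw [abs_mul, abs_mul]
        have k := ltb_k3_le h h3'.tr
        have c := leds_chiR_le h
        calc |X.k3 τ3| * |X.chiR| * |X.G3 τ3| ≤ 1 * 2 * M :=
              mul_le_mul (mul_le_mul k c (abs_nonneg _) zero_le_one) g (abs_nonneg _) (by norm_num)
          _ = 2 * M := by ring
      · have : X.k3 τ3 = 0 := by unfold LedCtx.k3 LedCtx.gB; rw [if_neg he, mul_zero]
        rw [this, zero_mul, zero_mul, abs_zero]
        positivity
    · have : X.k3 τ3 = 0 := by unfold LedCtx.k3; rw [if_neg hc, zero_mul]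
      rw [this, zero_mul, zero_mul, abs_zero]
      positivity
  have := leds_sum_le h h2.tr (fun τ3 => X.k3 τ3 * X.chiR * X.G3 τ3) (by positivity : (0 : ℝ) ≤ 2 * M) key
  unfold LedCtx.Ph2
  refine this.trans (le_of_eq ?_)
  rw [hM]
  ring

/-- the summand vanishes unless `f ∈ A` and `c ∉ A ∪ B'` -/
theorem ltb_Ph2_zero (h : X.Ok r Cb) {τ2 : ℕ → ℕ → ℕ} (h2 : LediExt X.Y.N X.q (X.q + 2) X.τ τ2) (hc : ¬ X.c2 τ2) : X.Ph2 τ2 = 0 := by
  unfold LedCtx.Ph2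
  rw [leds_stepE h h2]
  unfold LedCtx.k2
  rw [if_neg hc]
  ring

/-- the forks below the cut do not change when a label of the block `A` is added -/
theorem ltb_at_le (h : X.Ok r Cb) {τ1 : ℕ → ℕ → ℕ} (h1 : LediExt X.Y.N X.q (X.q + 1) X.τ τ1) (hf : X.kU ≤ τ1 X.a X.q) :
    ledAt (X.q + 1) τ1 0 X.kU X.fA ≤ X.At := by
  have ha := h.a_lt
  have hfa : X.kU ≤ τ1 X.q X.a := by rw [h1.tr.symm X.q X.a (by omega) (by omega)]; exact hf
  unfold LedCtx.At ledAt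
  refine Finset.sum_le_sum_of_subset_of_nonneg ?_ fun j _ _ => ledr_fA_nonneg h j
  intro j hj
  rw [Finset.mem_filter] at hj ⊢
  refine ⟨?_, hj.2⟩
  obtain ⟨u, v, hu, hv, huv⟩ := tk9_mem_forks.1 hj.1
  have hjk := hj.2.2
  rw [tk9_mem_forks]
  by_cases hu' : u < X.q <;> by_cases hv' : v < X.q
  · exact ⟨u, v, hu', hv', by rw [← h1.old u v hu' hv']; exact huv⟩
  · have hv'' : v = X.q := by omega
    subst hv''
    refine ⟨X.a, u, ha, hu', ?_⟩
    rw [← h1.old X.a u ha hu', leds_iso h1.tr (by omega : X.q < X.q + 1) (by omega : X.a < X.q + 1) (by omega : u < X.q + 1) hfa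
      (by rw [h1.tr.symm X.q u (by omega) (by omega), huv]; exact hjk), h1.tr.symm X.q u (by omega) (by omega), huv]
  · have hu'' : u = X.q := by omega
    subst hu''
    refine ⟨X.a, v, ha, hv', ?_⟩
    rw [← h1.old X.a v ha hv', leds_iso h1.tr (by omega : X.q < X.q + 1) (by omega : X.a < X.q + 1) (by omega : v < X.q + 1) hfa
      (by rw [huv]; exact hjk), huv]
  · have hu'' : u = X.q := by omega
    have hv'' : v = X.q := by omega
    subst hu''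
    rw [hv'', h1.tr.diag X.q (by omega)] at huv
    have := h.kU_le
    omega

theorem ltb_At_nonneg (h : X.Ok r Cb) : 0 ≤ X.At := by
  unfold LedCtx.At ledAt
  exact Finset.sum_nonneg fun j _ => ledr_fA_nonneg h j

/-- an old fork below the cut is an atom -/
theorem ltb_fA_le_At (h : X.Ok r Cb) {u v : ℕ} (hu : u < X.q) (hv : v < X.q) (huv : X.τ u v < X.kU) : X.fA (X.τ u v) ≤ X.At := by
  unfold LedCtx.At ledAt
  exact Finset.single_le_sum (f := X.fA) (fun i _ => ledr_fA_nonneg h i)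
    (by rw [Finset.mem_filter]; exact ⟨tk9_mem_forks.2 ⟨u, v, hu, hv, rfl⟩, Nat.zero_le _, huv⟩)

theorem ltb_U_nonneg (h : X.Ok r Cb) : 0 ≤ X.U := tk9_pm_nonneg h.sys.ms_ok X.kU

theorem ltb_In_nonneg (h : X.Ok r Cb) : 0 ≤ X.In := by
  unfold LedCtx.In
  refine Finset.sum_nonneg fun j hj => ?_
  rw [Finset.mem_range] at hj
  have := h.kU_le
  exact mul_nonneg (sub_nonneg.2 (tk9_pm_le h.sys.ms_ok (by omega))) (ledr_fA_nonneg h j)

/-- step 3: **unobserved third block** (PE l.608-624) -/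
theorem ltb_new (q r : ℕ) (hr : 2 ≤ r) (Cb : ℝ) : ∃ C : ℝ, 0 ≤ C ∧ ∀ (Ω : Type) (X : LedCtx Ω), X.q = q → X.Ok r Cb →
    ∀ τ1 : ℕ → ℕ → ℕ, LediExt X.Y.N X.q (X.q + 1) X.τ τ1 → X.kU ≤ τ1 X.a X.q →
      |trSum X.Y.ms X.Y.N (X.q + 1) τ1 fun τ2 => if X.nw τ2 then X.Ph2 τ2 else 0| ≤ C * X.p0 * (X.In + X.U * X.At) := by
  obtain ⟨Ce, hCe, hE⟩ := tk9_led_entry (q + 1)
  obtain ⟨C2, hC2e⟩ : ∃ C2 : ℝ, C2 = 2 * (q + 2 : ℕ) * (2 * ledbC Cb (q + 3) * Cb) := ⟨_, rfl⟩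
  refine ⟨|C2| * (2 * Ce), by positivity, ?_⟩
  intro Ω X hq h τ1 h1 hf
  subst hq
  have ha := h.a_lt
  have hb := h.b_lt
  have hCb := ledb_Cb_nonneg (ledr_hyp h)
  have hC := (ledb_C_pos Cb (X.q + 3)).le
  have hC2 : 0 ≤ C2 := by rw [hC2e]; positivity
  rw [abs_of_nonneg hC2]
  have hp := h.p0_nonneg
  have hU := ltb_U_nonneg h
  have hfA := ledr_fA_nonneg h
  have e1 := hE X.Y.N τ1 X.Y.ms h1.tr h.sys.ms_ok h.sys.ms_top.le X.a X.kU (by omega) h.kU_le X.fA hfA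
  have e2 := hE X.Y.N τ1 X.Y.ms h1.tr h.sys.ms_ok h.sys.ms_top.le X.b X.kU (by omega) h.kU_le X.fA hfA
  have hat := ltb_at_le h h1 hf
  have hB : Ce * (∑ j ∈ Finset.range X.kU, (X.Y.ms j - trPm X.Y.ms j) * X.fA j + trPm X.Y.ms X.kU * ledAt (X.q + 1) τ1 0 X.kU X.fA)
      ≤ Ce * (X.In + X.U * X.At) := by
    refine mul_le_mul_of_nonneg_left ?_ hCe
    unfold LedCtx.In
    exact add_le_add le_rfl (mul_le_mul_of_nonneg_left hat hU)
  have m := ledi_sumK_le_absK (ms := X.Y.ms) h1.tr 1 (fun τ2 => if X.nw τ2 then X.Ph2 τ2 else 0)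
    (fun τ2 => (C2 * X.p0) * (if ∀ o, o < X.q + 1 → τ2 o (X.q + 1) < X.kU then X.fA (τ2 X.a (X.q + 1)) else 0)
      + (C2 * X.p0) * (if ∀ o, o < X.q + 1 → τ2 o (X.q + 1) < X.kU then X.fA (τ2 X.b (X.q + 1)) else 0))
    (fun τ2 h2 => by
      have h2' : LediExt X.Y.N X.q (X.q + 2) X.τ τ2 := ledi_ext_trans h1 h2 (by omega)
      by_cases hn : X.nw τ2
      · have hn' : ∀ o, o < X.q + 1 → τ2 o (X.q + 1) < X.kU := hn
        rw [if_pos hn, if_pos hn', if_pos hn']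
        refine (ltb_Ph2_le h hr h2').trans (le_of_eq ?_)
        rw [hC2e]
        ring
      · have hn' : ¬ ∀ o, o < X.q + 1 → τ2 o (X.q + 1) < X.kU := hn
        rw [if_neg hn, if_neg hn', if_neg hn']
        simp)
  rw [ledi_absK_add, ledi_absK_smul, ledi_absK_smul] at m
  have m' : |trSum X.Y.ms X.Y.N (X.q + 1) τ1 fun τ2 => if X.nw τ2 then X.Ph2 τ2 else 0|
      ≤ C2 * X.p0 * trAbs X.Y.ms X.Y.N (X.q + 1) τ1
          (fun τ2 => if ∀ o, o < X.q + 1 → τ2 o (X.q + 1) < X.kU then X.fA (τ2 X.a (X.q + 1)) else 0)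
        + C2 * X.p0 * trAbs X.Y.ms X.Y.N (X.q + 1) τ1
          (fun τ2 => if ∀ o, o < X.q + 1 → τ2 o (X.q + 1) < X.kU then X.fA (τ2 X.b (X.q + 1)) else 0) := m
  have hcp : 0 ≤ C2 * X.p0 := mul_nonneg hC2 hp
  calc _ ≤ C2 * X.p0 * (Ce * (X.In + X.U * X.At)) + C2 * X.p0 * (Ce * (X.In + X.U * X.At)) :=
        m'.trans (add_le_add (mul_le_mul_of_nonneg_left (e1.trans hB) hcp) (mul_le_mul_of_nonneg_left (e2.trans hB) hcp))
    _ = _ := by ring

/-! ### step 4 (helper217) -/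

/-- one table: `|γ_{ce} Er| ≤ C p₀ ω π` -/
theorem ledq_Er_pt (h : X.Ok r Cb) (hr : 2 ≤ r) {τ2 τ3 : ℕ → ℕ → ℕ} (h2 : LediExt X.Y.N X.q (X.q + 2) X.τ τ2)
    (h3 : LediExt X.Y.N (X.q + 2) (X.q + 2 + 1) τ2 τ3) (hc : X.c2 τ2) (ho : ∃ o, o < X.q ∧ X.kU ≤ τ2 o (X.q + 1)) :
    |X.gB (τ3 (X.q + 1) (X.q + 2)) * X.Er τ3| ≤ ledbC Cb (X.q + 3) * (X.p0 * X.om) * X.pi := by
  have hb := h.b_lt
  have ha := h.a_lt
  have H := ledr_hyp h
  have hC0 := (ledb_C_pos Cb (X.q + 3)).le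
  have hom := ledr_om_nonneg h
  have hB0 : 0 ≤ ledbC Cb (X.q + 3) * (X.p0 * X.om) * X.pi :=
    mul_nonneg (mul_nonneg hC0 (mul_nonneg h.p0_nonneg hom)) h.pi_nonneg
  have h3' : LediExt X.Y.N X.q (X.q + 3) X.τ τ3 := ledi_ext_trans h2 h3 (by omega)
  have M := ledr_mean h.sys h3.tr
  by_cases he : X.kU ≤ τ3 (X.q + 1) (X.q + 2)
  swap
  · have : X.gB (τ3 (X.q + 1) (X.q + 2)) = 0 := by unfold LedCtx.gB; rw [if_neg he]
    rw [this, zero_mul, abs_zero]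
    exact hB0
  by_cases htop : τ3 (X.q + 1) (X.q + 2) = X.Y.N + 1
  · -- coincident labels
    have e0 : X.Er τ3 = 0 := by
      unfold LedCtx.Er
      rw [ledr_coinc h.sys h3.tr _ (x := X.q + 1) (y := X.q + 2) (by omega) (by omega) htop]
      have : (fun ω : ℕ → Ω => X.P (Function.update ω (X.q + 2) (ω (X.q + 1)))
          * X.Y.Q (τ3 X.q (X.q + 1)) (Function.update ω (X.q + 2) (ω (X.q + 1)) X.q) (Function.update ω (X.q + 2) (ω (X.q + 1)) (X.q + 1))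
          * (X.Y.R (Function.update ω (X.q + 2) (ω (X.q + 1)) (X.q + 2)) (Function.update ω (X.q + 2) (ω (X.q + 1)) X.b)
            - X.Y.R (Function.update ω (X.q + 2) (ω (X.q + 1)) (X.q + 1)) (Function.update ω (X.q + 2) (ω (X.q + 1)) X.b))) = fun _ => 0 := by
        funext ω
        rw [Function.update_self, Function.update_of_ne (show X.q + 1 ≠ X.q + 2 by omega), sub_self, mul_zero]
      rw [this]
      exact ledi_const M 0
    rw [e0, mul_zero, abs_zero]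
    exact hB0
  · have hle : τ3 (X.q + 1) (X.q + 2) ≤ X.Y.N := by
      have := h3.tr.le (X.q + 1) (X.q + 2) (by omega) (by omega)
      omega
    obtain ⟨c1, c2, c3⟩ := hc
    have o1 : τ3 X.a X.q = τ2 X.a X.q := h3.old _ _ (by omega) (by omega)
    have o3 : τ3 (X.q + 1) X.a = τ2 (X.q + 1) X.a := h3.old _ _ (by omega) (by omega)
    have o4 : τ3 (X.q + 1) X.b = τ2 (X.q + 1) X.b := h3.old _ _ (by omega) (by omega)
    -- `f ∈ A`, `c ∉ A`
    have hj1 : τ3 X.q (X.q + 1) < X.kU := by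
      by_contra hcon
      have t1 : X.kU ≤ τ3 X.a (X.q + 1) := leds_trans h3.tr (by omega) (by omega) (by omega) (by rw [o1]; exact c1) (not_lt.1 hcon)
      rw [h3.tr.symm X.a (X.q + 1) (by omega) (by omega), o3] at t1
      omega
    obtain ⟨o, ho1, ho2⟩ := ho
    have hΦu : TrUses (X.q + 3) fun ω : ℕ → Ω => X.P ω * X.Y.Q (τ3 X.q (X.q + 1)) (ω X.q) (ω (X.q + 1)) := fun ω ω' hω => by
      show X.P ω * _ = X.P ω' * _
      rw [h.uses ω ω' fun i hi => hω i (by omega), hω X.q (by omega), hω (X.q + 1) (by omega)]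
    have hΦf : LedFree X.b fun ω : ℕ → Ω => X.P ω * X.Y.Q (τ3 X.q (X.q + 1)) (ω X.q) (ω (X.q + 1)) := fun ω v => by
      show X.P (Function.update ω X.b v) * X.Y.Q _ (Function.update ω X.b v X.q) (Function.update ω X.b v (X.q + 1)) = _
      rw [h.free, Function.update_of_ne (show X.q ≠ X.b by omega), Function.update_of_ne (show X.q + 1 ≠ X.b by omega)]
    have hp := h.proj τ3 (fun ω => X.P ω * X.Y.Q (τ3 X.q (X.q + 1)) (ω X.q) (ω (X.q + 1))) h3.tr h3'.old (by rw [o1]; exact c1)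
      (by rw [o3]; exact c2) (by rw [o4]; exact c3) ⟨o, ho1, by rw [h3.old o (X.q + 1) (by omega) (by omega)]; exact ho2⟩ he hle hΦu hΦf
    have hs := ledr_sqrt h hr h3' (x := X.q) (y := X.q + 1) (by omega) (by omega) (by omega) rfl hj1
    have hg := h.gamPi _ he hle
    have hPi := h.Pi_nonneg (τ3 (X.q + 1) (X.q + 2))
    have hcst := ledr_cst_le h (τ3 X.q (X.q + 1))
    have hEr : |X.Er τ3| ≤ ledbC Cb (X.q + 3) * (X.p0 * X.om) * X.Pi (τ3 (X.q + 1) (X.q + 2)) := by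
      refine hp.trans (mul_le_mul_of_nonneg_right (hs.trans ?_) hPi)
      exact mul_le_mul_of_nonneg_left (mul_le_mul_of_nonneg_left hcst h.p0_nonneg) hC0
    have hgB : X.gB (τ3 (X.q + 1) (X.q + 2)) = X.Y.gam X.kU (τ3 (X.q + 1) (X.q + 2)) := by unfold LedCtx.gB; rw [if_pos he]
    rw [abs_mul, hgB]
    calc |X.Y.gam X.kU (τ3 (X.q + 1) (X.q + 2))| * |X.Er τ3|
        ≤ |X.Y.gam X.kU (τ3 (X.q + 1) (X.q + 2))| * (ledbC Cb (X.q + 3) * (X.p0 * X.om) * X.Pi (τ3 (X.q + 1) (X.q + 2))) :=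
          mul_le_mul_of_nonneg_left hEr (abs_nonneg _)
      _ = ledbC Cb (X.q + 3) * (X.p0 * X.om) * (|X.Y.gam X.kU (τ3 (X.q + 1) (X.q + 2))| * X.Pi (τ3 (X.q + 1) (X.q + 2))) := by ring
      _ ≤ ledbC Cb (X.q + 3) * (X.p0 * X.om) * X.pi :=
          mul_le_mul_of_nonneg_left hg (mul_nonneg hC0 (mul_nonneg h.p0_nonneg hom))

/-- step 4: the evaluation of `e` at `c` (PE l.630-640) -/
theorem ltb_ErS (h : X.Ok r Cb) (hr : 2 ≤ r) {τ2 : ℕ → ℕ → ℕ} (h2 : LediExt X.Y.N X.q (X.q + 2) X.τ τ2) (hc : X.c2 τ2)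
    (ho : ∃ o, o < X.q ∧ X.kU ≤ τ2 o (X.q + 1)) :
    |X.ErS τ2| ≤ 2 * (X.q + 2 : ℕ) * (ledbC Cb (X.q + 3) * (X.p0 * X.om) * X.pi) := by
  have hB0 : 0 ≤ ledbC Cb (X.q + 3) * (X.p0 * X.om) * X.pi :=
    mul_nonneg (mul_nonneg (ledb_C_pos Cb (X.q + 3)).le (mul_nonneg h.p0_nonneg (ledr_om_nonneg h))) h.pi_nonneg
  exact leds_sum_le h h2.tr _ hB0 fun τ3 h3 => ledq_Er_pt h hr h2 h3 hc ho

/-! ### steps 5a, 5c (helper63): the observed blocks one by one, the signed mass of a block -/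

/-- representatives of the observed third blocks -/
def LedCtx.obs {Ω : Type} (X : LedCtx Ω) : Finset ℕ :=
  (Finset.range X.q).filter fun o => trIsMin X.τ X.kU o ∧ X.τ o X.a < X.kU ∧ X.τ o X.b < X.kU

theorem ltb_obs_eqns_cite : True := by
  have := @LedCtx.obs.eq_1
  trivial

theorem ltb_mem_obs {o : ℕ} : o ∈ X.obs ↔ o < X.q ∧ trIsMin X.τ X.kU o ∧ X.τ o X.a < X.kU ∧ X.τ o X.b < X.kU := by
  unfold LedCtx.obs
  rw [Finset.mem_filter, Finset.mem_range]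

theorem ltb_obs_card : (X.obs.card : ℝ) ≤ X.q := by
  have := Finset.card_filter_le (Finset.range X.q) fun o => trIsMin X.τ X.kU o ∧ X.τ o X.a < X.kU ∧ X.τ o X.b < X.kU
  rw [Finset.card_range] at this
  unfold LedCtx.obs
  exact_mod_cast this

/-- step 5a: **the observed third blocks, one by one** -/
theorem ltb_obs_split (h : X.Ok r Cb) {τ2 : ℕ → ℕ → ℕ} (h2 : LediExt X.Y.N X.q (X.q + 2) X.τ τ2) :
    (if X.nw τ2 then 0 else X.Ph2 τ2) = ∑ o ∈ X.obs, if X.kU ≤ τ2 o (X.q + 1) then X.Ph2 τ2 else 0 := by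
  have ha := h.a_lt
  have hb := h.b_lt
  have hkN := h.kU_le
  by_cases hn : X.nw τ2
  · rw [if_pos hn]
    symm
    refine Finset.sum_eq_zero fun o ho => ?_
    rw [if_neg (not_le.2 (hn o (by have := (ltb_mem_obs.1 ho).1; omega)))]
  rw [if_neg hn]
  by_cases hc : X.c2 τ2
  swap
  · rw [ltb_Ph2_zero h h2 hc]
    simp
  obtain ⟨c1, c2, c3⟩ := hc
  have hn' : ∃ o, o < X.q + 1 ∧ X.kU ≤ τ2 o (X.q + 1) := by
    by_contra hcon
    exact hn fun o ho => by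
      by_contra hh
      exact hcon ⟨o, ho, not_lt.1 hh⟩
  obtain ⟨o, ho, hoc⟩ := hn'
  have hoq : o < X.q := by
    by_contra hcon
    have : o = X.q := by omega
    subst this
    have := leds_trans h2.tr (by omega : X.a < X.q + 2) (by omega : X.q < X.q + 2) (by omega : X.q + 1 < X.q + 2) c1 hoc
    rw [h2.tr.symm X.a (X.q + 1) (by omega) (by omega)] at this
    omega
  obtain ⟨a1, a2, a3⟩ := tra2_rp_spec h.tr hoq (by omega : X.kU ≤ X.Y.N + 1)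
  obtain ⟨o', ho'⟩ : ∃ o', o' = tra2Rp X.τ X.kU o := ⟨_, rfl⟩
  rw [← ho'] at a1 a2 a3
  have ho'q : o' < X.q := by omega
  have hco : X.kU ≤ τ2 (X.q + 1) o := by rw [h2.tr.symm (X.q + 1) o (by omega) (by omega)]; exact hoc
  have hoo' : X.kU ≤ τ2 o o' := by rw [h2.old o o' hoq ho'q]; exact a2
  have hco' : X.kU ≤ τ2 (X.q + 1) o' := leds_trans h2.tr (by omega : X.q + 1 < X.q + 2) (by omega : o < X.q + 2) (by omega) hco hoo'
  have ho'c : X.kU ≤ τ2 o' (X.q + 1) := by rw [h2.tr.symm o' (X.q + 1) (by omega) (by omega)]; exact hco'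
  have hmem : o' ∈ X.obs := by
    rw [ltb_mem_obs]
    refine ⟨ho'q, a3, ?_, ?_⟩
    · by_contra hcon
      have h4 : X.kU ≤ τ2 o' X.a := by rw [h2.old o' X.a ho'q ha]; exact not_lt.1 hcon
      have := leds_trans h2.tr (by omega : X.q + 1 < X.q + 2) (by omega : o' < X.q + 2) (by omega : X.a < X.q + 2) hco' h4
      omega
    · by_contra hcon
      have h4 : X.kU ≤ τ2 o' X.b := by rw [h2.old o' X.b ho'q hb]; exact not_lt.1 hcon
      have := leds_trans h2.tr (by omega : X.q + 1 < X.q + 2) (by omega : o' < X.q + 2) (by omega : X.b < X.q + 2) hco' h4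
      omega
  rw [Finset.sum_eq_single_of_mem o' hmem, if_pos ho'c]
  intro o'' ho'' hne
  obtain ⟨b1, b2, -, -⟩ := ltb_mem_obs.1 ho''
  rw [if_neg]
  intro hcon
  have h5 : X.kU ≤ τ2 o'' o' := leds_trans h2.tr (by omega : o'' < X.q + 2) (by omega : X.q + 1 < X.q + 2) (by omega) hcon hco'
  rw [h2.old o'' o' b1 ho'q] at h5
  rcases lt_or_gt_of_ne hne with hlt | hgt
  · have := a3 o'' hlt
    rw [h.tr.symm o' o'' ho'q b1] at this
    omega
  · have := b2 o' hgt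
    omega

/-- step 5c: **the signed mass of a block** -/
theorem ltb_mass (h : X.Ok r Cb) {Q : ℕ} {τ1 : ℕ → ℕ → ℕ} (h1 : IsTr X.Y.N Q τ1) {o : ℕ} (ho : o < Q) :
    trSum X.Y.ms X.Y.N Q τ1 (fun τ2 => if X.kU ≤ τ2 o Q then (1 : ℝ) else 0) = X.U := by
  have hk : 1 ≤ X.kU := by have := h.kS_lt; omega
  have hkN := h.kU_le
  rw [tk9_led_push h1 ho fun j => if X.kU ≤ j then (1 : ℝ) else 0, ← tk9_abel]
  rw [Finset.sum_eq_single_of_mem (X.kU - 1) (by rw [Finset.mem_range]; omega)]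
  · rw [if_pos (by omega), if_neg (by omega)]
    unfold LedCtx.U trPm
    rw [if_neg (by omega)]
    ring
  · intro j _ hj
    by_cases h1 : X.kU ≤ j
    · rw [if_pos h1, if_pos (by omega)]
      ring
    · rw [if_neg h1, if_neg (by omega)]
      ring

/-! ### step 5 (helper116) -/

/-- signed mass of a block of depth `k` -/
theorem ledq_mass {N Q : ℕ} {τ : ℕ → ℕ → ℕ} {ms : ℕ → ℝ} (hτ : IsTr N Q τ) {o : ℕ} (ho : o < Q) {k : ℕ} (hk : k ≤ N + 1) :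
    trSum ms N Q τ (fun τ' => if k ≤ τ' o Q then (1 : ℝ) else 0) = trPm ms k := by
  have h := tk9_led_push (ms := ms) hτ ho (fun j => if k ≤ j then (1 : ℝ) else 0)
  rw [h, ← tk9_abel]
  rcases Nat.eq_zero_or_pos k with rfl | hpos
  · simp [trPm]
  · obtain ⟨k', rfl⟩ : ∃ k', k = k' + 1 := ⟨k - 1, by omega⟩
    rw [Finset.sum_eq_single k']
    · simp [trPm]
    · intro j _ hj
      by_cases h1 : k' + 1 ≤ j
      · rw [if_pos (by omega), if_pos h1]; ring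
      · rw [if_neg (by omega), if_neg h1]; ring
    · intro h; exact absurd (Finset.mem_range.2 (by omega)) h

/-- `G2` on a table where `c` sits in the old block of `o` -/
theorem ledq_G2_blk (h : X.Ok r Cb) {τ1 τ2 : ℕ → ℕ → ℕ} (h1 : LediExt X.Y.N X.q (X.q + 1) X.τ τ1) (hf : X.kU ≤ τ1 X.a X.q)
    {o : ℕ} (ho : o < X.q) (hoa : X.τ o X.a < X.kU) (hob : X.τ o X.b < X.kU)
    (h2 : LediExt X.Y.N (X.q + 1) (X.q + 1 + 1) τ1 τ2) (hc : X.kU ≤ τ2 o (X.q + 1)) :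
    τ2 X.q (X.q + 1) = X.τ X.a o ∧ τ2 (X.q + 1) X.b = X.τ o X.b ∧
    X.G2 τ2 = X.Y.nuR (X.q + 2) τ2 (fun ω => X.P ω * X.Y.Q (X.τ X.a o) (ω X.q) (ω (X.q + 1)) * X.Y.Q (X.τ o X.b) (ω (X.q + 1)) (ω X.b))
      - X.Y.K (X.τ X.a o) * X.Y.K (X.τ o X.b) * X.Y.nuR X.q X.τ X.P := by
  have hb := h.b_lt
  have ha := h.a_lt
  have T := h2.tr
  have h12 : LediExt X.Y.N X.q (X.q + 2) X.τ τ2 := ledi_ext_trans h1 h2 (by omega)
  have M := ledr_mean h.sys T
  -- the splits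
  have a1 : τ2 X.a o = X.τ X.a o := h12.old _ _ ha ho
  have a2 : τ2 X.a X.q = τ1 X.a X.q := h2.old _ _ (by omega) (by omega)
  have a3 : τ2 o X.b = X.τ o X.b := h12.old _ _ ho hb
  have a4 : X.τ X.a o = X.τ o X.a := h.tr.symm _ _ ha ho
  have s1 : τ2 X.q o = τ2 X.a o :=
    leds_iso T (x := X.a) (y := X.q) (z := o) (k := X.kU) (by omega) (by omega) (by omega) (by rw [a2]; exact hf) (by rw [a1, a4]; exact hoa)
  have s2 : τ2 (X.q + 1) X.q = τ2 o X.q :=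
    leds_iso T (x := o) (y := X.q + 1) (z := X.q) (k := X.kU) (by omega) (by omega) (by omega) hc
      (by rw [T.symm o X.q (by omega) (by omega), s1, a1, a4]; exact hoa)
  have j1 : τ2 X.q (X.q + 1) = X.τ X.a o := by
    rw [T.symm X.q (X.q + 1) (by omega) (by omega), s2, T.symm o X.q (by omega) (by omega), s1, a1]
  have j2 : τ2 (X.q + 1) X.b = X.τ o X.b := by
    rw [leds_iso T (x := o) (y := X.q + 1) (z := X.b) (k := X.kU) (by omega) (by omega) (by omega) hc (by rw [a3]; exact hob), a3]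
  refine ⟨j1, j2, ?_⟩
  have e1 := ledr_prune_ext h.sys 2 h12 h.uses
  unfold LedCtx.G2
  rw [j1, j2, ← e1, ← M.smul, ← ledi_sub M]
  congr 1
  funext ω
  ring

/-- **one observed block**: boundary covariance + baseline of mass `U` (PE l.641-651) -/
theorem ltb_blk (h : X.Ok r Cb) (hr : 2 ≤ r) {τ1 : ℕ → ℕ → ℕ} (h1 : LediExt X.Y.N X.q (X.q + 1) X.τ τ1) (hf : X.kU ≤ τ1 X.a X.q)
    {o : ℕ} (ho : o < X.q) (hoa : X.τ o X.a < X.kU) (hob : X.τ o X.b < X.kU) :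
    |trSum X.Y.ms X.Y.N (X.q + 1) τ1 fun τ2 => if X.kU ≤ τ2 o (X.q + 1) then X.G2 τ2 else 0|
      ≤ X.be * X.p0 + X.U * (ledbC Cb (X.q + 2) * (X.p0 * Cb * (2 * X.At))) := by
  have hb := h.b_lt
  have ha := h.a_lt
  have hkU := h.kU_le
  have H := ledr_hyp h
  have hCb := ledb_Cb_nonneg H
  obtain ⟨τb, hτb⟩ : ∃ τb, τb = trAtt X.Y.N (X.q + 1) τ1 o X.kU := ⟨_, rfl⟩
  have hb2 : LediExt X.Y.N (X.q + 1) (X.q + 1 + 1) τ1 τb := by
    rw [hτb]
    exact ⟨tr_att_isTr h1.tr (by omega) (by omega), fun y z hy hz => tr_att_old hy hz⟩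
  have hbc : X.kU ≤ τb o (X.q + 1) := by
    rw [hτb, trw_att_nr (by omega), h1.tr.diag o (by omega)]
    omega
  obtain ⟨b1, b2, b3⟩ := ledq_G2_blk h h1 hf ho hoa hob hb2 hbc
  -- decomposition
  have key : ∀ τ2, LediExt X.Y.N (X.q + 1) (X.q + 1 + 1) τ1 τ2 → (if X.kU ≤ τ2 o (X.q + 1) then X.G2 τ2 else 0)
      = (if X.kU ≤ τ2 o (X.q + 1) then
          X.Y.nuR (X.q + 2) τ2 (fun ω => X.P ω * X.Y.Q (X.τ X.a o) (ω X.q) (ω (X.q + 1)) * X.Y.Q (X.τ o X.b) (ω (X.q + 1)) (ω X.b))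
            - X.Y.nuR (X.q + 2) (trAtt X.Y.N (X.q + 1) τ1 o X.kU)
                (fun ω => X.P ω * X.Y.Q (X.τ X.a o) (ω X.q) (ω (X.q + 1)) * X.Y.Q (X.τ o X.b) (ω (X.q + 1)) (ω X.b))
        else 0) + X.G2 τb * (if X.kU ≤ τ2 o (X.q + 1) then 1 else 0) := by
    intro τ2 h2
    by_cases hc : X.kU ≤ τ2 o (X.q + 1)
    · rw [if_pos hc, if_pos hc, if_pos hc, (ledq_G2_blk h h1 hf ho hoa hob h2 hc).2.2, b3, ← hτb]
      ring
    · rw [if_neg hc, if_neg hc, if_neg hc]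
      ring
  rw [leds_sum_congr h1.tr _ _ key, leds_sum_add, leds_sum_smul, ledq_mass h1.tr (by omega) (by omega)]
  have hbd := h.bdry τ1 o h1.tr h1.old hf ho hoa hob
  have hU0 : 0 ≤ X.U := by
    unfold LedCtx.U trPm
    split_ifs
    · exact le_rfl
    · exact h.sys.ms_ok.nonneg _
  -- the baseline
  have hd := ledr_diff h hr (k := 2) (ledi_ext_trans h1 hb2 (by omega)) (x := X.q) (y := X.q + 1) (z := X.q + 1) (w := X.b)
    (by omega) (by omega) (by omega) (by omega) (by omega) (by omega) b1 b2 (by rw [h.tr.symm _ _ ha ho]; exact hoa) hob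
  have hcst : X.cst (X.τ X.a o) = X.cst (X.τ o X.b) := by
    rw [ltb_cst h (ledi_ext_refl h.tr) le_rfl ho, h.tr.symm X.b o hb ho]
  have hG : |X.G2 τb| ≤ ledbC Cb (X.q + 2) * (X.p0 * Cb * (2 * X.At)) := by
    have e : X.G2 τb = X.Y.nuR (X.q + 2) τb fun ω => X.P ω * (X.Y.Q (X.τ X.a o) (ω X.q) (ω (X.q + 1))
        * X.Y.Q (X.τ o X.b) (ω (X.q + 1)) (ω X.b) - X.Y.K (X.τ X.a o) * X.Y.K (X.τ o X.b)) := by
      unfold LedCtx.G2
      rw [b1, b2]
    rw [e]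
    refine hd.trans (mul_le_mul_of_nonneg_left (mul_le_mul_of_nonneg_left ?_ (mul_nonneg h.p0_nonneg hCb)) (ledb_C_pos _ _).le)
    have f1 := ltb_fA_le_At h ha ho (by rw [h.tr.symm _ _ ha ho]; exact hoa)
    have f2 := ltb_fA_le_At h ho hb hob
    unfold LedCtx.fA at f1 f2
    rw [← hcst, mul_comm (X.cst (X.τ X.a o)), hcst]
    rw [hcst] at f1
    linarith
  refine (abs_add_le _ _).trans (add_le_add hbd ?_)
  rw [abs_mul, mul_comm, show trPm X.Y.ms X.kU = X.U from rfl, abs_of_nonneg hU0]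
  exact mul_le_mul_of_nonneg_left hG hU0

/-- the least labels of the observed blocks different from `A`, `B'` -/
def LedCtx.obs6 (X : LedCtx Ω) : Finset ℕ :=
  (Finset.range X.q).filter fun o => trIsMin X.τ X.kU o ∧ X.τ o X.a < X.kU ∧ X.τ o X.b < X.kU

/-- the first term of the boundary covariance -/
def LedCtx.Ab6 (X : LedCtx Ω) (o : ℕ) (τ' : ℕ → ℕ → ℕ) : ℝ :=
  X.Y.nuR (X.q + 2) τ' fun ω => X.P ω * X.Y.Q (X.τ X.a o) (ω X.q) (ω (X.q + 1)) * X.Y.Q (X.τ o X.b) (ω (X.q + 1)) (ω X.b)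

theorem ltb6_eqns_cite : True := by
  have := @LedCtx.obs6.eq_1
  have := @LedCtx.Ab6.eq_1
  trivial

/-- a label `c` in the block of an old label `o ∉ A ∪ B'` -/
theorem ltb6_c2_of (h : X.Ok r Cb) {τ2 : ℕ → ℕ → ℕ} (h2 : LediExt X.Y.N X.q (X.q + 2) X.τ τ2) (hf : X.kU ≤ τ2 X.a X.q) {o : ℕ} (ho : o < X.q)
    (hoa : X.τ o X.a < X.kU) (hob : X.τ o X.b < X.kU) (hoc : X.kU ≤ τ2 o (X.q + 1)) :
    X.c2 τ2 ∧ τ2 X.q (X.q + 1) = X.τ X.a o ∧ τ2 (X.q + 1) X.b = X.τ o X.b := by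
  have ha := h.a_lt
  have hb := h.b_lt
  have e1 : τ2 (X.q + 1) X.a = X.τ o X.a := by
    rw [leds_iso h2.tr (by omega : o < X.q + 2) (by omega) (by omega) hoc (by rw [h2.old o X.a ho ha]; exact hoa), h2.old o X.a ho ha]
  have e2 : τ2 (X.q + 1) X.b = X.τ o X.b := by
    rw [leds_iso h2.tr (by omega : o < X.q + 2) (by omega) (by omega) hoc (by rw [h2.old o X.b ho hb]; exact hob), h2.old o X.b ho hb]
  have e3 : τ2 X.a (X.q + 1) = X.τ o X.a := by rw [h2.tr.symm _ _ (by omega) (by omega), e1]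
  refine ⟨⟨hf, by rw [e1]; exact hoa, by rw [e2]; exact hob⟩, ?_, e2⟩
  rw [leds_iso h2.tr (by omega : X.a < X.q + 2) (by omega) (by omega) hf (by rw [e3]; exact hoa), e3, h.tr.symm _ _ ho ha]

/-- the mass of a block -/
theorem ltb6_row (h : X.Ok r Cb) {Q : ℕ} {τ' : ℕ → ℕ → ℕ} (hτ' : IsTr X.Y.N Q τ') {o : ℕ} (ho : o < Q) :
    trSum X.Y.ms X.Y.N Q τ' (fun τ2 => if X.kU ≤ τ2 o Q then (1 : ℝ) else 0) = X.U := by
  have hk1 := h.kS_lt
  have hk2 := h.kU_le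
  rw [tk9_led_push hτ' ho (fun j => if X.kU ≤ j then (1 : ℝ) else 0), ← tk9_abel]
  rw [Finset.sum_eq_single (X.kU - 1)]
  · rw [if_pos (by omega), if_neg (by omega)]
    unfold LedCtx.U trPm
    rw [if_neg (by omega)]
    ring
  · intro j _ hj
    by_cases h1 : X.kU ≤ j
    · rw [if_pos (by omega), if_pos h1]; ring
    · rw [if_neg (by omega), if_neg h1]; ring
  · intro hn
    exact absurd (Finset.mem_range.mpr (by omega)) hn

/-- decomposition of the observed part over the old blocks -/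
theorem ltb6_split (h : X.Ok r Cb) {τ2 : ℕ → ℕ → ℕ} (h2 : LediExt X.Y.N X.q (X.q + 2) X.τ τ2) (hf : X.kU ≤ τ2 X.a X.q) :
    (if X.nw τ2 then 0 else X.Ph2 τ2) = ∑ o ∈ X.obs6, if X.kU ≤ τ2 o (X.q + 1) then X.Ph2 τ2 else 0 := by
  have ha := h.a_lt
  have hb := h.b_lt
  have hkU : X.kU ≤ X.Y.N + 1 := by have := h.kU_le; omega
  by_cases hn : X.nw τ2
  · rw [if_pos hn]
    refine (Finset.sum_eq_zero fun o ho => ?_).symm
    have ho' : o < X.q := Finset.mem_range.mp (Finset.mem_filter.mp ho).1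
    rw [if_neg (by have := hn o (by omega); omega)]
  · rw [if_neg hn]
    by_cases hc : X.c2 τ2
    · obtain ⟨o₀, ho₀, hoc⟩ : ∃ o₀, o₀ < X.q + 1 ∧ X.kU ≤ τ2 o₀ (X.q + 1) := by
        by_contra hcon
        exact hn fun o ho => by
          by_contra h'
          exact hcon ⟨o, ho, by omega⟩
      have hne : o₀ ≠ X.q := by
        rintro rfl
        have := leds_trans h2.tr (by omega : X.a < X.q + 2) (by omega : X.q < X.q + 2) (by omega : X.q + 1 < X.q + 2) hf hoc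
        have h3 := hc.2.1
        rw [h2.tr.symm _ _ (by omega) (by omega)] at h3
        omega
      have ho₀' : o₀ < X.q := by omega
      obtain ⟨a1, a2, a3⟩ := tra2_rp_spec h.tr ho₀' hkU
      set o := tra2Rp X.τ X.kU o₀ with hodef
      have hoq : o < X.q := by omega
      have b1 : X.kU ≤ τ2 o (X.q + 1) := by
        refine leds_trans h2.tr (by omega : o < X.q + 2) (by omega : o₀ < X.q + 2) (by omega) ?_ hoc
        rw [h2.old o o₀ hoq ho₀', h.tr.symm _ _ hoq ho₀']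
        exact a2
      have b1' : X.kU ≤ τ2 (X.q + 1) o := by rw [h2.tr.symm _ _ (by omega) (by omega)]; exact b1
      have b2 : X.τ o X.a < X.kU := by
        by_contra hcon
        have := leds_trans h2.tr (by omega : X.q + 1 < X.q + 2) (by omega : o < X.q + 2) (by omega : X.a < X.q + 2) b1'
          (by rw [h2.old o X.a hoq ha]; omega)
        have := hc.2.1
        omega
      have b3 : X.τ o X.b < X.kU := by
        by_contra hcon
        have := leds_trans h2.tr (by omega : X.q + 1 < X.q + 2) (by omega : o < X.q + 2) (by omega : X.b < X.q + 2) b1'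
          (by rw [h2.old o X.b hoq hb]; omega)
        have := hc.2.2
        omega
      rw [Finset.sum_eq_single o, if_pos b1]
      · intro o' ho' hne'
        have ho'm := Finset.mem_filter.mp ho'
        have ho'q : o' < X.q := Finset.mem_range.mp ho'm.1
        rw [if_neg]
        intro hcon
        have := leds_trans h2.tr (by omega : o' < X.q + 2) (by omega : X.q + 1 < X.q + 2) (by omega : o < X.q + 2) hcon b1'
        rw [h2.old o' o ho'q hoq] at this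
        exact hne' (trw_min_unique h.tr hoq ho'q a3 ho'm.2.1 this).symm
      · intro hcon
        exact absurd (Finset.mem_filter.mpr ⟨Finset.mem_range.mpr hoq, a3, b2, b3⟩) hcon
    · rw [ltb_Ph2_zero h h2 hc]
      simp

/-- `G2` on a table with known exterior splits -/
theorem ltb6_G2 (h : X.Ok r Cb) {τ2 : ℕ → ℕ → ℕ} (h2 : LediExt X.Y.N X.q (X.q + 2) X.τ τ2) {o : ℕ}
    (e1 : τ2 X.q (X.q + 1) = X.τ X.a o) (e2 : τ2 (X.q + 1) X.b = X.τ o X.b) :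
    X.G2 τ2 = X.Ab6 o τ2 - X.Y.K (X.τ X.a o) * X.Y.K (X.τ o X.b) * X.Y.nuR X.q X.τ X.P := by
  have M := ledr_mean h.sys h2.tr
  unfold LedCtx.G2 LedCtx.Ab6
  rw [e1, e2, ← ledr_prune_ext h.sys 2 h2 h.uses, ← M.smul, ← ledi_sub M]
  congr 1
  funext ω
  ring

theorem ltb6_fA_le (h : X.Ok r Cb) {x y : ℕ} (hx : x < X.q) (hy : y < X.q) (hxy : X.τ x y < X.kU) : X.fA (X.τ x y) ≤ X.At := by
  unfold LedCtx.At ledAt
  refine Finset.single_le_sum (f := X.fA) (fun j _ => ledr_fA_nonneg h j) ?_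
  rw [Finset.mem_filter]
  refine ⟨?_, Nat.zero_le _, hxy⟩
  unfold ledForks
  rw [Finset.mem_image]
  exact ⟨(x, y), by simp [hx, hy], rfl⟩

/-- the contribution of one observed block -/
theorem ltb6_blk (h : X.Ok r Cb) (hr : 2 ≤ r) {τ1 : ℕ → ℕ → ℕ} (h1 : LediExt X.Y.N X.q (X.q + 1) X.τ τ1) (hf : X.kU ≤ τ1 X.a X.q)
    {o : ℕ} (ho : o ∈ X.obs6) :
    |trSum X.Y.ms X.Y.N (X.q + 1) τ1 fun τ2 => if X.kU ≤ τ2 o (X.q + 1) then X.Ph2 τ2 else 0|
      ≤ 4 * (X.be * X.p0) + 4 * (X.U * (ledbC Cb (X.q + 2) * (X.p0 * Cb * (2 * X.At))))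
        + 2 * Cb * (2 * (X.q + 1 : ℕ) * (2 * (X.q + 2 : ℕ) * (ledbC Cb (X.q + 3) * (X.p0 * X.om) * X.pi))) := by
  have ha := h.a_lt
  have hb := h.b_lt
  have hkU : X.kU ≤ X.Y.N + 1 := by have := h.kU_le; omega
  have H := ledr_hyp h
  have hCb := ledb_Cb_nonneg H
  obtain ⟨hoq, -, hoa, hob⟩ : o < X.q ∧ trIsMin X.τ X.kU o ∧ X.τ o X.a < X.kU ∧ X.τ o X.b < X.kU := by
    have := Finset.mem_filter.mp ho
    exact ⟨Finset.mem_range.mp this.1, this.2⟩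
  set g := X.Y.gam X.kU (τ1 X.a X.q) with hg
  set τb := trAtt X.Y.N (X.q + 1) τ1 o X.kU with hτb
  have hb1 : LediExt X.Y.N (X.q + 1) (X.q + 1 + 1) τ1 τb :=
    ⟨tr_att_isTr h1.tr (by omega) hkU, fun y z hy hz => tr_att_old hy hz⟩
  have hb2 : LediExt X.Y.N X.q (X.q + 2) X.τ τb := ledi_ext_trans h1 hb1 (by omega)
  have hbo : X.kU ≤ τb o (X.q + 1) := by
    rw [hτb, trw_att_nr (by omega), h1.tr.diag o (by omega)]
    omega
  have hbf : X.kU ≤ τb X.a X.q := by rw [hb1.old _ _ (by omega) (by omega)]; exact hf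
  obtain ⟨-, fb1, fb2⟩ := ltb6_c2_of h hb2 hbf hoq hoa hob hbo
  -- the summand
  have key : ∀ τ2, LediExt X.Y.N (X.q + 1) (X.q + 1 + 1) τ1 τ2 → (if X.kU ≤ τ2 o (X.q + 1) then X.Ph2 τ2 else 0)
      = (g * X.chiR * X.chiR) * (if X.kU ≤ τ2 o (X.q + 1) then X.Ab6 o τ2 - X.Ab6 o τb else 0)
        + ((g * X.chiR * X.chiR * X.G2 τb) * (if X.kU ≤ τ2 o (X.q + 1) then 1 else 0)
        + (g * X.chiR * X.Y.b (X.τ o X.b)) * (if X.kU ≤ τ2 o (X.q + 1) then X.ErS τ2 else 0)) := by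
    intro τ2 h12
    have h2 : LediExt X.Y.N X.q (X.q + 2) X.τ τ2 := ledi_ext_trans h1 h12 (by omega)
    have hf2 : τ2 X.a X.q = τ1 X.a X.q := h12.old _ _ (by omega) (by omega)
    by_cases hoc : X.kU ≤ τ2 o (X.q + 1)
    · obtain ⟨hc, f1, f2⟩ := ltb6_c2_of h h2 (by rw [hf2]; exact hf) hoq hoa hob hoc
      simp only [if_pos hoc]
      unfold LedCtx.Ph2
      rw [leds_stepE h h2, ltb6_G2 h h2 f1 f2, ltb6_G2 h hb2 fb1 fb2, f2]
      unfold LedCtx.k2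
      rw [if_pos hc, hf2]
      ring
    · simp only [if_neg hoc]
      ring
  rw [leds_sum_congr h1.tr _ _ key, leds_sum_add, leds_sum_add, leds_sum_smul, leds_sum_smul, leds_sum_smul, ltb6_row h h1.tr (by omega)]
  -- the three bounds
  have hg1 : |g| ≤ 1 := leds_gam_le h (h1.tr.le _ _ (by omega) (by omega))
  have hchi := leds_chiR_le h
  have B1 : |trSum X.Y.ms X.Y.N (X.q + 1) τ1 fun τ2 => if X.kU ≤ τ2 o (X.q + 1) then X.Ab6 o τ2 - X.Ab6 o τb else 0| ≤ X.be * X.p0 :=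
    h.bdry τ1 o h1.tr h1.old hf hoq hoa hob
  have B2 : |X.G2 τb| ≤ ledbC Cb (X.q + 2) * (X.p0 * Cb * (2 * X.At)) := by
    have d := ledr_diff h hr hb2 (x := X.q) (y := X.q + 1) (z := X.q + 1) (w := X.b) (by omega) (by omega) (by omega) (by omega)
      (by omega) (by omega) rfl rfl (by rw [fb1, h.tr.symm _ _ ha hoq]; exact hoa) (by rw [fb2]; exact hob)
    refine d.trans (mul_le_mul_of_nonneg_left (mul_le_mul_of_nonneg_left ?_ (mul_nonneg h.p0_nonneg hCb)) (ledb_C_pos _ _).le)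
    rw [fb1, fb2]
    have c1 : X.cst (X.τ X.a o) = X.cst (X.τ o X.b) := by
      rw [ltb_cst h (ledi_ext_refl h.tr) le_rfl hoq, h.tr.symm _ _ hb hoq]
    have f1 := ltb6_fA_le h ha hoq (by rw [h.tr.symm _ _ ha hoq]; exact hoa)
    have f2 := ltb6_fA_le h hoq hb hob
    unfold LedCtx.fA at f1 f2
    rw [← c1] at f2 ⊢
    nlinarith [f1, f2]
  have hM : 0 ≤ 2 * (X.q + 2 : ℕ) * (ledbC Cb (X.q + 3) * (X.p0 * X.om) * X.pi) := by
    have := (ledb_C_pos Cb (X.q + 3)).le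
    have := h.p0_nonneg
    have := ledr_om_nonneg h
    have := h.pi_nonneg
    positivity
  have B3 : |trSum X.Y.ms X.Y.N (X.q + 1) τ1 fun τ2 => if X.kU ≤ τ2 o (X.q + 1) then X.ErS τ2 else 0|
      ≤ 2 * (X.q + 1 : ℕ) * (2 * (X.q + 2 : ℕ) * (ledbC Cb (X.q + 3) * (X.p0 * X.om) * X.pi)) := by
    refine leds_sum_le h h1.tr _ hM fun τ2 h12 => ?_
    have h2 : LediExt X.Y.N X.q (X.q + 2) X.τ τ2 := ledi_ext_trans h1 h12 (by omega)
    have hf2 : τ2 X.a X.q = τ1 X.a X.q := h12.old _ _ (by omega) (by omega)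
    by_cases hoc : X.kU ≤ τ2 o (X.q + 1)
    · rw [if_pos hoc]
      exact ltb_ErS h hr h2 (ltb6_c2_of h h2 (by rw [hf2]; exact hf) hoq hoa hob hoc).1 ⟨o, hoq, hoc⟩
    · rw [if_neg hoc, abs_zero]
      exact hM
  have hbb : |X.Y.b (X.τ o X.b)| ≤ Cb := by rw [abs_of_nonneg (ledb_b_nonneg H _)]; exact h.b_le _
  have hU := ltb_U_nonneg h
  have c0 : |g| * |X.chiR| ≤ 2 := by
    calc |g| * |X.chiR| ≤ 1 * 2 := mul_le_mul hg1 hchi (abs_nonneg _) zero_le_one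
      _ = 2 := by norm_num
  have c1 : |g * X.chiR * X.chiR| ≤ 4 := by
    rw [abs_mul, abs_mul]
    calc |g| * |X.chiR| * |X.chiR| ≤ 2 * 2 := mul_le_mul c0 hchi (abs_nonneg _) (by norm_num)
      _ = 4 := by norm_num
  have c3 : |g * X.chiR * X.Y.b (X.τ o X.b)| ≤ 2 * Cb := by
    rw [abs_mul, abs_mul]
    exact mul_le_mul c0 hbb (abs_nonneg _) (by norm_num)
  have t1 : |g * X.chiR * X.chiR * trSum X.Y.ms X.Y.N (X.q + 1) τ1 fun τ2 =>
      if X.kU ≤ τ2 o (X.q + 1) then X.Ab6 o τ2 - X.Ab6 o τb else 0| ≤ 4 * (X.be * X.p0) := by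
    rw [abs_mul]
    exact mul_le_mul c1 B1 (abs_nonneg _) (by norm_num)
  have t2 : |g * X.chiR * X.chiR * X.G2 τb * X.U| ≤ 4 * (X.U * (ledbC Cb (X.q + 2) * (X.p0 * Cb * (2 * X.At)))) := by
    rw [abs_mul, abs_mul, abs_of_nonneg hU, mul_assoc, mul_comm |X.G2 τb|]
    exact mul_le_mul c1 (mul_le_mul_of_nonneg_left B2 hU) (mul_nonneg hU (abs_nonneg _)) (by norm_num)
  have t3 : |g * X.chiR * X.Y.b (X.τ o X.b) * trSum X.Y.ms X.Y.N (X.q + 1) τ1 fun τ2 =>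
      if X.kU ≤ τ2 o (X.q + 1) then X.ErS τ2 else 0|
      ≤ 2 * Cb * (2 * (X.q + 1 : ℕ) * (2 * (X.q + 2 : ℕ) * (ledbC Cb (X.q + 3) * (X.p0 * X.om) * X.pi))) := by
    rw [abs_mul]
    exact mul_le_mul c3 B3 (abs_nonneg _) (by positivity)
  have s1 := abs_add_le (g * X.chiR * X.chiR * trSum X.Y.ms X.Y.N (X.q + 1) τ1 fun τ2 =>
      if X.kU ≤ τ2 o (X.q + 1) then X.Ab6 o τ2 - X.Ab6 o τb else 0)
    (g * X.chiR * X.chiR * X.G2 τb * X.U + g * X.chiR * X.Y.b (X.τ o X.b) * trSum X.Y.ms X.Y.N (X.q + 1) τ1 fun τ2 =>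
      if X.kU ≤ τ2 o (X.q + 1) then X.ErS τ2 else 0)
  have s2 := abs_add_le (g * X.chiR * X.chiR * X.G2 τb * X.U) (g * X.chiR * X.Y.b (X.τ o X.b) * trSum X.Y.ms X.Y.N (X.q + 1) τ1 fun τ2 =>
      if X.kU ≤ τ2 o (X.q + 1) then X.ErS τ2 else 0)
  linarith

/-- step 5: **observed third block** (PE l.626-651) -/
theorem ltb_obs (q r : ℕ) (hr : 2 ≤ r) (Cb : ℝ) : ∃ C : ℝ, 0 ≤ C ∧ ∀ (Ω : Type) (X : LedCtx Ω), X.q = q → X.Ok r Cb →
    ∀ τ1 : ℕ → ℕ → ℕ, LediExt X.Y.N X.q (X.q + 1) X.τ τ1 → X.kU ≤ τ1 X.a X.q →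
      |trSum X.Y.ms X.Y.N (X.q + 1) τ1 fun τ2 => if X.nw τ2 then 0 else X.Ph2 τ2| ≤ C * X.p0 * (X.U * X.At + X.om * X.pi + X.be) := by
  have hL2 := (ledb_C_pos Cb (q + 2)).le
  have hL3 := (ledb_C_pos Cb (q + 3)).le
  refine ⟨q * (4 + 8 * ledbC Cb (q + 2) * |Cb| + 8 * |Cb| * ((q + 1 : ℕ) * (q + 2 : ℕ)) * ledbC Cb (q + 3)), by positivity, ?_⟩
  intro Ω X hq h τ1 h1 hf
  subst hq
  have hCb := ledb_Cb_nonneg (ledr_hyp h)
  rw [abs_of_nonneg hCb]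
  rw [leds_sum_congr h1.tr _ _ fun τ2 h12 => ltb6_split h (ledi_ext_trans h1 h12 (by omega))
    (by rw [h12.old _ _ (by have := h.a_lt; omega) (by omega)]; exact hf)]
  have e := ledi_sumK_fsum (ms := X.Y.ms) (N := X.Y.N) X.obs6 1 (X.q + 1) τ1 fun o τ2 => if X.kU ≤ τ2 o (X.q + 1) then X.Ph2 τ2 else 0
  have e' : trSum X.Y.ms X.Y.N (X.q + 1) τ1 (fun τ2 => ∑ o ∈ X.obs6, if X.kU ≤ τ2 o (X.q + 1) then X.Ph2 τ2 else 0)
      = ∑ o ∈ X.obs6, trSum X.Y.ms X.Y.N (X.q + 1) τ1 fun τ2 => if X.kU ≤ τ2 o (X.q + 1) then X.Ph2 τ2 else 0 := e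
  rw [e']
  have hx : 0 ≤ X.p0 * (X.U * X.At) := mul_nonneg h.p0_nonneg (mul_nonneg (ltb_U_nonneg h) (ltb_At_nonneg h))
  have hy : 0 ≤ X.p0 * (X.om * X.pi) := mul_nonneg h.p0_nonneg (mul_nonneg (ledr_om_nonneg h) h.pi_nonneg)
  have hz : 0 ≤ X.p0 * X.be := mul_nonneg h.p0_nonneg h.be_nonneg
  have hc2 : 0 ≤ 8 * ledbC Cb (X.q + 2) * Cb := by positivity
  have hc3 : 0 ≤ 8 * Cb * ((X.q + 1 : ℕ) * (X.q + 2 : ℕ)) * ledbC Cb (X.q + 3) := by positivity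
  have hB : 0 ≤ 4 * (X.p0 * X.be) + 8 * ledbC Cb (X.q + 2) * Cb * (X.p0 * (X.U * X.At))
      + 8 * Cb * ((X.q + 1 : ℕ) * (X.q + 2 : ℕ)) * ledbC Cb (X.q + 3) * (X.p0 * (X.om * X.pi)) := by positivity
  have hcard : (X.obs6.card : ℝ) ≤ X.q := by
    have : X.obs6.card ≤ X.q := by
      unfold LedCtx.obs6
      exact (Finset.card_filter_le _ _).trans (by rw [Finset.card_range])
    exact_mod_cast this
  calc |∑ o ∈ X.obs6, trSum X.Y.ms X.Y.N (X.q + 1) τ1 fun τ2 => if X.kU ≤ τ2 o (X.q + 1) then X.Ph2 τ2 else 0|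
      ≤ ∑ o ∈ X.obs6, |trSum X.Y.ms X.Y.N (X.q + 1) τ1 fun τ2 => if X.kU ≤ τ2 o (X.q + 1) then X.Ph2 τ2 else 0| :=
        Finset.abs_sum_le_sum_abs _ _
    _ ≤ ∑ _o ∈ X.obs6, (4 * (X.p0 * X.be) + 8 * ledbC Cb (X.q + 2) * Cb * (X.p0 * (X.U * X.At))
          + 8 * Cb * ((X.q + 1 : ℕ) * (X.q + 2 : ℕ)) * ledbC Cb (X.q + 3) * (X.p0 * (X.om * X.pi))) :=
        Finset.sum_le_sum fun o ho => (ltb6_blk h hr h1 hf ho).trans (le_of_eq (by ring))
    _ = X.obs6.card * (4 * (X.p0 * X.be) + 8 * ledbC Cb (X.q + 2) * Cb * (X.p0 * (X.U * X.At))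
          + 8 * Cb * ((X.q + 1 : ℕ) * (X.q + 2 : ℕ)) * ledbC Cb (X.q + 3) * (X.p0 * (X.om * X.pi))) := by
        rw [Finset.sum_const, nsmul_eq_mul]
    _ ≤ X.q * (4 * (X.p0 * X.be) + 8 * ledbC Cb (X.q + 2) * Cb * (X.p0 * (X.U * X.At))
          + 8 * Cb * ((X.q + 1 : ℕ) * (X.q + 2 : ℕ)) * ledbC Cb (X.q + 3) * (X.p0 * (X.om * X.pi))) :=
        mul_le_mul_of_nonneg_right hcard hB
    _ ≤ X.q * ((4 + 8 * ledbC Cb (X.q + 2) * Cb + 8 * Cb * ((X.q + 1 : ℕ) * (X.q + 2 : ℕ)) * ledbC Cb (X.q + 3))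
          * (X.p0 * (X.U * X.At) + X.p0 * (X.om * X.pi) + X.p0 * X.be)) := by
        refine mul_le_mul_of_nonneg_left ?_ (Nat.cast_nonneg _)
        nlinarith [mul_nonneg hc2 hy, mul_nonneg hc2 hz, mul_nonneg hc3 hx, mul_nonneg hc3 hz]
    _ = _ := by ring

/-! ### step 6 (helper204) -/

theorem ltb_In_le (h : X.Ok r Cb) : X.In ≤ X.om * X.Y.intM 0 X.kU X.Y.D := by
  unfold LedCtx.In LedSys.intM LedSys.dM
  rw [Finset.mul_sum, Finset.range_eq_Ico]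
  refine Finset.sum_le_sum fun j hj => ?_
  have hj' := (Finset.mem_Ico.1 hj).2
  have hkU := h.kU_le
  have h0 : 0 ≤ X.Y.ms j - trPm X.Y.ms j := trw_step_nonneg h.sys.ms_ok (by omega)
  have h1 : X.fA j ≤ X.om * X.Y.D j := by
    unfold LedCtx.fA
    rw [mul_comm]
    exact mul_le_mul_of_nonneg_right (ledr_cst_le h j) (ledr_D_nonneg j)
  calc (X.Y.ms j - trPm X.Y.ms j) * X.fA j ≤ (X.Y.ms j - trPm X.Y.ms j) * (X.om * X.Y.D j) := mul_le_mul_of_nonneg_left h1 h0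
    _ = X.om * ((X.Y.ms j - trPm X.Y.ms j) * X.Y.D j) := by ring

theorem ltb_At_eq (h : X.Ok r Cb) : X.At = X.om * ledAt X.q X.τ X.kV X.kU X.Y.D + X.xi * X.EV := by
  have hk : X.kV ≤ X.kU := by have := h.kV_le; have := h.kS_lt; omega
  unfold LedCtx.At LedCtx.EV ledAt
  rw [Finset.mul_sum, Finset.mul_sum]
  have e : (ledForks X.q X.τ).filter (fun j => 0 ≤ j ∧ j < X.kU)
      = (ledForks X.q X.τ).filter (fun j => X.kV ≤ j ∧ j < X.kU) ∪ (ledForks X.q X.τ).filter (fun j => 0 ≤ j ∧ j < X.kV) := by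
    ext j
    simp only [Finset.mem_union, Finset.mem_filter]
    constructor
    · rintro ⟨a1, _, a3⟩
      by_cases hj : j < X.kV
      · exact Or.inr ⟨a1, Nat.zero_le _, hj⟩
      · exact Or.inl ⟨a1, by omega, a3⟩
    · rintro (⟨a1, _, a3⟩ | ⟨a1, _, a3⟩)
      · exact ⟨a1, Nat.zero_le _, a3⟩
      · exact ⟨a1, Nat.zero_le _, by omega⟩
  have hd : Disjoint ((ledForks X.q X.τ).filter (fun j => X.kV ≤ j ∧ j < X.kU)) ((ledForks X.q X.τ).filter (fun j => 0 ≤ j ∧ j < X.kV)) := by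
    rw [Finset.disjoint_left]
    intro j h1 h2
    have a1 := (Finset.mem_filter.1 h1).2
    have a2 := (Finset.mem_filter.1 h2).2
    omega
  rw [e, Finset.sum_union hd]
  congr 1
  · refine Finset.sum_congr rfl fun j hj => ?_
    have a1 := (Finset.mem_filter.1 hj).2
    unfold LedCtx.fA LedCtx.cst
    rw [if_neg (by omega), mul_comm]
  · refine Finset.sum_congr rfl fun j hj => ?_
    have a1 := (Finset.mem_filter.1 hj).2
    unfold LedCtx.fA LedCtx.cst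
    rw [if_pos a1.2, mul_comm]

/-- `TB` as the double sum over `f`, `c` -/
theorem ltb_TB (h : X.Ok r Cb) : X.TB = trSum X.Y.ms X.Y.N X.q X.τ fun τ1 => trSum X.Y.ms X.Y.N (X.q + 1) τ1 X.Ph2 := by
  rw [leds_TB h]
  show trSum X.Y.ms X.Y.N X.q X.τ (fun τ1 => trSum X.Y.ms X.Y.N (X.q + 1) τ1 fun τ2 => trSum X.Y.ms X.Y.N (X.q + 2) τ2 fun τ3 =>
    trSum X.Y.ms X.Y.N (X.q + 3) τ3 fun τ' => X.Y.kapT X.kU X.q X.a X.b τ' * X.G4 τ') = _
  refine leds_sum_congr h.tr _ _ fun τ1 h1 => ?_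
  refine leds_sum_congr h1.tr _ _ fun τ2 h2 => ?_
  unfold LedCtx.Ph2
  refine leds_sum_congr h2.tr _ _ fun τ3 h3 => ?_
  exact leds_stepD h (ledi_ext_trans (ledi_ext_trans h1 h2 (by omega)) h3 (by omega))

/-- the summand vanishes unless `f ∈ A` -/
theorem ltb_Ph2_zeroA (h : X.Ok r Cb) {τ1 : ℕ → ℕ → ℕ} (h1 : LediExt X.Y.N X.q (X.q + 1) X.τ τ1) (hk : ¬ X.kU ≤ τ1 X.a X.q) :
    trSum X.Y.ms X.Y.N (X.q + 1) τ1 X.Ph2 = 0 := by
  have ha := h.a_lt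
  have e : trSum X.Y.ms X.Y.N (X.q + 1) τ1 X.Ph2 = trSum X.Y.ms X.Y.N (X.q + 1) τ1 fun _ => 0 * 0 := by
    refine leds_sum_congr h1.tr _ _ fun τ2 h2 => ?_
    unfold LedCtx.Ph2
    have e2 : trSum X.Y.ms X.Y.N (X.q + 2) τ2 (fun τ3 => X.k3 τ3 * X.chiR * X.G3 τ3)
        = trSum X.Y.ms X.Y.N (X.q + 2) τ2 fun _ => 0 * 0 := by
      refine leds_sum_congr h2.tr _ _ fun τ3 h3 => ?_
      have o1 : τ3 X.a X.q = τ1 X.a X.q := by
        rw [h3.old _ _ (by omega) (by omega), h2.old _ _ (by omega) (by omega)]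
      unfold LedCtx.k3
      rw [if_neg (fun hc : X.c2 τ3 => hk (o1 ▸ hc.1))]
      ring
    rw [e2, leds_sum_smul, zero_mul, zero_mul]
  rw [e, leds_sum_smul, zero_mul]

/-- **Bd9** (PE ledger lines 6-7, l.608-651: third block, new and old). -/
theorem ltb_Bd9 (q r : ℕ) (hr : 5 ≤ r) (Cb : ℝ) : ∃ C : ℝ, 0 ≤ C ∧ ∀ (Ω : Type) (X : LedCtx Ω), X.q = q → X.Ok r Cb →
    |X.TB| ≤ C * X.p0 * (X.om * X.Y.intM 0 X.kU X.Y.D + X.U * (X.om * ledAt X.q X.τ X.kV X.kU X.Y.D + X.xi * X.EV)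
      + X.om * X.pi + X.be) := by
  obtain ⟨C1, hC1, h1⟩ := ltb_new q r (by omega) Cb
  obtain ⟨C2, hC2, h2⟩ := ltb_obs q r (by omega) Cb
  refine ⟨2 * q * (C1 + C2), by positivity, fun Ω X hq h => ?_⟩
  have hp := h.p0_nonneg
  have hkU := h.kU_le
  have hIn0 : 0 ≤ X.In := Finset.sum_nonneg fun j hj =>
    mul_nonneg (trw_step_nonneg h.sys.ms_ok (by have := Finset.mem_range.1 hj; omega)) (ledr_fA_nonneg h j)
  have hAt0 : 0 ≤ X.At := Finset.sum_nonneg fun j _ => ledr_fA_nonneg h j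
  have hU0 : 0 ≤ X.U := by
    unfold LedCtx.U trPm
    split_ifs
    · exact le_rfl
    · exact h.sys.ms_ok.nonneg _
  have hop : 0 ≤ X.om * X.pi := mul_nonneg (ledr_om_nonneg h) h.pi_nonneg
  have hbe := h.be_nonneg
  have hUA : 0 ≤ X.U * X.At := mul_nonneg hU0 hAt0
  obtain ⟨T, hT⟩ : ∃ T, T = X.In + X.U * X.At + X.om * X.pi + X.be := ⟨_, rfl⟩
  have hT0 : 0 ≤ T := by rw [hT]; linarith
  have hB : 0 ≤ (C1 + C2) * X.p0 * T := by positivity
  have hS : ∀ τ1, LediExt X.Y.N X.q (X.q + 1) X.τ τ1 → |trSum X.Y.ms X.Y.N (X.q + 1) τ1 X.Ph2| ≤ (C1 + C2) * X.p0 * T := by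
    intro τ1 h1'
    by_cases hk : X.kU ≤ τ1 X.a X.q
    · have e : trSum X.Y.ms X.Y.N (X.q + 1) τ1 X.Ph2
          = trSum X.Y.ms X.Y.N (X.q + 1) τ1 (fun τ2 => if X.nw τ2 then X.Ph2 τ2 else 0)
            + trSum X.Y.ms X.Y.N (X.q + 1) τ1 (fun τ2 => if X.nw τ2 then 0 else X.Ph2 τ2) := by
        rw [← leds_sum_add]
        congr 1; funext τ2
        split_ifs <;> simp
      rw [e]
      refine (abs_add_le _ _).trans ?_
      have a1 := h1 Ω X hq h τ1 h1' hk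
      have a2 := h2 Ω X hq h τ1 h1' hk
      have b1 : C1 * X.p0 * (X.In + X.U * X.At) ≤ C1 * X.p0 * T :=
        mul_le_mul_of_nonneg_left (by rw [hT]; linarith) (mul_nonneg hC1 hp)
      have b2 : C2 * X.p0 * (X.U * X.At + X.om * X.pi + X.be) ≤ C2 * X.p0 * T :=
        mul_le_mul_of_nonneg_left (by rw [hT]; linarith) (mul_nonneg hC2 hp)
      calc _ ≤ C1 * X.p0 * T + C2 * X.p0 * T := add_le_add (a1.trans b1) (a2.trans b2)
        _ = _ := by ring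
    · rw [ltb_Ph2_zeroA h h1' hk, abs_zero]; exact hB
  have hfin := leds_sum_le h h.tr _ hB hS
  rw [← ltb_TB h, hq] at hfin
  refine hfin.trans ?_
  have hT' : T ≤ X.om * X.Y.intM 0 X.kU X.Y.D + X.U * (X.om * ledAt X.q X.τ X.kV X.kU X.Y.D + X.xi * X.EV) + X.om * X.pi + X.be := by
    rw [hT, ← ltb_At_eq h]
    linarith [ltb_In_le h]
  calc 2 * (q : ℝ) * ((C1 + C2) * X.p0 * T) = 2 * q * (C1 + C2) * X.p0 * T := by ring
    _ ≤ _ := mul_le_mul_of_nonneg_left hT' (by positivity)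

end Claimed.Agent.R286
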