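import Claimed.Agent.R286.Cav.LedTerms
import Claimed.Agent.R286.Cav.LedBd58
import Claimed.Agent.R286.Cav.LedTb
import Claimed.Agent.R286.Cav.LedSc
import Claimed.Agent.R286.Cav.LedBd
import Claimed.Agent.R286.Cav.LedTayC
import Claimed.Agent.R286.Cav.LedRet
import Claimed.Agent.R286.Cav.LedId

/-!
# Row 286 (S0533), unit Cav, file LedLeaves      (owner of the STATEMENTS: helper204)

THE LEAVES of `led_main` (plan: origin/helper204:notes/R286/LED_PLAN_204.md).   Each leaf has an OWNER; he proves the SAME statement in his own file (any name) and then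
replaces the `sorry` here by `exact ..` (adding the import).   A statement you believe false or unprovable = one line to helper204.
 Z1-Z3, M0-M2   zeros and identifications of the end points                      owner 116  (file Cav/LedRet*.lean)
 I1-I3          identification of the retained terms at `l = t = 0`              owner 116  (scalar parity table, χ, c₁, c₂: owner 193, file Cav/LedSc.lean)
 G1             derivatives of `g`                                                owner 193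
 Bd1-Bd4        third low remainder (incl. parity below `kV`), `A''`, `B'`        owner 32   (file Cav/LedKit*.lean)
 Bd5-Bd8        restorations of `C` and `H`                                       owner 116 on the kit of 32
 Bd9            third block, new and old                                          owner 191  (file Cav/LedTb*.lean)
 The chains (derivatives, continuity), Taylor and the glue `led_main`             owner 201  (file Cav/LedTay*.lean)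
-/

set_option autoImplicit false

namespace Claimed.Agent.R286

open Finset

variable {Ω : Type}

/-! ### helpers of Z1-Z3, M0-M2 (helper208; prefix `ledz_`) -/

theorem ledz_ins_nil (Y : LedSys Ω) (lam : ℕ → ℝ) (t : ℝ) (q : ℕ) (τ : ℕ → ℕ → ℕ) (J : (ℕ → Bool × Ω) → ℝ) :
    Y.ins lam t q τ J [] = Y.nu lam t q τ J := by
  show 1 * Y.nu lam t (q + 0) τ (fun σ => J σ * 1) = _
  simp

/-- a test which is odd under an admissible block flip has mean zero -/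
theorem ledz_odd_zero {Y : LedSys Ω} (hY : Y.Ok) {lam : ℕ → ℝ} (hlam : LedProf lam) {t : ℝ} (ht : t ∈ Set.Icc (0 : ℝ) 1) {q : ℕ}
    {τ : ℕ → ℕ → ℕ} (hτ : IsTr Y.N q τ) {G : (ℕ → Bool × Ω) → ℝ} (hG : TrUses q G) {k x : ℕ} (hx : x < q)
    (hk : ∀ r, r < k → lam r = 0) (hodd : ∀ σ, G (ledFlip τ k x σ) = - G σ) : Y.nu lam t q τ G = 0 := by
  have h1 := hY.flip lam t q τ G k x hlam ht hτ hG hx hk
  have h2 : (fun σ => G (ledFlip τ k x σ)) = fun σ => (-1) * G σ := by funext σ; rw [hodd]; ring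
  rw [h2, (hY.mean lam t q τ hlam ht hτ).smul] at h1
  linarith

theorem ledz_lam_zero (k r : ℕ) (h : r < k) : ledLam k 0 r = 0 := by simp [ledLam, h]

theorem ledz_sg_not (s : Bool) : ledSg (!s) = - ledSg s := by cases s <;> simp [ledSg]

theorem ledz_rs_flip (τ : ℕ → ℕ → ℕ) (k x : ℕ) (σ : ℕ → Bool × Ω) : ledRs (ledFlip τ k x σ) = ledRs σ := by
  funext i
  unfold ledRs ledFlip
  split_ifs <;> rfl

theorem ledz_a_ne_b (X : LedCtx Ω) {r : ℕ} {Cb : ℝ} (h : X.Ok r Cb) : X.a ≠ X.b := by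
  intro e
  have h1 := h.split
  rw [e, h.tr.diag _ h.b_lt] at h1
  have := h.kS_lt; have := h.kU_le
  omega

theorem ledz_J0_uses (X : LedCtx Ω) {r : ℕ} {Cb : ℝ} (h : X.Ok r Cb) : TrUses X.q X.J0 := by
  intro σ σ' hs
  exact h.uses _ _ fun i hi => by unfold ledRs; rw [hs i hi]

theorem ledz_J1_uses (X : LedCtx Ω) {r : ℕ} {Cb : ℝ} (h : X.Ok r Cb) : TrUses X.q X.J1 := by
  intro σ σ' hs
  unfold LedCtx.J1
  rw [hs _ h.a_lt, hs _ h.b_lt, h.uses (ledRs σ) (ledRs σ') fun i hi => by unfold ledRs; rw [hs i hi]]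

/-- `g(0) = 0` -/
theorem ledz_gD_zero (X : LedCtx Ω) {r : ℕ} {Cb : ℝ} (h : X.Ok r Cb) : X.Y.gD X.kU X.kS 0 0 = 0 := by
  unfold LedSys.gD
  rw [List.replicate_zero, ledz_ins_nil]
  have hkS : X.kS ≤ X.Y.N + 1 := by have := h.kS_lt; have := h.kU_le; omega
  refine ledz_odd_zero h.sys (ledt_prof X.kU ⟨le_rfl, zero_le_one⟩) ⟨le_rfl, zero_le_one⟩ (ledt_pair_isTr hkS 2) ?_
    (k := X.kU) (x := 1) (by norm_num) (fun r hr => ledz_lam_zero _ _ hr) ?_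
  · intro σ σ' hs
    simp only
    rw [hs 0 (by norm_num), hs 1 (by norm_num)]
  · intro σ
    have h0 : ledFlip (ledPair X.Y.N X.kS) X.kU 1 σ 0 = σ 0 := by
      have e : ledPair X.Y.N X.kS 1 0 = X.kS := by simp [ledPair]
      unfold ledFlip
      rw [e, if_neg (by have := h.kS_lt; omega)]
    have h1 : ledFlip (ledPair X.Y.N X.kS) X.kU 1 σ 1 = (!(σ 1).1, (σ 1).2) := by
      have e : ledPair X.Y.N X.kS 1 1 = X.Y.N + 1 := by simp [ledPair]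
      unfold ledFlip
      rw [e, if_pos (by have := h.kU_le; omega)]
    rw [h0, h1, ledz_sg_not]
    ring

/-- `F(l,0) = 0`: at `t = 0` the site and the rest factor -/
theorem ledz_F_zero (X : LedCtx Ω) {r : ℕ} {Cb : ℝ} (h : X.Ok r Cb) {l : ℝ} (hl : l ∈ Set.Icc (0 : ℝ) 1) : X.FF 0 0 l 0 0 = 0 := by
  unfold LedCtx.FF
  simp only [List.replicate_zero, List.append_nil, ledz_ins_nil, zero_add, Finset.sum_range_one, Nat.choose_self, Nat.cast_one,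
    one_mul, Nat.sub_self]
  have hp := ledt_prof X.kU hl
  have h1 := h.sys.factor (ledLam X.kU l) X.q X.τ (fun s => ledSg (s X.a) * ledSg (s X.b)) X.P hp h.tr
  have h2 := ledt_marg2 h.sys hp (t := 0) ⟨le_rfl, zero_le_one⟩ h.tr h.a_lt h.b_lt (ledz_a_ne_b X h)
    (fun x y => ledSg x.1 * ledSg y.1)
  have h3 : X.Y.gD X.kU X.kS 0 l = X.Y.nu (ledLam X.kU l) 0 2 (ledPair X.Y.N X.kS) fun σ => ledSg (σ 0).1 * ledSg (σ 1).1 := by
    unfold LedSys.gD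
    rw [List.replicate_zero, ledz_ins_nil]
  rw [h.split] at h2
  rw [h3, ← h2]
  have h4 : X.J1 = fun σ => (fun s : ℕ → Bool => ledSg (s X.a) * ledSg (s X.b)) (fun i => (σ i).1) * X.P fun i => (σ i).2 := rfl
  have h5 : X.J0 = fun σ => X.P fun i => (σ i).2 := rfl
  rw [h4, h5, h1]
  ring

theorem ledz_sumK_zero {N : ℕ} {ms : ℕ → ℝ} (k q : ℕ) (τ : ℕ → ℕ → ℕ) : trSumK ms N k q τ (fun _ => 0) = 0 := by
  have := ledt_sumK_smul (N := N) (ms := ms) k q τ 0 (fun _ => 0)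
  simpa using this

/-! ### zeros and end points -/

/-- Z1 (PE l.457 `F(0,t) = 0`): flip of the block of `b`. -/
theorem led_Z1 (X : LedCtx Ω) (r : ℕ) (Cb : ℝ) (h : X.Ok r Cb) (t s : ℝ) (ht : t ∈ Set.Icc (0 : ℝ) 1) : X.FF 0 0 0 t s = 0 := by
  unfold LedCtx.FF
  simp only [List.replicate_zero, List.append_nil, ledz_ins_nil, zero_add, Finset.sum_range_one, Nat.choose_self, Nat.cast_one,
    one_mul, ledz_gD_zero X h, zero_mul, sub_zero, Nat.sub_self]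
  refine ledz_odd_zero h.sys (ledt_prof X.kU ⟨le_rfl, zero_le_one⟩) ht h.tr (ledz_J1_uses X h) (k := X.kU) (x := X.b) h.b_lt
    (fun r hr => ledz_lam_zero _ _ hr) ?_
  intro σ
  unfold LedCtx.J1
  have ha : ledFlip X.τ X.kU X.b σ X.a = σ X.a := by
    unfold ledFlip
    rw [if_neg (by have := h.alone X.a h.a_lt (ledz_a_ne_b X h); omega)]
  have hb : ledFlip X.τ X.kU X.b σ X.b = (!(σ X.b).1, (σ X.b).2) := by
    unfold ledFlip
    rw [if_pos (by rw [h.tr.diag _ h.b_lt]; have := h.kU_le; omega)]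
  rw [ha, hb, ledz_rs_flip, ledz_sg_not]
  ring

/-- Z2 (PE l.457 `F(l,0) = 0`, three times differentiated). -/
theorem led_Z2 (X : LedCtx Ω) (r : ℕ) (Cb : ℝ) (h : X.Ok r Cb) (l : ℝ) (hl : l ∈ Set.Ioo (0 : ℝ) 1) : X.FF 3 0 l 0 0 = 0 :=
  ledt_chain_zero (led_ch_FF_l h (t := 0) ⟨le_rfl, zero_le_one⟩) (fun _ hθ => ledz_F_zero X h ⟨hθ.1.le, hθ.2.le⟩) 3 l hl

/-- Z3 (PE l.582-584): the first low derivative of the centred first coefficient vanishes by block parity. -/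
theorem led_Z3 (X : LedCtx Ω) (r : ℕ) (Cb : ℝ) (h : X.Ok r Cb) : X.CC 0 1 0 1 = 0 := by
  unfold LedCtx.CC LedSys.tm
  show trSumK X.Y.ms X.Y.N 4 X.q X.τ _ = 0
  refine (tr_sumK_congr h.tr 4 _ (fun _ => 0) fun τ' hτ' _ => ?_).trans (ledz_sumK_zero 4 X.q X.τ)
  have key : X.Y.nu (ledLam X.kU 0) 1 (X.q + 4) τ' (fun σ => X.J0 σ * ledFacs ((X.q, X.q + 1, fun _ x y => X.Y.dl X.kS x.2 y.2) ::
      ledPairs (X.q + 2) (List.replicate 0 (X.Y.kE X.kU 0) ++ List.replicate 1 (X.Y.kLow X.kU 1))) τ' σ) = 0 := by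
    have hfac : ∀ σ : ℕ → Bool × Ω, ledFacs ((X.q, X.q + 1, fun _ x y => X.Y.dl X.kS x.2 y.2) ::
        ledPairs (X.q + 2) (List.replicate 0 (X.Y.kE X.kU 0) ++ List.replicate 1 (X.Y.kLow X.kU 1))) τ' σ
        = X.Y.dl X.kS (σ X.q).2 (σ (X.q + 1)).2 * X.Y.kLow X.kU 1 (τ' (X.q + 2) (X.q + 3)) (σ (X.q + 2)) (σ (X.q + 3)) := by
      intro σ
      simp [ledFacs, ledPairs]
    simp only [hfac]
    have hp := ledt_prof X.kU (l := 0) ⟨le_rfl, zero_le_one⟩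
    have h1 : (1 : ℝ) ∈ Set.Icc (0 : ℝ) 1 := ⟨zero_le_one, le_rfl⟩
    by_cases hc : τ' (X.q + 2) (X.q + 3) < X.kU
    · refine ledz_odd_zero h.sys hp h1 hτ' ?_ (k := X.kU) (x := X.q + 3) (by omega) (fun r hr => ledz_lam_zero _ _ hr) ?_
      · intro σ σ' hs
        simp only
        rw [ledz_J0_uses X h σ σ' fun i hi => hs i (by omega), hs X.q (by omega), hs (X.q + 1) (by omega), hs (X.q + 2) (by omega),
          hs (X.q + 3) (by omega)]
      · intro σ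
        have e2 : ledFlip τ' X.kU (X.q + 3) σ (X.q + 2) = σ (X.q + 2) := by
          unfold ledFlip
          rw [if_neg (by rw [hτ'.symm _ _ (by omega) (by omega)]; omega)]
        have e3 : ledFlip τ' X.kU (X.q + 3) σ (X.q + 3) = (!(σ (X.q + 3)).1, (σ (X.q + 3)).2) := by
          unfold ledFlip
          rw [if_pos (by rw [hτ'.diag _ (by omega)]; have := h.kU_le; omega)]
        have e0 : ∀ i, (ledFlip τ' X.kU (X.q + 3) σ i).2 = (σ i).2 := fun i => congrFun (ledz_rs_flip τ' X.kU (X.q + 3) σ) i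
        unfold LedCtx.J0
        rw [ledz_rs_flip, e0, e0, e2, e3]
        unfold LedSys.kLow LedSys.kRow
        simp only [if_pos hc, ledz_sg_not]
        ring
    · have hz : (fun σ : ℕ → Bool × Ω => X.J0 σ * (X.Y.dl X.kS (σ X.q).2 (σ (X.q + 1)).2 *
          X.Y.kLow X.kU 1 (τ' (X.q + 2) (X.q + 3)) (σ (X.q + 2)) (σ (X.q + 3)))) = fun σ => 0 * X.J0 σ := by
        funext σ
        unfold LedSys.kLow
        rw [if_neg hc]
        ring
      rw [hz, (h.sys.mean _ _ _ _ hp h1 hτ').smul, zero_mul]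
  exact (congrArg (fun z => X.Y.kapC X.kU X.q X.a X.b τ' * z) key).trans (mul_zero _)

theorem led_M0 (X : LedCtx Ω) (r : ℕ) (Cb : ℝ) (h : X.Ok r Cb) :
    X.FF 0 0 1 1 1 = X.Y.act X.q X.τ X.J1 - X.Y.Gam X.kS * X.Y.act X.q X.τ X.J0 := by
  unfold LedCtx.FF
  simp only [List.replicate_zero, List.append_nil, ledz_ins_nil, zero_add, Finset.sum_range_one, Nat.choose_self, Nat.cast_one,
    one_mul, ledt_lam_one, Nat.sub_self]
  have : X.Y.gD X.kU X.kS 0 1 = X.Y.Gam X.kS := by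
    unfold LedSys.gD
    rw [List.replicate_zero, ledz_ins_nil, ledt_lam_one]
    rfl
  rw [this]
  rfl

theorem led_M1 (X : LedCtx Ω) (r : ℕ) (Cb : ℝ) (h : X.Ok r Cb) : X.CC 0 0 1 1 = X.Y.main1 X.kU X.kS X.q X.τ X.a X.b X.P := by
  unfold LedCtx.CC LedSys.main1 LedSys.tm
  rw [ledt_lam_one]
  show trSumK X.Y.ms X.Y.N 2 X.q X.τ _ = _
  congr 1
  funext τ'
  unfold LedSys.kapC LedSys.act
  congr 2
  funext σ
  simp [ledFacs, ledPairs, LedCtx.J0]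
  ring

theorem led_M2 (X : LedCtx Ω) (r : ℕ) (Cb : ℝ) (h : X.Ok r Cb) : X.HH 0 0 1 1 = X.Y.main2 X.kU X.kS X.q X.τ X.a X.b X.P := by
  unfold LedCtx.HH LedSys.main2 LedSys.tm
  rw [ledt_lam_one]
  show trSumK X.Y.ms X.Y.N 4 X.q X.τ _ = _
  congr 1
  funext τ'
  unfold LedSys.act
  congr 2
  funext σ
  simp [ledFacs, ledPairs, LedCtx.J0, LedSys.kD]
  ring

/-! ### identifications at `l = t = 0` -/

/-- I1 (PE l.558-566): `A(0) = C(0)`. -/
theorem led_I1 (X : LedCtx Ω) (r : ℕ) (Cb : ℝ) (h : X.Ok r Cb) : X.FF 1 0 0 0 1 = X.CC 0 0 0 0 :=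
  lrt_I1 X r Cb h

/-- I2 (PE l.566-575): `A'(0) - C'(0)` = the connected high insertion under `μ_0`. -/
theorem led_I2 (X : LedCtx Ω) (r : ℕ) (Cb : ℝ) (h : X.Ok r Cb) : X.FF 1 1 0 0 1 = X.CC 1 0 0 0 + X.HH 0 0 0 0 :=
  lrt_I2 X r Cb h

/-- I3 (PE l.590-606): `B(0) / 2` = the third block sum. -/
theorem led_I3 (X : LedCtx Ω) (r : ℕ) (Cb : ℝ) (h : X.Ok r Cb) : X.FF 2 0 0 0 1 = 2 * X.TB :=
  ledq_I3 X r Cb h

/-! ### bounds -/

/-- G1 (PE l.485): `g^{(i)} = O(ω^i)`. -/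
theorem led_G1 (i : ℕ) (Cb : ℝ) : ∃ C : ℝ, 0 ≤ C ∧ ∀ (Ω : Type) (X : LedCtx Ω) (r : ℕ), X.Ok r Cb →
    ∀ l ∈ Set.Icc (0 : ℝ) 1, |X.Y.gD X.kU X.kS i l| ≤ C * X.om ^ i :=
  ledsc_G1 i Cb

/-- the bound of the third low remainder -/
noncomputable def LedCtx.led3 (X : LedCtx Ω) : ℝ := X.om ^ 2 * (X.EL + X.EH1) + X.om * X.xi * X.EV

theorem led_leaves_eqns_cite : True := by
  have := @LedCtx.led3.eq_1
  trivial

/-- Bd1 (PE ledger line 2, "third low: mixed covariance"). -/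
theorem led_Bd1 (q r : ℕ) (hr : 5 ≤ r) (Cb : ℝ) : ∃ C : ℝ, 0 ≤ C ∧ ∀ (Ω : Type) (X : LedCtx Ω), X.q = q → X.Ok r Cb →
    ∀ l ∈ Set.Icc (0 : ℝ) 1, |X.FF 3 0 l 1 1 - X.FF 3 0 l 1 0| ≤ C * X.p0 * X.led3 := by
  exact ledb_Bd1 q r hr Cb

/-- Bd2 (PE ledger line 1, "third low: measure derivative"). -/
theorem led_Bd2 (q r : ℕ) (hr : 5 ≤ r) (Cb : ℝ) : ∃ C : ℝ, 0 ≤ C ∧ ∀ (Ω : Type) (X : LedCtx Ω), X.q = q → X.Ok r Cb →
    ∀ l ∈ Set.Icc (0 : ℝ) 1, ∀ t ∈ Set.Icc (0 : ℝ) 1, |X.FF 3 1 l t 0| ≤ C * X.p0 * X.led3 := by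
  exact ledb_Bd2 q r hr Cb

/-- Bd3 (PE ledger line 3, `A''`: two high errors, one low factor). -/
theorem led_Bd3 (q r : ℕ) (hr : 5 ≤ r) (Cb : ℝ) : ∃ C : ℝ, 0 ≤ C ∧ ∀ (Ω : Type) (X : LedCtx Ω), X.q = q → X.Ok r Cb →
    ∀ t ∈ Set.Icc (0 : ℝ) 1, |X.FF 1 2 0 t 1| ≤ C * X.p0 * (X.om * X.EH2 r) := by
  exact ledb_Bd3 q r hr Cb

/-- Bd4 (PE ledger line 4, `B'`: one high error, two low factors). -/
theorem led_Bd4 (q r : ℕ) (hr : 5 ≤ r) (Cb : ℝ) : ∃ C : ℝ, 0 ≤ C ∧ ∀ (Ω : Type) (X : LedCtx Ω), X.q = q → X.Ok r Cb →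
    ∀ t ∈ Set.Icc (0 : ℝ) 1, |X.FF 2 1 0 t 1| ≤ C * X.p0 * (X.om ^ 2 * X.EH1) := by
  exact ledb_Bd4 q r hr Cb

/-- Bd5 (PE l.576-578: `C(0) + C'(0) → C(1)`). -/
theorem led_Bd5 (q r : ℕ) (hr : 5 ≤ r) (Cb : ℝ) : ∃ C : ℝ, 0 ≤ C ∧ ∀ (Ω : Type) (X : LedCtx Ω), X.q = q → X.Ok r Cb →
    ∀ t ∈ Set.Icc (0 : ℝ) 1, |X.CC 2 0 0 t| ≤ C * X.p0 * (X.om * X.EH2 r) := by
  exact ledc_Bd5 q r hr Cb

/-- Bd6 (PE ledger line 5, "centered first low restoration"). -/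
theorem led_Bd6 (q r : ℕ) (hr : 5 ≤ r) (Cb : ℝ) : ∃ C : ℝ, 0 ≤ C ∧ ∀ (Ω : Type) (X : LedCtx Ω), X.q = q → X.Ok r Cb →
    ∀ l ∈ Set.Icc (0 : ℝ) 1, |X.CC 0 2 l 1| ≤ C * X.p0 * (X.om ^ 2 * X.Y.D X.kS) := by
  exact ledc_Bd6 q r hr Cb

/-- Bd7 (PE l.578-580: restoring the rest-only measure in the connected insertion). -/
theorem led_Bd7 (q r : ℕ) (hr : 5 ≤ r) (Cb : ℝ) : ∃ C : ℝ, 0 ≤ C ∧ ∀ (Ω : Type) (X : LedCtx Ω), X.q = q → X.Ok r Cb →
    ∀ t ∈ Set.Icc (0 : ℝ) 1, |X.HH 1 0 0 t| ≤ C * X.p0 * (X.om * X.EH2 r) := by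
  exact ledc_Bd7 q r hr Cb

/-- Bd8 (PE l.585-587: connected low restoration). -/
theorem led_Bd8 (q r : ℕ) (hr : 5 ≤ r) (Cb : ℝ) : ∃ C : ℝ, 0 ≤ C ∧ ∀ (Ω : Type) (X : LedCtx Ω), X.q = q → X.Ok r Cb →
    ∀ l ∈ Set.Icc (0 : ℝ) 1, |X.HH 0 1 l 1| ≤ C * X.p0 * (X.om ^ 2 * X.EH1) := by
  exact ledc_Bd8 q r hr Cb

/-- Bd9 (PE ledger lines 6-7, l.608-651: third block, new and old). -/
theorem led_Bd9 (q r : ℕ) (hr : 5 ≤ r) (Cb : ℝ) : ∃ C : ℝ, 0 ≤ C ∧ ∀ (Ω : Type) (X : LedCtx Ω), X.q = q → X.Ok r Cb →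
    |X.TB| ≤ C * X.p0 * (X.om * X.Y.intM 0 X.kU X.Y.D + X.U * (X.om * ledAt X.q X.τ X.kV X.kU X.Y.D + X.xi * X.EV)
      + X.om * X.pi + X.be) := by
  exact ltb_Bd9 q r hr Cb

end Claimed.Agent.R286
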