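import Claimed.Agent.R286.Cav.LedTayC
import Claimed.Agent.R286.Cav.LedLeaves

/-!
# Row 286 (S0533), unit Cav, file LedTayG      (owner: helper201; head of `Led*`: helper204; prefix `ledy_`, exit `led_main`)

Task T4 of origin/helper204:notes/R286/LED_PLAN_204.md: THE GLUE.   `led_main` (the EXIT of the package `Led*`; vocabulary in Cav/LedExit), PROVED from the leaves of `Cav/LedLeaves`
(Z1-Z3, M0-M2, I1-I3, Bd1-Bd9), the chains of `Cav/LedTayC` and the sup-form Taylor bounds of `Cav/LedTay`.   Own sorry: 0.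
* `ledy_skel`  : the exact skeleton S1-S8 with abstract bounds `B1 .. B9` of the nine remainders;
* `ledy_real`  : the five pieces of the remainders are dominated by the ledger (pure real inequality);
* `led_main`.
-/

set_option autoImplicit false

namespace Claimed.Agent.R286

open Finset

variable {Ω : Type}

/-- **the skeleton** S1-S8 -/
theorem ledy_skel {X : LedCtx Ω} {r : ℕ} {Cb : ℝ} (h : X.Ok r Cb) {B1 B2 B3 B4 B5 B6 B7 B8 B9 : ℝ}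
    (b1 : ∀ l ∈ Set.Icc (0 : ℝ) 1, |X.FF 3 0 l 1 1 - X.FF 3 0 l 1 0| ≤ B1)
    (b2 : ∀ l ∈ Set.Icc (0 : ℝ) 1, ∀ t ∈ Set.Icc (0 : ℝ) 1, |X.FF 3 1 l t 0| ≤ B2)
    (b3 : ∀ t ∈ Set.Icc (0 : ℝ) 1, |X.FF 1 2 0 t 1| ≤ B3)
    (b4 : ∀ t ∈ Set.Icc (0 : ℝ) 1, |X.FF 2 1 0 t 1| ≤ B4)
    (b5 : ∀ t ∈ Set.Icc (0 : ℝ) 1, |X.CC 2 0 0 t| ≤ B5)
    (b6 : ∀ l ∈ Set.Icc (0 : ℝ) 1, |X.CC 0 2 l 1| ≤ B6)
    (b7 : ∀ t ∈ Set.Icc (0 : ℝ) 1, |X.HH 1 0 0 t| ≤ B7)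
    (b8 : ∀ l ∈ Set.Icc (0 : ℝ) 1, |X.HH 0 1 l 1| ≤ B8)
    (b9 : |X.TB| ≤ B9) :
    |X.Y.act X.q X.τ X.J1 - X.Y.Gam X.kS * X.Y.act X.q X.τ X.J0 - X.Y.main1 X.kU X.kS X.q X.τ X.a X.b X.P
        - X.Y.main2 X.kU X.kS X.q X.τ X.a X.b X.P|
      ≤ (B1 + B2) / 6 + B3 / 2 + B4 / 2 + B5 / 2 + B6 / 2 + B7 + B8 + B9 := by
  have i0 : (0 : ℝ) ∈ Set.Icc (0 : ℝ) 1 := by simp
  have i1 : (1 : ℝ) ∈ Set.Icc (0 : ℝ) 1 := by simp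
  have io : ∀ x ∈ Set.Ioo (0 : ℝ) 1, x ∈ Set.Icc (0 : ℝ) 1 := fun x hx => ⟨hx.1.le, hx.2.le⟩
  -- S2
  have s2 : ∀ l ∈ Set.Ioo (0 : ℝ) 1, |X.FF 3 0 l 1 1| ≤ B1 + B2 := by
    intro l hl
    have ct := led_ch_FF_t h 3 (io l hl) 0
    have a1 := led_taylor1 (ct.cont 0) (ct.cont 1) (ct.deriv 0) fun t ht => b2 l (io l hl) t (io t ht)
    have a2 := b1 l (io l hl)
    rw [led_Z2 X r Cb h l hl] at a1
    rw [abs_le] at a1 a2 ⊢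
    constructor <;> linarith [a1.1, a1.2, a2.1, a2.2]
  -- S1
  have cl := led_ch_FF_l h i1
  have s1 := led_taylor3 (cl.cont 0) (cl.cont 1) (cl.cont 2) (cl.cont 3) (cl.deriv 0) (cl.deriv 1) (cl.deriv 2) s2
  rw [led_Z1 X r Cb h 1 1 i1, led_M0 X r Cb h] at s1
  -- S3, S4
  have c1 := led_ch_FF_t h 1 i0 1
  have s3 := led_taylor2 (c1.cont 0) (c1.cont 1) (c1.cont 2) (c1.deriv 0) (c1.deriv 1) fun t ht => b3 t (io t ht)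
  rw [led_I1 X r Cb h, led_I2 X r Cb h] at s3
  have c2 := led_ch_FF_t h 2 i0 1
  have s4 := led_taylor1 (c2.cont 0) (c2.cont 1) (c2.deriv 0) fun t ht => b4 t (io t ht)
  rw [led_I3 X r Cb h] at s4
  -- S5, S6
  have c3 := led_ch_CC_t h i0
  have s5 := led_taylor2 (c3.cont 0) (c3.cont 1) (c3.cont 2) (c3.deriv 0) (c3.deriv 1) fun t ht => b5 t (io t ht)
  have c4 := led_ch_CC_l h
  have s6 := led_taylor2 (c4.cont 0) (c4.cont 1) (c4.cont 2) (c4.deriv 0) (c4.deriv 1) fun l hl => b6 l (io l hl)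
  rw [led_Z3 X r Cb h, led_M1 X r Cb h] at s6
  -- S7, S8
  have c5 := led_ch_HH_t h i0
  have s7 := led_taylor1 (c5.cont 0) (c5.cont 1) (c5.deriv 0) fun t ht => b7 t (io t ht)
  have c6 := led_ch_HH_l h
  have s8 := led_taylor1 (c6.cont 0) (c6.cont 1) (c6.deriv 0) fun l hl => b8 l (io l hl)
  rw [led_M2 X r Cb h] at s8
  rw [abs_le] at s1 s3 s4 s5 s6 s7 s8 b9 ⊢
  constructor <;>
    linarith [s1.1, s1.2, s3.1, s3.2, s4.1, s4.2, s5.1, s5.2, s6.1, s6.2, s7.1, s7.2, s8.1, s8.2, b9.1, b9.2]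

/-- the pieces of the remainders are dominated by the ledger -/
theorem ledy_real {om xi pi be U I0 A1 A0 T1 E2 DS L : ℝ} (hxi : 0 ≤ xi) (hxo : xi ≤ om) (ho1 : om ≤ 1) (hpi : 0 ≤ pi)
    (hbe : 0 ≤ be) (hU : 0 ≤ U) (hI0 : 0 ≤ I0) (hA1 : 0 ≤ A1) (hA0 : 0 ≤ A0) (hT1 : 0 ≤ T1) (hE2 : 0 ≤ E2) (hDS : DS ≤ A1)
    (hL : L = om * I0 + (om ^ 2 + U * om) * A1 + (om + U) * xi * A0 + om ^ 2 * T1 + om * E2 + om * pi + be) :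
    om ^ 2 * (I0 + A1 + T1) + om * xi * A0 ≤ L ∧ om * E2 ≤ L ∧ om ^ 2 * T1 ≤ L ∧ om ^ 2 * DS ≤ L ∧
      om * I0 + U * (om * A1 + xi * A0) + om * pi + be ≤ L := by
  have ho : 0 ≤ om := hxi.trans hxo
  have p1 : 0 ≤ om * I0 := mul_nonneg ho hI0
  have p1' : om ^ 2 * I0 ≤ om * I0 := by
    have : om ^ 2 ≤ om := by nlinarith
    exact mul_le_mul_of_nonneg_right this hI0
  have p2 : 0 ≤ om ^ 2 * A1 := mul_nonneg (sq_nonneg _) hA1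
  have p3 : 0 ≤ U * om * A1 := mul_nonneg (mul_nonneg hU ho) hA1
  have p4 : 0 ≤ om * xi * A0 := mul_nonneg (mul_nonneg ho hxi) hA0
  have p5 : 0 ≤ U * xi * A0 := mul_nonneg (mul_nonneg hU hxi) hA0
  have p6 : 0 ≤ om ^ 2 * T1 := mul_nonneg (sq_nonneg _) hT1
  have p7 : 0 ≤ om * E2 := mul_nonneg ho hE2
  have p8 : 0 ≤ om * pi := mul_nonneg ho hpi
  have p9 : om ^ 2 * DS ≤ om ^ 2 * A1 := mul_le_mul_of_nonneg_left hDS (sq_nonneg _)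
  have eL : L = om * I0 + om ^ 2 * A1 + U * om * A1 + om * xi * A0 + U * xi * A0 + om ^ 2 * T1 + om * E2 + om * pi + be := by
    rw [hL]; ring
  refine ⟨?_, ?_, ?_, ?_, ?_⟩
  · have : om ^ 2 * (I0 + A1 + T1) + om * xi * A0 = om ^ 2 * I0 + om ^ 2 * A1 + om ^ 2 * T1 + om * xi * A0 := by ring
    linarith
  · linarith
  · linarith
  · linarith
  · have : om * I0 + U * (om * A1 + xi * A0) + om * pi + be = om * I0 + U * om * A1 + U * xi * A0 + om * pi + be := by ring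
    linarith

/-! ### nonnegativity of the costs -/

theorem ledy_D_nonneg (Y : LedSys Ω) (j : ℕ) : 0 ≤ Y.D j := Real.sqrt_nonneg _

theorem ledy_pm_nonneg {N : ℕ} {ms : ℕ → ℝ} (hms : IsMs N ms) (j : ℕ) : 0 ≤ trPm ms j := by
  unfold trPm; split_ifs
  · exact le_rfl
  · exact hms.nonneg _

theorem ledy_intM_nonneg {Y : LedSys Ω} (hY : Y.Ok) (k0 : ℕ) {k1 : ℕ} (hk : k1 ≤ Y.N + 1) {f : ℕ → ℝ} (hf : ∀ j, 0 ≤ f j) :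
    0 ≤ Y.intM k0 k1 f := by
  unfold LedSys.intM
  refine Finset.sum_nonneg fun j hj => mul_nonneg ?_ (hf j)
  have := (Finset.mem_Ico.1 hj).2
  unfold LedSys.dM
  linarith [tra2_pm_le hY.ms_ok (j := j) (by omega)]

theorem ledy_at_nonneg (q : ℕ) (τ : ℕ → ℕ → ℕ) (k0 k1 : ℕ) {f : ℕ → ℝ} (hf : ∀ j, 0 ≤ f j) : 0 ≤ ledAt q τ k0 k1 f :=
  Finset.sum_nonneg fun j _ => hf j

theorem ledy_tot_nonneg {Y : LedSys Ω} (hY : Y.Ok) (q : ℕ) (τ : ℕ → ℕ → ℕ) (k0 : ℕ) {k1 : ℕ} (hk : k1 ≤ Y.N + 1) {f : ℕ → ℝ}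
    (hf : ∀ j, 0 ≤ f j) : 0 ≤ Y.tot q τ k0 k1 f :=
  add_nonneg (ledy_intM_nonneg hY k0 hk hf) (ledy_at_nonneg q τ k0 k1 hf)

/-- an old fork is an atom -/
theorem ledy_at_mem {q : ℕ} {τ : ℕ → ℕ → ℕ} {a b k0 k1 : ℕ} (ha : a < q) (hb : b < q) (h0 : k0 ≤ τ a b) (h1 : τ a b < k1)
    {f : ℕ → ℝ} (hf : ∀ j, 0 ≤ f j) : f (τ a b) ≤ ledAt q τ k0 k1 f := by
  unfold ledAt
  refine Finset.single_le_sum (f := f) (fun j _ => hf j) ?_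
  rw [Finset.mem_filter]
  refine ⟨?_, h0, h1⟩
  unfold ledForks
  rw [Finset.mem_image]
  exact ⟨(a, b), by simp [ha, hb], rfl⟩

/-- the five pieces, on a context -/
theorem ledy_pieces {X : LedCtx Ω} {r : ℕ} {Cb : ℝ} (h : X.Ok r Cb) :
    X.led3 ≤ X.led r ∧ X.om * X.EH2 r ≤ X.led r ∧ X.om ^ 2 * X.EH1 ≤ X.led r ∧ X.om ^ 2 * X.Y.D X.kS ≤ X.led r ∧
      X.om * X.Y.intM 0 X.kU X.Y.D + X.U * (X.om * ledAt X.q X.τ X.kV X.kU X.Y.D + X.xi * X.EV) + X.om * X.pi + X.be ≤ X.led r := by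
  have hD := ledy_D_nonneg X.Y
  have hkU : X.kU ≤ X.Y.N + 1 := by have := h.kU_le; omega
  have hDS : X.Y.D X.kS ≤ ledAt X.q X.τ X.kV X.kU X.Y.D := by
    have := ledy_at_mem (q := X.q) (τ := X.τ) (k0 := X.kV) (k1 := X.kU) h.a_lt h.b_lt (by rw [h.split]; exact h.kV_le)
      (by rw [h.split]; exact h.kS_lt) hD
    rwa [h.split] at this
  exact ledy_real (om := X.om) (xi := X.xi) (pi := X.pi) (be := X.be) (U := trPm X.Y.ms X.kU) (I0 := X.Y.intM 0 X.kU X.Y.D)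
    (A1 := ledAt X.q X.τ X.kV X.kU X.Y.D) (A0 := ledAt X.q X.τ 0 X.kV X.Y.D) (T1 := X.Y.tot X.q X.τ X.kU (X.Y.N + 1) X.Y.D)
    (E2 := X.EH2 r) (DS := X.Y.D X.kS) (L := X.led r)
    h.xi_nonneg h.xi_le h.om_le h.pi_nonneg h.be_nonneg (ledy_pm_nonneg h.sys.ms_ok _) (ledy_intM_nonneg h.sys 0 hkU hD)
    (ledy_at_nonneg _ _ _ _ hD) (ledy_at_nonneg _ _ _ _ hD) (ledy_tot_nonneg h.sys _ _ _ le_rfl hD)
    (add_nonneg (sq_nonneg _) (ledy_tot_nonneg h.sys _ _ _ le_rfl fun j => Real.rpow_nonneg (hD j) _)) hDS rfl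

/-- **the ledger lemma on a context**, from the leaves -/
theorem led_main_ctx (q r : ℕ) (hr : 5 ≤ r) (Cb : ℝ) : ∃ C : ℝ, ∀ (Ω : Type) (X : LedCtx Ω), X.q = q → X.Ok r Cb →
    |X.Y.act X.q X.τ X.J1 - X.Y.Gam X.kS * X.Y.act X.q X.τ X.J0 - X.Y.main1 X.kU X.kS X.q X.τ X.a X.b X.P
        - X.Y.main2 X.kU X.kS X.q X.τ X.a X.b X.P| ≤ C * X.p0 * X.led r := by
  obtain ⟨C1, n1, b1⟩ := led_Bd1 q r hr Cb
  obtain ⟨C2, n2, b2⟩ := led_Bd2 q r hr Cb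
  obtain ⟨C3, n3, b3⟩ := led_Bd3 q r hr Cb
  obtain ⟨C4, n4, b4⟩ := led_Bd4 q r hr Cb
  obtain ⟨C5, n5, b5⟩ := led_Bd5 q r hr Cb
  obtain ⟨C6, n6, b6⟩ := led_Bd6 q r hr Cb
  obtain ⟨C7, n7, b7⟩ := led_Bd7 q r hr Cb
  obtain ⟨C8, n8, b8⟩ := led_Bd8 q r hr Cb
  obtain ⟨C9, n9, b9⟩ := led_Bd9 q r hr Cb
  refine ⟨(C1 + C2) / 6 + C3 / 2 + C4 / 2 + C5 / 2 + C6 / 2 + C7 + C8 + C9, fun Ω X hq h => ?_⟩
  obtain ⟨p3, pE2, pE1, pDS, pTB⟩ := ledy_pieces h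
  have hp := h.p0_nonneg
  have up : ∀ {C x y : ℝ}, 0 ≤ C → x ≤ y → C * X.p0 * x ≤ C * X.p0 * y :=
    fun hC hxy => mul_le_mul_of_nonneg_left hxy (mul_nonneg hC hp)
  have := ledy_skel h
    (fun l hl => (b1 Ω X hq h l hl).trans (up n1 p3)) (fun l hl t ht => (b2 Ω X hq h l hl t ht).trans (up n2 p3))
    (fun t ht => (b3 Ω X hq h t ht).trans (up n3 pE2)) (fun t ht => (b4 Ω X hq h t ht).trans (up n4 pE1))
    (fun t ht => (b5 Ω X hq h t ht).trans (up n5 pE2)) (fun l hl => (b6 Ω X hq h l hl).trans (up n6 pDS))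
    (fun t ht => (b7 Ω X hq h t ht).trans (up n7 pE2)) (fun l hl => (b8 Ω X hq h l hl).trans (up n8 pE1))
    ((b9 Ω X hq h).trans (up n9 pTB))
  refine this.trans (le_of_eq ?_)
  ring

/-- **PARAMETRIC LEDGER LEMMA.**   TEX[PE:cavity-row-identity]  (core form: site spins `s_a s_b`, deleted overlaps), from the leaves of `Cav/LedLeaves` -/
theorem led_main (q r : ℕ) (hr : 5 ≤ r) (Cb : ℝ) : ∃ C : ℝ, ∀ (Ω : Type) (Y : LedSys Ω), Y.Ok → (∀ r, Y.b r ≤ Cb) → (∀ r, Y.h r ≤ Cb) →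
    ∀ (kV kS kU : ℕ) (τ : ℕ → ℕ → ℕ) (a b : ℕ) (P : (ℕ → Ω) → ℝ) (om xi pi be p0 : ℝ) (Pi : ℕ → ℝ),
      IsTr Y.N q τ → a < q → b < q → τ a b = kS → kV ≤ kS → kS < kU → kU ≤ Y.N →
      (∀ o, o < q → o ≠ b → τ b o < kU) → TrUses q P → LedFree b P →
      xi ≤ om → om ≤ 1 → 0 ≤ xi → 0 ≤ pi → 0 ≤ be → 0 ≤ p0 →
      (∀ j, j < kU → Y.mQ (2 * r) j ≤ om ^ (2 * r) ∧ Y.K j ≤ om) → (∀ j, j < kV → Y.mQ (2 * r) j ≤ xi ^ (2 * r) ∧ Y.K j ≤ xi) →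
      (Y.act q τ fun σ => P (ledRs σ) ^ (2 * r)) ≤ p0 ^ (2 * r) →
      (∀ j, 0 ≤ Pi j) → (∀ j, kU ≤ j → j ≤ Y.N → |Y.gam kU j| * Pi j ≤ pi) →
      (∀ (τ' : ℕ → ℕ → ℕ) (Φ : (ℕ → Ω) → ℝ), IsTr Y.N (q + 3) τ' → (∀ x y, x < q → y < q → τ' x y = τ x y) →
        kU ≤ τ' a q → τ' (q + 1) a < kU → τ' (q + 1) b < kU → (∃ o, o < q ∧ kU ≤ τ' o (q + 1)) →
        kU ≤ τ' (q + 1) (q + 2) → τ' (q + 1) (q + 2) ≤ Y.N → TrUses (q + 3) Φ → LedFree b Φ →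
        |Y.nuR (q + 3) τ' fun ω => Φ ω * (Y.R (ω (q + 2)) (ω b) - Y.R (ω (q + 1)) (ω b))|
          ≤ Real.sqrt (Y.nuR (q + 3) τ' fun ω => Φ ω ^ 2) * Pi (τ' (q + 1) (q + 2))) →
      (∀ (τ₁ : ℕ → ℕ → ℕ) (o : ℕ), IsTr Y.N (q + 1) τ₁ → (∀ x y, x < q → y < q → τ₁ x y = τ x y) → kU ≤ τ₁ a q →
        o < q → τ o a < kU → τ o b < kU →
        |trSumK Y.ms Y.N 1 (q + 1) τ₁ fun τ' => if kU ≤ τ' o (q + 1) then
            Y.nuR (q + 2) τ' (fun ω => P ω * Y.Q (τ a o) (ω q) (ω (q + 1)) * Y.Q (τ o b) (ω (q + 1)) (ω b))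
              - Y.nuR (q + 2) (trAtt Y.N (q + 1) τ₁ o kU)
                  (fun ω => P ω * Y.Q (τ a o) (ω q) (ω (q + 1)) * Y.Q (τ o b) (ω (q + 1)) (ω b))
          else 0| ≤ be * p0) →
      |Y.act q τ (fun σ => ledSg (σ a).1 * ledSg (σ b).1 * P (ledRs σ)) - Y.Gam kS * Y.act q τ (fun σ => P (ledRs σ))
          - Y.main1 kU kS q τ a b P - Y.main2 kU kS q τ a b P|
        ≤ C * p0 * Y.ledger r kV kU q τ om xi pi be := by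
  obtain ⟨C, hC⟩ := led_main_ctx q r hr Cb
  refine ⟨C, ?_⟩
  intro Ω Y hY hb hh kV kS kU τ a b P om xi pi be p0 Pi hτ ha hb' hab hVS hSU hUN hal hP hfr hxo ho1 hxi hpi hbe hp0 hlow hlowV htest
    hPi hgp hpr hbd
  exact hC Ω ⟨Y, kV, kS, kU, q, τ, a, b, P, om, xi, pi, be, p0, Pi⟩ rfl
    ⟨hY, hb, hh, hτ, ha, hb', hab, hVS, hSU, hUN, hal, hP, hfr, hxo, ho1, hxi, hpi, hbe, hp0, hlow, hlowV, htest, hPi, hgp, hpr, hbd⟩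

end Claimed.Agent.R286
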