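import Claimed.Agent.R286.Cav.EqPr
import Claimed.Agent.R286.Cav.LedTayG

/-!
# Row 286 (S0533), folder Cav (PE Section 4), file Eq24 : EQUATION (24) ON THE STAR TABLE OF THE SK SYSTEM      (owner helper204; consumer helper244 `Cav/Eq25`; prefix `cvf`, exit `cve_24`)

**`cve_24`** = `led_main` (`Cav/LedTayG`) at `Y = cvySys m0 I.P`, `τ = cvtStar Y.N kI I.js`, `q = Qd + 2`, `b = f`, `kS = I.js`, `kU = I.jU + 1`, `P = Y.mEv kI I.js μ` + EVALUATION OF THE LEDGER.      TEX[PE:lem:cavity-row-identity] (use)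
PLAN (244):  `r ≥ max 5 (2 + 2/ρ)`, `Cb = C` (`cvn_bh_le`);   `om = cvnCo C Cp r * W` (`cvn_low_W`; `w0` makes `om ≤ 1`), `xi = cvnCo C Cp r * x` (`cvn_low_x`);   `kV = kI + 1` if `kI ≤ jB` (`jB < js`), `kV = 0` if `kI = js`;   `θ = 1`;
`p0 = s^Nd * cvtMsz W x μ` (`cvn_mon_pow`, `cvn_momS`, `cvn_momI`; if `kI = js` no edge touches the label `0`);   `Pi`, `pi` : `cve_pr` (`Cav/EqPr`);   `be = Cbe sv W x²` : `cvb_hbd` (169, `Cav/Bdy`);
atoms: `cvn_at_star` (forks `kI`, `js` only): `ledAt kV kU D = D_*` (`cvn_Dst`), `ledAt 0 kV D = D_i` (`cvn_D_le`), none above `kU`;   integrals: `cvn_int_lowU`, `cvn_sq_highU`, `cvn_int_cs`, `cvn_int_pow`, `cvn_save` (`x²/W ≤ x`).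
`Γ ν[μ]`: `led_t_nuQ_eq` (`nuM` = `nuQ` with `q` labels).      The vocabulary (`CveHyp`, `CveTg`, `CveMon`, `cveA`, `cveM1`, `cveM2`) is in `Cav/EqPr`.
LEAVES (ALL PROVED):  `cvf_led_W` (A: evaluation of the ledger),  `cvf_test` (B: moment of the monomial),  `cvb_hbd` / `cvb_hbd_s` (169: boundary),  `cve_pr` (244: projected bound).
-/

set_option autoImplicit false

namespace Claimed.Agent.R286

/-! ## 0. the Hoelder order, monomials -/

/-- the Hoelder order of the ledger -/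
noncomputable def cvfR (ρ : ℝ) : ℕ := max 5 ⌈2 + 2 / ρ⌉₊

theorem cvf_eqns_cite : True := by
  have := @cvfR.eq_1
  trivial

theorem cvf_R_five (ρ : ℝ) : 5 ≤ cvfR ρ := le_max_left _ _

theorem cvf_R_ge (ρ : ℝ) : 2 + 2 / ρ ≤ (cvfR ρ : ℝ) :=
  (Nat.le_ceil _).trans (by exact_mod_cast le_max_right 5 ⌈2 + 2 / ρ⌉₊)

theorem cvf_Co_nonneg {C : ℝ} (hC : 0 ≤ C) (Cp : ℕ → ℝ) (r : ℕ) : 0 ≤ cvnCo C Cp r := by
  unfold cvnCo
  positivity

/-- monotonicity of the size of a monomial in both scales -/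
theorem cvf_msz_mono {w w' x x' : ℝ} (hw : 0 ≤ w) (hww : w ≤ w') (hx : 0 ≤ x) (hxx : x ≤ x') (m : CvtMon) : cvtMsz w x m ≤ cvtMsz w' x' m := by
  induction m with
  | nil => simp
  | cons e m ih =>
    rw [cvtMsz_cons, cvtMsz_cons]
    refine mul_le_mul ?_ ih (cvtMsz_nonneg hw hx m) ?_
    · unfold cvtEsz
      split_ifs
      · exact hxx
      · exact hww
    · unfold cvtEsz
      split_ifs
      · exact hx.trans hxx
      · exact hw.trans hww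

/-- homogeneity of the size of a monomial -/
theorem cvf_msz_scale (s w x : ℝ) (m : CvtMon) : cvtMsz (s * w) (s * x) m = s ^ m.length * cvtMsz w x m := by
  induction m with
  | nil => simp
  | cons e m ih =>
    rw [cvtMsz_cons, cvtMsz_cons, ih, List.length_cons, pow_succ]
    have : cvtEsz (s * w) (s * x) e = s * cvtEsz w x e := by
      unfold cvtEsz
      split_ifs <;> rfl
    rw [this]
    ring

/-- a monomial without edge at the initial tooth does not see the scale `x` -/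
theorem cvf_msz_free (w x x' : ℝ) {m : CvtMon} (h : ∀ e ∈ m, e.1 ≠ 0 ∧ e.2 ≠ 0) : cvtMsz w x m = cvtMsz w x' m := by
  induction m with
  | nil => simp
  | cons e m ih =>
    rw [cvtMsz_cons, cvtMsz_cons, ih fun e' he' => h e' (List.mem_cons_of_mem _ he')]
    have h0 := h e (List.mem_cons_self ..)
    unfold cvtEsz
    rw [if_neg (by simp [h0.1, h0.2]), if_neg (by simp [h0.1, h0.2])]

/-- no edge at the initial tooth -/
theorem cvf_no0 {μ : CvtMon} (h : μ.countP (fun e => decide (e.1 = 0 ∨ e.2 = 0)) ≤ 0) : ∀ e ∈ μ, e.1 ≠ 0 ∧ e.2 ≠ 0 := by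
  intro e he
  have h0 : μ.countP (fun e => decide (e.1 = 0 ∨ e.2 = 0)) = 0 := Nat.le_zero.1 h
  rw [List.countP_eq_zero] at h0
  have := h0 e he
  simp only [decide_eq_true_eq, not_or] at this
  exact this

/-- the arithmetic of the evaluation of the ledger -/
theorem cvf_real {Co C Cpi Cbe W x sv et d y I0 A1 A0 T1 E1 E2 U : ℝ} (hCo0 : 0 ≤ Co) (hC : 0 < C) (hCpi : 0 ≤ Cpi) (hCbe : 0 ≤ Cbe)
    (hx : 0 < x) (hxW : x ≤ W) (hW1 : W ≤ 1) (hx1 : x ≤ 1) (hs : 0 < sv) (hs1 : sv ≤ 1) (het : 0 ≤ et) (hd0 : 0 ≤ d) (hy0 : 0 ≤ y) (hWy : W * y = x ^ 2)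
    (n1 : 0 ≤ I0) (n2 : 0 ≤ A1) (n3 : 0 ≤ A0) (n4 : 0 ≤ T1) (n5 : 0 ≤ E2) (aU0 : 0 ≤ U)
    (a1 : I0 ≤ et * x ^ 2 + C * W * (sv ^ 2 * x ^ 6)) (at1 : A1 ≤ 4 * (sv * y)) (at0 : A0 ≤ x * d + sv ^ 2 * x ^ 6) (a3 : T1 ≤ 2 * (sv * y))
    (a4 : E1 ^ 2 + E2 ≤ 8 * (sv * x ^ 2)) (aU : U ≤ C * W) :
    0 ≤ Co * W * I0 + ((Co * W) ^ 2 + U * (Co * W)) * A1 + (Co * W + U) * (Co * x) * A0 + (Co * W) ^ 2 * T1 + Co * W * (E1 ^ 2 + E2)
        + Co * W * (Cpi * sv * (x * y)) + Cbe * sv * W * x ^ 2 ∧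
    Co * W * I0 + ((Co * W) ^ 2 + U * (Co * W)) * A1 + (Co * W + U) * (Co * x) * A0 + (Co * W) ^ 2 * T1 + Co * W * (E1 ^ 2 + E2)
        + Co * W * (Cpi * sv * (x * y)) + Cbe * sv * W * x ^ 2
      ≤ (Co * (1 + C) + 4 * (Co ^ 2 + C * Co) + (Co + C) * Co + 2 * Co ^ 2 + 8 * Co + Co * Cpi + Cbe) * (W * x ^ 2) * (et + sv + d) := by
  have hW : 0 < W := lt_of_lt_of_le hx hxW
  refine ⟨by positivity, ?_⟩
  set t := et + sv + d with ht
  have ht0 : 0 ≤ t := by positivity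
  have hst : sv ≤ t := by linarith
  have hZ : 0 ≤ W * x ^ 2 := by positivity
  have e6 : sv ^ 2 * x ^ 6 ≤ sv * x ^ 2 := by
    have t1 : sv ^ 2 ≤ sv := by nlinarith
    have t2 : x ^ 6 ≤ x ^ 2 := pow_le_pow_of_le_one hx.le hx1 (by norm_num)
    exact mul_le_mul t1 t2 (by positivity) hs.le
  have b1 : Co * W * I0 ≤ Co * (1 + C) * (W * x ^ 2) * t := by
    calc Co * W * I0 ≤ Co * W * (et * x ^ 2 + C * (sv * x ^ 2)) := by
          refine mul_le_mul_of_nonneg_left (a1.trans ?_) (by positivity)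
          have t1 : C * W * (sv ^ 2 * x ^ 6) ≤ C * 1 * (sv * x ^ 2) :=
            mul_le_mul (mul_le_mul_of_nonneg_left hW1 hC.le) e6 (by positivity) (by positivity)
          linarith
      _ = Co * (W * x ^ 2) * (et + C * sv) := by ring
      _ ≤ Co * (W * x ^ 2) * ((1 + C) * t) := by
          refine mul_le_mul_of_nonneg_left ?_ (by positivity)
          have : 0 ≤ C * (et + d) := by positivity
          nlinarith
      _ = _ := by ring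
  have b2 : ((Co * W) ^ 2 + U * (Co * W)) * A1 ≤ 4 * (Co ^ 2 + C * Co) * (W * x ^ 2) * t := by
    calc ((Co * W) ^ 2 + U * (Co * W)) * A1 ≤ ((Co * W) ^ 2 + C * W * (Co * W)) * (4 * (sv * y)) := by
          refine mul_le_mul ?_ at1 n2 (by positivity)
          have := mul_le_mul_of_nonneg_right aU (by positivity : 0 ≤ Co * W)
          linarith
      _ = 4 * (Co ^ 2 + C * Co) * (W * (W * y)) * sv := by ring
      _ = 4 * (Co ^ 2 + C * Co) * (W * x ^ 2) * sv := by rw [hWy]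
      _ ≤ _ := mul_le_mul_of_nonneg_left hst (by positivity)
  have b3 : (Co * W + U) * (Co * x) * A0 ≤ (Co + C) * Co * (W * x ^ 2) * t := by
    have e7 : sv ^ 2 * x ^ 6 ≤ x * sv := by
      have t2 : x ^ 2 ≤ x := by nlinarith
      have := mul_le_mul_of_nonneg_left t2 hs.le
      linarith
    calc (Co * W + U) * (Co * x) * A0 ≤ (Co * W + C * W) * (Co * x) * (x * d + x * sv) := by
          refine mul_le_mul ?_ (by linarith) n3 (by positivity)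
          exact mul_le_mul_of_nonneg_right (by linarith) (by positivity)
      _ = (Co + C) * Co * (W * x ^ 2) * (sv + d) := by ring
      _ ≤ _ := mul_le_mul_of_nonneg_left (by linarith) (by positivity)
  have b4 : (Co * W) ^ 2 * T1 ≤ 2 * Co ^ 2 * (W * x ^ 2) * t := by
    calc (Co * W) ^ 2 * T1 ≤ (Co * W) ^ 2 * (2 * (sv * y)) := mul_le_mul_of_nonneg_left a3 (by positivity)
      _ = 2 * Co ^ 2 * (W * (W * y)) * sv := by ring
      _ = 2 * Co ^ 2 * (W * x ^ 2) * sv := by rw [hWy]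
      _ ≤ _ := mul_le_mul_of_nonneg_left hst (by positivity)
  have b5 : Co * W * (E1 ^ 2 + E2) ≤ 8 * Co * (W * x ^ 2) * t := by
    calc Co * W * (E1 ^ 2 + E2) ≤ Co * W * (8 * (sv * x ^ 2)) := mul_le_mul_of_nonneg_left a4 (by positivity)
      _ = 8 * Co * (W * x ^ 2) * sv := by ring
      _ ≤ _ := mul_le_mul_of_nonneg_left hst (by positivity)
  have b6 : Co * W * (Cpi * sv * (x * y)) ≤ Co * Cpi * (W * x ^ 2) * t := by
    calc Co * W * (Cpi * sv * (x * y)) = Co * Cpi * sv * (x * (W * y)) := by ring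
      _ = Co * Cpi * sv * (x * x ^ 2) := by rw [hWy]
      _ ≤ Co * Cpi * sv * (W * x ^ 2) := by
          refine mul_le_mul_of_nonneg_left ?_ (by positivity)
          exact mul_le_mul_of_nonneg_right hxW (by positivity)
      _ = Co * Cpi * (W * x ^ 2) * sv := by ring
      _ ≤ _ := mul_le_mul_of_nonneg_left hst (by positivity)
  have b7 : Cbe * sv * W * x ^ 2 ≤ Cbe * (W * x ^ 2) * t := by
    calc Cbe * sv * W * x ^ 2 = Cbe * (W * x ^ 2) * sv := by ring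
      _ ≤ _ := mul_le_mul_of_nonneg_left hst (by positivity)
  calc _ ≤ Co * (1 + C) * (W * x ^ 2) * t + 4 * (Co ^ 2 + C * Co) * (W * x ^ 2) * t + (Co + C) * Co * (W * x ^ 2) * t
        + 2 * Co ^ 2 * (W * x ^ 2) * t + 8 * Co * (W * x ^ 2) * t + Co * Cpi * (W * x ^ 2) * t + Cbe * (W * x ^ 2) * t :=
        add_le_add (add_le_add (add_le_add (add_le_add (add_le_add (add_le_add b1 b2) b3) b4) b5) b6) b7
    _ = _ := by ring

/-- LEAF A. **evaluation of the ledger on the star table** -/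
theorem cvf_led_W (c C ρ : ℝ) (Cp : ℕ → ℝ) (hρ : 0 < ρ) (Cpi Cbe : ℝ) (hCpi : 0 ≤ Cpi) (hCbe : 0 ≤ Cbe) (q : ℕ) :
    ∃ CL : ℝ, 0 ≤ CL ∧ ∀ (kM : ℕ) (I : CavIn) (m : ℕ), cvfR ρ ≤ kM → I.n = m + 1 → I.Ok c C ρ Cp kM → I.Star c C Cp kM →
      I.W ≤ 1 → I.x ≤ 1 → I.sv ≤ 1 → ∀ kI kV : ℕ, ((kI < I.js ∧ kV = kI + 1) ∨ (kI = I.js ∧ kV = 0)) →
      0 ≤ (cvySys m I.P).ledger (cvfR ρ) kV (I.jU + 1) q (cvtStar (cvySys m I.P).N kI I.js) (cvnCo C Cp (cvfR ρ) * I.W) (cvnCo C Cp (cvfR ρ) * I.x)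
          (Cpi * I.sv * (I.x ^ 3 / I.W)) (Cbe * I.sv * I.W * I.x ^ 2) ∧
      (cvySys m I.P).ledger (cvfR ρ) kV (I.jU + 1) q (cvtStar (cvySys m I.P).N kI I.js) (cvnCo C Cp (cvfR ρ) * I.W) (cvnCo C Cp (cvfR ρ) * I.x)
          (Cpi * I.sv * (I.x ^ 3 / I.W)) (Cbe * I.sv * I.W * I.x ^ 2)
        ≤ CL * (I.W * I.x ^ 2) * (I.et + I.sv + cvD I.n I.P kI / I.x) := by
  set r := cvfR ρ with hr
  set Co := cvnCo C Cp r with hCo
  refine ⟨|Co * (1 + C) + 4 * (Co ^ 2 + C * Co) + (Co + C) * Co + 2 * Co ^ 2 + 8 * Co + Co * Cpi + Cbe|, abs_nonneg _, ?_⟩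
  intro kM I m hkM hn h hS hW1 hx1 hs1 kI kV hkV
  have hC := cvn_C_pos I h
  have hCo0 : 0 ≤ Co := cvf_Co_nonneg hC.le Cp _
  rw [abs_of_nonneg (by positivity)]
  have hx := h.x0
  have hW := cvn_W_pos I h
  have hs := h.sv0
  have het := h.et0
  have hY := cvy_ok m I.P h.adm
  have h5 : 5 ≤ r := cvf_R_five ρ
  obtain ⟨c1, c2, c3, c4⟩ := cvn_cuts I m h hS
  have hIS : kI ≤ I.js := by rcases hkV with g | g <;> omega
  have hIN : kI ≤ I.N := by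
    have : (cvySys m I.P).N = I.N := rfl
    omega
  have hD : ∀ j, 0 ≤ (cvySys m I.P).D j := ledy_D_nonneg _
  -- the scale `y = x²/W`
  set y := I.x ^ 2 / I.W with hy
  have hy0 : 0 ≤ y := by positivity
  have hWy : I.W * y = I.x ^ 2 := by rw [hy]; field_simp
  have hyx : y ≤ I.x := by
    rw [hy, div_le_iff₀ hW]
    nlinarith [h.xW]
  have ey1 : I.sv * I.x ^ 2 / I.W = I.sv * y := by rw [hy]; ring
  have ey2 : I.x ^ 3 / I.W = I.x * y := by rw [hy]; ring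
  -- the numbers
  have a1 := cvn_int_lowU I m hn h hS
  have aS := cvn_Dst I m hn h hS hW1 hs1
  have aI := cvn_D_le I m hn h hIN
  have aU : trPm (cvySys m I.P).ms (I.jU + 1) ≤ C * I.W := by
    rw [cvn_pm, cvn_lo_succ]
    exact hS.UHi
  have aU0 : 0 ≤ trPm (cvySys m I.P).ms (I.jU + 1) := ledy_pm_nonneg hY.ms_ok _
  have hsq := cvn_sq_highU I m hn h hS hW1 hs1
  rw [ey1] at hsq
  have a3 : (cvySys m I.P).intM (I.jU + 1) ((cvySys m I.P).N + 1) (cvySys m I.P).D ≤ 2 * (I.sv * y) :=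
    cvn_int_cs (cvySys m I.P) hY (I.jU + 1) _ (by positivity) hsq
  have a4 : ((cvySys m I.P).intM (I.jU + 1) ((cvySys m I.P).N + 1) fun j => (cvySys m I.P).D j ^ (1 - 1 / (r : ℝ))) ^ 2
      + (cvySys m I.P).intM (I.jU + 1) ((cvySys m I.P).N + 1) (fun j => (cvySys m I.P).D j ^ (2 * (1 - 1 / (r : ℝ)))) ≤ 8 * (I.sv * I.x ^ 2) := by
    have h1 := cvn_int_pow (cvySys m I.P) hY (I.jU + 1) r (by omega) (2 * (I.sv * y)) (by positivity) hsq
    refine h1.trans ?_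
    have h2 := cvn_save hx hx1 hs h.sv1 hρ (cvf_R_ge ρ)
    have hr5 : (5 : ℝ) ≤ (r : ℝ) := by exact_mod_cast h5
    have he0 : 0 ≤ 2 * (1 - 1 / (r : ℝ)) := by
      have : 1 / (r : ℝ) ≤ 1 := by
        rw [div_le_one (by linarith)]
        linarith
      linarith
    have he2 : 2 * (1 - 1 / (r : ℝ)) ≤ 2 := by
      have : 0 ≤ 1 / (r : ℝ) := by positivity
      linarith
    have h0 : (2 * (I.sv * y)) ^ (2 * (1 - 1 / (r : ℝ))) ≤ (2 * (I.sv * I.x)) ^ (2 * (1 - 1 / (r : ℝ))) :=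
      Real.rpow_le_rpow (by positivity) (by have := mul_le_mul_of_nonneg_left hyx hs.le; linarith) he0
    have h00 : (2 * (I.sv * I.x)) ^ (2 * (1 - 1 / (r : ℝ))) = (2 : ℝ) ^ (2 * (1 - 1 / (r : ℝ))) * (I.sv * I.x) ^ (2 * (1 - 1 / (r : ℝ))) :=
      Real.mul_rpow (by norm_num) (by positivity)
    rw [h00] at h0
    have h3 : (2 : ℝ) ^ (2 * (1 - 1 / (r : ℝ))) ≤ 4 := by
      calc (2 : ℝ) ^ (2 * (1 - 1 / (r : ℝ))) ≤ (2 : ℝ) ^ (2 : ℝ) := Real.rpow_le_rpow_of_exponent_le (by norm_num) he2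
        _ = 4 := by norm_num
    have h4 : (2 : ℝ) ^ (2 * (1 - 1 / (r : ℝ))) * (I.sv * I.x) ^ (2 * (1 - 1 / (r : ℝ))) ≤ 4 * (I.sv * I.x ^ 2) :=
      mul_le_mul h3 h2 (by positivity) (by norm_num)
    linarith
  -- the atoms
  have at1 : ledAt q (cvtStar (cvySys m I.P).N kI I.js) kV (I.jU + 1) (cvySys m I.P).D ≤ 4 * (I.sv * y) := by
    refine (cvn_at_star _ kI I.js q kV (I.jU + 1) _ hD (by omega)).trans ?_
    have hDs0 := hD I.js
    rcases hkV with ⟨g1, g2⟩ | ⟨g1, g2⟩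
    · rw [if_neg (by omega)]
      split_ifs <;> nlinarith
    · subst g1
      split_ifs <;> nlinarith
  have at0 : ledAt q (cvtStar (cvySys m I.P).N kI I.js) 0 kV (cvySys m I.P).D ≤ (cvySys m I.P).D kI := by
    refine (cvn_at_star _ kI I.js q 0 kV _ hD (by omega)).trans ?_
    have hDi0 := hD kI
    rcases hkV with ⟨g1, g2⟩ | ⟨g1, g2⟩
    · rw [if_neg (by omega : ¬ (0 ≤ I.js ∧ I.js < kV))]
      split_ifs <;> linarith
    · rw [if_neg (by omega), if_neg (by omega)]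
      linarith
  have atH : ∀ f : ℕ → ℝ, (∀ j, 0 ≤ f j) → (cvySys m I.P).tot q (cvtStar (cvySys m I.P).N kI I.js) (I.jU + 1) ((cvySys m I.P).N + 1) f
      = (cvySys m I.P).intM (I.jU + 1) ((cvySys m I.P).N + 1) f := by
    intro f hf
    have t1 := cvn_at_star (cvySys m I.P).N kI I.js q (I.jU + 1) ((cvySys m I.P).N + 1) f hf le_rfl
    rw [if_neg (by omega), if_neg (by omega)] at t1
    have t2 := ledy_at_nonneg q (cvtStar (cvySys m I.P).N kI I.js) (I.jU + 1) ((cvySys m I.P).N + 1) hf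
    unfold LedSys.tot
    linarith
  unfold LedSys.ledger
  rw [atH _ hD, atH _ (fun j => Real.rpow_nonneg (hD j) _), atH _ (fun j => Real.rpow_nonneg (hD j) _), ey2]
  have n1 := ledy_intM_nonneg hY 0 (by omega : I.jU + 1 ≤ (cvySys m I.P).N + 1) hD
  have n2 := ledy_at_nonneg q (cvtStar (cvySys m I.P).N kI I.js) kV (I.jU + 1) hD
  have n3 := ledy_at_nonneg q (cvtStar (cvySys m I.P).N kI I.js) 0 kV hD
  have n4 := ledy_intM_nonneg hY (I.jU + 1) (le_refl ((cvySys m I.P).N + 1)) hD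
  have n5 := ledy_intM_nonneg hY (I.jU + 1) (le_refl ((cvySys m I.P).N + 1)) (fun j => Real.rpow_nonneg (hD j) (2 * (1 - 1 / (r : ℝ))))
  have hdx : cvD I.n I.P kI = I.x * (cvD I.n I.P kI / I.x) := by field_simp
  have hD0 : 0 ≤ cvD I.n I.P kI := Real.sqrt_nonneg _
  exact cvf_real hCo0 hC hCpi hCbe hx h.xW hW1 hx1 hs hs1 het (div_nonneg hD0 hx.le) hy0 hWy n1 n2 n3 n4 n5 aU0 a1 at1
    (at0.trans (by rw [← hdx]; exact aI)) a3 a4 aU

/-- LEAF B. **moment of order `2r` of the monomial on the star table** -/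
theorem cvf_test (c C ρ : ℝ) (Cp : ℕ → ℝ) (r Nd : ℕ) : ∃ s : ℝ, 1 ≤ s ∧ ∀ (kM : ℕ) (I : CavIn) (m : ℕ), r * Nd + 1 ≤ kM → I.n = m + 1 →
    I.Ok c C ρ Cp kM → I.Star c C Cp kM → I.x ≤ 1 → I.sv ≤ 1 → ∀ kI Ii : ℕ, CveTg I kI Ii → ∀ (q : ℕ) (μ : CvtMon), μ.length ≤ Nd → cvtTopM μ ≤ q →
    (∀ e ∈ μ, e.1 ≠ e.2) → μ.countP (fun e => decide (e.1 = 0 ∨ e.2 = 0)) ≤ Ii →
      (cvySys m I.P).act q (cvtStar (cvySys m I.P).N kI I.js) (fun σ => (cvySys m I.P).mEv kI I.js μ (ledRs σ) ^ (2 * r))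
        ≤ (s ^ Nd * cvtMsz I.W I.x μ) ^ (2 * r) := by
  set r' := r * Nd + 1 with hr'
  refine ⟨max 1 (max (cvnSt Cp r') (cvnCx C Cp r')), le_max_left _ _, ?_⟩
  set s := max 1 (max (cvnSt Cp r') (cvnCx C Cp r')) with hs
  have hs1 : 1 ≤ s := le_max_left _ _
  have hsS : cvnSt Cp r' ≤ s := (le_max_left _ _).trans (le_max_right _ _)
  have hsX : cvnCx C Cp r' ≤ s := (le_max_right _ _).trans (le_max_right _ _)
  intro kM I m hk hn hOk hSt hx1 hsv1 kI Ii hT q μ hlen htop hloop hini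
  have hC := cvn_C_pos I hOk
  have hx0 := hOk.x0
  have hW0 := cvn_W_pos I hOk
  have hsv0 := hOk.sv0
  have hY := cvy_ok m I.P hOk.adm
  have hIS : kI ≤ I.js := hT.le hSt
  have hSN := cve_js_le hSt m
  have hτ := cvt_star_isTr hIS hSN q
  have hSt0 : 0 ≤ cvnSt Cp r' := by unfold cvnSt; positivity
  have hCx0 : 0 ≤ cvnCx C Cp r' := by unfold cvnCx; positivity
  have hl : 2 * r * μ.length + 1 ≤ 2 * r' := by
    have : r * μ.length ≤ r * Nd := Nat.mul_le_mul_left r hlen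
    rw [hr']
    nlinarith
  have hmS := cvn_momS I m hn hOk hSt hx1 hsv1 hk
  have hw0 : 0 ≤ cvnSt Cp r' * I.sv * I.W := by positivity
  have hwle : cvnSt Cp r' * I.sv * I.W ≤ s * I.W := by
    refine mul_le_mul_of_nonneg_right ?_ hW0.le
    calc cvnSt Cp r' * I.sv ≤ cvnSt Cp r' * 1 := mul_le_mul_of_nonneg_left hsv1 hSt0
      _ ≤ s := by rw [mul_one]; exact hsS
  have hfin : cvtMsz (s * I.W) (s * I.x) μ ≤ s ^ Nd * cvtMsz I.W I.x μ := by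
    rw [cvf_msz_scale]
    exact mul_le_mul_of_nonneg_right (pow_le_pow_right₀ hs1 hlen) (cvtMsz_nonneg hW0.le hx0.le μ)
  rcases hT with ⟨g1, -⟩ | ⟨g1, g2⟩
  · have hmI := cvn_momI I m hn hOk hx1 hsv1 (j := kI) (r := r') (by have := hOk.jBX; omega) (by omega) hk
    have hx'0 : 0 ≤ cvnCx C Cp r' * I.x := by positivity
    have h := cvn_mon_pow (cvySys m I.P) hY r r' hw0 hx'0 hmS hmI hτ μ htop hloop hl (fun _ _ _ _ => rfl)
    refine le_trans h (pow_le_pow_left₀ (cvtMsz_nonneg hw0 hx'0 μ) ?_ _)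
    exact (cvf_msz_mono hw0 hwle hx'0 (mul_le_mul_of_nonneg_right hsX hx0.le) μ).trans hfin
  · subst g1
    subst g2
    have h := cvn_mon_pow (cvySys m I.P) hY r r' hw0 hw0 hmS hmS hτ μ htop hloop hl (fun _ _ _ _ => rfl)
    refine le_trans h (pow_le_pow_left₀ (cvtMsz_nonneg hw0 hw0 μ) ?_ _)
    rw [cvf_msz_free _ _ (s * I.x) (cvf_no0 hini)]
    have hsx0 : 0 ≤ s * I.x := by positivity
    exact (cvf_msz_mono hw0 hwle hsx0 le_rfl μ).trans hfin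

/-- LEAF C (169). star-only boundary -/
theorem cvf_hbd_s (c C ρ : ℝ) (Cp : ℕ → ℝ) (hc : 0 < c) (hρ : 0 < ρ) (q d : ℕ) : ∃ Cbe : ℝ, 0 ≤ Cbe ∧
    ∀ (kM : ℕ) (I : CavIn) (m : ℕ), max 2 d ≤ kM → I.n = m + 1 → I.Ok c C ρ Cp kM → I.Star c C Cp kM →
    ∀ (mon : CvtMon) (a b : ℕ), mon.length ≤ d → (∀ e ∈ mon, e.1 < q ∧ e.2 < q ∧ e.1 ≠ e.2) → (∀ e ∈ mon, e.1 ≠ 0 ∧ e.2 ≠ 0) → a < q → b < q →
    ∀ (τ₁ : ℕ → ℕ → ℕ) (o : ℕ), IsTr (cvySys m I.P).N (q + 1) τ₁ →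
      (∀ x y, x < q → y < q → τ₁ x y = cvtStar (cvySys m I.P).N I.js I.js x y) → I.jU + 1 ≤ τ₁ a q →
      o < q → cvtStar (cvySys m I.P).N I.js I.js o a < I.jU + 1 → cvtStar (cvySys m I.P).N I.js I.js o b < I.jU + 1 →
      |trSumK (cvySys m I.P).ms (cvySys m I.P).N 1 (q + 1) τ₁ fun τ' => if I.jU + 1 ≤ τ' o (q + 1) then
          (cvySys m I.P).nuR (q + 2) τ' (fun ω => (cvySys m I.P).mEv I.js I.js mon ω
              * (cvySys m I.P).Q (cvtStar (cvySys m I.P).N I.js I.js a o) (ω q) (ω (q + 1))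
              * (cvySys m I.P).Q (cvtStar (cvySys m I.P).N I.js I.js o b) (ω (q + 1)) (ω b))
            - (cvySys m I.P).nuR (q + 2) (trAtt (cvySys m I.P).N (q + 1) τ₁ o (I.jU + 1))
                (fun ω => (cvySys m I.P).mEv I.js I.js mon ω
                  * (cvySys m I.P).Q (cvtStar (cvySys m I.P).N I.js I.js a o) (ω q) (ω (q + 1))
                  * (cvySys m I.P).Q (cvtStar (cvySys m I.P).N I.js I.js o b) (ω (q + 1)) (ω b))
        else 0| ≤ Cbe * I.sv * I.W * I.x ^ 2 * cvtMsz I.W I.x mon :=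
  cvb_hbd_s c C ρ Cp hc hρ q d

/-- **G4 = (24) on the star table.**      TEX[PE:lem:cavity-row-identity] (use of `led_main`).      OWNER helper204. -/
theorem cve_24 (c C ρ : ℝ) (Cp : ℕ → ℝ) (hc : 0 < c) (hρ : 0 < ρ) (Nd Qd : ℕ) :
    ∃ (kM : ℕ) (C24 θ w0 : ℝ), 0 ≤ C24 ∧ 0 < θ ∧ θ ≤ 1 ∧ 0 < w0 ∧ ∀ ε : ℝ, 0 < ε → ∃ δ : ℝ, 0 < δ ∧ ∀ (I : CavIn) (m0 : ℕ),
      CveHyp c C ρ Cp kM w0 δ I m0 → ∀ kI Ii : ℕ, CveTg I kI Ii → ∀ (a f : ℕ) (μ : CvtMon), CveMon Nd Qd Ii a f μ →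
        |(cvySys m0 I.P).cveA kI I.js (Qd + 2) a f μ - (cvySys m0 I.P).Gam I.js * (cvySys m0 I.P).nuM kI I.js μ
            - (cvySys m0 I.P).cveM1 kI I.js (I.jU + 1) (Qd + 2) a f μ - (cvySys m0 I.P).cveM2 kI I.js (I.jU + 1) (Qd + 2) a f μ|
          ≤ C24 * (ε + (cvD I.n I.P kI / I.x) ^ θ) * (I.W * I.x ^ 2 * cvtMsz I.W I.x μ) := by
  set r := cvfR ρ with hr
  set Co := cvnCo C Cp r with hCo
  obtain ⟨Cled, Hled⟩ := led_main (Qd + 2) r (cvf_R_five ρ) C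
  obtain ⟨Cpr, Cpi, hCpr, hCpi, Hpr⟩ := cve_pr c C ρ Cp hc hρ
  obtain ⟨Cb1, hCb1, Hb1⟩ := cvb_hbd c C ρ Cp hc hρ (Qd + 2) Nd
  obtain ⟨Cb2, hCb2, Hb2⟩ := cvf_hbd_s c C ρ Cp hc hρ (Qd + 2) Nd
  obtain ⟨s, hs1, Hts⟩ := cvf_test c C ρ Cp r Nd
  obtain ⟨CL, hCL, HL⟩ := cvf_led_W c C ρ Cp hρ Cpi (Cb1 + Cb2) hCpi (by positivity) (Qd + 2)
  have hs0 : 0 ≤ s := by linarith
  have h5 : 5 ≤ r := cvf_R_five ρ
  set kM := max (max r (r * Nd + 1)) (max 2 Nd) with hkM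
  have k1 : r ≤ kM := (le_max_left _ _).trans (le_max_left _ _)
  have k2 : r * Nd + 1 ≤ kM := (le_max_right _ _).trans (le_max_left _ _)
  have k3 : max 2 Nd ≤ kM := le_max_right _ _
  have k4 : 2 ≤ kM := (le_max_left _ _).trans k3
  refine ⟨kM, |Cled| * s ^ Nd * CL, 1, min 1 (1 / (|Co| + 1)), by positivity, one_pos, le_rfl, by positivity, fun ε hε => ?_⟩
  refine ⟨min 1 (ε / 2), by positivity, ?_⟩
  intro I m0 hI kI Ii hT a f μ hM
  have hδ1 : min 1 (ε / 2) ≤ 1 := min_le_left _ _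
  have hx1 : I.x ≤ 1 := hI.hx.trans hδ1
  have hsv1 : I.sv ≤ 1 := hI.hsv.trans hδ1
  have hW1 : I.W ≤ 1 := hI.hW.trans (min_le_left _ _)
  have hW2 : I.W ≤ 1 / (|Co| + 1) := hI.hW.trans (min_le_right _ _)
  have hC := cvn_C_pos I hI.ok
  have hCo0 : 0 ≤ Co := cvf_Co_nonneg hC.le Cp r
  have hx0 := hI.ok.x0
  have hW0 := cvn_W_pos I hI.ok
  have hsv0 := hI.ok.sv0
  have hY := cvy_ok m0 I.P hI.ok.adm
  have hb := cvn_bh_le I m0 hI.ok
  obtain ⟨c1, c2, c3, c4⟩ := cvn_cuts I m0 hI.ok hI.star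
  have hIS : kI ≤ I.js := hT.le hI.star
  have hSN := cve_js_le hI.star m0
  have hτ := cvt_star_isTr hIS hSN (Qd + 2)
  have ha : a < Qd + 2 := by have := hM.ok.rt; omega
  have hf : f < Qd + 2 := by have := hM.le; omega
  have hf0 : f ≠ 0 := by have := cvtTopM_pos μ; have := hM.top; omega
  have htop : cvtTopM μ ≤ Qd + 2 := hM.ok.top.trans (by omega)
  have hτaf : cvtStar (cvySys m0 I.P).N kI I.js a f = I.js := by
    unfold cvtStar
    rw [if_neg hM.ne.symm, if_neg (by simp [hM.ok.a_ne, hf0])]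
  obtain ⟨kV, hkV, hkVS, hkVX⟩ : ∃ kV, ((kI < I.js ∧ kV = kI + 1) ∨ (kI = I.js ∧ kV = 0)) ∧ kV ≤ I.js ∧ kV ≤ I.jX + 1 := by
    rcases hT with ⟨h1, -⟩ | ⟨h1, -⟩
    · exact ⟨kI + 1, Or.inl ⟨by omega, rfl⟩, by omega, by have := hI.ok.jBX; omega⟩
    · exact ⟨0, Or.inr ⟨h1, rfl⟩, Nat.zero_le _, Nat.zero_le _⟩
  have hmsz0 : 0 ≤ cvtMsz I.W I.x μ := cvtMsz_nonneg hW0.le hx0.le μ
  have hsN1 : 1 ≤ s ^ Nd := one_le_pow₀ hs1
  have halone : ∀ o, o < Qd + 2 → o ≠ f → cvtStar (cvySys m0 I.P).N kI I.js f o < I.jU + 1 := by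
    intro o _ hof
    unfold cvtStar
    rw [if_neg (Ne.symm hof)]
    split_ifs <;> omega
  have hfree : LedFree f ((cvySys m0 I.P).mEv kI I.js μ) := by
    intro σ v
    refine led_t_mEv_congr _ kI I.js μ fun i hi => ?_
    rw [Function.update_of_ne (by have := hM.top; omega)]
  have hom1 : Co * I.W ≤ 1 := by
    rw [abs_of_nonneg hCo0, le_div_iff₀ (by positivity)] at hW2
    nlinarith
  obtain ⟨hPi0, hgp, hpr⟩ := Hpr I m0 (hI.weak k4 hδ1)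
  have hedge : ∀ e ∈ μ, e.1 < Qd + 2 ∧ e.2 < Qd + 2 ∧ e.1 ≠ e.2 := by
    intro e he
    have := cvt_lt_topM he
    exact ⟨by omega, by omega, hM.ok.loop e he⟩
  have hbe : ∀ Cb : ℝ, 0 ≤ Cb → Cb ≤ Cb1 + Cb2 → Cb * I.sv * I.W * I.x ^ 2 * cvtMsz I.W I.x μ
      ≤ (Cb1 + Cb2) * I.sv * I.W * I.x ^ 2 * (s ^ Nd * cvtMsz I.W I.x μ) := by
    intro Cb h0 h1
    have t1 : Cb * I.sv * I.W * I.x ^ 2 ≤ (Cb1 + Cb2) * I.sv * I.W * I.x ^ 2 := by
      have : 0 ≤ I.sv * I.W * I.x ^ 2 := by positivity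
      nlinarith
    have t2 : cvtMsz I.W I.x μ ≤ s ^ Nd * cvtMsz I.W I.x μ := le_mul_of_one_le_left hmsz0 hsN1
    exact mul_le_mul t1 t2 hmsz0 (by positivity)
  have key := Hled _ (cvySys m0 I.P) hY hb.1 hb.2 kV I.js (I.jU + 1) (cvtStar (cvySys m0 I.P).N kI I.js) a f ((cvySys m0 I.P).mEv kI I.js μ)
    (Co * I.W) (Co * I.x) (Cpi * I.sv * (I.x ^ 3 / I.W)) ((Cb1 + Cb2) * I.sv * I.W * I.x ^ 2) (s ^ Nd * cvtMsz I.W I.x μ) (cvePi I Cpr)
    hτ ha hf hτaf hkVS c2 c3 halone (led_t_mEv_ruses _ kI I.js μ htop) hfree (mul_le_mul_of_nonneg_left hI.ok.xW hCo0) hom1 (by positivity) (by positivity)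
    (by positivity) (by positivity)
    (fun j hj => cvn_low_W I m0 hI.hn hI.ok hI.star hx1 hsv1 hj.le (by omega) k1)
    (fun j hj => cvn_low_x I m0 hI.hn hI.ok hx1 hsv1 (by omega) (by omega) k1)
    (Hts kM I m0 k2 hI.hn hI.ok hI.star hx1 hsv1 kI Ii hT (Qd + 2) μ hM.ok.len htop hM.ok.loop hM.ok.ini)
    hPi0 hgp (hpr kI (Qd + 2) a f hIS ha hf hM.ne.symm)
    (by
      intro τ₁ o h1 h2 h3 h4 h5 h6
      rcases hT with ⟨g1, -⟩ | ⟨g1, g2⟩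
      · exact (Hb1 kM I m0 k3 hI.hn hI.ok hI.star kI g1 μ a f hM.ok.len hedge ha hf τ₁ o h1 h2 h3 h4 h5 h6).trans (hbe Cb1 hCb1 (by linarith))
      · subst g1
        subst g2
        exact (Hb2 kM I m0 k3 hI.hn hI.ok hI.star μ a f hM.ok.len hedge (cvf_no0 hM.ok.ini) ha hf τ₁ o h1 h2 h3 h4 h5 h6).trans
          (hbe Cb2 hCb2 (by linarith)))
  obtain ⟨hL0, hLle⟩ := HL kM I m0 k1 hI.hn hI.ok hI.star hW1 hx1 hsv1 kI kV hkV
  have e2 : (cvySys m0 I.P).act (Qd + 2) (cvtStar (cvySys m0 I.P).N kI I.js) (fun σ => (cvySys m0 I.P).mEv kI I.js μ (ledRs σ))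
      = (cvySys m0 I.P).nuM kI I.js μ := led_t_nuQ_eq _ hY hIS hSN μ htop
  rw [e2] at key
  refine le_trans key ?_
  rw [Real.rpow_one]
  set L := (cvySys m0 I.P).ledger r kV (I.jU + 1) (Qd + 2) (cvtStar (cvySys m0 I.P).N kI I.js) (Co * I.W) (Co * I.x)
    (Cpi * I.sv * (I.x ^ 3 / I.W)) ((Cb1 + Cb2) * I.sv * I.W * I.x ^ 2) with hL
  set d := cvD I.n I.P kI / I.x with hd
  have hd0 : 0 ≤ d := div_nonneg (Real.sqrt_nonneg _) hx0.le
  have hes : I.et + I.sv ≤ ε := by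
    have t1 := hI.het.trans (min_le_right _ _)
    have t2 := hI.hsv.trans (min_le_right _ _)
    linarith
  have hp0 : 0 ≤ s ^ Nd * cvtMsz I.W I.x μ := by positivity
  calc Cled * (s ^ Nd * cvtMsz I.W I.x μ) * L ≤ |Cled| * (s ^ Nd * cvtMsz I.W I.x μ) * L :=
        mul_le_mul_of_nonneg_right (mul_le_mul_of_nonneg_right (le_abs_self _) hp0) hL0
    _ ≤ |Cled| * (s ^ Nd * cvtMsz I.W I.x μ) * (CL * (I.W * I.x ^ 2) * (ε + d)) := by
        refine mul_le_mul_of_nonneg_left (hLle.trans ?_) (by positivity)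
        exact mul_le_mul_of_nonneg_left (by linarith) (by positivity)
    _ = _ := by ring

end Claimed.Agent.R286
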