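import Claimed.Agent.R286.Cav.Hol

/-!
# Row 286 (S0533), folder Cav, file PreLp : EVEN-EXPONENT `L^p` CALCULUS for the functionals `CvExp` of `Cav/Hol`      (helper18, HEAD P07; prefix `sk_cvlp_`, predicate `CvLe`)

Decision D8 of the PE ledger: only exponents `2k`, no real `p`, no `rpow`.
`CvLe ν k f c` : `‖f‖_{2k} ≤ c`, i.e. `0 ≤ c` and `ν[f^{2k}] ≤ c^{2k}`.
Exports: `CvLe.weaken, of_bound, of_forall_pos, smul, neg, const, add, sub, sum` (triangle inequality), `prod, mul` (Hoelder: the NORM of a product), `mono_exp` (Lyapunov),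
`cs` (Cauchy-Schwarz), `abs_mean_le`;  `sk_cvlp_prod_sub_prod(_le)` = TEX[PE:lem:found-boundary-tests] (telescoping of a difference of products).
0 sorry, no model.
-/

set_option autoImplicit false

namespace Claimed.Agent.R286

open Finset

/-- `‖f‖_{2k} ≤ c` -/
def CvLe {Ω : Type*} (ν : CvExp Ω) (k : ℕ) (f : Ω → ℝ) (c : ℝ) : Prop :=
  0 ≤ c ∧ ν.E (fun ω => f ω ^ (2 * k)) ≤ c ^ (2 * k)

theorem sk_cvlp_eqns_cite : True := by
  have := @CvLe.eq_1.{0}
  trivial

/-- arithmetic-geometric inequality in the form used for Hölder -/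
theorem sk_cvlp_amgm {ι : Type*} (s : Finset ι) (hs : s.Nonempty) (y : ι → ℝ) (hy : ∀ i ∈ s, 0 ≤ y i) :
    ∏ i ∈ s, y i ≤ (s.card : ℝ)⁻¹ * ∑ i ∈ s, y i ^ s.card := by
  have hd : (s.card : ℝ) ≠ 0 := by exact_mod_cast hs.card_pos.ne'
  have h := Real.geom_mean_le_arith_mean_weighted s (fun _ => (s.card : ℝ)⁻¹) (fun i => y i ^ s.card)
    (fun i _ => by positivity) (by simp [hd]) (fun i hi => pow_nonneg (hy i hi) _)
  have h1 : ∏ i ∈ s, (y i ^ s.card) ^ ((s.card : ℝ)⁻¹) = ∏ i ∈ s, y i :=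
    Finset.prod_congr rfl fun i hi => Real.pow_rpow_inv_natCast (hy i hi) hs.card_pos.ne'
  rw [h1, ← Finset.mul_sum] at h
  exact h

namespace CvLe

variable {Ω : Type*} {ν : CvExp Ω}

theorem weaken {k : ℕ} {f : Ω → ℝ} {c c' : ℝ} (h : CvLe ν k f c) (hc : c ≤ c') : CvLe ν k f c' :=
  ⟨le_trans h.1 hc, le_trans h.2 (pow_le_pow_left₀ h.1 hc _)⟩

theorem of_bound (k : ℕ) {f : Ω → ℝ} {c : ℝ} (hf : ∀ ω, |f ω| ≤ c) [Nonempty Ω] : CvLe ν k f c := by
  have hc : 0 ≤ c := le_trans (abs_nonneg _) (hf (Classical.arbitrary Ω))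
  refine ⟨hc, ?_⟩
  rw [← ν.const (c ^ (2 * k))]
  refine ν.mono _ _ fun ω => ?_
  rw [pow_mul, pow_mul, ← sq_abs (f ω)]
  exact pow_le_pow_left₀ (by positivity) (pow_le_pow_left₀ (abs_nonneg _) (hf ω) _) _

/-- closure of the bounds: it suffices to prove `‖f‖ ≤ c + ε` for all `ε > 0` -/
theorem of_forall_pos {k : ℕ} {f : Ω → ℝ} {c : ℝ} (hc : 0 ≤ c) (h : ∀ ε, 0 < ε → CvLe ν k f (c + ε)) : CvLe ν k f c := by
  refine ⟨hc, ?_⟩
  have hcont : Filter.Tendsto (fun ε : ℝ => (c + ε) ^ (2 * k)) (nhdsWithin 0 (Set.Ioi 0)) (nhds ((c + 0) ^ (2 * k))) := by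
    apply Filter.Tendsto.mono_left _ nhdsWithin_le_nhds
    exact ((continuous_const.add continuous_id).pow _).tendsto 0
  rw [add_zero] at hcont
  refine ge_of_tendsto hcont ?_
  filter_upwards [self_mem_nhdsWithin] with ε hε
  exact (h ε hε).2

theorem smul {k : ℕ} {f : Ω → ℝ} {c : ℝ} (h : CvLe ν k f c) (a : ℝ) :
    CvLe ν k (fun ω => a * f ω) (|a| * c) := by
  refine ⟨mul_nonneg (abs_nonneg _) h.1, ?_⟩
  have h1 : (fun ω => (a * f ω) ^ (2 * k)) = fun ω => (|a| ^ (2 * k)) * f ω ^ (2 * k) := by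
    funext ω
    rw [mul_pow, pow_mul a, pow_mul |a|, sq_abs]
  rw [h1, ν.smul, mul_pow]
  exact mul_le_mul_of_nonneg_left h.2 (by positivity)

/-- Hölder for a finite product, positive constants -/
theorem prod_pos {ι : Type*} (s : Finset ι) (hs : s.Nonempty) (k : ℕ) (f : ι → Ω → ℝ) (c : ι → ℝ)
    (hc : ∀ i ∈ s, 0 < c i) (h : ∀ i ∈ s, CvLe ν (k * s.card) (f i) (c i)) :
    CvLe ν k (fun ω => ∏ i ∈ s, f i ω) (∏ i ∈ s, c i) := by
  refine ⟨Finset.prod_nonneg fun i hi => (hc i hi).le, ?_⟩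
  have hd : (s.card : ℝ) ≠ 0 := by exact_mod_cast hs.card_pos.ne'
  have hC : 0 < ∏ i ∈ s, c i ^ (2 * k) := Finset.prod_pos fun i hi => pow_pos (hc i hi) _
  have hpt : ∀ ω, (∏ i ∈ s, f i ω) ^ (2 * k)
      ≤ (∏ i ∈ s, c i ^ (2 * k)) * ((s.card : ℝ)⁻¹ * ∑ i ∈ s, (c i ^ (2 * (k * s.card)))⁻¹ * f i ω ^ (2 * (k * s.card))) := by
    intro ω
    have h1 := sk_cvlp_amgm s hs (fun i => f i ω ^ (2 * k) / c i ^ (2 * k))
      (fun i hi => div_nonneg (by rw [pow_mul]; positivity) (pow_pos (hc i hi) _).le)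
    rw [Finset.prod_div_distrib, div_le_iff₀ hC] at h1
    rw [← Finset.prod_pow, mul_comm (∏ i ∈ s, c i ^ (2 * k))]
    refine le_trans h1 (le_of_eq ?_)
    congr 2
    refine Finset.sum_congr rfl fun i _ => ?_
    rw [div_pow, ← pow_mul, ← pow_mul, mul_assoc, div_eq_inv_mul]
  refine le_trans (ν.mono _ _ hpt) ?_
  rw [ν.smul, ν.smul, ν.sum, ← Finset.prod_pow]
  have h2 : ∑ i ∈ s, ν.E (fun ω => (c i ^ (2 * (k * s.card)))⁻¹ * f i ω ^ (2 * (k * s.card))) ≤ ∑ _i ∈ s, (1 : ℝ) := by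
    refine Finset.sum_le_sum fun i hi => ?_
    rw [ν.smul, inv_mul_le_iff₀ (pow_pos (hc i hi) _), mul_one]
    exact (h i hi).2
  have h3 : (s.card : ℝ)⁻¹ * ∑ i ∈ s, ν.E (fun ω => (c i ^ (2 * (k * s.card)))⁻¹ * f i ω ^ (2 * (k * s.card))) ≤ 1 := by
    calc _ ≤ (s.card : ℝ)⁻¹ * ∑ _i ∈ s, (1 : ℝ) := mul_le_mul_of_nonneg_left h2 (by positivity)
      _ = 1 := by simp [hd]
  calc _ ≤ (∏ i ∈ s, c i ^ (2 * k)) * 1 := mul_le_mul_of_nonneg_left h3 hC.le
    _ = _ := mul_one _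

/-- **Hölder for a finite product**: `‖∏ f_i‖_{2k} ≤ ∏ c_i` if `‖f_i‖_{2kd} ≤ c_i`, `d` = number of factors -/
theorem prod {ι : Type*} (s : Finset ι) (k : ℕ) (f : ι → Ω → ℝ) (c : ι → ℝ)
    (h : ∀ i ∈ s, CvLe ν (k * s.card) (f i) (c i)) :
    CvLe ν k (fun ω => ∏ i ∈ s, f i ω) (∏ i ∈ s, c i) := by
  rcases s.eq_empty_or_nonempty with rfl | hs
  · refine ⟨by simp, ?_⟩
    simp [ν.one]
  · have hc0 : ∀ i ∈ s, 0 ≤ c i := fun i hi => (h i hi).1
    refine ⟨Finset.prod_nonneg hc0, ?_⟩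
    have hcont : Filter.Tendsto (fun ε : ℝ => (∏ i ∈ s, (c i + ε)) ^ (2 * k)) (nhdsWithin 0 (Set.Ioi 0))
        (nhds ((∏ i ∈ s, (c i + 0)) ^ (2 * k))) := by
      apply Filter.Tendsto.mono_left _ nhdsWithin_le_nhds
      have : Continuous fun ε : ℝ => (∏ i ∈ s, (c i + ε)) ^ (2 * k) :=
        (continuous_finsetProd s fun i _ => continuous_const.add continuous_id).pow _
      exact this.tendsto 0
    simp only [add_zero] at hcont
    refine ge_of_tendsto hcont ?_
    filter_upwards [self_mem_nhdsWithin] with ε hε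
    have hε' : (0 : ℝ) < ε := hε
    exact (prod_pos s hs k f (fun i => c i + ε) (fun i hi => by linarith [hc0 i hi])
      (fun i hi => (h i hi).weaken (by linarith))).2

/-- Hölder for two factors -/
theorem mul {k : ℕ} {f g : Ω → ℝ} {a b : ℝ} (hf : CvLe ν (k * 2) f a) (hg : CvLe ν (k * 2) g b) :
    CvLe ν k (fun ω => f ω * g ω) (a * b) := by
  have := prod (Finset.univ : Finset (Fin 2)) k (fun i => if i = 0 then f else g) (fun i => if i = 0 then a else b)
    (by
      intro i _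
      fin_cases i
      · simpa using hf
      · simpa using hg)
  simpa [Fin.prod_univ_two] using this

/-- constants -/
theorem const (ν : CvExp Ω) (k : ℕ) (c : ℝ) : CvLe ν k (fun _ => c) |c| := by
  refine ⟨abs_nonneg _, ?_⟩
  rw [ν.const, pow_mul, pow_mul, sq_abs]

/-- **Lyapunov**: the norms increase with the exponent -/
theorem mono_exp {j k : ℕ} (hjk : j ≤ k) {f : Ω → ℝ} {c : ℝ} (h : CvLe ν k f c) : CvLe ν j f c := by
  refine ⟨h.1, ?_⟩
  rcases Nat.eq_zero_or_pos k with rfl | hk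
  · have : j = 0 := by omega
    subst this; exact h.2
  have := prod (Finset.univ : Finset (Fin k)) 1 (fun i => if (i : ℕ) < j then f else fun _ => 1)
    (fun i => if (i : ℕ) < j then c else 1)
    (by
      intro i _
      by_cases hi : (i : ℕ) < j
      · simpa [hi] using h
      · simp only [hi, if_false]
        have := const ν (1 * (Finset.univ : Finset (Fin k)).card) (1 : ℝ)
        simpa using this)
  have hprod : ∀ (x : ℝ), (∏ i : Fin k, if (i : ℕ) < j then x else 1) = x ^ j := by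
    intro x
    rw [Finset.prod_ite, Finset.prod_const_one, mul_one, Finset.prod_const]
    congr 1
    have : (Finset.univ.filter fun i : Fin k => (i : ℕ) < j).card = j := by
      rw [Fin.card_filter_val_lt]; omega
    exact this
  have h2 := this.2
  have h3 : (fun ω => (∏ i : Fin k, (if (i : ℕ) < j then f else fun _ => 1) ω) ^ (2 * 1)) = fun ω => f ω ^ (2 * j) := by
    funext ω
    have : (∏ i : Fin k, (if (i : ℕ) < j then f else fun _ => 1) ω) = ∏ i : Fin k, if (i : ℕ) < j then f ω else 1 :=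
      Finset.prod_congr rfl fun i _ => by split_ifs <;> rfl
    rw [this, hprod, ← pow_mul, mul_comm j]
  rw [h3, hprod, ← pow_mul, mul_comm j] at h2
  simpa using h2

/-- **triangle inequality** in `L^{2k}` -/
theorem add {k : ℕ} {f g : Ω → ℝ} {a b : ℝ} (hf : CvLe ν k f a) (hg : CvLe ν k g b) :
    CvLe ν k (fun ω => f ω + g ω) (a + b) := by
  have key : ∀ a b : ℝ, 0 < a → 0 < b → CvLe ν k f a → CvLe ν k g b → CvLe ν k (fun ω => f ω + g ω) (a + b) := by
    intro a b ha hb hf hg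
    refine ⟨by positivity, ?_⟩
    have hab : 0 < a + b := by positivity
    have hconv : ConvexOn ℝ Set.univ (fun x : ℝ => x ^ (2 * k)) := (even_two_mul k).convexOn_pow
    have hpt : ∀ ω, (f ω + g ω) ^ (2 * k)
        ≤ (a + b) ^ (2 * k) * ((a / (a + b)) * ((a ^ (2 * k))⁻¹ * f ω ^ (2 * k)) + (b / (a + b)) * ((b ^ (2 * k))⁻¹ * g ω ^ (2 * k))) := by
      intro ω
      have h1 := hconv.2 (Set.mem_univ (f ω / a)) (Set.mem_univ (g ω / b)) (div_nonneg ha.le hab.le)
        (div_nonneg hb.le hab.le) (by field_simp)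
      simp only [smul_eq_mul] at h1
      have h2 : a / (a + b) * (f ω / a) + b / (a + b) * (g ω / b) = (f ω + g ω) / (a + b) := by
        field_simp
      rw [h2, div_pow, div_le_iff₀ (pow_pos hab _)] at h1
      refine le_trans h1 (le_of_eq ?_)
      rw [div_pow, div_pow]
      ring
    refine le_trans (ν.mono _ _ hpt) ?_
    rw [ν.smul, ν.add, ν.smul, ν.smul, ν.smul, ν.smul]
    have h3 : (a ^ (2 * k))⁻¹ * ν.E (fun ω => f ω ^ (2 * k)) ≤ 1 := by
      rw [inv_mul_le_iff₀ (pow_pos ha _), mul_one]; exact hf.2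
    have h4 : (b ^ (2 * k))⁻¹ * ν.E (fun ω => g ω ^ (2 * k)) ≤ 1 := by
      rw [inv_mul_le_iff₀ (pow_pos hb _), mul_one]; exact hg.2
    have h5 : a / (a + b) * ((a ^ (2 * k))⁻¹ * ν.E (fun ω => f ω ^ (2 * k))) + b / (a + b) * ((b ^ (2 * k))⁻¹ * ν.E (fun ω => g ω ^ (2 * k)))
        ≤ a / (a + b) * 1 + b / (a + b) * 1 :=
      add_le_add (mul_le_mul_of_nonneg_left h3 (by positivity)) (mul_le_mul_of_nonneg_left h4 (by positivity))
    have h6 : a / (a + b) * 1 + b / (a + b) * 1 = 1 := by field_simp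
    calc _ ≤ (a + b) ^ (2 * k) * 1 := mul_le_mul_of_nonneg_left (h5.trans h6.le) (by positivity)
      _ = _ := mul_one _
  refine of_forall_pos (add_nonneg hf.1 hg.1) fun ε hε => ?_
  have := key (a + ε / 2) (b + ε / 2) (by linarith [hf.1]) (by linarith [hg.1]) (hf.weaken (by linarith)) (hg.weaken (by linarith))
  have h7 : a + ε / 2 + (b + ε / 2) = a + b + ε := by ring
  rwa [h7] at this

theorem neg {k : ℕ} {f : Ω → ℝ} {c : ℝ} (h : CvLe ν k f c) : CvLe ν k (fun ω => - f ω) c := by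
  have := h.smul (-1)
  simpa using this

theorem sub {k : ℕ} {f g : Ω → ℝ} {a b : ℝ} (hf : CvLe ν k f a) (hg : CvLe ν k g b) :
    CvLe ν k (fun ω => f ω - g ω) (a + b) := by
  have := hf.add (hg.neg)
  simpa [sub_eq_add_neg] using this

theorem sum {ι : Type*} (s : Finset ι) (k : ℕ) (f : ι → Ω → ℝ) (c : ι → ℝ)
    (h : ∀ i ∈ s, CvLe ν k (f i) (c i)) : CvLe ν k (fun ω => ∑ i ∈ s, f i ω) (∑ i ∈ s, c i) := by
  classical
  induction s using Finset.induction with
  | empty =>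
    have := const ν k (0 : ℝ)
    simpa using this
  | insert i s hi ih =>
    simp only [Finset.sum_insert hi]
    exact (h i (Finset.mem_insert_self _ _)).add (ih fun j hj => h j (Finset.mem_insert_of_mem hj))

/-- **Cauchy-Schwarz** -/
theorem cs {f g : Ω → ℝ} {a b : ℝ} (hf : CvLe ν 1 f a) (hg : CvLe ν 1 g b) :
    |ν.E (fun ω => f ω * g ω)| ≤ a * b := by
  have key : ∀ a b : ℝ, 0 < a → 0 < b → CvLe ν 1 f a → CvLe ν 1 g b → |ν.E (fun ω => f ω * g ω)| ≤ a * b := by
    intro a b ha hb hf hg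
    refine le_trans (ν.abs_le _) ?_
    have hpt : ∀ ω, |f ω * g ω| ≤ (b / (2 * a)) * f ω ^ (2 * 1) + (a / (2 * b)) * g ω ^ (2 * 1) := by
      intro ω
      rw [abs_mul]
      have h1 : 0 ≤ (b * |f ω| - a * |g ω|) ^ 2 := sq_nonneg _
      have h2 : (b / (2 * a)) * f ω ^ (2 * 1) + (a / (2 * b)) * g ω ^ (2 * 1) - |f ω| * |g ω|
          = (b * |f ω| - a * |g ω|) ^ 2 / (2 * a * b) := by
        rw [mul_one, ← sq_abs (f ω), ← sq_abs (g ω)]
        field_simp
        ring
      have h3 : 0 ≤ (b * |f ω| - a * |g ω|) ^ 2 / (2 * a * b) := by positivity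
      linarith
    refine le_trans (ν.mono _ _ hpt) ?_
    rw [ν.add, ν.smul, ν.smul]
    have h4 : b / (2 * a) * ν.E (fun ω => f ω ^ (2 * 1)) ≤ b / (2 * a) * a ^ (2 * 1) :=
      mul_le_mul_of_nonneg_left hf.2 (by positivity)
    have h5 : a / (2 * b) * ν.E (fun ω => g ω ^ (2 * 1)) ≤ a / (2 * b) * b ^ (2 * 1) :=
      mul_le_mul_of_nonneg_left hg.2 (by positivity)
    have h6 : b / (2 * a) * a ^ (2 * 1) + a / (2 * b) * b ^ (2 * 1) = a * b := by
      field_simp; ring
    linarith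
  have hcont : Filter.Tendsto (fun ε : ℝ => (a + ε) * (b + ε)) (nhdsWithin 0 (Set.Ioi 0)) (nhds ((a + 0) * (b + 0))) := by
    apply Filter.Tendsto.mono_left _ nhdsWithin_le_nhds
    have : Continuous fun ε : ℝ => (a + ε) * (b + ε) := by fun_prop
    exact this.tendsto 0
  simp only [add_zero] at hcont
  refine ge_of_tendsto hcont ?_
  filter_upwards [self_mem_nhdsWithin] with ε hε
  have hε' : (0 : ℝ) < ε := hε
  exact key _ _ (by linarith [hf.1]) (by linarith [hg.1]) (hf.weaken (by linarith)) (hg.weaken (by linarith))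

/-- the mean is bounded by any norm -/
theorem abs_mean_le {k : ℕ} (hk : 1 ≤ k) {f : Ω → ℝ} {c : ℝ} (h : CvLe ν k f c) : |ν.E f| ≤ c := by
  have h1 := (h.mono_exp hk).cs (const ν 1 (1 : ℝ))
  simpa using h1

end CvLe

/-- **PE Lemma 2.13, algebra**: telescoping of a difference of products over `Fin d` -/
theorem sk_cvlp_prod_sub_prod {Ω : Type*} (d : ℕ) (A B : ℕ → Ω → ℝ) (ω : Ω) :
    (∏ i ∈ range d, A i ω) - ∏ i ∈ range d, B i ω
      = ∑ j ∈ range d, (∏ i ∈ range d, if i < j then A i ω else if i = j then A j ω - B j ω else B i ω) := by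
  induction d with
  | zero => simp
  | succ d ih =>
    rw [Finset.sum_range_succ, Finset.prod_range_succ, Finset.prod_range_succ, Finset.prod_range_succ]
    have h1 : (∏ i ∈ range d, if i < d then A i ω else if i = d then A d ω - B d ω else B i ω) = ∏ i ∈ range d, A i ω :=
      Finset.prod_congr rfl fun i hi => by rw [if_pos (mem_range.1 hi)]
    have h2 : ∑ j ∈ range d, (∏ i ∈ range (d + 1), if i < j then A i ω else if i = j then A j ω - B j ω else B i ω)
        = (∑ j ∈ range d, (∏ i ∈ range d, if i < j then A i ω else if i = j then A j ω - B j ω else B i ω)) * B d ω := by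
      rw [Finset.sum_mul]
      refine Finset.sum_congr rfl fun j hj => ?_
      have hj' : j < d := mem_range.1 hj
      rw [Finset.prod_range_succ, if_neg (by omega), if_neg (by omega)]
    rw [h1, h2, ← ih]
    simp
    ring

/-- **PE Lemma 2.13, estimate**: `‖∏ A_i - ∏ B_i‖_{2k} ≤ ∑_j r_j ∏_{i ≠ j} c_i` -/
theorem sk_cvlp_prod_sub_prod_le {Ω : Type*} {ν : CvExp Ω} (d k : ℕ) (A B : ℕ → Ω → ℝ) (c r : ℕ → ℝ)
    (hA : ∀ i, i < d → CvLe ν (k * d) (A i) (c i)) (hB : ∀ i, i < d → CvLe ν (k * d) (B i) (c i))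
    (hAB : ∀ i, i < d → CvLe ν (k * d) (fun ω => A i ω - B i ω) (r i)) :
    CvLe ν k (fun ω => (∏ i ∈ range d, A i ω) - ∏ i ∈ range d, B i ω)
      (∑ j ∈ range d, ∏ i ∈ range d, if i = j then r j else c i) := by
  have h0 : (fun ω => (∏ i ∈ range d, A i ω) - ∏ i ∈ range d, B i ω)
      = fun ω => ∑ j ∈ range d, (∏ i ∈ range d, if i < j then A i ω else if i = j then A j ω - B j ω else B i ω) := by
    funext ω; exact sk_cvlp_prod_sub_prod d A B ω
  rw [h0]
  refine CvLe.sum _ k _ _ fun j hj => ?_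
  have := CvLe.prod (range d) k (fun i ω => if i < j then A i ω else if i = j then A j ω - B j ω else B i ω)
    (fun i => if i = j then r j else c i) (by
      intro i hi
      have hi' : i < d := mem_range.1 hi
      rw [Finset.card_range]
      by_cases h1 : i < j
      · have h2 : ¬ i = j := by omega
        simp only [h1, if_true, h2, if_false]; exact hA i hi'
      · by_cases h2 : i = j
        · subst h2; simp only [lt_irrefl, if_false, if_true]; exact hAB i hi'
        · simp only [h1, h2, if_false]; exact hB i hi')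
  exact this

end Claimed.Agent.R286
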