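import Claimed.Agent.R286.Cav.RetKit
import Claimed.Agent.R286.Cav.TstMod
import Claimed.Agent.R286.Cav.LedTayG

/-!
# Row 286 (S0533), unit Cav, file RetMain      (owner helper137; prefix `ret_`)

RETURN TO THE TARGET CUT, abstract form on `LedSys` (PE cavity.tex l.1005-1125).      TEX[PE:prop:cavity-closure]
* `ret_ker`, `ret_ker0`   change of the cut in the insertion `𝓛(X,a) = ν[X M_a]` (`U_x → U`), and the direct bound (regime `W ≳ 1`)      (l.1061-1108)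
* `ret_main1`, `ret_main2`   the two retained terms of (24) at `P = 1`: `main1 = O(1/n)`, `main2 = 2 b_i χ_x 𝓛(Δ_{ao}, a) + O(1/n)`      (l.1046-1060)
* `ret_abs`   `|ν[s_a s_o] - Γ(K_i)| ≤ ledger + O(1/n) + C (|𝓛_U(Δ_{ao}, a)| + D_i (∫_{U_x}^U D + K_U ∫_U^1 D))`
The insertion `Y.insL` of `RetKit` IS `Y.insM` of `TstMod` (218): `ret_insL_eq`.
-/

set_option autoImplicit false

namespace Claimed.Agent.R286

open Finset

variable {Ω : Type} {Y : LedSys Ω}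

theorem ret_insL_eq (Y : LedSys Ω) (kU q : ℕ) (τ : ℕ → ℕ → ℕ) (a : ℕ) (X : (ℕ → Bool × Ω) → ℝ) :
    Y.insL kU q τ a X = Y.insM kU q τ a X := rfl

/-! ## 1. change of the cut -/

theorem ret_at_smul (q : ℕ) (τ : ℕ → ℕ → ℕ) (k0 k1 : ℕ) (c : ℝ) (f : ℕ → ℝ) :
    ledAt q τ k0 k1 (fun j => c * f j) = c * ledAt q τ k0 k1 f := by
  unfold ledAt
  rw [Finset.mul_sum]

theorem ret_tot_smul (ms : ℕ → ℝ) (q : ℕ) (τ : ℕ → ℕ → ℕ) (k0 k1 : ℕ) (c : ℝ) (f : ℕ → ℝ) :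
    ledTot ms q τ k0 k1 (fun j => c * f j) = c * ledTot ms q τ k0 k1 f := by
  unfold ledTot
  rw [ret_at_smul, mul_add, Finset.mul_sum]
  congr 1
  refine Finset.sum_congr rfl fun j _ => ?_
  ring

theorem ret_insF_abs_le (hY : Y.Ok) (k : ℕ) {q a : ℕ} (ha : a < q) {τ' : ℕ → ℕ → ℕ} (hτ' : IsTr Y.N (q + 3) τ') :
    |Y.insF k q a τ'| ≤ 1 := by
  unfold LedSys.insF
  split_ifs
  · have := ret_kap4_abs_le hY k hτ' (a := a) (c := q) (e := q + 1) (f := q + 2) (by omega) (by omega) (by omega) (by omega)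
    rw [abs_mul]
    norm_num
    linarith
  · simp

/-- **change of the cut in the insertion**      (PE l.1072-1108) -/
theorem ret_ker (q : ℕ) : ∃ C : ℝ, 0 ≤ C ∧ ∀ (Ω : Type) (Y : LedSys Ω), Y.Ok → ∀ Cb : ℝ, (∀ r, Y.b r ≤ Cb) →
    ∀ (kX kU : ℕ) (τ : ℕ → ℕ → ℕ) (a : ℕ) (X : (ℕ → Bool × Ω) → ℝ), IsTr Y.N q τ → a < q → TrUses q X → kX ≤ kU → kU ≤ Y.N + 1 →
      |Y.insL kX q τ a X - Y.insL kU q τ a X|
        ≤ C * (Cb * Y.n2 q τ X) * (ledTot Y.ms q τ kX kU Y.D + Y.K kU * ledTot Y.ms q τ kU (Y.N + 1) Y.D) := by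
  obtain ⟨C1, hC1, hd⟩ := led_dens1 q 3
  set L : ℝ := ((q : ℝ) + 3) * ((q : ℝ) + 4) + 12 with hL
  have hL1 : 1 ≤ L := by
    have : (0 : ℝ) ≤ q := Nat.cast_nonneg q
    nlinarith
  refine ⟨C1 * L, by positivity, ?_⟩
  intro Ω Y hY Cb hb kX kU τ a X hτ ha hX hk hkN
  have hCb : 0 ≤ Cb := by have := hb 0; rw [hY.b_zero] at this; exact this
  have hn2 := ret_n2_nonneg Y q τ X
  have hK0 := ret_K_nonneg hY kU
  rw [ret_insL_free hY (by omega) ha hτ, ret_insL_free hY hkN ha hτ, ← ret_sumK_sub]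
  set f : ℕ → ℝ := fun j => (Cb * Y.n2 q τ X) * Y.D j with hf
  have hf0 : ∀ j, 0 ≤ f j := fun j => mul_nonneg (mul_nonneg hCb hn2) (ret_D_nonneg Y j)
  have hpt : ∀ τ', IsTr Y.N (q + 3) τ' → (∀ y z, y < q → z < q → τ' y z = τ y z) →
      |Y.insF kX q a τ' * Y.insE q X τ' - Y.insF kU q a τ' * Y.insE q X τ'|
        ≤ (if kX ≤ τ' (q + 1) (q + 2) ∧ τ' (q + 1) (q + 2) < kU then f (τ' (q + 1) (q + 2)) else 0)
          + (if kU ≤ τ' (q + 1) (q + 2) ∧ τ' (q + 1) (q + 2) < Y.N + 1 then (fun j => (L * Y.K kU) * f j) (τ' (q + 1) (q + 2)) else 0) := by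
    intro τ' hτ' hag
    have hE := ret_insE_le hY hb X hX hτ' hag
    have hE' : |Y.insE q X τ'| ≤ f (τ' (q + 1) (q + 2)) := by
      refine hE.trans (le_of_eq ?_)
      simp only [hf]; ring
    rw [← sub_mul, abs_mul]
    set r := τ' (q + 1) (q + 2) with hr
    by_cases h1 : kU ≤ r ∧ r < Y.N + 1
    · rw [if_neg (by omega), if_pos h1, zero_add]
      have e1 : Y.insF kX q a τ' - Y.insF kU q a τ'
          = 1 / 2 * (Y.kap4 kX (q + 3) τ' a q (q + 1) (q + 2) - Y.kap4 kU (q + 3) τ' a q (q + 1) (q + 2)) := by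
        unfold LedSys.insF
        rw [if_pos (by rw [← hr]; omega), if_pos (by rw [← hr]; exact h1)]
        ring
      have h2 := ret_kap4_lip hY hk hτ' (a := a) (c := q) (e := q + 1) (f := q + 2) (by omega) (by omega) (by omega) (by omega)
      have h3 : |Y.insF kX q a τ' - Y.insF kU q a τ'| ≤ L * Y.K kU := by
        rw [e1, abs_mul]
        have e3 : |(1 / 2 : ℝ)| = 1 / 2 := by norm_num
        rw [e3]
        push_cast at h2
        have e4 : (2 * (((q : ℝ) + 3) * ((q : ℝ) + 3 + 1)) + 24) * Y.K kU = 2 * (L * Y.K kU) := by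
          rw [hL]; ring
        rw [e4] at h2
        linarith
      exact mul_le_mul h3 hE' (abs_nonneg _) (mul_nonneg (by linarith) hK0)
    · rw [if_neg h1, add_zero]
      have e0 : Y.insF kU q a τ' = 0 := by
        unfold LedSys.insF
        rw [if_neg (by rw [← hr]; exact h1)]
      rw [e0, sub_zero]
      by_cases h2 : kX ≤ r ∧ r < kU
      · rw [if_pos h2]
        calc |Y.insF kX q a τ'| * |Y.insE q X τ'| ≤ 1 * f r :=
              mul_le_mul (ret_insF_abs_le hY kX ha hτ') hE' (abs_nonneg _) zero_le_one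
          _ = f r := one_mul _
      · rw [if_neg h2]
        have e1 : Y.insF kX q a τ' = 0 := by
          unfold LedSys.insF
          rw [if_neg (by rw [← hr]; omega)]
        rw [e1]
        simp
  refine (ret_sumK_le_absK hτ 3 _ _ hpt).trans ?_
  rw [ret_absK_add]
  have d1 := hd Y.N τ Y.ms hτ hY.ms_ok (le_of_eq hY.ms_top) (q + 1) (q + 2) kX kU (by omega) (by omega) (by omega) (by omega) hkN f hf0
  have d2 := hd Y.N τ Y.ms hτ hY.ms_ok (le_of_eq hY.ms_top) (q + 1) (q + 2) kU (Y.N + 1) (by omega) (by omega) (by omega) (by omega) le_rfl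
    (fun j => (L * Y.K kU) * f j) (fun j => mul_nonneg (mul_nonneg (by linarith) hK0) (hf0 j))
  rw [ret_tot_smul] at d2
  simp only [hf] at d1 d2
  rw [ret_tot_smul] at d1 d2
  have hT1 : 0 ≤ ledTot Y.ms q τ kX kU Y.D := by
    unfold ledTot ledAt
    refine add_nonneg (Finset.sum_nonneg fun j hj => mul_nonneg ?_ (ret_D_nonneg Y j)) (Finset.sum_nonneg fun j _ => ret_D_nonneg Y j)
    have := (Finset.mem_Ico.mp hj).2
    exact trw_step_nonneg hY.ms_ok (by omega)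
  have h5 : C1 * (Cb * Y.n2 q τ X * ledTot Y.ms q τ kX kU Y.D) ≤ C1 * L * (Cb * Y.n2 q τ X) * ledTot Y.ms q τ kX kU Y.D := by
    have : 0 ≤ C1 * (Cb * Y.n2 q τ X * ledTot Y.ms q τ kX kU Y.D) := by positivity
    nlinarith
  calc _ ≤ C1 * (Cb * Y.n2 q τ X * ledTot Y.ms q τ kX kU Y.D)
        + C1 * (L * Y.K kU * (Cb * Y.n2 q τ X * ledTot Y.ms q τ kU (Y.N + 1) Y.D)) := add_le_add d1 d2
    _ ≤ _ := by nlinarith

/-- **direct bound of the insertion**      (PE l.1061-1071: the regime `W ≳ 1`) -/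
theorem ret_ker0 (q : ℕ) : ∃ C : ℝ, 0 ≤ C ∧ ∀ (Ω : Type) (Y : LedSys Ω), Y.Ok → ∀ Cb : ℝ, (∀ r, Y.b r ≤ Cb) →
    ∀ (k : ℕ) (τ : ℕ → ℕ → ℕ) (a : ℕ) (X : (ℕ → Bool × Ω) → ℝ), IsTr Y.N q τ → a < q → TrUses q X → k ≤ Y.N + 1 →
      |Y.insL k q τ a X| ≤ C * (Cb * Y.n2 q τ X) * ledTot Y.ms q τ k (Y.N + 1) Y.D := by
  obtain ⟨C1, hC1, hd⟩ := led_dens1 q 3
  refine ⟨C1, hC1, ?_⟩
  intro Ω Y hY Cb hb k τ a X hτ ha hX hkN
  have hCb : 0 ≤ Cb := by have := hb 0; rw [hY.b_zero] at this; exact this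
  have hn2 := ret_n2_nonneg Y q τ X
  rw [ret_insL_free hY hkN ha hτ]
  set f : ℕ → ℝ := fun j => (Cb * Y.n2 q τ X) * Y.D j with hf
  have hf0 : ∀ j, 0 ≤ f j := fun j => mul_nonneg (mul_nonneg hCb hn2) (ret_D_nonneg Y j)
  have hpt : ∀ τ', IsTr Y.N (q + 3) τ' → (∀ y z, y < q → z < q → τ' y z = τ y z) →
      |Y.insF k q a τ' * Y.insE q X τ'|
        ≤ (if k ≤ τ' (q + 1) (q + 2) ∧ τ' (q + 1) (q + 2) < Y.N + 1 then f (τ' (q + 1) (q + 2)) else 0) := by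
    intro τ' hτ' hag
    have hE := ret_insE_le hY hb X hX hτ' hag
    have hE' : |Y.insE q X τ'| ≤ f (τ' (q + 1) (q + 2)) := by
      refine hE.trans (le_of_eq ?_)
      simp only [hf]; ring
    rw [abs_mul]
    by_cases h2 : k ≤ τ' (q + 1) (q + 2) ∧ τ' (q + 1) (q + 2) < Y.N + 1
    · rw [if_pos h2]
      calc |Y.insF k q a τ'| * |Y.insE q X τ'| ≤ 1 * f (τ' (q + 1) (q + 2)) :=
            mul_le_mul (ret_insF_abs_le hY k ha hτ') hE' (abs_nonneg _) zero_le_one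
        _ = f (τ' (q + 1) (q + 2)) := one_mul _
    · rw [if_neg h2]
      have e1 : Y.insF k q a τ' = 0 := by
        unfold LedSys.insF
        rw [if_neg h2]
      rw [e1]
      simp
  refine (ret_sumK_le_absK hτ 3 _ _ hpt).trans ?_
  have d1 := hd Y.N τ Y.ms hτ hY.ms_ok (le_of_eq hY.ms_top) (q + 1) (q + 2) k (Y.N + 1) (by omega) (by omega) (by omega) (by omega) le_rfl f hf0
  simp only [hf] at d1
  rw [ret_tot_smul] at d1
  calc _ ≤ C1 * (Cb * Y.n2 q τ X * ledTot Y.ms q τ k (Y.N + 1) Y.D) := d1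
    _ = _ := by ring

/-- the two-label table has no fork in `[k0, k1)`, `r < k0`, `k1 ≤ N + 1` -/
theorem ret_at_pair (N r k0 k1 : ℕ) (h0 : r < k0) (h1 : k1 ≤ N + 1) (f : ℕ → ℝ) : ledAt 2 (ledPair N r) k0 k1 f = 0 := by
  unfold ledAt
  refine Finset.sum_eq_zero fun j hj => ?_
  exfalso
  rw [Finset.mem_filter] at hj
  obtain ⟨hj1, hj2, hj3⟩ := hj
  unfold ledForks at hj1
  rw [Finset.mem_image] at hj1
  obtain ⟨z, _, hz⟩ := hj1
  unfold ledPair at hz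
  split_ifs at hz <;> omega

theorem ret_tot_pair (Y : LedSys Ω) (r k0 k1 : ℕ) (h0 : r < k0) (h1 : k1 ≤ Y.N + 1) (f : ℕ → ℝ) :
    ledTot Y.ms 2 (ledPair Y.N r) k0 k1 f = Y.intM k0 k1 f := by
  unfold ledTot LedSys.intM LedSys.dM
  rw [ret_at_pair Y.N r k0 k1 h0 h1, add_zero]

/-! ## 2. the retained terms of (24) at `P = 1` -/

theorem ret_iso {N q : ℕ} {τ : ℕ → ℕ → ℕ} (hτ : IsTr N q τ) {x y z : ℕ} (hx : x < q) (hy : y < q) (hz : z < q)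
    (h : τ x y < τ y z) : τ x z = τ x y := by
  have h1 := hτ.ultra x y z hx hy hz
  have h2 := hτ.ultra x z y hx hz hy
  rw [hτ.symm z y hz hy] at h2
  omega

/-- `γ` restricted to the block -/
def LedSys.rG (Y : LedSys Ω) (kU j : ℕ) : ℝ := if kU ≤ j then Y.gam kU j else 0

/-- first half of `coef2` (labels `c = 2`, `d = 3`, `e = 4`, `f = 5`) -/
noncomputable def LedSys.rcA (Y : LedSys Ω) (kU a b : ℕ) (τ' : ℕ → ℕ → ℕ) : ℝ :=
  if kU ≤ τ' a 2 ∧ kU ≤ τ' b 3 ∧ τ' 4 5 ≤ Y.N ∧ kU ≤ τ' a 4 ∧ kU ≤ τ' a 5 then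
    1 / 2 * Y.kap4 kU 6 τ' a 2 4 5 * Y.gam kU (τ' b 3) else 0

/-- second half of `coef2` -/
noncomputable def LedSys.rcB (Y : LedSys Ω) (kU a b : ℕ) (τ' : ℕ → ℕ → ℕ) : ℝ :=
  if kU ≤ τ' a 2 ∧ kU ≤ τ' b 3 ∧ τ' 4 5 ≤ Y.N ∧ kU ≤ τ' b 4 ∧ kU ≤ τ' b 5 then
    1 / 2 * Y.gam kU (τ' a 2) * Y.kap4 kU 6 τ' b 3 4 5 else 0

/-- `ν[δ_{ef} δ_{cd}]` -/
def LedSys.rF (Y : LedSys Ω) (kS : ℕ) (τ' : ℕ → ℕ → ℕ) : ℝ :=
  Y.act 6 τ' fun σ => Y.dl (τ' 4 5) (σ 4).2 (σ 5).2 * Y.dl kS (σ 2).2 (σ 3).2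

theorem ret_main_eqns_cite : True := by
  have := @LedSys.rG.eq_1
  have := @LedSys.rcA.eq_1
  have := @LedSys.rcB.eq_1
  have := @LedSys.rF.eq_1
  trivial

theorem ret_one_isTr (N : ℕ) : IsTr N 1 (fun _ _ => N + 1) :=
  ⟨fun _ _ _ _ => le_rfl, fun _ _ => rfl, fun _ _ _ _ => rfl, fun _ _ _ _ _ _ => by simp⟩

/-- the scalar row sum does not depend on the other observed labels      (PE l.321-326) -/
theorem ret_chi_eq (Y : LedSys Ω) (kU : ℕ) {q : ℕ} {τ : ℕ → ℕ → ℕ} (hτ : IsTr Y.N q τ) {b : ℕ} (hb : b < q) :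
    trSum Y.ms Y.N q τ (fun τ' => Y.rG kU (τ' b q)) = Y.chi kU := by
  have e : Y.chi kU = trSum Y.ms Y.N 1 (fun _ _ => Y.N + 1) (fun τ' => Y.rG kU (τ' 0 1)) := rfl
  rw [e, led_push hτ hb, led_push (ret_one_isTr Y.N) (by omega)]

theorem ret_rG_abs_le (hY : Y.Ok) (kU j : ℕ) (hj : j ≤ Y.N + 1) : |Y.rG kU j| ≤ 1 := by
  unfold LedSys.rG
  split_ifs
  · exact ret_gam_abs_le hY kU j hj
  · simp

theorem ret_chi_abs_le (hY : Y.Ok) (kU : ℕ) : |Y.chi kU| ≤ 2 := by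
  have e : Y.chi kU = trSumK Y.ms Y.N 1 1 (fun _ _ => Y.N + 1) (fun τ' => Y.rG kU (τ' 0 1)) := rfl
  rw [e]
  have := ret_sumK_bound (ms := Y.ms) (ret_one_isTr Y.N) hY.ms_ok 1 (fun τ' => Y.rG kU (τ' 0 1)) 1
    (fun τ' hτ' => ret_rG_abs_le hY kU _ (hτ'.le 0 1 (by omega) (by omega)))
  rw [hY.ms_top] at this
  simpa using this

theorem ret_sk3 : cvtSk 3 2 = 2 ∧ cvtSk 3 3 = 4 ∧ cvtSk 3 4 = 5 := by
  refine ⟨?_, ?_, ?_⟩ <;> simp [cvtSk]

theorem ret_sk3_lt {a : ℕ} (ha : a < 2) : cvtSk 3 a = a := by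
  unfold cvtSk; rw [if_pos (by omega)]

/-- the partner `d` is averaged: pointwise form      (PE l.1049-1052 "average the opposite fresh branch") -/
theorem ret_S1 (hY : Y.Ok) {kU kS a b : ℕ} (ha : a < 2) (hb : b < 2) (hab : a ≠ b) (hSU : kS < kU) {τ' : ℕ → ℕ → ℕ}
    (hτ' : IsTr Y.N 6 τ') (h01 : τ' a b = kS) :
    Y.rcA kU a b τ' * Y.rF kS τ'
      = Y.rG kU (τ' b 3) * Y.insS kU 2 a (fun σ => Y.dl kS (σ 2).2 (σ b).2) (trDel 3 τ') := by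
  obtain ⟨s2, s3, s4⟩ := ret_sk3
  have sa := ret_sk3_lt ha
  have sb := ret_sk3_lt hb
  have t1 : trDel 3 τ' a 2 = τ' a 2 := by rw [cvt_del_eq]; simp only [sa, s2]
  have t2 : trDel 3 τ' a 3 = τ' a 4 := by rw [cvt_del_eq]; simp only [sa, s3]
  have t3 : trDel 3 τ' a 4 = τ' a 5 := by rw [cvt_del_eq]; simp only [sa, s4]
  have t4 : trDel 3 τ' 3 4 = τ' 4 5 := by rw [cvt_del_eq]; simp only [s3, s4]
  have k1 := led_t_kap4_del Y hY kU (q := 5) (p := 3) (by omega) hτ' (a := a) (c := 2) (e := 3) (f := 4)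
    (by omega) (by omega) (by omega) (by omega)
  rw [sa, s2, s3, s4] at k1
  unfold LedSys.rcA LedSys.rG LedSys.insS LedSys.coefM
  simp only [Nat.reduceAdd, t1, t2, t3, t4]
  by_cases hc : kU ≤ τ' a 2 ∧ kU ≤ τ' b 3 ∧ τ' 4 5 ≤ Y.N ∧ kU ≤ τ' a 4 ∧ kU ≤ τ' a 5
  · obtain ⟨c1, c2, c3, c4, c5⟩ := hc
    rw [if_pos ⟨c1, c2, c3, c4, c5⟩, if_pos c2, if_pos ⟨c1, c4, c5, c3⟩, ← k1]
    -- the law of `(c, d, e, f)` is the law of `(c, b, e, f)`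
    have hkN : kU ≤ Y.N + 1 := le_trans c1 (hτ'.le a 2 (by omega) (by omega))
    have hblk : ∀ z, z < 5 → z ≠ b → kU ≤ τ' a (cvtSk 3 z) := by
      intro z hz hzb
      have : z = a ∨ z = 2 ∨ z = 3 ∨ z = 4 := by omega
      rcases this with rfl | rfl | rfl | rfl
      · rw [sa, hτ'.diag z (by omega)]; exact hkN
      · rw [s2]; exact c1
      · rw [s3]; exact c4
      · rw [s4]; exact c5
    have hsk6 : ∀ z, z < 5 → cvtSk 3 z < 6 := by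
      intro z hz; unfold cvtSk; split_ifs <;> omega
    have hrep : ∀ w, w < 6 → kU ≤ τ' a w → τ' 3 w = τ' b w := by
      intro w hw hkw
      have e1 : τ' b w = τ' b a := ret_iso hτ' (by omega) (by omega) hw (by
        rw [hτ'.symm b a (by omega) (by omega), h01]; omega)
      have e2 : τ' w 3 = τ' w b := ret_iso hτ' hw (by omega) (by omega) (by
        rw [hτ'.symm w b hw (by omega), e1, hτ'.symm b a (by omega) (by omega), h01]; omega)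
      rw [hτ'.symm 3 w (by omega) hw, e2, hτ'.symm w b hw (by omega)]
    have hF : Y.rF kS τ' = Y.act 5 (trDel 3 τ') fun σ => Y.dl kS (σ 2).2 (σ b).2 * Y.dl (τ' 4 5) (σ 3).2 (σ 4).2 := by
      unfold LedSys.rF LedSys.act
      have hcm := ret_comap hY ret_prof_one ret_one_mem (p := 5) (q := 6) (by omega) hτ'
        (fun i => if i = b then 3 else cvtSk 3 i)
        (fun i hi => by
          show (if i = b then 3 else cvtSk 3 i) < 6
          split_ifs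
          · omega
          · exact hsk6 i hi)
        (fun i j hi hj h => by
          have h' : (if i = b then 3 else cvtSk 3 i) = (if j = b then 3 else cvtSk 3 j) := h
          unfold cvtSk at h'
          split_ifs at h' <;> omega)
        (fun σ => Y.dl kS (σ 2).2 (σ b).2 * Y.dl (τ' 4 5) (σ 3).2 (σ 4).2)
        (fun σ σ' h => by
          show Y.dl kS (σ 2).2 (σ b).2 * Y.dl (τ' 4 5) (σ 3).2 (σ 4).2 = Y.dl kS (σ' 2).2 (σ' b).2 * Y.dl (τ' 4 5) (σ' 3).2 (σ' 4).2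
          rw [h 2 (by omega), h b (by omega), h 3 (by omega), h 4 (by omega)])
      have g2 : (if 2 = b then 3 else cvtSk 3 2) = 2 := by rw [if_neg (by omega), s2]
      have g3 : (if 3 = b then 3 else cvtSk 3 3) = 4 := by rw [if_neg (by omega), s3]
      have g4 : (if 4 = b then 3 else cvtSk 3 4) = 5 := by rw [if_neg (by omega), s4]
      simp only [g2, g3, g4, if_true] at hcm
      have e0 : (fun σ : ℕ → Bool × Ω => Y.dl (τ' 4 5) (σ 4).2 (σ 5).2 * Y.dl kS (σ 2).2 (σ 3).2)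
          = fun σ => Y.dl kS (σ 2).2 (σ 3).2 * Y.dl (τ' 4 5) (σ 4).2 (σ 5).2 := by
        funext σ; ring
      rw [e0, hcm]
      refine hY.congr _ 1 5 _ _ _ fun y z hy hz => ?_
      rw [cvt_del_eq]
      show τ' (if y = b then 3 else cvtSk 3 y) (if z = b then 3 else cvtSk 3 z) = τ' (cvtSk 3 y) (cvtSk 3 z)
      by_cases hyb : y = b
      · by_cases hzb : z = b
        · rw [if_pos hyb, if_pos hzb, hyb, hzb, sb, hτ'.diag 3 (by omega), hτ'.diag b (by omega)]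
        · rw [if_pos hyb, if_neg hzb, hyb, sb]
          exact hrep _ (hsk6 z hz) (hblk z hz hzb)
      · by_cases hzb : z = b
        · rw [if_neg hyb, if_pos hzb, hzb, sb, hτ'.symm _ 3 (hsk6 y hy) (by omega), hτ'.symm _ b (hsk6 y hy) (by omega)]
          exact hrep _ (hsk6 y hy) (hblk y hy hyb)
        · rw [if_neg hyb, if_neg hzb]
    rw [hF]
    ring
  · rw [if_neg hc, zero_mul]
    by_cases c2 : kU ≤ τ' b 3
    · rw [if_pos c2, if_neg (fun h => hc ⟨h.1, c2, h.2.2.2, h.2.1, h.2.2.1⟩)]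
      ring
    · rw [if_neg c2, zero_mul]

/-- the partner `d` is averaged: `∑_{d ∈ B'} γ_{bd} = χ`      (PE l.1049-1052) -/
theorem ret_ZA1 (hY : Y.Ok) {kU kS a b : ℕ} (ha : a < 2) (hb : b < 2) (hab : a ≠ b) (hSU : kS < kU) (hkS : kS ≤ Y.N + 1) :
    trSumK Y.ms Y.N 4 2 (ledPair Y.N kS) (fun τ' => Y.rcA kU a b τ' * Y.rF kS τ')
      = Y.chi kU * trSumK Y.ms Y.N 3 2 (ledPair Y.N kS) (Y.insS kU 2 a fun σ => Y.dl kS (σ 2).2 (σ b).2) := by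
  have hτ₂ : IsTr Y.N 2 (ledPair Y.N kS) := ret_pair_isTr Y.N kS hkS
  set Φ₃ : (ℕ → ℕ → ℕ) → ℝ := Y.insS kU 2 a fun σ => Y.dl kS (σ 2).2 (σ b).2 with hΦ₃
  have hloc : ∀ τ₁ τ₂' : ℕ → ℕ → ℕ, (∀ y z, y < 3 + 2 → z < 3 + 2 → τ₁ y z = τ₂' y z) → Φ₃ τ₁ = Φ₃ τ₂' :=
    fun _ _ h => led_t_insS_congr Y hY kU ha _ h
  rw [tr_sumK_congr hτ₂ 4 _ (fun τ' => Y.rG kU (τ' b 3) * Φ₃ (trDel 3 τ')) (fun τ' hτ' hag =>
    ret_S1 hY ha hb hab hSU hτ' (by rw [hag a b ha hb]; simp [ledPair, hab]))]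
  have h22 : trSumK Y.ms Y.N 4 2 (ledPair Y.N kS) (fun τ' => Y.rG kU (τ' b 3) * Φ₃ (trDel 3 τ'))
      = trSumK Y.ms Y.N 2 2 (ledPair Y.N kS) fun τd => trSumK Y.ms Y.N 2 4 τd fun τ' => Y.rG kU (τ' b 3) * Φ₃ (trDel 3 τ') :=
    tr_sumK_add 2 2 _
  rw [h22]
  have inner : ∀ τd, IsTr Y.N (2 + 2) τd → (∀ y z, y < 2 → z < 2 → τd y z = ledPair Y.N kS y z) →
      (trSumK Y.ms Y.N 2 4 τd fun τ' => Y.rG kU (τ' b 3) * Φ₃ (trDel 3 τ'))
        = Y.rG kU (τd b 3) * trSumK Y.ms Y.N 2 3 (trDel 3 τd) Φ₃ := by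
    intro τd hτd _
    rw [tr_sumK_congr (q := 4) hτd 2 _ (fun τ' => Y.rG kU (τd b 3) * Φ₃ (trDel 3 τ'))
      (fun τ' _ hag => by rw [hag b 3 (by omega) (by omega)]), ret_sumK_smul,
      tr_sumK_del (q := 3) (p := 3) hτd le_rfl 2 Φ₃ hloc]
  rw [tr_sumK_congr hτ₂ 2 _ _ inner]
  have h11 : trSumK Y.ms Y.N 2 2 (ledPair Y.N kS) (fun τd => Y.rG kU (τd b 3) * trSumK Y.ms Y.N 2 3 (trDel 3 τd) Φ₃)
      = trSumK Y.ms Y.N 1 2 (ledPair Y.N kS) fun τc => trSumK Y.ms Y.N 1 3 τc fun τd =>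
          Y.rG kU (τd b 3) * trSumK Y.ms Y.N 2 3 (trDel 3 τd) Φ₃ := tr_sumK_add 1 1 _
  rw [h11]
  have inner2 : ∀ τc, IsTr Y.N (2 + 1) τc → (∀ y z, y < 2 → z < 2 → τc y z = ledPair Y.N kS y z) →
      (trSumK Y.ms Y.N 1 3 τc fun τd => Y.rG kU (τd b 3) * trSumK Y.ms Y.N 2 3 (trDel 3 τd) Φ₃)
        = Y.chi kU * trSumK Y.ms Y.N 2 3 τc Φ₃ := by
    intro τc hτc _
    rw [tr_sumK_congr (q := 3) hτc 1 _ (fun τd => trSumK Y.ms Y.N 2 3 τc Φ₃ * Y.rG kU (τd b 3)) (fun τd _ hag => by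
      rw [tr_sumK_tree_congr (τ := trDel 3 τd) (τ' := τc) (fun y z hy hz => by
        unfold trDel
        rw [if_pos hy, if_pos hz]
        exact hag y z hy hz) 2 Φ₃ hloc]
      ring), ret_sumK_smul]
    have e : trSumK Y.ms Y.N 1 3 τc (fun τd => Y.rG kU (τd b 3)) = trSum Y.ms Y.N 3 τc fun τd => Y.rG kU (τd b 3) := rfl
    rw [e, ret_chi_eq Y kU hτc (by omega)]
    ring
  rw [tr_sumK_congr hτ₂ 1 _ _ inner2, ret_sumK_smul]
  have h12 : trSumK Y.ms Y.N 3 2 (ledPair Y.N kS) Φ₃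
      = trSumK Y.ms Y.N 1 2 (ledPair Y.N kS) fun τc => trSumK Y.ms Y.N 2 3 τc Φ₃ := tr_sumK_add 1 2 _
  rw [h12]

theorem ret_kap4_swap12 (Y : LedSys Ω) (k q : ℕ) {τ : ℕ → ℕ → ℕ} {a c : ℕ} (h : τ c a = τ a c) (e f : ℕ) :
    Y.kap4 k q τ c a e f = Y.kap4 k q τ a c e f := by
  unfold LedSys.kap4
  rw [h]
  congr 2
  funext s
  ring

/-- exchange of the root `a` and the summed leaf `c`, pointwise -/
theorem ret_exch_pt (hY : Y.Ok) {kU kS a b : ℕ} (ha : a < 2) (hb : b < 2) (hab : a ≠ b) {τ' : ℕ → ℕ → ℕ} (hτ' : IsTr Y.N 5 τ') :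
    Y.insS kU 2 a (fun σ => Y.dl kS (σ a).2 (σ b).2) (fun y z => τ' (Equiv.swap a 2 y) (Equiv.swap a 2 z))
      = Y.insS kU 2 a (fun σ => Y.dl kS (σ 2).2 (σ b).2) τ' := by
  have w1 : Equiv.swap a 2 a = 2 := Equiv.swap_apply_left _ _
  have w2 : Equiv.swap a 2 2 = a := Equiv.swap_apply_right _ _
  have w3 : Equiv.swap a 2 3 = 3 := Equiv.swap_apply_of_ne_of_ne (by omega) (by omega)
  have w4 : Equiv.swap a 2 4 = 4 := Equiv.swap_apply_of_ne_of_ne (by omega) (by omega)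
  have wb : Equiv.swap a 2 b = b := Equiv.swap_apply_of_ne_of_ne (by omega) (by omega)
  have hlt : ∀ i, i < 5 → Equiv.swap a 2 i < 5 := by
    intro i hi
    rw [Equiv.swap_apply_def]
    split_ifs <;> omega
  have hinj : ∀ i j, i < 5 → j < 5 → Equiv.swap a 2 i = Equiv.swap a 2 j → i = j := fun i j _ _ h => (Equiv.swap a 2).injective h
  have k1 := ret_kap4_comap hY kU (p := 5) (q := 5) le_rfl hτ' (Equiv.swap a 2) hlt hinj (a := a) (c := 2) (e := 3) (f := 4)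
    (by omega) (by omega) (by omega) (by omega)
  rw [w1, w2, w3, w4, ret_kap4_swap12 Y kU 5 (hτ'.symm 2 a (by omega) (by omega))] at k1
  have k2 := ret_comap hY ret_prof_one ret_one_mem (p := 5) (q := 5) le_rfl hτ' (Equiv.swap a 2) hlt hinj
    (fun σ => Y.dl kS (σ a).2 (σ b).2 * Y.dl (τ' 3 4) (σ 3).2 (σ 4).2) (fun σ σ' h => by
      show Y.dl kS (σ a).2 (σ b).2 * Y.dl (τ' 3 4) (σ 3).2 (σ 4).2 = Y.dl kS (σ' a).2 (σ' b).2 * Y.dl (τ' 3 4) (σ' 3).2 (σ' 4).2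
      rw [h a (by omega), h b (by omega), h 3 (by omega), h 4 (by omega)])
  simp only [w1, wb, w3, w4] at k2
  unfold LedSys.insS LedSys.coefM LedSys.act
  simp only [Nat.reduceAdd, w1, w2, w3, w4]
  rw [k1, ← k2]
  have hcond : (kU ≤ τ' 2 a ∧ kU ≤ τ' 2 3 ∧ kU ≤ τ' 2 4 ∧ τ' 3 4 ≤ Y.N) ↔ (kU ≤ τ' a 2 ∧ kU ≤ τ' a 3 ∧ kU ≤ τ' a 4 ∧ τ' 3 4 ≤ Y.N) := by
    have s1 := hτ'.symm 2 a (by omega) (by omega)
    have u1 := hτ'.ultra a 2 3 (by omega) (by omega) (by omega)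
    have u2 := hτ'.ultra a 2 4 (by omega) (by omega) (by omega)
    have u3 := hτ'.ultra 2 a 3 (by omega) (by omega) (by omega)
    have u4 := hτ'.ultra 2 a 4 (by omega) (by omega) (by omega)
    constructor
    · rintro ⟨h1, h2, h3, h4⟩
      refine ⟨by omega, by omega, by omega, h4⟩
    · rintro ⟨h1, h2, h3, h4⟩
      refine ⟨by omega, by omega, by omega, h4⟩
  simp only [hcond]

/-- **exchange of the root and the summed leaf**      (PE l.1049-1059: "exchange `a, c` in the sum ... this exchange is exact") -/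
theorem ret_exch (hY : Y.Ok) {kU kS a b : ℕ} (ha : a < 2) (hb : b < 2) (hab : a ≠ b) (hSU : kS < kU) (hkS : kS ≤ Y.N + 1) :
    trSumK Y.ms Y.N 3 2 (ledPair Y.N kS) (Y.insS kU 2 a fun σ => Y.dl kS (σ 2).2 (σ b).2)
      = trSumK Y.ms Y.N 3 2 (ledPair Y.N kS) (Y.insS kU 2 a fun σ => Y.dl kS (σ a).2 (σ b).2) := by
  have hτ₂ : IsTr Y.N 2 (ledPair Y.N kS) := ret_pair_isTr Y.N kS hkS
  set Φc : (ℕ → ℕ → ℕ) → ℝ := Y.insS kU 2 a fun σ => Y.dl kS (σ 2).2 (σ b).2 with hΦc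
  set Φa : (ℕ → ℕ → ℕ) → ℝ := Y.insS kU 2 a fun σ => Y.dl kS (σ a).2 (σ b).2 with hΦa
  have hlocc : ∀ τ₁ τ₂' : ℕ → ℕ → ℕ, (∀ y z, y < 3 + 2 → z < 3 + 2 → τ₁ y z = τ₂' y z) → Φc τ₁ = Φc τ₂' :=
    fun _ _ h => led_t_insS_congr Y hY kU ha _ h
  have hloca : ∀ τ₁ τ₂' : ℕ → ℕ → ℕ, (∀ y z, y < 3 + 2 → z < 3 + 2 → τ₁ y z = τ₂' y z) → Φa τ₁ = Φa τ₂' :=
    fun _ _ h => led_t_insS_congr Y hY kU ha _ h
  have h12 : ∀ Φ : (ℕ → ℕ → ℕ) → ℝ, trSumK Y.ms Y.N 3 2 (ledPair Y.N kS) Φ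
      = trSumK Y.ms Y.N 1 2 (ledPair Y.N kS) fun τc => trSumK Y.ms Y.N 2 3 τc Φ := fun Φ => tr_sumK_add 1 2 Φ
  rw [h12, h12]
  refine tr_sumK_congr hτ₂ 1 _ _ fun τc hτc hag => ?_
  have hτc3 : IsTr Y.N 3 τc := hτc
  by_cases hc : kU ≤ τc a 2
  · have hsw : ∀ y, 3 ≤ y → Equiv.swap a 2 y = y := fun y hy => Equiv.swap_apply_of_ne_of_ne (by omega) (by omega)
    have w1 : Equiv.swap a 2 a = 2 := Equiv.swap_apply_left _ _
    have w2 : Equiv.swap a 2 2 = a := Equiv.swap_apply_right _ _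
    have wb : Equiv.swap a 2 b = b := Equiv.swap_apply_of_ne_of_ne (by omega) (by omega)
    have hab' : τc a b = kS := by rw [hag a b ha hb]; simp [ledPair, hab]
    have hba' : τc b a = kS := by rw [hτc3.symm b a (by omega) (by omega), hab']
    have hb2 : τc b 2 = kS := by
      rw [ret_iso hτc3 (x := b) (y := a) (z := 2) (by omega) (by omega) (by omega) (by omega), hba']
    have h2b : τc 2 b = kS := by rw [hτc3.symm 2 b (by omega) (by omega), hb2]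
    have h2a : τc 2 a = τc a 2 := hτc3.symm 2 a (by omega) (by omega)
    have hagree : ∀ y z, y < 3 → z < 3 → τc y z = τc (Equiv.swap a 2 y) (Equiv.swap a 2 z) := by
      intro y z hy hz
      have hy' : y = a ∨ y = b ∨ y = 2 := by omega
      have hz' : z = a ∨ z = b ∨ z = 2 := by omega
      have daa : τc a a = Y.N + 1 := hτc3.diag a (by omega)
      have d22 : τc 2 2 = Y.N + 1 := hτc3.diag 2 (by omega)
      rcases hy' with h | h | h <;> rcases hz' with h' | h' | h' <;>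
        simp only [h, h', w1, w2, wb, hab', hba', hb2, h2b, h2a, daa, d22]
    rw [tr_sumK_tree_congr hagree 2 Φc hlocc, ← tr_sumK_relabel hτc3 2 Φa hloca (Equiv.swap a 2) hsw]
    refine tr_sumK_congr (tr_comap_isTr hτc3 _ (fun x hx => tr5_perm_lt _ hsw hx)) 2 _ _ fun τ' hτ' _ => ?_
    rw [Equiv.symm_swap]
    exact (ret_exch_pt hY ha hb hab hτ').symm
  · refine tr_sumK_congr hτc3 2 _ _ fun τ' _ hag' => ?_
    have h0 : ¬ kU ≤ τ' a 2 := by rw [hag' a 2 (by omega) (by omega)]; exact hc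
    simp only [hΦc, hΦa]
    unfold LedSys.insS LedSys.coefM
    rw [if_neg (fun h => h0 h.1), zero_mul, zero_mul]

theorem ret_act_mean (hY : Y.Ok) {q : ℕ} {τ : ℕ → ℕ → ℕ} (hτ : IsTr Y.N q τ) : LedMean (Y.act q τ) :=
  hY.mean (fun _ => 1) 1 q τ ret_prof_one ret_one_mem hτ

/-- the insertion is linear in the test -/
theorem ret_insM_smul (hY : Y.Ok) (kU : ℕ) {q : ℕ} {τ : ℕ → ℕ → ℕ} (hτ : IsTr Y.N q τ) (a : ℕ) (c : ℝ) (X : (ℕ → Bool × Ω) → ℝ) :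
    Y.insM kU q τ a (fun σ => c * X σ) = c * Y.insM kU q τ a X := by
  unfold LedSys.insM
  rw [← ret_sumK_smul]
  refine tr_sumK_congr hτ 3 _ _ fun τ' hτ' _ => ?_
  have e : (fun σ : ℕ → Bool × Ω => c * X σ * Y.dl (τ' (q + 1) (q + 2)) (σ (q + 1)).2 (σ (q + 2)).2)
      = fun σ => c * (X σ * Y.dl (τ' (q + 1) (q + 2)) (σ (q + 1)).2 (σ (q + 2)).2) := by
    funext σ; ring
  rw [e, (ret_act_mean hY hτ').smul]
  ring

/-- the centred deleted overlap of the two old labels -/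
def LedSys.rX (Y : LedSys Ω) (kS a b : ℕ) (σ : ℕ → Bool × Ω) : ℝ := Y.R (σ a).2 (σ b).2 - Y.S kS

theorem ret_ZA (hY : Y.Ok) {kU kS a b : ℕ} (ha : a < 2) (hb : b < 2) (hab : a ≠ b) (hSU : kS < kU) (hkS : kS ≤ Y.N + 1) :
    trSumK Y.ms Y.N 4 2 (ledPair Y.N kS) (fun τ' => Y.rcA kU a b τ' * Y.rF kS τ')
      = Y.chi kU * (Y.b kS * Y.insM kU 2 (ledPair Y.N kS) a (Y.rX kS a b)) := by
  rw [ret_ZA1 hY ha hb hab hSU hkS, ret_exch hY ha hb hab hSU hkS, ← ret_insM_smul hY kU (ret_pair_isTr Y.N kS hkS)]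
  rfl

theorem ret_rcA_congr (hY : Y.Ok) (kU : ℕ) {a b : ℕ} (ha : a < 2) (hb : b < 2) {τ₁ τ₂ : ℕ → ℕ → ℕ}
    (h : ∀ y z, y < 6 → z < 6 → τ₁ y z = τ₂ y z) : Y.rcA kU a b τ₁ = Y.rcA kU a b τ₂ := by
  unfold LedSys.rcA
  rw [ret_kap4_congr hY kU 6 h (by omega) (by omega) (by omega) (by omega), h a 2 (by omega) (by omega), h b 3 (by omega) (by omega),
    h 4 5 (by omega) (by omega), h a 4 (by omega) (by omega), h a 5 (by omega) (by omega)]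

theorem ret_rF_congr (hY : Y.Ok) (kS : ℕ) {τ₁ τ₂ : ℕ → ℕ → ℕ}
    (h : ∀ y z, y < 6 → z < 6 → τ₁ y z = τ₂ y z) : Y.rF kS τ₁ = Y.rF kS τ₂ := by
  unfold LedSys.rF LedSys.act
  rw [hY.congr _ 1 6 τ₁ τ₂ _ h, h 4 5 (by omega) (by omega)]

theorem ret_dl_symm (hY : Y.Ok) (r : ℕ) (ω ω' : Ω) : Y.dl r ω ω' = Y.dl r ω' ω := by
  unfold LedSys.dl; rw [hY.R_symm]

/-- the second half of `coef2` is the first half with the roles of `(a, c)` and `(b, d)` exchanged      (PE l.1056 "the partner term is identical") -/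
theorem ret_ZB (hY : Y.Ok) {kU kS a b : ℕ} (ha : a < 2) (hb : b < 2) (hkS : kS ≤ Y.N + 1) :
    trSumK Y.ms Y.N 4 2 (ledPair Y.N kS) (fun τ' => Y.rcB kU a b τ' * Y.rF kS τ')
      = trSumK Y.ms Y.N 4 2 (ledPair Y.N kS) (fun τ' => Y.rcA kU b a τ' * Y.rF kS τ') := by
  have hτ₂ : IsTr Y.N 2 (ledPair Y.N kS) := ret_pair_isTr Y.N kS hkS
  have w2 : Equiv.swap 2 3 2 = 3 := Equiv.swap_apply_left _ _
  have w3 : Equiv.swap 2 3 3 = 2 := Equiv.swap_apply_right _ _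
  have w4 : Equiv.swap 2 3 4 = 4 := Equiv.swap_apply_of_ne_of_ne (by omega) (by omega)
  have w5 : Equiv.swap 2 3 5 = 5 := Equiv.swap_apply_of_ne_of_ne (by omega) (by omega)
  have wa : Equiv.swap 2 3 a = a := Equiv.swap_apply_of_ne_of_ne (by omega) (by omega)
  have wb : Equiv.swap 2 3 b = b := Equiv.swap_apply_of_ne_of_ne (by omega) (by omega)
  rw [tr_sumK_perm hτ₂ 4 (fun τ' => Y.rcA kU b a τ' * Y.rF kS τ')
    (fun τ₁ τ₂' h => by
      show Y.rcA kU b a τ₁ * Y.rF kS τ₁ = Y.rcA kU b a τ₂' * Y.rF kS τ₂'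
      rw [ret_rcA_congr hY kU hb ha h, ret_rF_congr hY kS h])
    (Equiv.swap 2 3) (fun y hy => Equiv.swap_apply_of_ne_of_ne (by omega) (by omega))]
  refine tr_sumK_congr hτ₂ 4 _ _ fun τ' hτ' _ => ?_
  have hτ6 : IsTr Y.N 6 τ' := hτ'
  have hlt : ∀ i, i < 6 → Equiv.swap 2 3 i < 6 := by
    intro i hi
    rw [Equiv.swap_apply_def]
    split_ifs <;> omega
  have hinj : ∀ i j, i < 6 → j < 6 → Equiv.swap 2 3 i = Equiv.swap 2 3 j → i = j := fun i j _ _ h => (Equiv.swap 2 3).injective h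
  have k1 := ret_kap4_comap hY kU (p := 6) (q := 6) le_rfl hτ6 (Equiv.swap 2 3) hlt hinj (a := b) (c := 2) (e := 4) (f := 5)
    (by omega) (by omega) (by omega) (by omega)
  rw [wb, w2, w4, w5] at k1
  have k2 := ret_comap hY ret_prof_one ret_one_mem (p := 6) (q := 6) le_rfl hτ6 (Equiv.swap 2 3) hlt hinj
    (fun σ => Y.dl (τ' 4 5) (σ 4).2 (σ 5).2 * Y.dl kS (σ 2).2 (σ 3).2) (fun σ σ' h => by
      show Y.dl (τ' 4 5) (σ 4).2 (σ 5).2 * Y.dl kS (σ 2).2 (σ 3).2 = Y.dl (τ' 4 5) (σ' 4).2 (σ' 5).2 * Y.dl kS (σ' 2).2 (σ' 3).2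
      rw [h 2 (by omega), h 3 (by omega), h 4 (by omega), h 5 (by omega)])
  simp only [w2, w3, w4, w5] at k2
  have hF : Y.rF kS (fun y z => τ' (Equiv.swap 2 3 y) (Equiv.swap 2 3 z)) = Y.rF kS τ' := by
    unfold LedSys.rF LedSys.act
    simp only [w4, w5]
    rw [← k2]
    congr 1
    funext σ
    rw [ret_dl_symm hY kS (σ 3).2 (σ 2).2]
  rw [hF]
  congr 1
  unfold LedSys.rcA LedSys.rcB
  simp only [wa, wb, w2, w3, w4, w5]
  rw [k1]
  by_cases hc : kU ≤ τ' a 2 ∧ kU ≤ τ' b 3 ∧ τ' 4 5 ≤ Y.N ∧ kU ≤ τ' b 4 ∧ kU ≤ τ' b 5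
  · rw [if_pos hc, if_pos ⟨hc.2.1, hc.1, hc.2.2⟩]
    ring
  · rw [if_neg hc, if_neg (fun h => hc ⟨h.2.1, h.1, h.2.2⟩)]

theorem ret_coef2_eq (Y : LedSys Ω) (kU a b : ℕ) (τ' : ℕ → ℕ → ℕ) :
    Y.coef2 kU 2 a b τ' = Y.rcA kU a b τ' + Y.rcB kU a b τ' := by
  unfold LedSys.coef2 LedSys.rcA LedSys.rcB
  simp only [Nat.reduceAdd]
  by_cases h0 : kU ≤ τ' a 2 ∧ kU ≤ τ' b 3 ∧ τ' 4 5 ≤ Y.N
  · rw [if_pos h0]
    by_cases h1 : kU ≤ τ' a 4 ∧ kU ≤ τ' a 5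
    · by_cases h2 : kU ≤ τ' b 4 ∧ kU ≤ τ' b 5
      · rw [if_pos h1, if_pos h2, if_pos ⟨h0.1, h0.2.1, h0.2.2, h1⟩, if_pos ⟨h0.1, h0.2.1, h0.2.2, h2⟩]
        ring
      · rw [if_pos h1, if_neg h2, if_pos ⟨h0.1, h0.2.1, h0.2.2, h1⟩, if_neg (fun h => h2 h.2.2.2)]
        ring
    · by_cases h2 : kU ≤ τ' b 4 ∧ kU ≤ τ' b 5
      · rw [if_neg h1, if_pos h2, if_neg (fun h => h1 h.2.2.2), if_pos ⟨h0.1, h0.2.1, h0.2.2, h2⟩]
        ring
      · rw [if_neg h1, if_neg h2, if_neg (fun h => h1 h.2.2.2), if_neg (fun h => h2 h.2.2.2)]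
        ring
  · rw [if_neg h0, if_neg (fun h => h0 ⟨h.1, h.2.1, h.2.2.1⟩), if_neg (fun h => h0 ⟨h.1, h.2.1, h.2.2.1⟩)]
    ring

theorem ret_rX_uses (Y : LedSys Ω) (kS : ℕ) {a b : ℕ} (ha : a < 2) (hb : b < 2) : TrUses 2 (Y.rX kS a b) := by
  intro σ σ' h
  unfold LedSys.rX
  rw [h a ha, h b hb]

theorem ret_insM_swap (hY : Y.Ok) (kU : ℕ) {kS a b : ℕ} (ha : a < 2) (hb : b < 2) (hkS : kS ≤ Y.N + 1) :
    Y.insM kU 2 (ledPair Y.N kS) b (Y.rX kS b a) = Y.insM kU 2 (ledPair Y.N kS) a (Y.rX kS a b) := by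
  have h := led_t_ins_relabel Y hY kU (ret_pair_isTr Y.N kS hkS) ha (ret_rX_uses Y kS ha hb) (Equiv.swap a b)
    (fun y hy => Equiv.swap_apply_of_ne_of_ne (by omega) (by omega))
  rw [Equiv.symm_swap, Equiv.swap_apply_left] at h
  have e1 : (fun y z => ledPair Y.N kS (Equiv.swap a b y) (Equiv.swap a b z)) = ledPair Y.N kS := by
    funext y z
    unfold ledPair
    simp only [(Equiv.swap a b).injective.eq_iff]
  have e2 : (fun ω : ℕ → Bool × Ω => Y.rX kS a b fun i => ω (Equiv.swap a b i)) = Y.rX kS b a := by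
    funext ω
    unfold LedSys.rX
    simp only [Equiv.swap_apply_left, Equiv.swap_apply_right]
  rw [e1, e2] at h
  exact h

/-- the part of `main2` which carries the deterministic factor `K_i`: a sum of means of centred deleted overlaps -/
noncomputable def LedSys.rZ1 (Y : LedSys Ω) (kU kS a b : ℕ) : ℝ :=
  trSumK Y.ms Y.N 4 2 (ledPair Y.N kS) fun τ' => Y.coef2 kU 2 a b τ' * (Y.b (τ' 4 5) * Y.cen (τ' 4 5))

theorem ret_main_eqns_cite2 : True := by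
  have := @LedSys.rX.eq_1
  have := @LedSys.rZ1.eq_1
  trivial

/-- mean of one error -/
theorem ret_act_dl (hY : Y.Ok) {q : ℕ} {τ' : ℕ → ℕ → ℕ} (hτ' : IsTr Y.N q τ') {x y : ℕ} (hx : x < q) (hy : y < q) (hxy : x ≠ y) :
    Y.act q τ' (fun σ => Y.dl (τ' x y) (σ x).2 (σ y).2) = Y.b (τ' x y) * Y.cen (τ' x y) := by
  unfold LedSys.act LedSys.cen LedSys.act
  rw [ret_pair hY ret_prof_one ret_one_mem hτ' hx hy hxy (fun u v => Y.dl (τ' x y) u.2 v.2)]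
  unfold LedSys.dl
  exact (hY.mean (fun _ => 1) 1 2 _ ret_prof_one ret_one_mem (ret_pair_isTr Y.N _ (hτ'.le x y hx hy))).smul _ _

/-- **the second retained term of (24) at `P = 1`**      (PE l.1046-1060) -/
theorem ret_main2 (hY : Y.Ok) {kU kS a b : ℕ} (ha : a < 2) (hb : b < 2) (hab : a ≠ b) (hSU : kS < kU) (hkS : kS ≤ Y.N + 1) :
    Y.main2 kU kS 2 (ledPair Y.N kS) a b (fun _ => 1)
      = Y.K kS * Y.rZ1 kU kS a b + 2 * (Y.chi kU * (Y.b kS * Y.insM kU 2 (ledPair Y.N kS) a (Y.rX kS a b))) := by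
  have hτ₂ : IsTr Y.N 2 (ledPair Y.N kS) := ret_pair_isTr Y.N kS hkS
  have hA := ret_ZA hY ha hb hab hSU hkS
  have hB := ret_ZB hY (kU := kU) ha hb hkS
  rw [ret_ZA hY hb ha (Ne.symm hab) hSU hkS, ret_insM_swap hY kU ha hb hkS] at hB
  unfold LedSys.main2 LedSys.rZ1
  rw [two_mul, ← ret_sumK_smul]
  nth_rewrite 1 [← hA]
  rw [← hB, ← ret_sumK_add, ← ret_sumK_add]
  refine tr_sumK_congr hτ₂ 4 _ _ fun τ' hτ' _ => ?_
  have hτ6 : IsTr Y.N 6 τ' := hτ'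
  have hm := ret_act_mean hY hτ6
  simp only [Nat.reduceAdd]
  have e : (fun σ : ℕ → Bool × Ω => 1 * Y.dl (τ' 4 5) (σ 4).2 (σ 5).2 * Y.Q kS (σ 2).2 (σ 3).2)
      = fun σ => Y.K kS * Y.dl (τ' 4 5) (σ 4).2 (σ 5).2 + Y.dl (τ' 4 5) (σ 4).2 (σ 5).2 * Y.dl kS (σ 2).2 (σ 3).2 := by
    funext σ
    rw [ret_Q_eq]; ring
  rw [e, hm.add, hm.smul, ret_act_dl hY hτ6 (by omega) (by omega) (by omega), ret_coef2_eq]
  unfold LedSys.rF
  ring

theorem ret_rcA_abs_le (hY : Y.Ok) (kU : ℕ) {a b : ℕ} (ha : a < 2) (hb : b < 2) {τ' : ℕ → ℕ → ℕ} (hτ' : IsTr Y.N 6 τ') :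
    |Y.rcA kU a b τ'| ≤ 1 := by
  unfold LedSys.rcA
  split_ifs
  · have h1 := ret_kap4_abs_le hY kU hτ' (a := a) (c := 2) (e := 4) (f := 5) (by omega) (by omega) (by omega) (by omega)
    have h2 := ret_gam_abs_le hY kU (τ' b 3) (hτ'.le b 3 (by omega) (by omega))
    rw [abs_mul, abs_mul]
    have e3 : |(1 / 2 : ℝ)| = 1 / 2 := by norm_num
    rw [e3]
    have := mul_le_mul h1 h2 (abs_nonneg _) (by norm_num)
    linarith
  · simp

theorem ret_rcB_abs_le (hY : Y.Ok) (kU : ℕ) {a b : ℕ} (ha : a < 2) (hb : b < 2) {τ' : ℕ → ℕ → ℕ} (hτ' : IsTr Y.N 6 τ') :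
    |Y.rcB kU a b τ'| ≤ 1 := by
  unfold LedSys.rcB
  split_ifs
  · have h1 := ret_kap4_abs_le hY kU hτ' (a := b) (c := 3) (e := 4) (f := 5) (by omega) (by omega) (by omega) (by omega)
    have h2 := ret_gam_abs_le hY kU (τ' a 2) (hτ'.le a 2 (by omega) (by omega))
    rw [abs_mul, abs_mul]
    have e3 : |(1 / 2 : ℝ)| = 1 / 2 := by norm_num
    rw [e3]
    have := mul_le_mul h2 h1 (abs_nonneg _) (by norm_num)
    linarith
  · simp

theorem ret_rZ1_le (hY : Y.Ok) {Cb cm : ℝ} (hbb : ∀ r, Y.b r ≤ Cb) (hcm : ∀ r, r ≤ Y.N → |Y.cen r| ≤ cm) {kU kS a b : ℕ}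
    (ha : a < 2) (hb : b < 2) (hkS : kS ≤ Y.N + 1) : |Y.rZ1 kU kS a b| ≤ 3840 * (Cb * cm) := by
  have hτ₂ : IsTr Y.N 2 (ledPair Y.N kS) := ret_pair_isTr Y.N kS hkS
  have hCb : 0 ≤ Cb := by have := hbb 0; rw [hY.b_zero] at this; exact this
  have hcm0 : 0 ≤ cm := le_trans (abs_nonneg _) (hcm 0 (Nat.zero_le _))
  unfold LedSys.rZ1
  have := ret_sumK_bound (ms := Y.ms) hτ₂ hY.ms_ok 4 (fun τ' => Y.coef2 kU 2 a b τ' * (Y.b (τ' 4 5) * Y.cen (τ' 4 5))) (2 * (Cb * cm)) (by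
    intro τ' hτ'
    have hτ6 : IsTr Y.N 6 τ' := hτ'
    by_cases h0 : τ' 4 5 ≤ Y.N
    · rw [abs_mul, abs_mul, ret_coef2_eq]
      have h1 : |Y.rcA kU a b τ' + Y.rcB kU a b τ'| ≤ 2 :=
        (abs_add_le _ _).trans (by linarith [ret_rcA_abs_le hY kU ha hb hτ6, ret_rcB_abs_le hY kU ha hb hτ6])
      have h2 : |Y.b (τ' 4 5)| ≤ Cb := by rw [abs_of_nonneg (ret_b_nonneg hY _)]; exact hbb _
      exact mul_le_mul h1 (mul_le_mul h2 (hcm _ h0) (abs_nonneg _) hCb) (by positivity) (by norm_num)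
    · have e0 : Y.coef2 kU 2 a b τ' = 0 := by
        unfold LedSys.coef2
        simp only [Nat.reduceAdd]
        rw [if_neg (fun h => h0 h.2.2)]
      rw [e0, zero_mul, abs_zero]
      positivity)
  rw [hY.ms_top] at this
  have e2 : (∏ i ∈ Finset.range 4, (((2 : ℕ) : ℝ) + i)) = 120 := by
    simp [Finset.prod_range_succ]; norm_num
  rw [e2] at this
  linarith

/-- **the first retained term of (24) at `P = 1`**      (PE l.1046 "the linear centered term vanishes") -/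
theorem ret_main1_le (hY : Y.Ok) {Cb cm : ℝ} (hbb : ∀ r, Y.b r ≤ Cb) (hcm : ∀ r, r ≤ Y.N → |Y.cen r| ≤ cm) {kU kS a b : ℕ}
    (ha : a < 2) (hb : b < 2) (hab : a ≠ b) (hSU : kS < kU) (hkS : kS ≤ Y.N) :
    |Y.main1 kU kS 2 (ledPair Y.N kS) a b (fun _ => 1)| ≤ 24 * (Cb * cm) := by
  have hτ₂ : IsTr Y.N 2 (ledPair Y.N kS) := ret_pair_isTr Y.N kS (by omega)
  have hCb : 0 ≤ Cb := by have := hbb 0; rw [hY.b_zero] at this; exact this
  have hcm0 : 0 ≤ cm := le_trans (abs_nonneg _) (hcm 0 (Nat.zero_le _))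
  unfold LedSys.main1
  simp only [Nat.reduceAdd, mul_one]
  have hpt : ∀ τ', IsTr Y.N (2 + 2) τ' → (∀ y z, y < 2 → z < 2 → τ' y z = ledPair Y.N kS y z) →
      |(if kU ≤ τ' a 2 ∧ kU ≤ τ' b 3 then Y.gam kU (τ' a 2) * Y.gam kU (τ' b 3) else 0)
          * Y.act 4 τ' fun σ => Y.dl kS (σ 2).2 (σ 3).2| ≤ (fun _ => Cb * cm) τ' := by
    intro τ' hτ' hag
    have hτ4 : IsTr Y.N 4 τ' := hτ'
    by_cases hc : kU ≤ τ' a 2 ∧ kU ≤ τ' b 3
    · rw [if_pos hc, abs_mul, abs_mul]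
      have hab' : τ' a b = kS := by rw [hag a b ha hb]; simp [ledPair, hab]
      have hba' : τ' b a = kS := by rw [hτ4.symm b a (by omega) (by omega), hab']
      have hb2 : τ' b 2 = kS := by
        rw [ret_iso hτ4 (x := b) (y := a) (z := 2) (by omega) (by omega) (by omega) (by omega), hba']
      have h2b : τ' 2 b = kS := by rw [hτ4.symm 2 b (by omega) (by omega), hb2]
      have h23 : τ' 2 3 = kS := by
        rw [ret_iso hτ4 (x := 2) (y := b) (z := 3) (by omega) (by omega) (by omega) (by omega), h2b]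
      have e1 := ret_act_dl hY hτ4 (x := 2) (y := 3) (by omega) (by omega) (by omega)
      rw [h23] at e1
      rw [e1, abs_mul, abs_of_nonneg (ret_b_nonneg hY _)]
      have g1 := ret_gam_abs_le hY kU (τ' a 2) (hτ4.le a 2 (by omega) (by omega))
      have g2 := ret_gam_abs_le hY kU (τ' b 3) (hτ4.le b 3 (by omega) (by omega))
      have h3 : Y.b kS * |Y.cen kS| ≤ Cb * cm := mul_le_mul (hbb _) (hcm _ hkS) (abs_nonneg _) hCb
      have h4 : |Y.gam kU (τ' a 2)| * |Y.gam kU (τ' b 3)| ≤ 1 := mul_le_one₀ g1 (abs_nonneg _) g2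
      calc _ ≤ 1 * (Cb * cm) := mul_le_mul h4 h3 (mul_nonneg (ret_b_nonneg hY _) (abs_nonneg _)) zero_le_one
        _ = Cb * cm := one_mul _
    · rw [if_neg hc, zero_mul, abs_zero]
      positivity
  refine (ret_sumK_le_absK hτ₂ 2 _ _ hpt).trans ?_
  have h5 := tr_absK_le (ms := Y.ms) hτ₂ hY.ms_ok 2 (fun _ => Cb * cm) (Cb * cm) (fun _ _ => by
    rw [abs_of_nonneg (by positivity)])
  rw [hY.ms_top] at h5
  have e2 : (∏ i ∈ Finset.range 2, (((2 : ℕ) : ℝ) + i)) = 6 := by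
    simp [Finset.prod_range_succ]; norm_num
  rw [e2] at h5
  have e3 : (fun _ : ℕ → ℕ → ℕ => |Cb * cm|) = fun _ => Cb * cm := by
    funext _; rw [abs_of_nonneg (by positivity)]
  rw [e3] at h5
  linarith

/-! ## 3. the abstract closure at the target cut -/

theorem ret_at_pair' (N r k0 k1 : ℕ) (h : ∀ j, k0 ≤ j → j < k1 → j ≠ r ∧ j ≠ N + 1) (f : ℕ → ℝ) :
    ledAt 2 (ledPair N r) k0 k1 f = 0 := by
  unfold ledAt
  refine Finset.sum_eq_zero fun j hj => ?_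
  exfalso
  rw [Finset.mem_filter] at hj
  obtain ⟨hj1, hj2, hj3⟩ := hj
  have := h j hj2 hj3
  unfold ledForks at hj1
  rw [Finset.mem_image] at hj1
  obtain ⟨z, _, hz⟩ := hj1
  unfold ledPair at hz
  split_ifs at hz <;> omega

theorem ret_at_pair_self (N r k1 : ℕ) (h0 : r < k1) (h1 : k1 ≤ N + 1) (f : ℕ → ℝ) : ledAt 2 (ledPair N r) r k1 f = f r := by
  unfold ledAt
  have e : (ledForks 2 (ledPair N r)).filter (fun j => r ≤ j ∧ j < k1) = {r} := by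
    ext j
    simp only [Finset.mem_filter, Finset.mem_singleton, ledForks, Finset.mem_image, Finset.mem_product, Finset.mem_range, Prod.exists]
    constructor
    · rintro ⟨⟨x, y, _, hxy⟩, h2, h3⟩
      unfold ledPair at hxy
      split_ifs at hxy <;> omega
    · rintro rfl
      exact ⟨⟨0, 1, ⟨by omega, by omega⟩, by simp [ledPair]⟩, le_rfl, h0⟩
  rw [e, Finset.sum_singleton]

/-- the ledger of the mean expansion (`q = 2`, `P = 1`, split `kS`, cut `kX`, all low factors of size `om`)      (PE l.1015-1045) -/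
noncomputable def LedSys.rLed (Y : LedSys Ω) (r kS kX : ℕ) (om : ℝ) : ℝ :=
  om * Y.intM 0 kX Y.D + (om ^ 2 + trPm Y.ms kX * om) * Y.D kS + om ^ 2 * Y.intM kX (Y.N + 1) Y.D
    + om * ((Y.intM kX (Y.N + 1) fun j => Y.D j ^ (1 - 1 / (r : ℝ))) ^ 2
        + Y.intM kX (Y.N + 1) fun j => Y.D j ^ (2 * (1 - 1 / (r : ℝ))))

theorem ret_main_eqns_cite3 : True := by
  have := @LedSys.rLed.eq_1
  trivial

theorem ret_ledger_pair (Y : LedSys Ω) (r : ℕ) {kS kX : ℕ} (h0 : kS < kX) (h1 : kX ≤ Y.N + 1) (om : ℝ) :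
    Y.ledger r kS kX 2 (ledPair Y.N kS) om om 0 0 = Y.rLed r kS kX om := by
  unfold LedSys.ledger LedSys.rLed LedSys.tot
  rw [ret_at_pair_self Y.N kS kX h0 h1, ret_at_pair' Y.N kS 0 kS (fun j _ hj => by omega),
    ret_at_pair Y.N kS kX (Y.N + 1) h0 le_rfl, ret_at_pair Y.N kS kX (Y.N + 1) h0 le_rfl, ret_at_pair Y.N kS kX (Y.N + 1) h0 le_rfl]
  ring

theorem ret_dM_nonneg (hY : Y.Ok) {j : ℕ} (hj : j ≤ Y.N) : 0 ≤ Y.dM j := trw_step_nonneg hY.ms_ok hj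

theorem ret_intM_nonneg (hY : Y.Ok) (k0 : ℕ) {k1 : ℕ} (h1 : k1 ≤ Y.N + 1) {f : ℕ → ℝ} (hf : ∀ j, 0 ≤ f j) : 0 ≤ Y.intM k0 k1 f := by
  unfold LedSys.intM
  refine Finset.sum_nonneg fun j hj => mul_nonneg (ret_dM_nonneg hY ?_) (hf j)
  have := (Finset.mem_Ico.mp hj).2
  omega

theorem ret_pm_nonneg (hY : Y.Ok) (k : ℕ) : 0 ≤ trPm Y.ms k := by
  unfold trPm
  split_ifs
  · exact le_rfl
  · exact hY.ms_ok.nonneg _

theorem ret_rLed_nonneg (hY : Y.Ok) (r : ℕ) (kS : ℕ) {kX : ℕ} (h1 : kX ≤ Y.N + 1) {om : ℝ} (hom : 0 ≤ om) : 0 ≤ Y.rLed r kS kX om := by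
  unfold LedSys.rLed
  have a1 := ret_intM_nonneg hY 0 h1 (ret_D_nonneg Y)
  have a2 := ret_intM_nonneg hY kX (le_refl (Y.N + 1)) (ret_D_nonneg Y)
  have a3 := ret_intM_nonneg hY kX (le_refl (Y.N + 1)) (f := fun j => Y.D j ^ (2 * (1 - 1 / (r : ℝ))))
    (fun j => Real.rpow_nonneg (ret_D_nonneg Y j) _)
  have a4 := ret_D_nonneg Y kS
  have a5 := ret_pm_nonneg hY kX
  positivity

theorem ret_n2_rX (hY : Y.Ok) (kS : ℕ) : Y.n2 2 (ledPair Y.N kS) (Y.rX kS 1 0) = Y.D kS := by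
  unfold LedSys.n2 LedSys.D LedSys.rX
  congr 2
  funext σ
  rw [hY.R_symm]

/-- **mean identity at the target cut**: (24) with the split `kS = i`, `P = 1`, the cut `kX = U_x`      (PE l.1005-1060) -/
theorem ret_mean (r : ℕ) (hr : 5 ≤ r) (Cb : ℝ) : ∃ C : ℝ, 0 ≤ C ∧ ∀ (Ω : Type) (Y : LedSys Ω), Y.Ok → (∀ r, Y.b r ≤ Cb) → (∀ r, Y.h r ≤ Cb) →
    ∀ (kS kX : ℕ) (om cm : ℝ), kS < kX → kX ≤ Y.N → 0 ≤ om → om ≤ 1 →
      (∀ j, j < kX → Y.mQ (2 * r) j ≤ om ^ (2 * r) ∧ Y.K j ≤ om) → (∀ j, j ≤ Y.N → |Y.cen j| ≤ cm) →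
      |Y.act 2 (ledPair Y.N kS) (fun σ => ledSg (σ 1).1 * ledSg (σ 0).1) - Y.Gam kS
          - 2 * (Y.chi kX * (Y.b kS * Y.insM kX 2 (ledPair Y.N kS) 1 (Y.rX kS 1 0)))|
        ≤ C * (Y.rLed r kS kX om + cm) := by
  obtain ⟨C0, hC0⟩ := led_main 2 r hr Cb
  refine ⟨|C0| + 3864 * |Cb|, by positivity, ?_⟩
  intro Ω Y hY hbb hhb kS kX om cm hSX hXN hom0 hom1 hlow hcm
  have hCb : 0 ≤ Cb := by have := hbb 0; rw [hY.b_zero] at this; exact this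
  have hcm0 : 0 ≤ cm := le_trans (abs_nonneg _) (hcm 0 (Nat.zero_le _))
  have hτ₂ : IsTr Y.N 2 (ledPair Y.N kS) := ret_pair_isTr Y.N kS (by omega)
  have hm := ret_act_mean hY hτ₂
  have p10 : ledPair Y.N kS 1 0 = kS := by simp [ledPair]
  have p01 : ledPair Y.N kS 0 1 = kS := by simp [ledPair]
  have p00 : ledPair Y.N kS 0 0 = Y.N + 1 := by simp [ledPair]
  have p11 : ledPair Y.N kS 1 1 = Y.N + 1 := by simp [ledPair]
  have h := hC0 Ω Y hY hbb hhb kS kS kX (ledPair Y.N kS) 1 0 (fun _ => 1) om om 0 0 1 (fun _ => 0) hτ₂ (by omega) (by omega)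
    p10 le_rfl hSX hXN
    (fun o ho hne => by
      have : o = 1 := by omega
      rw [this, p01]; exact hSX)
    (fun _ _ _ => rfl) (fun _ _ => rfl) le_rfl hom1 hom0 le_rfl le_rfl zero_le_one hlow
    (fun j hj => hlow j (by omega))
    (by simp only [one_pow]; exact le_of_eq (ret_m_const hm 1))
    (fun _ => le_rfl) (fun j _ _ => by simp)
    (fun τ' Φ hτ' hag _ h1 h2 ⟨o, ho, hko⟩ _ _ _ _ => by
      exfalso
      have ho' : o = 0 ∨ o = 1 := by omega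
      rcases ho' with rfl | rfl
      · rw [hτ'.symm 0 (2 + 1) (by omega) (by omega)] at hko; omega
      · rw [hτ'.symm 1 (2 + 1) (by omega) (by omega)] at hko; omega)
    (fun τ₁ o _ _ _ ho h1 h2 => by
      exfalso
      have ho' : o = 0 ∨ o = 1 := by omega
      rcases ho' with rfl | rfl
      · rw [p00] at h2; omega
      · rw [p11] at h1; omega)
  rw [ret_ledger_pair Y r hSX (by omega), ret_main2 hY (a := 1) (b := 0) (by omega) (by omega) (by omega) hSX (by omega)] at h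
  have e1 : (fun σ : ℕ → Bool × Ω => ledSg (σ 1).1 * ledSg (σ 0).1 * (fun _ : ℕ → Ω => (1 : ℝ)) (ledRs σ))
      = fun σ => ledSg (σ 1).1 * ledSg (σ 0).1 := by
    funext σ; simp
  have e2 : Y.act 2 (ledPair Y.N kS) (fun σ => (fun _ : ℕ → Ω => (1 : ℝ)) (ledRs σ)) = 1 := ret_m_const hm 1
  rw [e1, e2] at h
  have h1 := ret_main1_le hY hbb hcm (kU := kX) (kS := kS) (a := 1) (b := 0) (by omega) (by omega) (by omega) hSX (by omega)
  have h2 := ret_rZ1_le hY hbb hcm (kU := kX) (kS := kS) (a := 1) (b := 0) (by omega) (by omega) (by omega)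
  have hK0 := ret_K_nonneg hY kS
  have hK1 : Y.K kS ≤ 1 := le_trans (hlow kS hSX).2 hom1
  have h3 : |Y.K kS * Y.rZ1 kX kS 1 0| ≤ 3840 * (Cb * cm) := by
    rw [abs_mul, abs_of_nonneg hK0]
    calc Y.K kS * |Y.rZ1 kX kS 1 0| ≤ 1 * (3840 * (Cb * cm)) := mul_le_mul hK1 h2 (abs_nonneg _) zero_le_one
      _ = _ := one_mul _
  have hL0 := ret_rLed_nonneg hY r kS (show kX ≤ Y.N + 1 by omega) hom0
  have h4 : C0 * 1 * Y.rLed r kS kX om ≤ |C0| * Y.rLed r kS kX om := by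
    rw [mul_one]
    exact mul_le_mul_of_nonneg_right (le_abs_self _) hL0
  rw [abs_of_nonneg hCb]
  set T := Y.act 2 (ledPair Y.N kS) (fun σ => ledSg (σ 1).1 * ledSg (σ 0).1)
  set m1 := Y.main1 kX kS 2 (ledPair Y.N kS) 1 0 fun _ => 1
  set z1 := Y.K kS * Y.rZ1 kX kS 1 0
  set I2 := 2 * (Y.chi kX * (Y.b kS * Y.insM kX 2 (ledPair Y.N kS) 1 (Y.rX kS 1 0)))
  have e5 : T - Y.Gam kS - I2 = (T - Y.Gam kS * 1 - m1 - (z1 + I2)) + m1 + z1 := by ring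
  rw [e5]
  have t1 := abs_add_le ((T - Y.Gam kS * 1 - m1 - (z1 + I2)) + m1) z1
  have t2 := abs_add_le (T - Y.Gam kS * 1 - m1 - (z1 + I2)) m1
  have hp1 : 0 ≤ |C0| * cm := by positivity
  have hp2 : 0 ≤ Cb * Y.rLed r kS kX om := by positivity
  nlinarith

/-- **abstract closure, calibrated regime**: the insertion at `U_x` is replaced by the insertion at the calibration cut `U`      (PE l.1072-1125) -/
theorem ret_closure (r : ℕ) (hr : 5 ≤ r) (Cb : ℝ) : ∃ C : ℝ, 0 ≤ C ∧ ∀ (Ω : Type) (Y : LedSys Ω), Y.Ok → (∀ r, Y.b r ≤ Cb) → (∀ r, Y.h r ≤ Cb) →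
    ∀ (kS kX kU : ℕ) (om cm : ℝ), kS < kX → kX ≤ kU → kU ≤ Y.N → 0 ≤ om → om ≤ 1 →
      (∀ j, j < kX → Y.mQ (2 * r) j ≤ om ^ (2 * r) ∧ Y.K j ≤ om) → (∀ j, j ≤ Y.N → |Y.cen j| ≤ cm) →
      |Y.act 2 (ledPair Y.N kS) (fun σ => ledSg (σ 1).1 * ledSg (σ 0).1) - Y.Gam kS|
        ≤ C * (Y.rLed r kS kX om + cm + |Y.insM kU 2 (ledPair Y.N kS) 1 (Y.rX kS 1 0)|
            + Y.D kS * (Y.intM kX kU Y.D + Y.K kU * Y.intM kU (Y.N + 1) Y.D)) := by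
  obtain ⟨C1, hC1, h1⟩ := ret_mean r hr Cb
  obtain ⟨C2, hC2, h2⟩ := ret_ker 2
  refine ⟨C1 + 4 * |Cb| + 4 * |Cb| * (C2 * |Cb|), by positivity, ?_⟩
  intro Ω Y hY hbb hhb kS kX kU om cm hSX hXU hUN hom0 hom1 hlow hcm
  have hCb : 0 ≤ Cb := by have := hbb 0; rw [hY.b_zero] at this; exact this
  have hcm0 : 0 ≤ cm := le_trans (abs_nonneg _) (hcm 0 (Nat.zero_le _))
  have hτ₂ : IsTr Y.N 2 (ledPair Y.N kS) := ret_pair_isTr Y.N kS (by omega)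
  have a1 := h1 Ω Y hY hbb hhb kS kX om cm hSX (by omega) hom0 hom1 hlow hcm
  have a2 := h2 Ω Y hY Cb hbb kX kU (ledPair Y.N kS) 1 (Y.rX kS 1 0) hτ₂ (by omega) (ret_rX_uses Y kS (by omega) (by omega)) hXU (by omega)
  rw [ret_insL_eq, ret_insL_eq, ret_n2_rX hY, ret_tot_pair Y kS kX kU hSX (by omega), ret_tot_pair Y kS kU (Y.N + 1) (by omega) le_rfl] at a2
  rw [abs_of_nonneg hCb]
  have hχ := ret_chi_abs_le hY kX
  have hb0 := ret_b_nonneg hY kS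
  have hb1 := hbb kS
  have hL0 := ret_rLed_nonneg hY r kS (show kX ≤ Y.N + 1 by omega) hom0
  have hD0 := ret_D_nonneg Y kS
  have hi1 := ret_intM_nonneg hY kX (show kU ≤ Y.N + 1 by omega) (ret_D_nonneg Y)
  have hi2 := ret_intM_nonneg hY kU (le_refl (Y.N + 1)) (ret_D_nonneg Y)
  have hK0 := ret_K_nonneg hY kU
  set T := Y.act 2 (ledPair Y.N kS) (fun σ => ledSg (σ 1).1 * ledSg (σ 0).1)
  set IX := Y.insM kX 2 (ledPair Y.N kS) 1 (Y.rX kS 1 0)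
  set IU := Y.insM kU 2 (ledPair Y.N kS) 1 (Y.rX kS 1 0)
  set J := Y.intM kX kU Y.D + Y.K kU * Y.intM kU (Y.N + 1) Y.D with hJ
  have hJ0 : 0 ≤ J := by positivity
  have b1 : |IX| ≤ |IU| + C2 * (Cb * Y.D kS) * J := by
    have := abs_add_le (IX - IU) IU
    rw [sub_add_cancel] at this
    linarith
  have b2 : |2 * (Y.chi kX * (Y.b kS * IX))| ≤ 4 * Cb * |IX| := by
    rw [abs_mul, abs_mul, abs_mul, abs_of_nonneg hb0]
    have e3 : |(2 : ℝ)| = 2 := by norm_num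
    rw [e3]
    have := mul_le_mul hχ (mul_le_mul_of_nonneg_right hb1 (abs_nonneg IX)) (by positivity) (by norm_num)
    linarith
  have b3 : |T - Y.Gam kS| ≤ C1 * (Y.rLed r kS kX om + cm) + 4 * Cb * |IX| := by
    have := abs_add_le (T - Y.Gam kS - 2 * (Y.chi kX * (Y.b kS * IX))) (2 * (Y.chi kX * (Y.b kS * IX)))
    rw [sub_add_cancel] at this
    linarith
  have b4 : 4 * Cb * |IX| ≤ 4 * Cb * (|IU| + C2 * (Cb * Y.D kS) * J) := mul_le_mul_of_nonneg_left b1 (by positivity)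
  have hIU := abs_nonneg IU
  have p1 : 0 ≤ C1 * (|IU| + Y.D kS * J) := by positivity
  have p2 : 0 ≤ 4 * Cb * (Y.rLed r kS kX om + cm + Y.D kS * J) := by positivity
  have p3 : 0 ≤ 4 * Cb * (C2 * Cb) * (Y.rLed r kS kX om + cm + |IU|) := by positivity
  nlinarith

/-- **abstract closure, the regime `W ≳ 1`**      (PE l.1061-1071) -/
theorem ret_closure_large (r : ℕ) (hr : 5 ≤ r) (Cb : ℝ) : ∃ C : ℝ, 0 ≤ C ∧ ∀ (Ω : Type) (Y : LedSys Ω), Y.Ok → (∀ r, Y.b r ≤ Cb) → (∀ r, Y.h r ≤ Cb) →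
    ∀ (kS kX : ℕ) (om cm : ℝ), kS < kX → kX ≤ Y.N → 0 ≤ om → om ≤ 1 →
      (∀ j, j < kX → Y.mQ (2 * r) j ≤ om ^ (2 * r) ∧ Y.K j ≤ om) → (∀ j, j ≤ Y.N → |Y.cen j| ≤ cm) →
      |Y.act 2 (ledPair Y.N kS) (fun σ => ledSg (σ 1).1 * ledSg (σ 0).1) - Y.Gam kS|
        ≤ C * (Y.rLed r kS kX om + cm + Y.D kS * Y.intM kX (Y.N + 1) Y.D) := by
  obtain ⟨C1, hC1, h1⟩ := ret_mean r hr Cb
  obtain ⟨C2, hC2, h2⟩ := ret_ker0 2
  refine ⟨C1 + 4 * |Cb| * (C2 * |Cb|), by positivity, ?_⟩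
  intro Ω Y hY hbb hhb kS kX om cm hSX hXN hom0 hom1 hlow hcm
  have hCb : 0 ≤ Cb := by have := hbb 0; rw [hY.b_zero] at this; exact this
  have hcm0 : 0 ≤ cm := le_trans (abs_nonneg _) (hcm 0 (Nat.zero_le _))
  have hτ₂ : IsTr Y.N 2 (ledPair Y.N kS) := ret_pair_isTr Y.N kS (by omega)
  have a1 := h1 Ω Y hY hbb hhb kS kX om cm hSX hXN hom0 hom1 hlow hcm
  have a2 := h2 Ω Y hY Cb hbb kX (ledPair Y.N kS) 1 (Y.rX kS 1 0) hτ₂ (by omega) (ret_rX_uses Y kS (by omega) (by omega)) (by omega)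
  rw [ret_insL_eq, ret_n2_rX hY, ret_tot_pair Y kS kX (Y.N + 1) hSX le_rfl] at a2
  rw [abs_of_nonneg hCb]
  have hχ := ret_chi_abs_le hY kX
  have hb0 := ret_b_nonneg hY kS
  have hb1 := hbb kS
  have hL0 := ret_rLed_nonneg hY r kS (show kX ≤ Y.N + 1 by omega) hom0
  have hD0 := ret_D_nonneg Y kS
  have hi2 := ret_intM_nonneg hY kX (le_refl (Y.N + 1)) (ret_D_nonneg Y)
  set T := Y.act 2 (ledPair Y.N kS) (fun σ => ledSg (σ 1).1 * ledSg (σ 0).1)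
  set IX := Y.insM kX 2 (ledPair Y.N kS) 1 (Y.rX kS 1 0)
  set J := Y.intM kX (Y.N + 1) Y.D with hJ
  have b2 : |2 * (Y.chi kX * (Y.b kS * IX))| ≤ 4 * Cb * |IX| := by
    rw [abs_mul, abs_mul, abs_mul, abs_of_nonneg hb0]
    have e3 : |(2 : ℝ)| = 2 := by norm_num
    rw [e3]
    have := mul_le_mul hχ (mul_le_mul_of_nonneg_right hb1 (abs_nonneg IX)) (by positivity) (by norm_num)
    linarith
  have b3 : |T - Y.Gam kS| ≤ C1 * (Y.rLed r kS kX om + cm) + 4 * Cb * |IX| := by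
    have := abs_add_le (T - Y.Gam kS - 2 * (Y.chi kX * (Y.b kS * IX))) (2 * (Y.chi kX * (Y.b kS * IX)))
    rw [sub_add_cancel] at this
    linarith
  have b4 : 4 * Cb * |IX| ≤ 4 * Cb * (C2 * (Cb * Y.D kS) * J) := mul_le_mul_of_nonneg_left a2 (by positivity)
  have p1 : 0 ≤ C1 * (Y.D kS * J) := by positivity
  have p3 : 0 ≤ 4 * Cb * (C2 * Cb) * (Y.rLed r kS kX om + cm) := by positivity
  nlinarith

/-- the target test is the monomial `Δ_{1 0}` of 218: `𝓛_U(Δ_{ao}, a) = Y.LM kS kStar kU [(1, 0)] 1` -/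
theorem ret_LM_eq (hY : Y.Ok) (kS kStar kU : ℕ) :
    Y.LM kS kStar kU [(1, 0)] 1 = Y.insM kU 2 (ledPair Y.N kS) 1 (Y.rX kS 1 0) := by
  have e1 : Y.LM kS kStar kU [(1, 0)] 1 = Y.insM kU 2 (cvtStar Y.N kS kStar) 1 fun σ => Y.mEv kS kStar [(1, 0)] fun i => (σ i).2 := rfl
  have e2 : (fun σ : ℕ → Bool × Ω => Y.mEv kS kStar [(1, 0)] fun i => (σ i).2) = Y.rX kS 1 0 := by
    funext σ
    simp [LedSys.mEv, LedSys.eDl, LedSys.rX]
  rw [e1, e2]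
  exact tr_sumK_tree_congr (fun y z hy hz => by
    unfold cvtStar ledPair
    by_cases h : y = z
    · rw [if_pos h, if_pos h]
    · rw [if_neg h, if_neg h, if_pos (by omega)]) 3 _ (fun τ₁ τ₂ h => led_t_insS_congr Y hY kU (by omega) _ h)

/-! ## 4. the same mean identity at the good cut = the field `hcal` of `CvtIn.Cal` (218)      (PE l.975-981) -/

theorem ret_rX_symm (hY : Y.Ok) (kS a b : ℕ) : Y.rX kS a b = Y.rX kS b a := by
  funext σ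
  unfold LedSys.rX
  rw [hY.R_symm]

theorem ret_star_del0 (N kI kS : ℕ) : trDel 0 (cvtStar N kI kS) = ledPair N kS := by
  funext y z
  unfold trDel cvtStar ledPair
  simp

theorem ret_LM_12 (hY : Y.Ok) {kI kS : ℕ} (h1 : kI ≤ kS) (h2 : kS ≤ Y.N) (kU : ℕ) {a : ℕ} (ha : a < 2) :
    Y.LM kI kS kU [(1, 2)] (a + 1) = Y.insM kU 2 (ledPair Y.N kS) 1 (Y.rX kS 1 0) := by
  have e1 : Y.LM kI kS kU [(1, 2)] (a + 1) = Y.insM kU 3 (cvtStar Y.N kI kS) (a + 1) fun σ => Y.mEv kI kS [(1, 2)] fun i => (σ i).2 := by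
    have : max (cvtTopM [(1, 2)]) (a + 1 + 1) = 3 := by
      have : cvtTopM [(1, 2)] = 3 := by simp [cvtTopM]
      rw [this]; omega
    unfold LedSys.LM LedSys.LQ
    rw [this]
  have e2 : (fun σ : ℕ → Bool × Ω => Y.mEv kI kS [(1, 2)] fun i => (σ i).2) = fun ω => Y.rX kS 0 1 fun i => ω (cvtSk 0 i) := by
    funext σ
    simp [LedSys.mEv, LedSys.eDl, LedSys.rX, cvtSk]
  have e3 : cvtSk 0 a = a + 1 := by simp [cvtSk]
  have h := led_t_ins_del Y hY kU (q := 2) (p := 0) (by omega) (cvt_star_isTr h1 h2 (2 + 1)) ha (ret_rX_uses Y kS (a := 0) (b := 1) (by omega) (by omega))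
  rw [e3, ret_star_del0] at h
  rw [e1, e2, h]
  have ha' : a = 0 ∨ a = 1 := by omega
  rcases ha' with rfl | rfl
  · exact ret_insM_swap hY kU (a := 1) (b := 0) (by omega) (by omega) (by omega)
  · rw [ret_rX_symm hY kS 0 1]

/-- **(24) at `P = 1` at the good cut**, in the form of the field `hcal` of `CvtIn.Cal`; no replacement is needed: the exchange `a ↔ c` is exact      TEX[PE:lem:cavity-calibration] -/
theorem ret_hcal (r : ℕ) (hr : 5 ≤ r) (Cb : ℝ) : ∃ C : ℝ, 0 ≤ C ∧ ∀ (Ω : Type) (Y : LedSys Ω), Y.Ok → (∀ r, Y.b r ≤ Cb) → (∀ r, Y.h r ≤ Cb) →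
    ∀ (kI kS kU : ℕ) (om cm : ℝ), kI ≤ kS → kS < kU → kU ≤ Y.N → 0 ≤ om → om ≤ 1 →
      (∀ j, j < kU → Y.mQ (2 * r) j ≤ om ^ (2 * r) ∧ Y.K j ≤ om) → (∀ j, j ≤ Y.N → |Y.cen j| ≤ cm) →
      |Y.act 2 (ledPair Y.N kS) (fun σ => ledSg (σ 1).1 * ledSg (σ 0).1) - Y.Gam kS
          - Y.b kS * Y.chi kU * (Y.LM kI kS kU [(1, 2)] 1 + Y.LM kI kS kU [(1, 2)] 2)|
        ≤ C * (Y.rLed r kS kU om + cm) := by
  obtain ⟨C, hC, h⟩ := ret_mean r hr Cb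
  refine ⟨C, hC, ?_⟩
  intro Ω Y hY hbb hhb kI kS kU om cm hIS hSU hUN hom0 hom1 hlow hcm
  have a1 := h Ω Y hY hbb hhb kS kU om cm hSU hUN hom0 hom1 hlow hcm
  rw [ret_LM_12 hY hIS (by omega) kU (a := 0) (by omega), ret_LM_12 hY hIS (by omega) kU (a := 1) (by omega)]
  have e : Y.b kS * Y.chi kU * (Y.insM kU 2 (ledPair Y.N kS) 1 (Y.rX kS 1 0) + Y.insM kU 2 (ledPair Y.N kS) 1 (Y.rX kS 1 0))
      = 2 * (Y.chi kU * (Y.b kS * Y.insM kU 2 (ledPair Y.N kS) 1 (Y.rX kS 1 0))) := by ring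
  rw [e]
  exact a1

end Claimed.Agent.R286
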