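import Mathlib

/-!
# Row 286 (S0533), folder Cav, file Hol : Hoelder kit for POSITIVE NORMALISED FUNCTIONALS, natural even exponents      (helper244; prefix `sk_cavhol_`)

API-agnostic: `CvExp Ω` = a linear, monotone, normalised functional on ALL functions `Ω → ℝ` (for spin tests `Ω = Fin q → S` is finite: every tree law `ν_T` is one).
* `sk_cavhol_prod`  : `E[f_i^(2r)] ≤ A_i^(2r)` for `i ∈ s`, `card s ≤ 2r`   `⟹`   `|E[∏ f_i]| ≤ ∏ A_i`
* `sk_cavhol_cs`    : Cauchy-Schwarz     * `sk_cavhol_lyap` : `E[f^(2r)] ≤ A^(2r)`, `d ≤ 2 r` `⟹` `E[|f|^d] ≤ A^d`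
* `sk_cavhol_ofVec` : the functional of a finite probability vector
-/

set_option autoImplicit false

namespace Claimed.Agent.R286

open Finset

/-- positive normalised linear functional on all real functions -/
structure CvExp (Ω : Type*) where
  E : (Ω → ℝ) → ℝ
  add : ∀ f g, E (fun ω => f ω + g ω) = E f + E g
  smul : ∀ (c : ℝ) f, E (fun ω => c * f ω) = c * E f
  mono : ∀ f g, (∀ ω, f ω ≤ g ω) → E f ≤ E g
  one : E (fun _ => 1) = 1

namespace CvExp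

variable {Ω : Type*} (ν : CvExp Ω)

theorem const (c : ℝ) : ν.E (fun _ => c) = c := by
  have := ν.smul c (fun _ => 1)
  simpa [ν.one] using this

theorem zero : ν.E (fun _ => 0) = 0 := ν.const 0

theorem nonneg {f : Ω → ℝ} (h : ∀ ω, 0 ≤ f ω) : 0 ≤ ν.E f := by
  have := ν.mono (fun _ => 0) f h
  rwa [ν.zero] at this

theorem neg (f : Ω → ℝ) : ν.E (fun ω => - f ω) = - ν.E f := by
  have := ν.smul (-1) f
  simpa using this

theorem sub (f g : Ω → ℝ) : ν.E (fun ω => f ω - g ω) = ν.E f - ν.E g := by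
  have := ν.add f (fun ω => - g ω)
  rw [ν.neg] at this
  simpa [sub_eq_add_neg] using this

theorem abs_le (f : Ω → ℝ) : |ν.E f| ≤ ν.E (fun ω => |f ω|) := by
  rw [_root_.abs_le]
  constructor
  · rw [neg_le, ← ν.neg]
    exact ν.mono _ _ fun ω => neg_le_abs (f ω)
  · exact ν.mono _ _ fun ω => le_abs_self (f ω)

theorem sum {ι : Type*} (s : Finset ι) (f : ι → Ω → ℝ) : ν.E (fun ω => ∑ i ∈ s, f i ω) = ∑ i ∈ s, ν.E (f i) := by
  classical
  induction s using Finset.induction_on with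
  | empty => simpa using ν.zero
  | insert a s ha ih =>
    simp only [Finset.sum_insert ha]
    rw [ν.add, ih]

end CvExp

/-- the functional of a finite probability vector -/
def sk_cavhol_ofVec {Ω : Type*} [Fintype Ω] (w : Ω → ℝ) (hw : ∀ ω, 0 ≤ w ω) (hs : ∑ ω, w ω = 1) : CvExp Ω where
  E := fun f => ∑ ω, w ω * f ω
  add := fun f g => by simp only [mul_add, Finset.sum_add_distrib]
  smul := fun c f => by rw [Finset.mul_sum]; exact Finset.sum_congr rfl fun ω _ => by ring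
  mono := fun f g h => Finset.sum_le_sum fun ω _ => mul_le_mul_of_nonneg_left (h ω) (hw ω)
  one := by simpa using hs

theorem sk_cavhol_eqns_cite : True := by
  have := @sk_cavhol_ofVec.eq_1.{0}
  trivial

/-- Young: `t^d ≤ (d/(2r)) t^(2r) + (1 - d/(2r))` -/
theorem sk_cavhol_young (t : ℝ) (ht : 0 ≤ t) (d r : ℕ) (hr : 0 < r) (hd : d ≤ 2 * r) :
    t ^ d ≤ (d : ℝ) / (2 * r) * t ^ (2 * r) + (1 - (d : ℝ) / (2 * r)) := by
  have hr' : (0 : ℝ) < 2 * r := by positivity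
  have hw1 : 0 ≤ (d : ℝ) / (2 * r) := by positivity
  have hw2 : 0 ≤ 1 - (d : ℝ) / (2 * r) := by
    rw [sub_nonneg, div_le_one hr']
    exact_mod_cast hd
  have h := Real.geom_mean_le_arith_mean2_weighted hw1 hw2 (pow_nonneg ht (2 * r)) zero_le_one (by ring)
  rw [Real.one_rpow, mul_one, mul_one] at h
  have e : (t ^ (2 * r)) ^ ((d : ℝ) / (2 * r)) = t ^ d := by
    rw [← Real.rpow_natCast t (2 * r), ← Real.rpow_mul ht]
    have : ((2 * r : ℕ) : ℝ) * ((d : ℝ) / (2 * r)) = d := by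
      push_cast
      field_simp
    rw [this, Real.rpow_natCast]
  rwa [e] at h

/-- AM-GM: `∏ |g_i| ≤ (1/d) ∑ |g_i|^d`, `d = card s > 0` -/
theorem sk_cavhol_amgm {ι : Type*} (s : Finset ι) (hs : s.Nonempty) (g : ι → ℝ) (hg : ∀ i ∈ s, 0 ≤ g i) :
    ∏ i ∈ s, g i ≤ ∑ i ∈ s, (1 / (s.card : ℝ)) * g i ^ s.card := by
  have hc : (0 : ℝ) < s.card := by exact_mod_cast hs.card_pos
  have h := Real.geom_mean_le_arith_mean_weighted s (fun _ => 1 / (s.card : ℝ)) (fun i => g i ^ s.card)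
    (fun i _ => by positivity) (by simp [hc.ne']) (fun i hi => pow_nonneg (hg i hi) _)
  refine le_trans (le_of_eq ?_) h
  refine Finset.prod_congr rfl fun i hi => ?_
  rw [← Real.rpow_natCast (g i) s.card, ← Real.rpow_mul (hg i hi)]
  have : (s.card : ℝ) * (1 / (s.card : ℝ)) = 1 := by field_simp
  rw [this, Real.rpow_one]

variable {Ω : Type*} (ν : CvExp Ω)

/-- normalised form of Hoelder -/
theorem sk_cavhol_prod_norm {ι : Type*} (s : Finset ι) (g : ι → Ω → ℝ) (r : ℕ) (hr : s.card ≤ 2 * r)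
    (hg : ∀ i ∈ s, ν.E (fun ω => g i ω ^ (2 * r)) ≤ 1) : ν.E (fun ω => ∏ i ∈ s, |g i ω|) ≤ 1 := by
  rcases s.eq_empty_or_nonempty with rfl | hs
  · simp [ν.one]
  have hc : (0 : ℝ) < s.card := by exact_mod_cast hs.card_pos
  have hr0 : 0 < r := by
    have := hs.card_pos
    omega
  set θ : ℝ := (s.card : ℝ) / (2 * r) with hθ
  have hθ0 : 0 ≤ θ := by positivity
  have hpt : ∀ ω, ∏ i ∈ s, |g i ω| ≤ ∑ i ∈ s, (1 / (s.card : ℝ)) * (θ * g i ω ^ (2 * r) + (1 - θ)) := by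
    intro ω
    refine (sk_cavhol_amgm s hs (fun i => |g i ω|) fun i _ => abs_nonneg _).trans ?_
    refine Finset.sum_le_sum fun i _ => mul_le_mul_of_nonneg_left ?_ (by positivity)
    have h := sk_cavhol_young |g i ω| (abs_nonneg _) s.card r hr0 hr
    have e : |g i ω| ^ (2 * r) = g i ω ^ (2 * r) := by
      rw [pow_mul, pow_mul, sq_abs]
    rwa [e] at h
  refine (ν.mono _ _ hpt).trans ?_
  rw [ν.sum]
  have hterm : ∀ i ∈ s, ν.E (fun ω => (1 / (s.card : ℝ)) * (θ * g i ω ^ (2 * r) + (1 - θ))) ≤ 1 / (s.card : ℝ) := by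
    intro i hi
    rw [ν.smul, ν.add, ν.smul, ν.const]
    have h1 : θ * ν.E (fun ω => g i ω ^ (2 * r)) ≤ θ * 1 := mul_le_mul_of_nonneg_left (hg i hi) hθ0
    have h2 : θ * ν.E (fun ω => g i ω ^ (2 * r)) + (1 - θ) ≤ 1 := by linarith
    calc 1 / (s.card : ℝ) * (θ * ν.E (fun ω => g i ω ^ (2 * r)) + (1 - θ)) ≤ 1 / (s.card : ℝ) * 1 :=
          mul_le_mul_of_nonneg_left h2 (by positivity)
      _ = 1 / (s.card : ℝ) := mul_one _
  refine (Finset.sum_le_sum hterm).trans (le_of_eq ?_)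
  rw [Finset.sum_const, nsmul_eq_mul]
  field_simp

/-- Hoelder with positive constants -/
theorem sk_cavhol_prod_pos {ι : Type*} (s : Finset ι) (f : ι → Ω → ℝ) (A : ι → ℝ) (r : ℕ) (hr : s.card ≤ 2 * r)
    (hA : ∀ i ∈ s, 0 < A i) (hf : ∀ i ∈ s, ν.E (fun ω => f i ω ^ (2 * r)) ≤ A i ^ (2 * r)) :
    ν.E (fun ω => ∏ i ∈ s, |f i ω|) ≤ ∏ i ∈ s, A i := by
  have hP : 0 < ∏ i ∈ s, A i := Finset.prod_pos hA
  have h1 := sk_cavhol_prod_norm ν s (fun i ω => f i ω / A i) r hr (by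
    intro i hi
    have e : (fun ω => (f i ω / A i) ^ (2 * r)) = fun ω => (1 / A i ^ (2 * r)) * f i ω ^ (2 * r) := by
      funext ω; rw [div_pow]; ring
    rw [e, ν.smul, one_div, inv_mul_le_iff₀ (pow_pos (hA i hi) _), mul_one]
    exact hf i hi)
  have e : (fun ω => ∏ i ∈ s, |f i ω|) = fun ω => (∏ i ∈ s, A i) * ∏ i ∈ s, |f i ω / A i| := by
    funext ω
    rw [← Finset.prod_mul_distrib]
    refine Finset.prod_congr rfl fun i hi => ?_
    rw [abs_div, abs_of_pos (hA i hi), mul_div_cancel₀ _ (hA i hi).ne']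
  rw [e, ν.smul]
  calc (∏ i ∈ s, A i) * ν.E (fun ω => ∏ i ∈ s, |f i ω / A i|) ≤ (∏ i ∈ s, A i) * 1 := mul_le_mul_of_nonneg_left h1 hP.le
    _ = _ := mul_one _

/-- **generalised Hoelder**, natural even exponent `2 r ≥` number of factors -/
theorem sk_cavhol_prod_abs {ι : Type*} (s : Finset ι) (f : ι → Ω → ℝ) (A : ι → ℝ) (r : ℕ) (hr : s.card ≤ 2 * r)
    (hA : ∀ i ∈ s, 0 ≤ A i) (hf : ∀ i ∈ s, ν.E (fun ω => f i ω ^ (2 * r)) ≤ A i ^ (2 * r)) :
    ν.E (fun ω => ∏ i ∈ s, |f i ω|) ≤ ∏ i ∈ s, A i := by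
  have hε : ∀ ε : ℝ, 0 < ε → ν.E (fun ω => ∏ i ∈ s, |f i ω|) ≤ ∏ i ∈ s, (A i + ε) := by
    intro ε hε
    refine sk_cavhol_prod_pos ν s f (fun i => A i + ε) r hr (fun i hi => by have := hA i hi; positivity) fun i hi => ?_
    exact (hf i hi).trans (pow_le_pow_left₀ (hA i hi) (by linarith) _)
  have hcont : Filter.Tendsto (fun ε : ℝ => ∏ i ∈ s, (A i + ε)) (nhdsWithin 0 (Set.Ioi 0)) (nhds (∏ i ∈ s, (A i + 0))) := by
    have : Continuous fun ε : ℝ => ∏ i ∈ s, (A i + ε) := by fun_prop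
    exact (this.tendsto 0).mono_left nhdsWithin_le_nhds
  simp only [add_zero] at hcont
  exact ge_of_tendsto hcont (Filter.eventually_of_mem self_mem_nhdsWithin fun ε hε' => hε ε hε')

theorem sk_cavhol_prod {ι : Type*} (s : Finset ι) (f : ι → Ω → ℝ) (A : ι → ℝ) (r : ℕ) (hr : s.card ≤ 2 * r)
    (hA : ∀ i ∈ s, 0 ≤ A i) (hf : ∀ i ∈ s, ν.E (fun ω => f i ω ^ (2 * r)) ≤ A i ^ (2 * r)) :
    |ν.E (fun ω => ∏ i ∈ s, f i ω)| ≤ ∏ i ∈ s, A i := by
  refine (ν.abs_le _).trans ?_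
  simp only [Finset.abs_prod]
  exact sk_cavhol_prod_abs ν s f A r hr hA hf

/-- Cauchy-Schwarz -/
theorem sk_cavhol_cs (f g : Ω → ℝ) (A B : ℝ) (hA : 0 ≤ A) (hB : 0 ≤ B) (hf : ν.E (fun ω => f ω ^ 2) ≤ A ^ 2)
    (hg : ν.E (fun ω => g ω ^ 2) ≤ B ^ 2) : |ν.E (fun ω => f ω * g ω)| ≤ A * B := by
  have h := sk_cavhol_prod ν (Finset.univ : Finset (Fin 2)) ![f, g] ![A, B] 1 (by simp)
    (by intro i _; fin_cases i <;> simpa) (by intro i _; fin_cases i <;> simpa)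
  simpa [Fin.prod_univ_two] using h

/-- Lyapunov: lower moments from an even moment -/
theorem sk_cavhol_lyap (f : Ω → ℝ) (A : ℝ) (hA : 0 ≤ A) (d r : ℕ) (hd : d ≤ 2 * r)
    (hf : ν.E (fun ω => f ω ^ (2 * r)) ≤ A ^ (2 * r)) : ν.E (fun ω => |f ω| ^ d) ≤ A ^ d := by
  have h := sk_cavhol_prod_abs ν (Finset.univ : Finset (Fin d)) (fun _ => f) (fun _ => A) r (by simpa using hd)
    (fun _ _ => hA) (fun _ _ => hf)
  simpa using h

end Claimed.Agent.R286
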