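import Claimed.Agent.R286.Cav.TstMod
import Claimed.Agent.R286.Cav.Hol
import Claimed.Agent.R286.Fd.TrA2

/-!
# Row 286 (S0533), folder Cav, file TstApr : A PRIORI BOUNDS = the fields `hnu`, `hL` of `CvtMod` on a `LedSys`      (owner helper218; prefix `led_a_`)

PE l.946-960 ("Hoelder at its required fixed order and marginalization identify each with a star pair ... the high insertion has bounded fixed moments and finite-label total variation").
* `ledExp`            a `LedMean` is a `CvExp` of 244 (Hoelder kit)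
* `led_a_hol`         Hoelder for a LIST of factors
* `led_a_pair`        PAIR MARGINAL: `ν_τ[F(σ_c, σ_d)] = ν_{pair(τ c d)}[F(σ_0, σ_1)]`
* `Y.mom r k`         the moment of order `2r` of `R⁻ - S_k` for a pair which shares `k` stages
* `led_a_mon`         `|ν_τ'[m · g]| ≤ msz(m) B` on every table which extends the star table
* **`led_a_nu`** (field `hnu`, `C_ν = 1`),  **`led_a_L`** (field `hL`, `τ = 8 (ms N)³ q (q+1) (q+2) · 2 C_b`)
-/

set_option autoImplicit false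

namespace Claimed.Agent.R286

open Finset

/-- a `LedMean` is a positive normalised functional in the sense of `Cav/Hol` -/
def ledExp {X : Type} {μ : (X → ℝ) → ℝ} (h : LedMean μ) : CvExp X where
  E := μ
  add := h.add
  smul := h.smul
  mono := by
    intro f g hfg
    have h1 : 0 ≤ μ fun x => g x + (-1) * f x := h.nonneg _ fun x => by have := hfg x; linarith
    have h2 : (μ fun x => g x + (-1) * f x) = μ g + (-1) * μ f := by
      rw [h.add g fun x => (-1) * f x, h.smul]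
    linarith
  one := h.one

theorem led_a_eqns_cite : True := by
  have := @ledExp.eq_1
  trivial

/-- Hoelder for a list of (factor, bound) -/
theorem led_a_hol {X : Type} (ν : CvExp X) (r : ℕ) (L : List ((X → ℝ) × ℝ)) (hlen : L.length ≤ 2 * r)
    (hL : ∀ p ∈ L, 0 ≤ p.2 ∧ ν.E (fun ω => p.1 ω ^ (2 * r)) ≤ p.2 ^ (2 * r)) :
    |ν.E fun ω => (L.map fun p => p.1 ω).prod| ≤ (L.map fun p => p.2).prod := by
  have h := sk_cavhol_prod ν (Finset.univ : Finset (Fin L.length)) (fun i => (L[i.1]).1) (fun i => (L[i.1]).2) r (by simpa using hlen)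
    (fun i _ => (hL _ (List.getElem_mem i.2)).1) (fun i _ => (hL _ (List.getElem_mem i.2)).2)
  have e1 : ∀ ω, ∏ i : Fin L.length, (L[i.1]).1 ω = (L.map fun p => p.1 ω).prod := fun ω => Fin.prod_univ_fun_getElem L fun p => p.1 ω
  have e2 : ∏ i : Fin L.length, (L[i.1]).2 = (L.map fun p => p.2).prod := Fin.prod_univ_fun_getElem L fun p => p.2
  simp only [e1, e2] at h
  exact h

variable {Ω : Type} (Y : LedSys Ω)

theorem led_a_pair_uses {q c d : ℕ} (hc : c < q) (hd : d < q) (F : Bool × Ω → Bool × Ω → ℝ) : TrUses q fun σ : ℕ → Bool × Ω => F (σ c) (σ d) := by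
  intro σ σ' h
  simp only [h c hc, h d hd]

/-- **pair marginal** -/
theorem led_a_pair (hY : Y.Ok) {lam : ℕ → ℝ} {t : ℝ} (hl : LedProf lam) (ht : t ∈ Set.Icc (0 : ℝ) 1) {q : ℕ} {τ : ℕ → ℕ → ℕ} (hτ : IsTr Y.N q τ)
    {c d : ℕ} (hc : c < q) (hd : d < q) (hcd : c ≠ d) (F : Bool × Ω → Bool × Ω → ℝ) :
    Y.nu lam t q τ (fun σ => F (σ c) (σ d)) = Y.nu lam t 2 (ledPair Y.N (τ c d)) fun σ => F (σ 0) (σ 1) := by
  have hq : 2 ≤ q := by omega
  -- first swap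
  set e : Equiv.Perm ℕ := Equiv.swap 0 c with he
  have hes : e.symm = e := Equiv.symm_swap _ _
  have hefix : ∀ y, q ≤ y → e y = y := fun y hy => Equiv.swap_apply_of_ne_of_ne (by omega) (by omega)
  set d₁ := e d with hd₁
  have hd₁q : d₁ < q := by
    have := cvt_perm_symm_lt hefix d hd
    rwa [hes] at this
  have hd₁0 : d₁ ≠ 0 := by
    intro h
    have : d = e 0 := by rw [← h, hd₁, he, Equiv.swap_apply_self]
    rw [he, Equiv.swap_apply_left] at this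
    exact hcd this.symm
  have s1 := led_t_nu_perm Y hY hl ht hτ hefix (led_a_pair_uses (Ω := Ω) (show 0 < q by omega) hd₁q F)
  have x1 : e 0 = c := Equiv.swap_apply_left _ _
  have x2 : e d₁ = d := by rw [hd₁, he, Equiv.swap_apply_self]
  simp only [hes, x1, x2] at s1
  rw [s1]
  have hτ1 : IsTr Y.N q fun y z => τ (e y) (e z) := by
    have := tr_comap_isTr hτ e.symm (cvt_perm_symm_lt hefix)
    rwa [hes] at this
  -- second swap
  set e' : Equiv.Perm ℕ := Equiv.swap 1 d₁ with he'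
  have hes' : e'.symm = e' := Equiv.symm_swap _ _
  have hefix' : ∀ y, q ≤ y → e' y = y := fun y hy => Equiv.swap_apply_of_ne_of_ne (by omega) (by omega)
  have s2 := led_t_nu_perm Y hY hl ht hτ1 hefix' (led_a_pair_uses (Ω := Ω) (show 0 < q by omega) (show 1 < q by omega) F)
  have y1 : e' 0 = 0 := Equiv.swap_apply_of_ne_of_ne (by omega) (fun h => hd₁0 h.symm)
  have y2 : e' 1 = d₁ := Equiv.swap_apply_left _ _
  simp only [hes', y1, y2] at s2
  rw [s2]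
  have hτ2 : IsTr Y.N q fun y z => τ (e (e' y)) (e (e' z)) := by
    have := tr_comap_isTr hτ1 e'.symm (cvt_perm_symm_lt hefix')
    rwa [hes'] at this
  obtain ⟨k, rfl⟩ := Nat.exists_eq_add_of_le hq
  rw [led_t_prune Y hY hl ht k hτ2 (led_a_pair_uses (Ω := Ω) (show 0 < 2 by omega) (show 1 < 2 by omega) F)]
  refine hY.congr lam t 2 _ _ _ fun x y hx hy => ?_
  have hx' : x = 0 ∨ x = 1 := by omega
  have hy' : y = 0 ∨ y = 1 := by omega
  unfold ledPair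
  rcases hx' with rfl | rfl <;> rcases hy' with rfl | rfl
  · simpa using hτ2.diag 0 (by omega)
  · simp only [y1, y2, x1, x2]; simp
  · simp only [y1, y2, x1, x2]; simpa using hτ.symm d c hd hc
  · simpa using hτ2.diag 1 (by omega)

/-- the moment of order `2 r` of the centered (deleted) overlap of a pair which shares `k` stages -/
def LedSys.mom (r k : ℕ) : ℝ := Y.act 2 (ledPair Y.N k) fun σ => (Y.R (σ 0).2 (σ 1).2 - Y.S k) ^ (2 * r)

theorem led_a_eqns_cite2 : True := by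
  have := @LedSys.mom.eq_1
  trivial

/-- the moment of an edge factor on a table which extends the star table -/
theorem led_a_edge (hY : Y.Ok) {kI kS : ℕ} (r : ℕ) {w x : ℝ} (hS : Y.mom r kS ≤ w ^ (2 * r)) (hI : Y.mom r kI ≤ x ^ (2 * r))
    {q : ℕ} {τ : ℕ → ℕ → ℕ} (hτ : IsTr Y.N q τ) {e : ℕ × ℕ} (h1 : e.1 < q) (h2 : e.2 < q) (hne : e.1 ≠ e.2)
    (hst : τ e.1 e.2 = cvtStar Y.N kI kS e.1 e.2) :
    Y.act q τ (fun σ => Y.eDl kI kS (fun i => (σ i).2) e ^ (2 * r)) ≤ cvtEsz w x e ^ (2 * r) := by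
  have h := led_a_pair Y hY led_t_prof1 led_t_one_mem hτ h1 h2 hne
    (fun u v => (Y.R u.2 v.2 - Y.S (if e.1 = 0 ∨ e.2 = 0 then kI else kS)) ^ (2 * r))
  have e1 : Y.act q τ (fun σ => Y.eDl kI kS (fun i => (σ i).2) e ^ (2 * r))
      = Y.nu (fun _ => 1) 1 q τ fun σ => (Y.R (σ e.1).2 (σ e.2).2 - Y.S (if e.1 = 0 ∨ e.2 = 0 then kI else kS)) ^ (2 * r) := rfl
  rw [e1, h, hst]
  unfold cvtStar cvtEsz
  rw [if_neg hne]
  split_ifs with h0
  · exact hI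
  · exact hS

/-- **Hoelder for a monomial times one more factor**, on a table which extends the star table -/
theorem led_a_mon (hY : Y.Ok) {kI kS : ℕ} (r : ℕ) {w x : ℝ} (hw : 0 ≤ w) (hx : 0 ≤ x) (hS : Y.mom r kS ≤ w ^ (2 * r)) (hI : Y.mom r kI ≤ x ^ (2 * r))
    {q : ℕ} {τ : ℕ → ℕ → ℕ} (hτ : IsTr Y.N q τ) (m : CvtMon) (hq : cvtTopM m ≤ q) (hloop : ∀ e ∈ m, e.1 ≠ e.2) (hlen : m.length + 1 ≤ 2 * r)
    (hst : ∀ y z, y < cvtTopM m → z < cvtTopM m → τ y z = cvtStar Y.N kI kS y z)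
    (g : (ℕ → Bool × Ω) → ℝ) {B : ℝ} (hB : 0 ≤ B) (hg : Y.act q τ (fun σ => g σ ^ (2 * r)) ≤ B ^ (2 * r)) :
    |Y.act q τ fun σ => Y.mEv kI kS m (fun i => (σ i).2) * g σ| ≤ cvtMsz w x m * B := by
  have hmean := hY.mean (fun _ => 1) 1 q τ led_t_prof1 led_t_one_mem hτ
  have h := led_a_hol (ledExp hmean) r
    ((g, B) :: m.map fun e => ((fun σ : ℕ → Bool × Ω => Y.eDl kI kS (fun i => (σ i).2) e), cvtEsz w x e)) (by simpa using hlen) (by
      intro p hp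
      rcases List.mem_cons.1 hp with rfl | hp
      · exact ⟨hB, hg⟩
      · obtain ⟨e, he, rfl⟩ := List.mem_map.1 hp
        have hlt := cvt_lt_topM he
        exact ⟨cvtEsz_nonneg hw hx e, led_a_edge Y hY r hS hI hτ (by omega) (by omega) (hloop e he) (hst _ _ hlt.1 hlt.2)⟩)
  simp only [List.map_cons, List.prod_cons, List.map_map, Function.comp_def] at h
  have e1 : (ledExp hmean).E = Y.act q τ := rfl
  rw [e1] at h
  have e2 : (fun σ : ℕ → Bool × Ω => Y.mEv kI kS m (fun i => (σ i).2) * g σ)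
      = fun σ : ℕ → Bool × Ω => g σ * (m.map fun e => Y.eDl kI kS (fun i => (σ i).2) e).prod := by
    funext σ
    unfold LedSys.mEv
    ring
  rw [e2, mul_comm]
  exact h

/-- **the field `hnu`** with `C_ν = 1` -/
theorem led_a_nu (hY : Y.Ok) {kI kS : ℕ} (h1 : kI ≤ kS) (h2 : kS ≤ Y.N) (r : ℕ) {w x : ℝ} (hw : 0 ≤ w) (hx : 0 ≤ x)
    (hS : Y.mom r kS ≤ w ^ (2 * r)) (hI : Y.mom r kI ≤ x ^ (2 * r)) (m : CvtMon) (hloop : ∀ e ∈ m, e.1 ≠ e.2) (hlen : m.length + 1 ≤ 2 * r) :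
    |Y.nuM kI kS m| ≤ cvtMsz w x m := by
  have hτ := cvt_star_isTr h1 h2 (cvtTopM m)
  have hmean := hY.mean (fun _ => 1) 1 (cvtTopM m) _ led_t_prof1 led_t_one_mem hτ
  have h := led_a_mon Y hY r hw hx hS hI hτ m le_rfl hloop hlen (fun _ _ _ _ => rfl) (fun _ => 1) zero_le_one (by
    simp only [one_pow]
    exact hmean.one.le)
  simpa [LedSys.nuM, LedSys.nuQ] using h

/-- a mean of a function bounded by `C` -/
theorem led_a_mean_le {X : Type} {μ : (X → ℝ) → ℝ} (h : LedMean μ) {f : X → ℝ} {C : ℝ} (hf : ∀ x, |f x| ≤ C) : |μ f| ≤ C := by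
  have h1 := (ledExp h).abs_le f
  have h2 := (ledExp h).mono (fun x => |f x|) (fun _ => C) hf
  rw [(ledExp h).const] at h2
  exact h1.trans h2

theorem led_a_sg (s : Bool) : |ledSg s| = 1 := by
  unfold ledSg; split_ifs <;> simp

theorem led_a_pair_isTr {N r : ℕ} (hr : r ≤ N + 1) : IsTr N 2 (ledPair N r) := by
  refine ⟨?_, ?_, ?_, ?_⟩
  · intro x y _ _; unfold ledPair; split_ifs <;> omega
  · intro x _; simp [ledPair]
  · intro x y _ _
    unfold ledPair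
    by_cases h : x = y
    · rw [if_pos h, if_pos h.symm]
    · rw [if_neg h, if_neg fun h' => h h'.symm]
  · intro x y z _ _ _
    unfold ledPair
    split_ifs <;> omega

theorem led_a_gam_le (hY : Y.Ok) (kU : ℕ) {r : ℕ} (hr : r ≤ Y.N + 1) : |Y.gam kU r| ≤ 1 := by
  unfold LedSys.gam LedSys.gS LedSys.nuS
  refine led_a_mean_le (hY.mean _ 0 2 _ (led_t_profLam kU) led_t_zero_mem (led_a_pair_isTr hr)) fun σ => ?_
  rw [abs_mul, led_a_sg, led_a_sg, one_mul]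

theorem led_a_kap4_le (hY : Y.Ok) (kU : ℕ) {q : ℕ} {τ : ℕ → ℕ → ℕ} (hτ : IsTr Y.N q τ) {a c e f : ℕ} (ha : a < q) (hc : c < q) (he : e < q) (hf : f < q) :
    |Y.kap4 kU q τ a c e f| ≤ 2 := by
  unfold LedSys.kap4 LedSys.nuS
  have h1 : |Y.nu (ledLam kU 0) 0 q τ fun σ => ledSg (σ a).1 * ledSg (σ c).1 * ledSg (σ e).1 * ledSg (σ f).1| ≤ 1 := by
    refine led_a_mean_le (hY.mean _ 0 q τ (led_t_profLam kU) led_t_zero_mem hτ) fun σ => ?_
    rw [abs_mul, abs_mul, abs_mul, led_a_sg, led_a_sg, led_a_sg, led_a_sg]; norm_num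
  have h2 := led_a_gam_le Y hY kU (hτ.le a c ha hc)
  have h3 := led_a_gam_le Y hY kU (hτ.le e f he hf)
  have h4 : |Y.gam kU (τ a c) * Y.gam kU (τ e f)| ≤ 1 := by
    rw [abs_mul]
    calc _ ≤ (1 : ℝ) * 1 := mul_le_mul h2 h3 (abs_nonneg _) zero_le_one
      _ = 1 := one_mul 1
  calc _ ≤ _ + |Y.gam kU (τ a c) * Y.gam kU (τ e f)| := abs_sub _ _
    _ ≤ 2 := by linarith

theorem led_a_b_nonneg (hY : Y.Ok) (r : ℕ) : 0 ≤ Y.b r := by
  have := hY.b_mono (Nat.zero_le r)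
  rwa [hY.b_zero] at this

theorem led_a_dl_le (hY : Y.Ok) {Cb : ℝ} (hb : ∀ r, Y.b r ≤ Cb) (r : ℕ) (ω ω' : Ω) : |Y.dl r ω ω'| ≤ 2 * Cb := by
  unfold LedSys.dl
  have h0 := led_a_b_nonneg Y hY r
  have h1 := abs_le.1 (hY.R_le ω ω')
  have h2 := hY.S_nonneg r
  have h3 := hY.S_le r
  have h4 : |Y.R ω ω' - Y.S r| ≤ 2 := abs_le.2 ⟨by linarith, by linarith⟩
  rw [abs_mul, abs_of_nonneg h0]
  calc Y.b r * |Y.R ω ω' - Y.S r| ≤ Cb * 2 := mul_le_mul (hb r) h4 (abs_nonneg _) (h0.trans (hb r))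
    _ = _ := by ring

/-- bound of the summand of `𝓛(m,a)` -/
theorem led_a_insS (hY : Y.Ok) {kI kS : ℕ} (kU r : ℕ) {w x : ℝ} (hw : 0 ≤ w) (hx : 0 ≤ x) (hS : Y.mom r kS ≤ w ^ (2 * r)) (hI : Y.mom r kI ≤ x ^ (2 * r))
    {Cb : ℝ} (hb : ∀ r, Y.b r ≤ Cb) (m : CvtMon) (hloop : ∀ e ∈ m, e.1 ≠ e.2) (hlen : m.length + 1 ≤ 2 * r) {q a : ℕ} (hq : cvtTopM m ≤ q) (ha : a < q)
    {τ' : ℕ → ℕ → ℕ} (hτ' : IsTr Y.N (q + 3) τ') (hst : ∀ y z, y < q → z < q → τ' y z = cvtStar Y.N kI kS y z) :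
    |Y.insS kU q a (fun σ => Y.mEv kI kS m fun i => (σ i).2) τ'| ≤ cvtMsz w x m * (2 * Cb) := by
  have hCb : 0 ≤ 2 * Cb := by have := (led_a_b_nonneg Y hY 0).trans (hb 0); linarith
  have hmean := hY.mean (fun _ => 1) 1 (q + 3) τ' led_t_prof1 led_t_one_mem hτ'
  have h1 : |Y.coefM kU q a τ'| ≤ 1 := by
    unfold LedSys.coefM
    split_ifs
    · have := led_a_kap4_le Y hY kU hτ' (a := a) (c := q) (e := q + 1) (f := q + 2) (by omega) (by omega) (by omega) (by omega)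
      rw [abs_mul]
      norm_num
      linarith
    · simp
  have h2 := led_a_mon Y hY r hw hx hS hI hτ' m (by omega) hloop hlen (fun y z hy hz => hst y z (by omega) (by omega))
    (fun σ => Y.dl (τ' (q + 1) (q + 2)) (σ (q + 1)).2 (σ (q + 2)).2) hCb (by
      have h3 := (ledExp hmean).mono (fun σ => Y.dl (τ' (q + 1) (q + 2)) (σ (q + 1)).2 (σ (q + 2)).2 ^ (2 * r)) (fun _ => (2 * Cb) ^ (2 * r)) (fun σ => by
        have := led_a_dl_le Y hY hb (τ' (q + 1) (q + 2)) (σ (q + 1)).2 (σ (q + 2)).2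
        calc _ = |Y.dl (τ' (q + 1) (q + 2)) (σ (q + 1)).2 (σ (q + 2)).2| ^ (2 * r) := by rw [pow_mul, pow_mul, sq_abs]
          _ ≤ _ := pow_le_pow_left₀ (abs_nonneg _) this _)
      rw [(ledExp hmean).const] at h3
      exact h3)
  unfold LedSys.insS
  rw [abs_mul]
  calc _ ≤ 1 * (cvtMsz w x m * (2 * Cb)) := mul_le_mul h1 h2 (abs_nonneg _) zero_le_one
    _ = _ := one_mul _

/-- **the field `hL`**: `|𝓛(m,a)| ≤ (2 m_N)³ q (q+1) (q+2) · 2 C_b · msz(m)` for every `q` above the labels -/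
theorem led_a_L (hY : Y.Ok) {kI kS : ℕ} (h1 : kI ≤ kS) (h2 : kS ≤ Y.N) (kU r : ℕ) {w x : ℝ} (hw : 0 ≤ w) (hx : 0 ≤ x)
    (hS : Y.mom r kS ≤ w ^ (2 * r)) (hI : Y.mom r kI ≤ x ^ (2 * r)) {Cb : ℝ} (hb : ∀ r, Y.b r ≤ Cb)
    (m : CvtMon) (hloop : ∀ e ∈ m, e.1 ≠ e.2) (hlen : m.length + 1 ≤ 2 * r) {q a : ℕ} (hq : cvtTopM m ≤ q) (ha : a < q) :
    |Y.LM kI kS kU m a| ≤ (2 * Y.ms Y.N) ^ 3 * (∏ i ∈ Finset.range 3, ((q : ℝ) + i)) * (2 * Cb) * cvtMsz w x m := by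
  classical
  rw [← led_t_LQ_eq Y hY h1 h2 kU m hq ha]
  have hτ := cvt_star_isTr h1 h2 (N := Y.N) q
  set Φ := Y.insS kU q a (fun σ => Y.mEv kI kS m fun i => (σ i).2) with hΦ
  set Ψ : (ℕ → ℕ → ℕ) → ℝ := fun τ' => if ∀ y z, y < q → z < q → τ' y z = cvtStar Y.N kI kS y z then Φ τ' else 0 with hΨ
  have hM : 0 ≤ cvtMsz w x m * (2 * Cb) := by
    have := (led_a_b_nonneg Y hY 0).trans (hb 0)
    exact mul_nonneg (cvtMsz_nonneg hw hx m) (by linarith)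
  have s1 : |trSumK Y.ms Y.N 3 q (cvtStar Y.N kI kS) Φ| ≤ trAbsK Y.ms Y.N 3 q (cvtStar Y.N kI kS) fun τ' => |Φ τ'| := tr_sumK_le 3 Φ
  have s2 : (trAbsK Y.ms Y.N 3 q (cvtStar Y.N kI kS) fun τ' => |Φ τ'|) = trAbsK Y.ms Y.N 3 q (cvtStar Y.N kI kS) fun τ' => |Ψ τ'| := by
    refine tr_absK_congr hτ 3 _ _ fun τ' _ hext => ?_
    rw [hΨ]
    simp only
    rw [if_pos hext]
  have s3 := tr_absK_le hτ hY.ms_ok 3 Ψ (cvtMsz w x m * (2 * Cb)) (by
    intro τ' hτ'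
    rw [hΨ]
    simp only
    split_ifs with hext
    · exact led_a_insS Y hY kU r hw hx hS hI hb m hloop hlen hq ha hτ' hext
    · simpa using hM)
  show |trSumK Y.ms Y.N 3 q (cvtStar Y.N kI kS) Φ| ≤ _
  calc _ ≤ _ := s1
    _ = _ := s2
    _ ≤ _ := s3
    _ = _ := by ring

theorem cvtTopM_append (m m' : CvtMon) : cvtTopM (m ++ m') = max (cvtTopM m) (cvtTopM m') := by
  induction m with
  | nil => exact (max_eq_right (cvtTopM_pos m')).symm
  | cons e m ih =>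
    show max (max (e.1 + 1) (e.2 + 1)) (cvtTopM (m ++ m')) = max (max (max (e.1 + 1) (e.2 + 1)) (cvtTopM m)) (cvtTopM m')
    rw [ih]
    omega

theorem cvtMsz_append (w x : ℝ) (m m' : CvtMon) : cvtMsz w x (m ++ m') = cvtMsz w x m * cvtMsz w x m' := by
  simp [cvtMsz]

theorem led_a_mEv_append (kI kS : ℕ) (m m' : CvtMon) (ω : ℕ → Ω) : Y.mEv kI kS (m ++ m') ω = Y.mEv kI kS m ω * Y.mEv kI kS m' ω := by
  simp [LedSys.mEv]

/-- second moment of a monomial -/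
theorem led_a_mon_sq (hY : Y.Ok) {kI kS : ℕ} (r : ℕ) {w x : ℝ} (hw : 0 ≤ w) (hx : 0 ≤ x) (hS : Y.mom r kS ≤ w ^ (2 * r)) (hI : Y.mom r kI ≤ x ^ (2 * r))
    {q : ℕ} {τ : ℕ → ℕ → ℕ} (hτ : IsTr Y.N q τ) (m : CvtMon) (hq : cvtTopM m ≤ q) (hloop : ∀ e ∈ m, e.1 ≠ e.2) (hlen : 2 * m.length + 1 ≤ 2 * r)
    (hst : ∀ y z, y < cvtTopM m → z < cvtTopM m → τ y z = cvtStar Y.N kI kS y z) :
    Y.act q τ (fun σ => Y.mEv kI kS m (fun i => (σ i).2) ^ 2) ≤ cvtMsz w x m ^ 2 := by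
  have hmean := hY.mean (fun _ => 1) 1 q τ led_t_prof1 led_t_one_mem hτ
  have htop : cvtTopM (m ++ m) = cvtTopM m := by rw [cvtTopM_append, max_self]
  have h := led_a_mon Y hY r hw hx hS hI hτ (m ++ m) (by rw [htop]; exact hq)
    (fun e he => hloop e (by rcases List.mem_append.1 he with h | h <;> exact h)) (by rw [List.length_append]; omega)
    (by rw [htop]; exact hst) (fun _ => 1) zero_le_one (by simp only [one_pow]; exact hmean.one.le)
  rw [cvtMsz_append, mul_one] at h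
  have e1 : (fun σ : ℕ → Bool × Ω => Y.mEv kI kS (m ++ m) (fun i => (σ i).2) * 1) = fun σ : ℕ → Bool × Ω => Y.mEv kI kS m (fun i => (σ i).2) ^ 2 := by
    funext σ
    rw [led_a_mEv_append, mul_one, sq]
  rw [e1] at h
  calc _ ≤ |Y.act q τ fun σ => Y.mEv kI kS m (fun i => (σ i).2) ^ 2| := le_abs_self _
    _ ≤ _ := by rw [sq]; exact h

/-- **the field `hnuY`** (`C_y = 1`, `D_* ≤ sv x²/W`): `|ν[Δ_af m] - ν[m] ν[Δ_af]| ≤ D_* msz(m)`, `f` a fresh label.      PE l.885-895 -/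
theorem led_a_nuY (hY : Y.Ok) {kI kS : ℕ} (h1 : kI ≤ kS) (h2 : kS ≤ Y.N) (r : ℕ) {w x : ℝ} (hw : 0 ≤ w) (hx : 0 ≤ x)
    (hS : Y.mom r kS ≤ w ^ (2 * r)) (hI : Y.mom r kI ≤ x ^ (2 * r)) (m : CvtMon) (hloop : ∀ e ∈ m, e.1 ≠ e.2) (hlen : 2 * m.length + 1 ≤ 2 * r)
    {a f : ℕ} (ha : a ≠ 0) (hf : f ≠ 0) (hfa : f ≠ a) :
    |Y.nuM kI kS ((a, f) :: m) - Y.nuM kI kS m * Y.nuM kI kS [(a, f)]| ≤ Y.D kS * cvtMsz w x m := by
  set q := cvtTopM ((a, f) :: m) with hq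
  have hqa : a < q := (cvt_lt_topM (m := (a, f) :: m) List.mem_cons_self).1
  have hqf : f < q := (cvt_lt_topM (m := (a, f) :: m) List.mem_cons_self).2
  have hqm : cvtTopM m ≤ q := le_max_right _ _
  have hq2 : cvtTopM [(a, f)] ≤ q := cvtTopM_cons_le hqa hqf (cvtTopM_pos _)
  have hτ := cvt_star_isTr h1 h2 (N := Y.N) q
  have hmean := hY.mean (fun _ => 1) 1 q _ led_t_prof1 led_t_one_mem hτ
  set ν := ledExp hmean with hν
  set Δ : (ℕ → Bool × Ω) → ℝ := fun σ => Y.eDl kI kS (fun i => (σ i).2) (a, f) with hΔ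
  set μ : (ℕ → Bool × Ω) → ℝ := fun σ => Y.mEv kI kS m fun i => (σ i).2 with hμ
  have e1 : Y.nuM kI kS ((a, f) :: m) = ν.E fun σ => Δ σ * μ σ := by
    show Y.nuQ kI kS q ((a, f) :: m) = _
    unfold LedSys.nuQ LedSys.mEv
    simp only [List.map_cons, List.prod_cons]
    rfl
  have e2 : Y.nuM kI kS m = ν.E μ := (led_t_nuQ_eq Y hY h1 h2 m hqm).symm
  have e3 : Y.nuM kI kS [(a, f)] = ν.E Δ := by
    rw [← led_t_nuQ_eq Y hY h1 h2 [(a, f)] hq2]
    unfold LedSys.nuQ LedSys.mEv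
    simp only [List.map_cons, List.map_nil, List.prod_cons, List.prod_nil, mul_one]
    rfl
  have e4 : ν.E (fun σ => Δ σ * μ σ) - ν.E μ * ν.E Δ = ν.E fun σ => Δ σ * (μ σ - ν.E μ) := by
    have : (fun σ => Δ σ * (μ σ - ν.E μ)) = fun σ => Δ σ * μ σ - ν.E μ * Δ σ := by funext σ; ring
    rw [this, ν.sub, ν.smul]
  rw [e1, e2, e3, e4]
  have hD0 : 0 ≤ Y.D kS := Real.sqrt_nonneg _
  refine sk_cavhol_cs ν Δ (fun σ => μ σ - ν.E μ) (Y.D kS) (cvtMsz w x m) hD0 (cvtMsz_nonneg hw hx m) ?_ ?_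
  · have hp := led_a_pair Y hY led_t_prof1 led_t_one_mem hτ hqa hqf (fun h => hfa h.symm) (fun u v => (Y.R u.2 v.2 - Y.S kS) ^ 2)
    have hst : cvtStar Y.N kI kS a f = kS := by
      unfold cvtStar
      rw [if_neg (fun h => hfa h.symm), if_neg (by simp [ha, hf])]
    rw [hst] at hp
    have e5 : ν.E (fun σ => Δ σ ^ 2) = Y.nu (fun _ => 1) 1 q (cvtStar Y.N kI kS) fun σ => (Y.R (σ a).2 (σ f).2 - Y.S kS) ^ 2 := by
      show Y.nu (fun _ => 1) 1 q (cvtStar Y.N kI kS) (fun σ => Δ σ ^ 2) = _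
      rw [hΔ]
      unfold LedSys.eDl
      simp only [ha, hf, or_self, if_false]
    rw [e5, hp]
    unfold LedSys.D
    rw [Real.sq_sqrt]
    · exact le_rfl
    · exact (hY.mean (fun _ => 1) 1 2 _ led_t_prof1 led_t_one_mem (led_a_pair_isTr (by omega))).nonneg _ fun σ => sq_nonneg _
  · have h5 := led_a_mon_sq Y hY r hw hx hS hI hτ m hqm hloop hlen (fun _ _ _ _ => rfl)
    have e6 : ν.E (fun σ => (μ σ - ν.E μ) ^ 2) = ν.E (fun σ => μ σ ^ 2) - ν.E μ ^ 2 := by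
      have : (fun σ => (μ σ - ν.E μ) ^ 2) = fun σ => (μ σ ^ 2 - (2 * ν.E μ) * μ σ) + ν.E μ ^ 2 := by funext σ; ring
      rw [this, ν.add, ν.sub, ν.smul, ν.const]
      ring
    rw [e6]
    have : ν.E (fun σ => μ σ ^ 2) ≤ cvtMsz w x m ^ 2 := h5
    nlinarith [sq_nonneg (ν.E μ)]

end Claimed.Agent.R286
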