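import Claimed.Agent.R286.Cav.Defs
import Claimed.Agent.R286.Cav.Sys
import Claimed.Agent.R286.Cav.TstApr
import Claimed.Agent.R286.Cav.RetMain
import Claimed.Agent.R286.Cav.PreLp
import Claimed.Agent.R286.Fd.ObsC
import Claimed.Agent.R286.Fd.TrB1

/-!
# Row 286 (S0533), PE Section 4 (cavity), Cav/Num : THE COST NUMBERS of `Y = cvySys m I.P` FROM `CavIn.Ok`, `CavIn.Star`      (owner helper56; prefix `cvn`)

CONSUMERS: `Cav/Asm` (56: assembly of `cav_closure_*`), `Cav/Eq25` (244: ledger evaluation G4 on the star table), `Cav/Ret*` (137: ledger evaluation at the scale `x`).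
Everything is NON-ASYMPTOTIC with EXPLICIT constants (`cvnCx`, `cvnCo`, `cvnSt`).      `n = m + 1`;   `Y.N = P.length`, `Y.ms = skMs 1 P`, `Y.b = skCumB P`, `Y.h = skCumH P`, `Y.S = cvS n P` hold by `rfl`.
## A. BRIDGES (no `CavIn`)
`cvn_R` (deleted = full overlap `- s s'/n`), `cvn_pair` (pair law of `Y.act` = `cvNu (obT2 j)`), `cvn_S`, `cvn_D2`, `cvn_site` (`ν[s_0 s_1] = S_j`), `cvn_cen` (`ν[R⁻ - S_j] = - S_j/n`), `cvn_le` (`L^{2k}` transfer), `cvn_mom`, `cvn_mQ`.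
## B. ELEMENTARY FACTS ON STEP PATHS
`cvn_dM`, `cvn_pm`, `cvn_ms_mono`, `cvn_lo_le`, `cvn_gap_sum`, `cvn_b_*`, `cvn_h_*`.
## C. NUMBERS AT THE SCALE `x` (from `CavIn.Ok`)      ## D. NUMBERS AT THE SCALE `W` (from `CavIn.Star`)      ## E. SUMS OF `D` (ledger), atoms of the pair table and of the star table.
-/

set_option autoImplicit false

namespace Claimed.Agent.R286

open Finset

/-! ## constants -/

/-- raw CENTRED deleted overlap at a cut of the low band: `‖R⁻_i - S_i‖_{2r} ≤ cvnCx C Cp r * x` -/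
noncomputable def cvnCx (C : ℝ) (Cp : ℕ → ℝ) (r : ℕ) : ℝ := 2 * |Cp r| * (C + 1) + 1

/-- a low factor `Q_j = h_j + b_j R⁻`, and `K_j`:  `≤ cvnCo C Cp r * x` (`j ≤ jX`),  `≤ cvnCo C Cp r * W` (`j ≤ jU`) -/
noncomputable def cvnCo (C : ℝ) (Cp : ℕ → ℝ) (r : ℕ) : ℝ := C ^ 2 + C * (|Cp r| * (C + 1) + 1)

/-- saving of a star factor: `‖R⁻_* - S_*‖_{2r} ≤ cvnSt Cp r * sv * W` -/
noncomputable def cvnSt (Cp : ℕ → ℝ) (r : ℕ) : ℝ := |Cp r| + 1

theorem cvn_eqns_cite : True := by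
  have := @cvnCx.eq_1
  have := @cvnCo.eq_1
  have := @cvnSt.eq_1
  trivial

/-! ## A. bridges -/

section bridge

variable (m : ℕ) (P : SkStp)

/-- A1. deleted overlap = full overlap minus the site -/
theorem cvn_R (c c' : (Bool × SkCfg m)) : liR c.2 c'.2 = skOv (cvyJoin c) (cvyJoin c') - ledSg c.1 * ledSg c'.1 / ((m : ℝ) + 1) := by
  have := lil_ov c c'
  have e : skOv (cvyJoin c) (cvyJoin c') = skOv (lilJoin c) (lilJoin c') := rfl
  rw [e, this]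
  ring

/-- A2. **pair bridge**: `cvy_act` + `tr_nu_of_ghTree` + `tr_nu_congr` -/
theorem cvn_pair (hP : SkAdm 1 P) (j : ℕ) (hj : j ≤ P.length) (f : SkCfg (m + 1) → SkCfg (m + 1) → ℝ) :
    (cvySys m P).act 2 (ledPair P.length j) (fun σ => f (cvyJoin (σ 0)) (cvyJoin (σ 1))) = cvNu (m + 1) P (obT2 j) fun σ => f (σ 0) (σ 1) := by
  have hτ : IsTr P.length 2 (ledPair P.length j) := ret_pair_isTr P.length j (by omega)
  unfold cvNu ghSp
  rw [← cvy_d_pair (m + 1) P hj f, ← cvy_act m P hP 2 _ hτ (fun σ => f (σ 0) (σ 1))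
    (fun σ σ' h => by show f (σ 0) (σ 1) = f (σ' 0) (σ' 1); rw [h 0 (by norm_num), h 1 (by norm_num)])]

/-- A3. `S_j` is the mean overlap of the pair (`ob_S_two`) -/
theorem cvn_S (hP : SkAdm 1 P) (j : ℕ) (hj : j ≤ P.length) : cvNu (m + 1) P (obT2 j) (fun σ => skOv (σ 0) (σ 1)) = cvS (m + 1) P j :=
  ob_S_two (Nat.succ_pos m) one_pos P hP 0 j hj

/-- the pair law of `Y` is a mean -/
theorem cvn_mean (hP : SkAdm 1 P) (j : ℕ) (hj : j ≤ P.length) : LedMean ((cvySys m P).act 2 (ledPair P.length j)) :=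
  (cvy_ok m P hP).mean (fun _ => 1) 1 2 (ledPair P.length j) ret_prof_one ret_one_mem (ret_pair_isTr P.length j (by omega))

/-- A4. `D_j²` is the variance of the overlap of the pair (`ob_B_two`) -/
theorem cvn_D2 (hP : SkAdm 1 P) (j : ℕ) (hj : j ≤ P.length) :
    cvNu (m + 1) P (obT2 j) (fun σ => (skOv (σ 0) (σ 1) - cvS (m + 1) P j) ^ 2) = cvD (m + 1) P j ^ 2 := by
  have hμ := cvn_mean m P hP j hj
  have h1 := (cvn_pair m P hP j hj fun x y => skOv x y).trans (cvn_S m P hP j hj)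
  have h2 : (cvySys m P).act 2 (ledPair P.length j) (fun σ => skOv (cvyJoin (σ 0)) (cvyJoin (σ 1)) ^ 2) = obB (m + 1) 1 P 0 j :=
    (cvn_pair m P hP j hj fun x y => skOv x y ^ 2).trans (ob_B_two (Nat.succ_pos m) one_pos P hP 0 j hj)
  rw [← cvn_pair m P hP j hj fun x y => (skOv x y - cvS (m + 1) P j) ^ 2]
  have e : (fun σ : ℕ → Bool × SkCfg m => (skOv (cvyJoin (σ 0)) (cvyJoin (σ 1)) - cvS (m + 1) P j) ^ 2)
      = fun σ => (skOv (cvyJoin (σ 0)) (cvyJoin (σ 1)) ^ 2 + (-2 * cvS (m + 1) P j) * skOv (cvyJoin (σ 0)) (cvyJoin (σ 1)))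
          + cvS (m + 1) P j ^ 2 := by
    funext σ; ring
  have hval : (cvySys m P).act 2 (ledPair P.length j) (fun σ => (skOv (cvyJoin (σ 0)) (cvyJoin (σ 1)) - cvS (m + 1) P j) ^ 2)
      = obD2 (m + 1) 1 P 0 j := by
    rw [e, hμ.add, hμ.add, hμ.smul, h1, h2, ret_m_const hμ]
    have hS' : obS (m + 1) 1 P 0 j = cvS (m + 1) P j := rfl
    unfold obD2
    rw [hS']
    ring
  have hnn : 0 ≤ obD2 (m + 1) 1 P 0 j := by
    rw [← hval]
    exact hμ.nonneg _ fun σ => sq_nonneg _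
  rw [hval]
  unfold cvD
  rw [Real.sq_sqrt hnn]

/-- A5. site symmetry for the pair: `ν[s_0 s_1] = S_j`  (`cvy_act`, `cvy_site_sym` with `G = 1`) -/
theorem cvn_site (hP : SkAdm 1 P) (j : ℕ) (hj : j ≤ P.length) :
    (cvySys m P).act 2 (ledPair P.length j) (fun σ => ledSg (σ 0).1 * ledSg (σ 1).1) = cvS (m + 1) P j := by
  have hτ : IsTr P.length 2 (ledPair P.length j) := ret_pair_isTr P.length j (by omega)
  have h := cvy_site_sym m P hP 2 _ hτ 0 1 (by norm_num) (by norm_num) (fun _ => 1) (fun _ _ _ => rfl)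
  simp only [mul_one] at h
  have e : (fun σ : ℕ → Bool × SkCfg m => ledSg (σ 0).1 * ledSg (σ 1).1)
      = fun σ => (fun x y : SkCfg (m + 1) => skSp x 0 * skSp y 0) (cvyJoin (σ 0)) (cvyJoin (σ 1)) := by
    funext σ
    rfl
  rw [e, cvn_pair m P hP j hj fun x y => skSp x 0 * skSp y 0, ← cvn_S m P hP j hj]
  unfold cvNu ghSp
  rw [← cvy_d_pair (m + 1) P hj fun x y => skSp x 0 * skSp y 0, ← cvy_d_pair (m + 1) P hj fun x y => skOv x y]
  exact h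

/-- A6. the mean of the centred DELETED overlap: `ν[R⁻ - S_j] = - S_j / n` -/
theorem cvn_cen (hP : SkAdm 1 P) (j : ℕ) (hj : j ≤ P.length) : (cvySys m P).cen j = - cvS (m + 1) P j / ((m : ℝ) + 1) := by
  have hμ := cvn_mean m P hP j hj
  have h1 := (cvn_pair m P hP j hj fun x y => skOv x y).trans (cvn_S m P hP j hj)
  have h2 := cvn_site m P hP j hj
  show (cvySys m P).act 2 (ledPair P.length j) (fun σ => liR (σ 0).2 (σ 1).2 - cvS (m + 1) P j) = _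
  have e : (fun σ : ℕ → Bool × SkCfg m => liR (σ 0).2 (σ 1).2 - cvS (m + 1) P j)
      = fun σ => (skOv (cvyJoin (σ 0)) (cvyJoin (σ 1)) + (-(1 / ((m : ℝ) + 1))) * (ledSg (σ 0).1 * ledSg (σ 1).1))
          + (- cvS (m + 1) P j) := by
    funext σ
    rw [cvn_R]
    ring
  rw [e, hμ.add, hμ.add, hμ.smul, h1, h2, ret_m_const hμ]
  ring

/-- the pair law of `Y` as a `CvExp` -/
noncomputable def cvnE (hP : SkAdm 1 P) (j : ℕ) (hj : j ≤ P.length) : CvExp (ℕ → (Bool × SkCfg m)) :=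
  ledExp ((cvy_ok m P hP).mean (fun _ => 1) 1 2 (ledPair P.length j) ret_prof_one ret_one_mem (ret_pair_isTr P.length j (by omega)))

/-- A7. `L^{2k}` transfer of a bound on a function of the pair -/
theorem cvn_le (hP : SkAdm 1 P) (j : ℕ) (hj : j ≤ P.length) (k : ℕ) (f : SkCfg (m + 1) → SkCfg (m + 1) → ℝ) (w : ℝ)
    (h : cvNu (m + 1) P (obT2 j) (fun σ => f (σ 0) (σ 1) ^ (2 * k)) ≤ w ^ (2 * k)) :
    CvLe (cvnE m P hP j hj) k (fun σ => f (cvyJoin (σ 0)) (cvyJoin (σ 1))) |w| := by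
  refine ⟨abs_nonneg w, ?_⟩
  show (cvySys m P).act 2 (ledPair P.length j) (fun σ => f (cvyJoin (σ 0)) (cvyJoin (σ 1)) ^ (2 * k)) ≤ _
  rw [cvn_pair m P hP j hj fun x y => f x y ^ (2 * k), pow_mul |w|, sq_abs, ← pow_mul]
  exact h

/-- A8. the deleted overlap in `L^{2k}` -/
theorem cvn_le_del (hP : SkAdm 1 P) (j : ℕ) (hj : j ≤ P.length) (k : ℕ) (s w : ℝ)
    (h : cvNu (m + 1) P (obT2 j) (fun σ => (skOv (σ 0) (σ 1) - s) ^ (2 * k)) ≤ w ^ (2 * k)) :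
    CvLe (cvnE m P hP j hj) k (fun σ => liR (σ 0).2 (σ 1).2 - s) (|w| + 1 / ((m : ℝ) + 1)) := by
  have hn : (0 : ℝ) < (m : ℝ) + 1 := by positivity
  have h1 := cvn_le m P hP j hj k (fun x y => skOv x y - s) w h
  have h2 : CvLe (cvnE m P hP j hj) k (fun σ => ledSg (σ 0).1 * ledSg (σ 1).1 / ((m : ℝ) + 1)) (1 / ((m : ℝ) + 1)) := by
    refine CvLe.of_bound k fun σ => ?_
    have a0 := li_sg_sq (σ 0).1
    have a1 := li_sg_sq (σ 1).1
    have hsq : (ledSg (σ 0).1 * ledSg (σ 1).1) ^ 2 = 1 := by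
      calc _ = (ledSg (σ 0).1 * ledSg (σ 0).1) * (ledSg (σ 1).1 * ledSg (σ 1).1) := by ring
        _ = 1 := by rw [a0, a1, one_mul]
    have habs : |ledSg (σ 0).1 * ledSg (σ 1).1| = 1 := by
      have := sq_abs (ledSg (σ 0).1 * ledSg (σ 1).1)
      rw [hsq] at this
      nlinarith [abs_nonneg (ledSg (σ 0).1 * ledSg (σ 1).1)]
    rw [abs_div, habs, abs_of_pos hn]
  have h3 := h1.sub h2
  have e : (fun σ : ℕ → Bool × SkCfg m => liR (σ 0).2 (σ 1).2 - s)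
      = fun σ => (skOv (cvyJoin (σ 0)) (cvyJoin (σ 1)) - s) - ledSg (σ 0).1 * ledSg (σ 1).1 / ((m : ℝ) + 1) := by
    funext σ
    rw [cvn_R]
    ring
  rw [e]
  exact h3

/-- A9. **centred moments of the deleted overlap** -/
theorem cvn_mom (hP : SkAdm 1 P) (j : ℕ) (hj : j ≤ P.length) (r : ℕ) (w : ℝ)
    (h : cvNu (m + 1) P (obT2 j) (fun σ => (skOv (σ 0) (σ 1) - cvS (m + 1) P j) ^ (2 * r)) ≤ w ^ (2 * r)) :
    (cvySys m P).mom r j ≤ (|w| + 1 / ((m : ℝ) + 1)) ^ (2 * r) :=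
  (cvn_le_del m P hP j hj r (cvS (m + 1) P j) w h).2

/-- A10. **moments of a low factor** `Q_j = h_j + b_j R⁻` -/
theorem cvn_mQ (hP : SkAdm 1 P) (j : ℕ) (hj : j ≤ P.length) (r : ℕ) (w : ℝ)
    (h : cvNu (m + 1) P (obT2 j) (fun σ => skOv (σ 0) (σ 1) ^ (2 * r)) ≤ w ^ (2 * r)) :
    (cvySys m P).mQ (2 * r) j ≤ (skCumH P j + skCumB P j * (|w| + 1 / ((m : ℝ) + 1))) ^ (2 * r) := by
  have hY := cvy_ok m P hP
  have hb : 0 ≤ skCumB P j := by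
    have := hY.b_mono (Nat.zero_le j)
    rw [hY.b_zero] at this
    exact this
  have hh : 0 ≤ skCumH P j := by
    have := hY.h_mono (Nat.zero_le j)
    rw [hY.h_zero] at this
    exact this
  have h0 : cvNu (m + 1) P (obT2 j) (fun σ => (skOv (σ 0) (σ 1) - 0) ^ (2 * r)) ≤ w ^ (2 * r) := by simpa using h
  have h1 := cvn_le_del m P hP j hj r 0 w h0
  have h2 := (CvLe.const (cvnE m P hP j hj) r (skCumH P j)).add (h1.smul (skCumB P j))
  rw [abs_of_nonneg hb, abs_of_nonneg hh] at h2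
  have h3 := h2.2
  simp only [sub_zero] at h3
  exact h3

/-- A11. `|S_j| ≤ ‖R_j‖_{2r}` -/
theorem cvn_S_le (hP : SkAdm 1 P) (j : ℕ) (hj : j ≤ P.length) (r : ℕ) (hr : 1 ≤ r) (w : ℝ)
    (h : cvNu (m + 1) P (obT2 j) (fun σ => skOv (σ 0) (σ 1) ^ (2 * r)) ≤ w ^ (2 * r)) : |cvS (m + 1) P j| ≤ |w| := by
  have h1 := (cvn_le m P hP j hj r (fun x y => skOv x y) w h).abs_mean_le hr
  have h2 : (cvnE m P hP j hj).E (fun σ => skOv (cvyJoin (σ 0)) (cvyJoin (σ 1))) = cvS (m + 1) P j :=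
    (cvn_pair m P hP j hj fun x y => skOv x y).trans (cvn_S m P hP j hj)
  rwa [h2] at h1

/-- A12. centring: `‖R_j - S_j‖_{2r} ≤ 2 ‖R_j‖_{2r}` -/
theorem cvn_cen_le (hP : SkAdm 1 P) (j : ℕ) (hj : j ≤ P.length) (r : ℕ) (hr : 1 ≤ r) (w : ℝ)
    (h : cvNu (m + 1) P (obT2 j) (fun σ => skOv (σ 0) (σ 1) ^ (2 * r)) ≤ w ^ (2 * r)) :
    cvNu (m + 1) P (obT2 j) (fun σ => (skOv (σ 0) (σ 1) - cvS (m + 1) P j) ^ (2 * r)) ≤ (2 * |w|) ^ (2 * r) := by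
  have h1 := cvn_le m P hP j hj r (fun x y => skOv x y) w h
  have h2 := (CvLe.const (cvnE m P hP j hj) r (cvS (m + 1) P j)).weaken (cvn_S_le m P hP j hj r hr w h)
  have h3 := (h1.sub h2).2
  rw [← cvn_pair m P hP j hj fun x y => (skOv x y - cvS (m + 1) P j) ^ (2 * r), two_mul |w|]
  exact h3

/-- A13. `0 ≤ S_j` -/
theorem cvn_S_nonneg (j : ℕ) : 0 ≤ cvS (m + 1) P j :=
  fd_path_nonneg (obu_base_ok (m + 1) one_pos) _ _ _ fun _ _ => Finset.sum_nonneg fun _ _ => sq_nonneg _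

end bridge

/-! ## B. elementary facts on step paths      (all from `cvy_ok` or by unfolding) -/

section path

variable (m : ℕ) (P : SkStp)

theorem cvn_dM (j : ℕ) : (cvySys m P).dM j = skGap 1 P j := rfl

theorem cvn_pm (j : ℕ) : trPm (cvySys m P).ms j = cvLo P j := rfl

theorem cvn_lo_succ (j : ℕ) : cvLo P (j + 1) = skMs 1 P j := by
  simp [cvLo]

theorem cvn_ms_top : skMs 1 P P.length = 1 := by
  simp [skMs]

theorem cvn_ms_nonneg (hP : SkAdm 1 P) (j : ℕ) : 0 ≤ skMs 1 P j := (cvy_ok 0 P hP).ms_ok.nonneg j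

theorem cvn_ms_mono (hP : SkAdm 1 P) {i j : ℕ} (hij : i ≤ j) (hj : j ≤ P.length) : skMs 1 P i ≤ skMs 1 P j :=
  (cvy_ok 0 P hP).ms_ok.mono i j hij hj

theorem cvn_lo_nonneg (hP : SkAdm 1 P) (j : ℕ) : 0 ≤ cvLo P j := by
  unfold cvLo
  split_ifs
  · exact le_rfl
  · exact cvn_ms_nonneg P hP _

theorem cvn_lo_le (hP : SkAdm 1 P) {i j : ℕ} (hij : i ≤ j) (hj : j ≤ P.length) : cvLo P i ≤ skMs 1 P j := by
  unfold cvLo
  split_ifs
  · exact cvn_ms_nonneg P hP _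
  · exact cvn_ms_mono P hP (by omega) hj

theorem cvn_gap_nonneg (hP : SkAdm 1 P) {j : ℕ} (hj : j ≤ P.length) : 0 ≤ skGap 1 P j := by
  have := cvn_lo_le P hP (le_refl j) hj
  unfold cvLo at this
  unfold skGap
  linarith

/-- telescoping -/
theorem cvn_gap_sum (J : ℕ) : ∑ j ∈ Finset.range (J + 1), skGap 1 P j = skMs 1 P J := by
  induction J with
  | zero => simp [skGap]
  | succ J ih => rw [Finset.sum_range_succ, ih]; simp [skGap]

theorem cvn_gap_sum_Ico {J K : ℕ} (hJK : J ≤ K) : ∑ j ∈ Finset.Ico (J + 1) (K + 1), skGap 1 P j = skMs 1 P K - skMs 1 P J := by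
  rw [Finset.sum_Ico_eq_sub _ (by omega), cvn_gap_sum, cvn_gap_sum]

theorem cvn_b_nonneg (hP : SkAdm 1 P) (j : ℕ) : 0 ≤ skCumB P j := ret_b_nonneg (cvy_ok 0 P hP) j

theorem cvn_h_nonneg (hP : SkAdm 1 P) (j : ℕ) : 0 ≤ skCumH P j := ret_h_nonneg (cvy_ok 0 P hP) j

theorem cvn_b_mono (hP : SkAdm 1 P) : Monotone (skCumB P) := (cvy_ok 0 P hP).b_mono

theorem cvn_h_mono (hP : SkAdm 1 P) : Monotone (skCumH P) := (cvy_ok 0 P hP).h_mono

theorem cvn_b_le (hP : SkAdm 1 P) (j : ℕ) : skCumB P j ≤ skTotB P := by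
  have h1 : skCumB P (max j P.length) = skTotB P := by
    unfold skCumB skTotB
    rw [List.take_of_length_le (le_max_right _ _)]
  rw [← h1]
  exact cvn_b_mono P hP (le_max_left _ _)

theorem cvn_h_le (hP : SkAdm 1 P) (j : ℕ) : skCumH P j ≤ skTotH P := by
  have h1 : skCumH P (max j P.length) = skTotH P := by
    unfold skCumH skTotH
    rw [List.take_of_length_le (le_max_right _ _)]
  rw [← h1]
  exact cvn_h_mono P hP (le_max_left _ _)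

end path

/-! ## monotonicity of the inputs in the moment order -/

theorem cvn_ok_mono {c C ρ : ℝ} {Cp : ℕ → ℝ} {kM kM' : ℕ} (hk : kM' ≤ kM) {I : CavIn} (h : I.Ok c C ρ Cp kM) : I.Ok c C ρ Cp kM' :=
  { h with
    raw := fun j k hj hk' => h.raw j k hj (hk'.trans hk) }

theorem cvn_star_mono {c C : ℝ} {Cp : ℕ → ℝ} {kM kM' : ℕ} (hk : kM' ≤ kM) {I : CavIn} (h : I.Star c C Cp kM) : I.Star c C Cp kM' :=
  { h with
    mom := fun k hk' => h.mom k (hk'.trans hk)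
    resU := fun j0 jv k h1 h2 h3 hk' => h.resU j0 jv k h1 h2 h3 (hk'.trans hk)
    prj := fun z V jv k h1 h2 hk' => h.prj z V jv k h1 h2 (hk'.trans hk)
    prjR := fun z V jv k h1 h2 hk' => h.prjR z V jv k h1 h2 (hk'.trans hk) }

/-! ## C. numbers at the scale `x` -/

section scaleX

variable {c C ρ : ℝ} {Cp : ℕ → ℝ} {kM : ℕ} (I : CavIn) (m : ℕ)

theorem cvn_C_pos (h : I.Ok c C ρ Cp kM) : 0 < C := lt_of_lt_of_le (lt_of_lt_of_le h.x0 h.xW) h.WC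

theorem cvn_W_pos (h : I.Ok c C ρ Cp kM) : 0 < I.W := lt_of_lt_of_le h.x0 h.xW

/-- even powers only see the absolute value -/
theorem cvn_pow_le {a b : ℝ} (r : ℕ) (h : |a| ≤ b) : a ^ (2 * r) ≤ b ^ (2 * r) := by
  rw [pow_mul, pow_mul, ← sq_abs a]
  exact pow_le_pow_left₀ (sq_nonneg _) (pow_le_pow_left₀ (abs_nonneg _) h 2) r

/-- lower mass of a cut `j ≤ J + 1` -/
theorem cvn_lo_le_succ {P : SkStp} (hP : SkAdm 1 P) {j J : ℕ} (hj : j ≤ J + 1) (hJ : J ≤ P.length) : cvLo P j ≤ skMs 1 P J := by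
  unfold cvLo
  split_ifs
  · exact cvn_ms_nonneg P hP _
  · exact cvn_ms_mono P hP (by omega) hJ

/-- raw moments at a cut whose lower mass is `≤ C y`, `x ≤ y` -/
theorem cvn_raw_gen (h : I.Ok c C ρ Cp kM) {j r : ℕ} {y : ℝ} (hjN : j ≤ I.N) (hr : r ≤ kM) (hlo : cvLo I.P j ≤ C * y) (hxy : I.x ≤ y) :
    cvNu I.n I.P (obT2 j) (fun σ => skOv (σ 0) (σ 1) ^ (2 * r)) ≤ (|Cp r| * (C + 1) * y) ^ (2 * r) := by
  refine (h.raw j r hjN hr).trans (cvn_pow_le r ?_)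
  have h0 := cvn_lo_nonneg I.P h.adm j
  rw [abs_mul, abs_of_nonneg (by linarith [h.x0] : 0 ≤ cvLo I.P j + I.x), mul_assoc]
  exact mul_le_mul_of_nonneg_left (by linarith) (abs_nonneg _)

/-- C1. `1/n ≤ sv² x⁶` -/
theorem cvn_inv_n (hn : I.n = m + 1) (h : I.Ok c C ρ Cp kM) : 1 / ((m : ℝ) + 1) ≤ I.sv ^ 2 * I.x ^ 6 := by
  have hm : (0 : ℝ) < (m : ℝ) + 1 := by positivity
  have h1 := h.nx
  rw [hn] at h1
  push_cast at h1
  rw [div_le_iff₀ hm]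
  linarith

/-- C2. raw moments below `U_x`: `lo_j ≤ ms_jX ≤ C x` for `j ≤ jX + 1` -/
theorem cvn_raw_x (h : I.Ok c C ρ Cp kM) {j r : ℕ} (hj : j ≤ I.jX + 1) (hr : r ≤ kM) :
    cvNu I.n I.P (obT2 j) (fun σ => skOv (σ 0) (σ 1) ^ (2 * r)) ≤ (|Cp r| * (C + 1) * I.x) ^ (2 * r) := by
  exact cvn_raw_gen I h (hj.trans h.jXN) hr ((cvn_lo_le_succ h.adm hj h.jXN.le).trans h.UxHi) le_rfl

/-- `1/n ≤ sv x` -/
theorem cvn_inv_n' (hn : I.n = m + 1) (h : I.Ok c C ρ Cp kM) (hx1 : I.x ≤ 1) (hs1 : I.sv ≤ 1) :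
    1 / ((m : ℝ) + 1) ≤ I.sv * I.x ∧ I.sv ^ 2 * I.x ^ 6 ≤ I.sv * I.x ∧ I.sv * I.x ≤ I.x := by
  have h1 := cvn_inv_n I m hn h
  have hx0 := h.x0
  have hs0 := h.sv0
  have h2 : I.x ^ 6 ≤ I.x := by
    calc I.x ^ 6 = I.x ^ 5 * I.x := by ring
      _ ≤ 1 * I.x := mul_le_mul_of_nonneg_right (pow_le_one₀ hx0.le hx1) hx0.le
      _ = I.x := one_mul _
  have h3 : I.sv ^ 2 ≤ I.sv := by nlinarith
  have h4 : I.sv ^ 2 * I.x ^ 6 ≤ I.sv * I.x := mul_le_mul h3 h2 (by positivity) hs0.le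
  exact ⟨h1.trans h4, h4, by nlinarith⟩

/-- centred deleted overlap from the raw moments at the scale `y` -/
theorem cvn_mom_gen (hn : I.n = m + 1) (h : I.Ok c C ρ Cp kM) {j r : ℕ} {y : ℝ} (hjN : j ≤ I.N) (hr1 : 1 ≤ r) (hy : 0 ≤ y)
    (hny : 1 / ((m : ℝ) + 1) ≤ y)
    (hraw : cvNu I.n I.P (obT2 j) (fun σ => skOv (σ 0) (σ 1) ^ (2 * r)) ≤ (|Cp r| * (C + 1) * y) ^ (2 * r)) :
    (cvySys m I.P).mom r j ≤ (cvnCx C Cp r * y) ^ (2 * r) := by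
  rw [hn] at hraw
  have hC := cvn_C_pos I h
  have hw : 0 ≤ |Cp r| * (C + 1) * y := by positivity
  have h1 := cvn_cen_le m I.P h.adm j hjN r hr1 _ hraw
  have h2 := cvn_mom m I.P h.adm j hjN r _ h1
  refine h2.trans (pow_le_pow_left₀ (by positivity) ?_ _)
  rw [abs_of_nonneg hw, abs_of_nonneg (by positivity : 0 ≤ 2 * (|Cp r| * (C + 1) * y))]
  unfold cvnCx
  linarith

/-- cost of a low factor from the raw moments at the scale `y` -/
theorem cvn_low_gen (hn : I.n = m + 1) (h : I.Ok c C ρ Cp kM) {j r : ℕ} {y : ℝ} (hjN : j ≤ I.N) (hr1 : 1 ≤ r) (hy : 0 ≤ y)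
    (hny : 1 / ((m : ℝ) + 1) ≤ y) (hh : skCumH I.P j ≤ C ^ 2 * y)
    (hraw : cvNu I.n I.P (obT2 j) (fun σ => skOv (σ 0) (σ 1) ^ (2 * r)) ≤ (|Cp r| * (C + 1) * y) ^ (2 * r)) :
    (cvySys m I.P).mQ (2 * r) j ≤ (cvnCo C Cp r * y) ^ (2 * r) ∧ (cvySys m I.P).K j ≤ cvnCo C Cp r * y := by
  rw [hn] at hraw
  have hC := cvn_C_pos I h
  have hw : 0 ≤ |Cp r| * (C + 1) * y := by positivity
  have hb0 := cvn_b_nonneg I.P h.adm j
  have hh0 := cvn_h_nonneg I.P h.adm j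
  have hbC : skCumB I.P j ≤ C := (cvn_b_le I.P h.adm j).trans h.totB
  have hm : (0 : ℝ) < 1 / ((m : ℝ) + 1) := by positivity
  constructor
  · refine (cvn_mQ m I.P h.adm j hjN r _ hraw).trans (pow_le_pow_left₀ (by positivity) ?_ _)
    rw [abs_of_nonneg hw]
    have h3 : skCumB I.P j * (|Cp r| * (C + 1) * y + 1 / ((m : ℝ) + 1)) ≤ C * (|Cp r| * (C + 1) * y + y) :=
      mul_le_mul hbC (by linarith) (by positivity) hC.le
    unfold cvnCo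
    nlinarith
  · have h4 := cvn_S_le m I.P h.adm j hjN r hr1 _ hraw
    rw [abs_of_nonneg hw, abs_of_nonneg (cvn_S_nonneg m I.P j)] at h4
    have h5 : skCumB I.P j * cvS (m + 1) I.P j ≤ C * (|Cp r| * (C + 1) * y) := mul_le_mul hbC h4 (cvn_S_nonneg m I.P j) hC.le
    show skCumH I.P j + skCumB I.P j * cvS (m + 1) I.P j ≤ _
    unfold cvnCo
    nlinarith

/-- the field clock at a cut `j ≤ J + 1`, `jX ≤ J < N` -/
theorem cvn_h_gen (h : I.Ok c C ρ Cp kM) {j J : ℕ} {y : ℝ} (hj : j ≤ J + 1) (hXJ : I.jX ≤ J) (hJN : J < I.N) (hJ : skMs 1 I.P J ≤ C * y) :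
    skCumH I.P j ≤ C ^ 2 * y := by
  have hC := cvn_C_pos I h
  calc skCumH I.P j ≤ skCumH I.P (J + 1) := cvn_h_mono I.P h.adm hj
    _ ≤ C * cvLo I.P (J + 1) := h.hHi (J + 1) (by omega) hJN
    _ = C * skMs 1 I.P J := by rw [cvn_lo_succ]
    _ ≤ C * (C * y) := mul_le_mul_of_nonneg_left hJ hC.le
    _ = C ^ 2 * y := by ring

/-- C3. **field `momI`**: raw centred deleted overlap at a cut below `U_x` -/
theorem cvn_momI (hn : I.n = m + 1) (h : I.Ok c C ρ Cp kM) (hx1 : I.x ≤ 1) (hs1 : I.sv ≤ 1) {j r : ℕ} (hj : j ≤ I.jX + 1) (hr1 : 1 ≤ r) (hr : r ≤ kM) :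
    (cvySys m I.P).mom r j ≤ (cvnCx C Cp r * I.x) ^ (2 * r) := by
  obtain ⟨a1, -, a3⟩ := cvn_inv_n' I m hn h hx1 hs1
  exact cvn_mom_gen I m hn h (hj.trans h.jXN) hr1 h.x0.le (a1.trans a3) (cvn_raw_x I h hj hr)

/-- C4. the field clock below `U_x`: `h_j ≤ h_{jX+1} ≤ C lo_{jX+1} = C ms_jX ≤ C² x` -/
theorem cvn_h_x (h : I.Ok c C ρ Cp kM) {j : ℕ} (hj : j ≤ I.jX + 1) : skCumH I.P j ≤ C ^ 2 * I.x := by
  exact cvn_h_gen I h hj le_rfl h.jXN h.UxHi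

/-- C5. **cost of a low factor below `U_x`** (hypothesis `low` of `led_main` with `kU = jX + 1`, hypothesis `lowV` with `kV ≤ jX + 1`) -/
theorem cvn_low_x (hn : I.n = m + 1) (h : I.Ok c C ρ Cp kM) (hx1 : I.x ≤ 1) (hs1 : I.sv ≤ 1) {j r : ℕ} (hj : j ≤ I.jX + 1) (hr1 : 1 ≤ r) (hr : r ≤ kM) :
    (cvySys m I.P).mQ (2 * r) j ≤ (cvnCo C Cp r * I.x) ^ (2 * r) ∧ (cvySys m I.P).K j ≤ cvnCo C Cp r * I.x := by
  obtain ⟨a1, -, a3⟩ := cvn_inv_n' I m hn h hx1 hs1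
  exact cvn_low_gen I m hn h (hj.trans h.jXN) hr1 h.x0.le (a1.trans a3) (cvn_h_x I h hj) (cvn_raw_x I h hj hr)

/-- C6. the deleted `D` -/
theorem cvn_D_le (hn : I.n = m + 1) (h : I.Ok c C ρ Cp kM) {j : ℕ} (hj : j ≤ I.N) : (cvySys m I.P).D j ≤ cvD I.n I.P j + I.sv ^ 2 * I.x ^ 6 := by
  have h1 := cvn_D2 m I.P h.adm j hj
  have hD0 : 0 ≤ cvD (m + 1) I.P j := Real.sqrt_nonneg _
  have h2 := cvn_mom m I.P h.adm j hj 1 (cvD (m + 1) I.P j) (by simpa using h1.le)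
  have h3 := cvn_inv_n I m hn h
  rw [hn]
  have e : (cvySys m I.P).D j = Real.sqrt ((cvySys m I.P).mom 1 j) := by
    unfold LedSys.D LedSys.mom
    simp
  rw [e]
  calc Real.sqrt ((cvySys m I.P).mom 1 j) ≤ Real.sqrt ((|cvD (m + 1) I.P j| + 1 / ((m : ℝ) + 1)) ^ 2) :=
        Real.sqrt_le_sqrt (by simpa using h2)
    _ = cvD (m + 1) I.P j + 1 / ((m : ℝ) + 1) := by rw [Real.sqrt_sq (by positivity), abs_of_nonneg hD0]
    _ ≤ _ := by linarith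

/-- C7. `D_j ≤ ‖R_j‖_2 ≤ |Cp 1| (C + 1) x` below `U_x` -/
theorem cvn_D_x (h : I.Ok c C ρ Cp kM) (hk : 1 ≤ kM) {j : ℕ} (hj : j ≤ I.jX + 1) : cvD I.n I.P j ≤ |Cp 1| * (C + 1) * I.x := by
  have hjN : j ≤ I.P.length := hj.trans h.jXN
  have hn0 : 0 < I.n := by have := h.n2; omega
  have hC := cvn_C_pos I h
  have hx0 := h.x0
  have h1 := cvn_raw_x I h hj hk
  have h2 := ob_B_two hn0 one_pos I.P h.adm 0 j hjN
  have h3 : obB I.n 1 I.P 0 j ≤ (|Cp 1| * (C + 1) * I.x) ^ 2 := by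
    rw [← h2]
    have h1' : cvNu I.n I.P (obT2 j) (fun σ => skOv (σ 0) (σ 1) ^ 2) ≤ (|Cp 1| * (C + 1) * I.x) ^ 2 := by simpa using h1
    exact h1'
  unfold cvD obD2
  refine Real.sqrt_le_iff.2 ⟨by positivity, ?_⟩
  nlinarith [sq_nonneg (obS I.n 1 I.P 0 j)]

/-- the integral of the deleted `D` over the cuts `≤ J` -/
theorem cvn_int_gen (hn : I.n = m + 1) (h : I.Ok c C ρ Cp kM) {J : ℕ} (hJ : J ≤ I.N) :
    (cvySys m I.P).intM 0 (J + 1) (cvySys m I.P).D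
      ≤ ∑ j ∈ Finset.range (J + 1), skGap 1 I.P j * cvD I.n I.P j + skMs 1 I.P J * (I.sv ^ 2 * I.x ^ 6) := by
  unfold LedSys.intM
  rw [← Finset.range_eq_Ico, ← cvn_gap_sum I.P J, Finset.sum_mul, ← Finset.sum_add_distrib]
  refine Finset.sum_le_sum fun j hj => ?_
  have hjN : j ≤ I.N := by
    have := Finset.mem_range.1 hj
    omega
  rw [← mul_add]
  exact mul_le_mul_of_nonneg_left (cvn_D_le I m hn h hjN) (cvn_gap_nonneg I.P h.adm hjN)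

/-- the integral of the square of the deleted `D` over the cuts `> J` -/
theorem cvn_sq_gen (hn : I.n = m + 1) (h : I.Ok c C ρ Cp kM) {J : ℕ} {A : ℝ} (hJ : J ≤ I.N)
    (hA : ∑ j ∈ Finset.Ioc J I.N, skGap 1 I.P j * cvD I.n I.P j ^ 2 ≤ skMs 1 I.P I.N * A ^ 2) (hδ : I.sv ^ 2 * I.x ^ 6 ≤ A) :
    (cvySys m I.P).intM (J + 1) (I.N + 1) (fun j => (cvySys m I.P).D j ^ 2) ≤ (2 * A) ^ 2 := by
  have hδ0 : 0 ≤ I.sv ^ 2 * I.x ^ 6 := by
    have := h.x0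
    positivity
  have e1 : skMs 1 I.P I.N = 1 := cvn_ms_top I.P
  rw [e1, one_mul] at hA
  have e2 := cvn_gap_sum_Ico I.P hJ
  have e2' : ∑ j ∈ Finset.Ico (J + 1) (I.N + 1), skGap 1 I.P j ≤ 1 := by
    have e3 : ∑ j ∈ Finset.Ico (J + 1) (I.N + 1), skGap 1 I.P j = skMs 1 I.P I.N - skMs 1 I.P J := e2
    rw [e3, e1]
    linarith [cvn_ms_nonneg I.P h.adm J]
  have e4 : Finset.Ico (J + 1) (I.N + 1) = Finset.Ioc J I.N := by
    ext j
    simp only [Finset.mem_Ico, Finset.mem_Ioc]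
    omega
  unfold LedSys.intM
  calc ∑ j ∈ Finset.Ico (J + 1) (I.N + 1), (cvySys m I.P).dM j * (cvySys m I.P).D j ^ 2
      ≤ ∑ j ∈ Finset.Ico (J + 1) (I.N + 1), (2 * (skGap 1 I.P j * cvD I.n I.P j ^ 2) + skGap 1 I.P j * (2 * (I.sv ^ 2 * I.x ^ 6) ^ 2)) := by
        refine Finset.sum_le_sum fun j hj => ?_
        have hjN : j ≤ I.N := by
          have := (Finset.mem_Ico.1 hj).2
          omega
        have h1 := cvn_D_le I m hn h hjN
        have h0 : 0 ≤ (cvySys m I.P).D j := Real.sqrt_nonneg _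
        have hg := cvn_gap_nonneg I.P h.adm hjN
        have h2 : (cvySys m I.P).D j ^ 2 ≤ 2 * cvD I.n I.P j ^ 2 + 2 * (I.sv ^ 2 * I.x ^ 6) ^ 2 := by
          have := pow_le_pow_left₀ h0 h1 2
          nlinarith [sq_nonneg (cvD I.n I.P j - I.sv ^ 2 * I.x ^ 6)]
        have h3 := mul_le_mul_of_nonneg_left h2 hg
        show skGap 1 I.P j * (cvySys m I.P).D j ^ 2 ≤ _
        linarith
    _ = 2 * ∑ j ∈ Finset.Ioc J I.N, skGap 1 I.P j * cvD I.n I.P j ^ 2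
          + (∑ j ∈ Finset.Ico (J + 1) (I.N + 1), skGap 1 I.P j) * (2 * (I.sv ^ 2 * I.x ^ 6) ^ 2) := by
        rw [Finset.sum_add_distrib, ← Finset.mul_sum, Finset.sum_mul, e4]
    _ ≤ 2 * A ^ 2 + 1 * (2 * A ^ 2) := by
        have h5 : (I.sv ^ 2 * I.x ^ 6) ^ 2 ≤ A ^ 2 := pow_le_pow_left₀ hδ0 hδ 2
        have h6 : (∑ j ∈ Finset.Ico (J + 1) (I.N + 1), skGap 1 I.P j) * (2 * (I.sv ^ 2 * I.x ^ 6) ^ 2) ≤ 1 * (2 * A ^ 2) :=
          mul_le_mul e2' (by linarith) (by positivity) zero_le_one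
        linarith
    _ = (2 * A) ^ 2 := by ring

/-- C8. (19) up to `U_x` for the deleted `D` -/
theorem cvn_int_lowX (hn : I.n = m + 1) (h : I.Ok c C ρ Cp kM) :
    (cvySys m I.P).intM 0 (I.jX + 1) (cvySys m I.P).D ≤ I.et * I.x ^ 2 + C * I.x * (I.sv ^ 2 * I.x ^ 6) := by
  have h1 := cvn_int_gen I m hn h h.jXN.le
  have h2 : skMs 1 I.P I.jX * (I.sv ^ 2 * I.x ^ 6) ≤ C * I.x * (I.sv ^ 2 * I.x ^ 6) :=
    mul_le_mul_of_nonneg_right h.UxHi (by have := h.x0; positivity)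
  linarith [h.lowX]

/-- C9. (18) above `U_x` for the deleted `D` -/
theorem cvn_sq_highX (hn : I.n = m + 1) (h : I.Ok c C ρ Cp kM) (hx1 : I.x ≤ 1) (hs1 : I.sv ≤ 1) :
    (cvySys m I.P).intM (I.jX + 1) (I.N + 1) (fun j => (cvySys m I.P).D j ^ 2) ≤ (2 * (I.sv * I.x)) ^ 2 := by
  obtain ⟨-, a2, -⟩ := cvn_inv_n' I m hn h hx1 hs1
  exact cvn_sq_gen I m hn h h.jXN.le (h.highX I.N h.jXN le_rfl) a2

/-- C10. bounds of the clocks -/
theorem cvn_bh_le (h : I.Ok c C ρ Cp kM) : (∀ r, (cvySys m I.P).b r ≤ C) ∧ ∀ r, (cvySys m I.P).h r ≤ C :=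
  ⟨fun r => (cvn_b_le I.P h.adm r).trans h.totB, fun r => (cvn_h_le I.P h.adm r).trans h.totH⟩

end scaleX

/-! ## D. numbers at the scale `W` -/

section scaleW

variable {c C ρ : ℝ} {Cp : ℕ → ℝ} {kM : ℕ} (I : CavIn) (m : ℕ)

/-- D1. raw moments below `U` -/
theorem cvn_raw_W (h : I.Ok c C ρ Cp kM) (hS : I.Star c C Cp kM) {j r : ℕ} (hj : j ≤ I.jU + 1) (hr : r ≤ kM) :
    cvNu I.n I.P (obT2 j) (fun σ => skOv (σ 0) (σ 1) ^ (2 * r)) ≤ (|Cp r| * (C + 1) * I.W) ^ (2 * r) := by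
  exact cvn_raw_gen I h (hj.trans hS.jUN) hr ((cvn_lo_le_succ h.adm hj hS.jUN.le).trans hS.UHi) h.xW

/-- D2. **field `momS`** ((17)) -/
theorem cvn_momS (hn : I.n = m + 1) (h : I.Ok c C ρ Cp kM) (hS : I.Star c C Cp kM) (hx1 : I.x ≤ 1) (hs1 : I.sv ≤ 1) {r : ℕ} (hr : r ≤ kM) :
    (cvySys m I.P).mom r I.js ≤ (cvnSt Cp r * I.sv * I.W) ^ (2 * r) := by
  obtain ⟨a1, -, -⟩ := cvn_inv_n' I m hn h hx1 hs1
  have hjs : I.js ≤ I.N := hS.jsU.trans hS.jUN.le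
  have h1 := hS.mom r hr
  rw [hn] at h1
  have h2 := cvn_mom m I.P h.adm I.js hjs r _ h1
  have hs0 := h.sv0
  have hW0 := cvn_W_pos I h
  refine h2.trans (pow_le_pow_left₀ (by positivity) ?_ _)
  rw [abs_mul, abs_mul, abs_of_pos hs0, abs_of_pos hW0]
  have h3 : I.sv * I.x ≤ I.sv * I.W := mul_le_mul_of_nonneg_left h.xW hs0.le
  unfold cvnSt
  nlinarith

/-- D3. the field clock below `U` -/
theorem cvn_h_W (h : I.Ok c C ρ Cp kM) (hS : I.Star c C Cp kM) {j : ℕ} (hj : j ≤ I.jU + 1) : skCumH I.P j ≤ C ^ 2 * I.W := by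
  exact cvn_h_gen I h hj hS.jXU hS.jUN hS.UHi

/-- D4. **cost of a low factor below `U`** (hypothesis `low` of `led_main` with `kU = jU + 1`) -/
theorem cvn_low_W (hn : I.n = m + 1) (h : I.Ok c C ρ Cp kM) (hS : I.Star c C Cp kM) (hx1 : I.x ≤ 1) (hs1 : I.sv ≤ 1) {j r : ℕ} (hj : j ≤ I.jU + 1)
    (hr1 : 1 ≤ r) (hr : r ≤ kM) :
    (cvySys m I.P).mQ (2 * r) j ≤ (cvnCo C Cp r * I.W) ^ (2 * r) ∧ (cvySys m I.P).K j ≤ cvnCo C Cp r * I.W := by
  obtain ⟨a1, -, a3⟩ := cvn_inv_n' I m hn h hx1 hs1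
  exact cvn_low_gen I m hn h (hj.trans hS.jUN) hr1 (cvn_W_pos I h).le ((a1.trans a3).trans h.xW) (cvn_h_W I h hS hj) (cvn_raw_W I h hS hj hr)

/-- `sv² x⁶ ≤ sv x²/W` -/
theorem cvn_del_W (h : I.Ok c C ρ Cp kM) (hW1 : I.W ≤ 1) (hs1 : I.sv ≤ 1) : I.sv ^ 2 * I.x ^ 6 ≤ I.sv * I.x ^ 2 / I.W := by
  have hx0 := h.x0
  have hs0 := h.sv0
  have hW0 := cvn_W_pos I h
  have hx1 : I.x ≤ 1 := h.xW.trans hW1
  rw [le_div_iff₀ hW0]
  have h1 : I.x ^ 4 ≤ 1 := pow_le_one₀ hx0.le hx1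
  have h2 : I.sv * I.x ^ 4 * I.W ≤ 1 := by
    calc I.sv * I.x ^ 4 * I.W ≤ 1 * 1 * 1 := by gcongr
      _ = 1 := by norm_num
  calc I.sv ^ 2 * I.x ^ 6 * I.W = (I.sv * I.x ^ 2) * (I.sv * I.x ^ 4 * I.W) := by ring
    _ ≤ (I.sv * I.x ^ 2) * 1 := mul_le_mul_of_nonneg_left h2 (by positivity)
    _ = I.sv * I.x ^ 2 := mul_one _

/-- D5. **field `Dst`** -/
theorem cvn_Dst (hn : I.n = m + 1) (h : I.Ok c C ρ Cp kM) (hS : I.Star c C Cp kM) (hW1 : I.W ≤ 1) (hs1 : I.sv ≤ 1) :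
    (cvySys m I.P).D I.js ≤ 2 * I.sv * (I.x ^ 2 / I.W) := by
  have hjs : I.js ≤ I.N := hS.jsU.trans hS.jUN.le
  have h1 := cvn_D_le I m hn h hjs
  have h2 := cvn_del_W I h hW1 hs1
  have h3 := hS.Dst
  have e : 2 * I.sv * (I.x ^ 2 / I.W) = I.sv * I.x ^ 2 / I.W + I.sv * I.x ^ 2 / I.W := by ring
  rw [e]
  linarith

/-- D6. (19) up to `U` for the deleted `D` -/
theorem cvn_int_lowU (hn : I.n = m + 1) (h : I.Ok c C ρ Cp kM) (hS : I.Star c C Cp kM) :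
    (cvySys m I.P).intM 0 (I.jU + 1) (cvySys m I.P).D ≤ I.et * I.x ^ 2 + C * I.W * (I.sv ^ 2 * I.x ^ 6) := by
  have h1 := cvn_int_gen I m hn h hS.jUN.le
  have h2 : skMs 1 I.P I.jU * (I.sv ^ 2 * I.x ^ 6) ≤ C * I.W * (I.sv ^ 2 * I.x ^ 6) :=
    mul_le_mul_of_nonneg_right hS.UHi (by have := h.x0; positivity)
  linarith [hS.lowU]

/-- D7. (18) above `U` for the deleted `D` -/
theorem cvn_sq_highU (hn : I.n = m + 1) (h : I.Ok c C ρ Cp kM) (hS : I.Star c C Cp kM) (hW1 : I.W ≤ 1) (hs1 : I.sv ≤ 1) :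
    (cvySys m I.P).intM (I.jU + 1) (I.N + 1) (fun j => (cvySys m I.P).D j ^ 2) ≤ (2 * (I.sv * I.x ^ 2 / I.W)) ^ 2 := by
  exact cvn_sq_gen I m hn h hS.jUN.le (hS.highU I.N hS.jUN le_rfl) (cvn_del_W I h hW1 hs1)

/-- D8. **field `hKS`**: `K_* - T S_* = h_* + (b_* - T) S_*` -/
theorem cvn_KS (hn : I.n = m + 1) (h : I.Ok c C ρ Cp kM) (hS : I.Star c C Cp kM) (hk : 1 ≤ kM) :
    |(cvySys m I.P).K I.js - I.T * (cvySys m I.P).S I.js| ≤ (C + C * (|Cp 1| * (C + 1))) * I.W ^ 3 := by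
  have hjs : I.js ≤ I.N := hS.jsU.trans hS.jUN.le
  have hC := cvn_C_pos I h
  have hW0 := cvn_W_pos I h
  have hraw := cvn_raw_W I h hS (Nat.le_succ_of_le hS.jsU) hk
  rw [hn] at hraw
  have hw : 0 ≤ |Cp 1| * (C + 1) * I.W := by positivity
  have h4 := cvn_S_le m I.P h.adm I.js hjs 1 le_rfl _ hraw
  rw [abs_of_nonneg hw] at h4
  have hh0 := cvn_h_nonneg I.P h.adm I.js
  show |skCumH I.P I.js + skCumB I.P I.js * cvS (m + 1) I.P I.js - I.T * cvS (m + 1) I.P I.js| ≤ _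
  have e : skCumH I.P I.js + skCumB I.P I.js * cvS (m + 1) I.P I.js - I.T * cvS (m + 1) I.P I.js
      = skCumH I.P I.js + (skCumB I.P I.js - I.T) * cvS (m + 1) I.P I.js := by ring
  rw [e]
  have h5 : |(skCumB I.P I.js - I.T) * cvS (m + 1) I.P I.js| ≤ C * I.W ^ 2 * (|Cp 1| * (C + 1) * I.W) := by
    rw [abs_mul]
    exact mul_le_mul hS.bst h4 (abs_nonneg _) (by positivity)
  calc |skCumH I.P I.js + (skCumB I.P I.js - I.T) * cvS (m + 1) I.P I.js|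
      ≤ |skCumH I.P I.js| + |(skCumB I.P I.js - I.T) * cvS (m + 1) I.P I.js| := abs_add_le _ _
    _ ≤ C * I.W ^ 3 + C * I.W ^ 2 * (|Cp 1| * (C + 1) * I.W) := by
        rw [abs_of_nonneg hh0]
        exact add_le_add hS.hst h5
    _ = _ := by ring

/-- D9. `K_* ≥ b_* S_* ≥ (T - C W²) c W ≥ c W / 2` -/
theorem cvn_K_lo (hn : I.n = m + 1) (hc : 0 < c) (h : I.Ok c C ρ Cp kM) (hS : I.Star c C Cp kM) (hW : C * I.W ^ 2 ≤ 1 / 2) :
    c / 2 * I.W ≤ (cvySys m I.P).K I.js := by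
  have hW0 := cvn_W_pos I h
  have hh0 := cvn_h_nonneg I.P h.adm I.js
  have h1 := hS.SLo
  rw [hn] at h1
  have h2 := (abs_le.1 hS.bst).1
  have h3 : (1 : ℝ) / 2 ≤ skCumB I.P I.js := by linarith [hS.T1]
  show c / 2 * I.W ≤ skCumH I.P I.js + skCumB I.P I.js * cvS (m + 1) I.P I.js
  have h4 : 1 / 2 * (c * I.W) ≤ skCumB I.P I.js * cvS (m + 1) I.P I.js := mul_le_mul h3 h1 (by positivity) (by linarith)
  linarith

/-- D10. order of the cuts -/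
theorem cvn_cuts (h : I.Ok c C ρ Cp kM) (hS : I.Star c C Cp kM) : I.jB < I.js ∧ I.js < I.jU + 1 ∧ I.jU + 1 ≤ (cvySys m I.P).N ∧ I.jX + 1 ≤ I.jU + 1 :=
  ⟨hS.jBs, Nat.lt_succ_of_le hS.jsU, hS.jUN, Nat.succ_le_succ hS.jXU⟩

end scaleW

/-! ## E. sums, atoms, powers -/

/-- E1. Jensen / Hoelder for a sub-probability weight: `∑ g d^p ≤ (∑ g d²)^{p/2}`, `0 < p ≤ 2` -/
theorem cvn_pow_sum (s : Finset ℕ) (g d : ℕ → ℝ) (hg : ∀ j ∈ s, 0 ≤ g j) (hd : ∀ j ∈ s, 0 ≤ d j) (hs : ∑ j ∈ s, g j ≤ 1) {p : ℝ} (hp0 : 0 < p) (hp2 : p ≤ 2) :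
    ∑ j ∈ s, g j * d j ^ p ≤ (∑ j ∈ s, g j * d j ^ 2) ^ (p / 2) := by
  obtain ⟨G, hG⟩ : ∃ G, G = ∑ j ∈ s, g j := ⟨_, rfl⟩
  have hG0 : 0 ≤ G := hG ▸ Finset.sum_nonneg hg
  have hR0 : 0 ≤ ∑ j ∈ s, g j * d j ^ 2 := Finset.sum_nonneg fun j hj => mul_nonneg (hg j hj) (sq_nonneg _)
  rcases hG0.eq_or_lt with h0 | h0
  · have hz : ∀ j ∈ s, g j = 0 := (Finset.sum_eq_zero_iff_of_nonneg hg).1 (by rw [← hG, ← h0])
    have : ∑ j ∈ s, g j * d j ^ p = 0 := Finset.sum_eq_zero fun j hj => by rw [hz j hj, zero_mul]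
    rw [this]
    exact Real.rpow_nonneg hR0 _
  · have hq : 1 ≤ 2 / p := by rw [le_div_iff₀ hp0]; linarith
    have key := Real.arith_mean_le_rpow_mean s (fun j => g j / G) (fun j => d j ^ p)
      (fun j hj => div_nonneg (hg j hj) hG0) (by rw [← Finset.sum_div, ← hG, div_self h0.ne'])
      (fun j hj => Real.rpow_nonneg (hd j hj) _) hq
    have e1 : ∑ j ∈ s, g j / G * d j ^ p = (∑ j ∈ s, g j * d j ^ p) / G := by
      rw [Finset.sum_div]; exact Finset.sum_congr rfl fun j _ => by ring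
    have e2 : ∑ j ∈ s, g j / G * (d j ^ p) ^ (2 / p) = (∑ j ∈ s, g j * d j ^ 2) / G := by
      rw [Finset.sum_div]
      refine Finset.sum_congr rfl fun j hj => ?_
      rw [← Real.rpow_mul (hd j hj), mul_div_cancel₀ _ hp0.ne', Real.rpow_two]
      ring
    have e3 : 1 / (2 / p) = p / 2 := by field_simp
    rw [e1, e2, e3, div_le_iff₀ h0, Real.div_rpow hR0 hG0] at key
    refine key.trans ?_
    have hGp : 0 < G ^ (p / 2) := Real.rpow_pos_of_pos h0 _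
    rw [div_mul_eq_mul_div, div_le_iff₀ hGp]
    refine mul_le_mul_of_nonneg_left ?_ (Real.rpow_nonneg hR0 _)
    calc G = G ^ (1:ℝ) := (Real.rpow_one G).symm
      _ ≤ G ^ (p / 2) := Real.rpow_le_rpow_of_exponent_ge h0 (hG ▸ hs) (by linarith)

section atoms

variable {Ω : Type} (Y : LedSys Ω)

/-- E2. the forks of the pair table -/
theorem cvn_forks_pair (N j : ℕ) : ledForks 2 (ledPair N j) = {N + 1, j} := by
  ext k
  simp only [ledForks, Finset.mem_image, Finset.mem_product, Finset.mem_range, Prod.exists, Finset.mem_insert, Finset.mem_singleton, ledPair]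
  constructor
  · rintro ⟨a, b, -, rfl⟩
    split_ifs
    · exact Or.inl rfl
    · exact Or.inr rfl
  · rintro (rfl | rfl)
    · exact ⟨0, 0, ⟨by norm_num, by norm_num⟩, by simp⟩
    · exact ⟨0, 1, ⟨by norm_num, by norm_num⟩, by simp⟩

/-- E3. the forks of the star table -/
theorem cvn_forks_star (N kI kS q : ℕ) : ledForks q (cvtStar N kI kS) ⊆ {N + 1, kI, kS} := by
  intro k hk
  simp only [ledForks, Finset.mem_image, Finset.mem_product, Finset.mem_range, Prod.exists, cvtStar] at hk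
  obtain ⟨a, b, -, rfl⟩ := hk
  simp only [Finset.mem_insert, Finset.mem_singleton]
  split_ifs
  · exact Or.inl rfl
  · exact Or.inr (Or.inl rfl)
  · exact Or.inr (Or.inr rfl)

/-- E4. atoms of the star table, `f ≥ 0` -/
theorem cvn_at_star (N kI kS q k0 k1 : ℕ) (f : ℕ → ℝ) (hf : ∀ j, 0 ≤ f j) (hk : k1 ≤ N + 1) :
    ledAt q (cvtStar N kI kS) k0 k1 f ≤ (if k0 ≤ kI ∧ kI < k1 then f kI else 0) + if k0 ≤ kS ∧ kS < k1 then f kS else 0 := by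
  unfold ledAt
  have hsub : (ledForks q (cvtStar N kI kS)).filter (fun j => k0 ≤ j ∧ j < k1)
      ⊆ (({kI} : Finset ℕ).filter fun j => k0 ≤ j ∧ j < k1) ∪ (({kS} : Finset ℕ).filter fun j => k0 ≤ j ∧ j < k1) := by
    intro j hj
    obtain ⟨h1, h2⟩ := Finset.mem_filter.1 hj
    have h3 := cvn_forks_star N kI kS q h1
    simp only [Finset.mem_insert, Finset.mem_singleton] at h3
    rcases h3 with rfl | rfl | rfl
    · omega
    · exact Finset.mem_union_left _ (Finset.mem_filter.2 ⟨Finset.mem_singleton_self _, h2⟩)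
    · exact Finset.mem_union_right _ (Finset.mem_filter.2 ⟨Finset.mem_singleton_self _, h2⟩)
  refine (Finset.sum_le_sum_of_subset_of_nonneg hsub fun j _ _ => hf j).trans ?_
  have hU := Finset.sum_union_inter (s₁ := ({kI} : Finset ℕ).filter fun j => k0 ≤ j ∧ j < k1)
    (s₂ := ({kS} : Finset ℕ).filter fun j => k0 ≤ j ∧ j < k1) (f := f)
  have hI0 : 0 ≤ ∑ j ∈ (({kI} : Finset ℕ).filter fun j => k0 ≤ j ∧ j < k1) ∩ (({kS} : Finset ℕ).filter fun j => k0 ≤ j ∧ j < k1), f j :=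
    Finset.sum_nonneg fun j _ => hf j
  rw [Finset.sum_filter, Finset.sum_filter, Finset.sum_singleton, Finset.sum_singleton] at hU
  linarith

/-- E5. atoms of the pair table -/
theorem cvn_at_pair (N j k0 k1 : ℕ) (f : ℕ → ℝ) (hk : k1 ≤ N + 1) : ledAt 2 (ledPair N j) k0 k1 f = if k0 ≤ j ∧ j < k1 then f j else 0 := by
  unfold ledAt
  rw [cvn_forks_pair]
  have e : ({N + 1, j} : Finset ℕ).filter (fun i => k0 ≤ i ∧ i < k1) = ({j} : Finset ℕ).filter fun i => k0 ≤ i ∧ i < k1 := by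
    ext i
    simp only [Finset.mem_filter, Finset.mem_insert, Finset.mem_singleton]
    constructor
    · rintro ⟨rfl | rfl, h⟩
      · omega
      · exact ⟨rfl, h⟩
    · rintro ⟨rfl, h⟩
      exact ⟨Or.inr rfl, h⟩
  rw [e, Finset.sum_filter, Finset.sum_singleton]

/-- `k` copies of a monomial -/
def cvnRep (k : ℕ) (m : CvtMon) : CvtMon := (List.replicate k m).flatten

theorem cvn_rep_succ (k : ℕ) (m : CvtMon) : cvnRep (k + 1) m = m ++ cvnRep k m := by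
  simp [cvnRep, List.replicate_succ]

theorem cvn_rep_top (k : ℕ) (m : CvtMon) : cvtTopM (cvnRep k m) ≤ cvtTopM m := by
  induction k with
  | zero =>
    have : cvtTopM (cvnRep 0 m) = 1 := by simp [cvnRep, cvtTopM]
    rw [this]
    cases m with
    | nil => simp [cvtTopM]
    | cons e m => simp only [cvtTopM]; omega
  | succ k ih => rw [cvn_rep_succ, cvtTopM_append]; exact max_le le_rfl ih

theorem cvn_rep_len (k : ℕ) (m : CvtMon) : (cvnRep k m).length = k * m.length := by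
  induction k with
  | zero => simp [cvnRep]
  | succ k ih => rw [cvn_rep_succ, List.length_append, ih]; ring

theorem cvn_rep_mem {k : ℕ} {m : CvtMon} {e : ℕ × ℕ} (h : e ∈ cvnRep k m) : e ∈ m := by
  induction k with
  | zero => simp [cvnRep] at h
  | succ k ih =>
    rw [cvn_rep_succ] at h
    rcases List.mem_append.1 h with h | h
    · exact h
    · exact ih h

theorem cvn_rep_msz (w x : ℝ) (k : ℕ) (m : CvtMon) : cvtMsz w x (cvnRep k m) = cvtMsz w x m ^ k := by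
  induction k with
  | zero => simp [cvnRep, cvtMsz]
  | succ k ih => rw [cvn_rep_succ, cvtMsz_append, ih, pow_succ]; ring

theorem cvn_rep_ev (kI kS k : ℕ) (m : CvtMon) (ω : ℕ → Ω) : Y.mEv kI kS (cvnRep k m) ω = Y.mEv kI kS m ω ^ k := by
  induction k with
  | zero => simp [cvnRep, LedSys.mEv]
  | succ k ih => rw [cvn_rep_succ, led_a_mEv_append, ih, pow_succ]; ring

/-- E6. **moment of order `2r` of a monomial** on every table which extends the star table (ask (b) of 244): `led_a_mon` for `2r` copies of `m`; Hoelder order `r'`, `2 r |m| + 1 ≤ 2 r'` -/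
theorem cvn_mon_pow (hY : Y.Ok) {kI kS : ℕ} (r r' : ℕ) {w x : ℝ} (hw : 0 ≤ w) (hx : 0 ≤ x) (hS : Y.mom r' kS ≤ w ^ (2 * r')) (hI : Y.mom r' kI ≤ x ^ (2 * r'))
    {q : ℕ} {τ : ℕ → ℕ → ℕ} (hτ : IsTr Y.N q τ) (m : CvtMon) (hq : cvtTopM m ≤ q) (hloop : ∀ e ∈ m, e.1 ≠ e.2) (hlen : 2 * r * m.length + 1 ≤ 2 * r')
    (hst : ∀ y z, y < cvtTopM m → z < cvtTopM m → τ y z = cvtStar Y.N kI kS y z) :
    Y.act q τ (fun σ => Y.mEv kI kS m (fun i => (σ i).2) ^ (2 * r)) ≤ cvtMsz w x m ^ (2 * r) := by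
  have hmean := hY.mean (fun _ => 1) 1 q τ led_t_prof1 led_t_one_mem hτ
  have htop := cvn_rep_top (2 * r) m
  have h := led_a_mon Y hY r' hw hx hS hI hτ (cvnRep (2 * r) m) (htop.trans hq) (fun e he => hloop e (cvn_rep_mem he))
    (by rw [cvn_rep_len]; exact hlen) (fun y z hy hz => hst y z (lt_of_lt_of_le hy htop) (lt_of_lt_of_le hz htop))
    (fun _ => 1) zero_le_one (by simp only [one_pow]; exact hmean.one.le)
  rw [cvn_rep_msz, mul_one] at h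
  have e1 : (fun σ : ℕ → Bool × Ω => Y.mEv kI kS (cvnRep (2 * r) m) (fun i => (σ i).2) * 1)
      = fun σ : ℕ → Bool × Ω => Y.mEv kI kS m (fun i => (σ i).2) ^ (2 * r) := by
    funext σ
    rw [cvn_rep_ev, mul_one]
  rw [e1] at h
  exact (le_abs_self _).trans h

/-- E7. scaling of the size of a monomial -/
theorem cvn_msz_scale {w x s : ℝ} (hw : 0 ≤ w) (hx : 0 ≤ x) (hs : 1 ≤ s) (m : CvtMon) : cvtMsz w x m ≤ cvtMsz (s * w) (s * x) m := by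
  unfold cvtMsz
  induction m with
  | nil => simp
  | cons e m ih =>
    simp only [List.map_cons, List.prod_cons]
    have h1 : cvtEsz w x e ≤ cvtEsz (s * w) (s * x) e := by
      unfold cvtEsz
      split_ifs
      · nlinarith
      · nlinarith
    exact mul_le_mul h1 ih (cvtMsz_nonneg hw hx m) (cvtEsz_nonneg (by positivity) (by positivity) e)

/-- the weights of the split depths: nonnegative, total mass at most `1` -/
theorem cvn_dM_nonneg (hY : Y.Ok) {j : ℕ} (hj : j ≤ Y.N) : 0 ≤ Y.dM j := by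
  unfold LedSys.dM trPm
  split_ifs with h0
  · have := hY.ms_ok.nonneg j; linarith
  · have := hY.ms_ok.mono (j - 1) j (by omega) hj; linarith

theorem cvn_dM_sum (J : ℕ) : ∑ j ∈ Finset.range (J + 1), Y.dM j = Y.ms J := by
  induction J with
  | zero => simp [LedSys.dM, trPm]
  | succ J ih => rw [Finset.sum_range_succ, ih]; simp [LedSys.dM, trPm]

theorem cvn_dM_sum_le (hY : Y.Ok) (k0 : ℕ) : ∑ j ∈ Finset.Ico k0 (Y.N + 1), Y.dM j ≤ 1 := by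
  have h1 : ∑ j ∈ Finset.Ico k0 (Y.N + 1), Y.dM j ≤ ∑ j ∈ Finset.range (Y.N + 1), Y.dM j := by
    refine Finset.sum_le_sum_of_subset_of_nonneg ?_ fun j hj _ => cvn_dM_nonneg Y hY (by have := Finset.mem_range.1 hj; omega)
    intro j hj
    exact Finset.mem_range.2 (Finset.mem_Ico.1 hj).2
  rw [cvn_dM_sum, hY.ms_top] at h1
  exact h1

/-- `∫ D^p ≤ A^p`, `0 < p ≤ 2` -/
theorem cvn_int_rpow (hY : Y.Ok) (k0 : ℕ) (A : ℝ) (hA : 0 ≤ A) (h : Y.intM k0 (Y.N + 1) (fun j => Y.D j ^ 2) ≤ A ^ 2) {p : ℝ} (hp0 : 0 < p) (hp2 : p ≤ 2) :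
    Y.intM k0 (Y.N + 1) (fun j => Y.D j ^ p) ≤ A ^ p := by
  have h1 := cvn_pow_sum (Finset.Ico k0 (Y.N + 1)) Y.dM Y.D
    (fun j hj => cvn_dM_nonneg Y hY (by have := (Finset.mem_Ico.1 hj).2; omega)) (fun j _ => Real.sqrt_nonneg _) (cvn_dM_sum_le Y hY k0) hp0 hp2
  refine h1.trans ?_
  have h0 : 0 ≤ ∑ j ∈ Finset.Ico k0 (Y.N + 1), Y.dM j * Y.D j ^ 2 :=
    Finset.sum_nonneg fun j hj => mul_nonneg (cvn_dM_nonneg Y hY (by have := (Finset.mem_Ico.1 hj).2; omega)) (sq_nonneg _)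
  calc (∑ j ∈ Finset.Ico k0 (Y.N + 1), Y.dM j * Y.D j ^ 2) ^ (p / 2) ≤ (A ^ 2) ^ (p / 2) := Real.rpow_le_rpow h0 h (by positivity)
    _ = A ^ p := by
      rw [← Real.rpow_natCast A 2, ← Real.rpow_mul hA]
      congr 1
      push_cast
      ring

/-- E8. `∫ D ≤ (∫ D²)^{1/2}` on a set of cuts of mass `≤ 1` -/
theorem cvn_int_cs (hY : Y.Ok) (k0 : ℕ) (A : ℝ) (hA : 0 ≤ A) (h : Y.intM k0 (Y.N + 1) (fun j => Y.D j ^ 2) ≤ A ^ 2) : Y.intM k0 (Y.N + 1) Y.D ≤ A := by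
  have h1 := cvn_int_rpow Y hY k0 A hA h (p := 1) one_pos (by norm_num)
  simpa only [Real.rpow_one] using h1

/-- E9. the two Hoelder sums of the ledger -/
theorem cvn_int_pow (hY : Y.Ok) (k0 r : ℕ) (hr : 2 ≤ r) (A : ℝ) (hA : 0 ≤ A) (h : Y.intM k0 (Y.N + 1) (fun j => Y.D j ^ 2) ≤ A ^ 2) :
    (Y.intM k0 (Y.N + 1) fun j => Y.D j ^ (1 - 1 / (r : ℝ))) ^ 2 + Y.intM k0 (Y.N + 1) (fun j => Y.D j ^ (2 * (1 - 1 / (r : ℝ)))) ≤ 2 * A ^ (2 * (1 - 1 / (r : ℝ))) := by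
  have hr0 : (0:ℝ) < r := by have : (2:ℝ) ≤ r := by exact_mod_cast hr
                             linarith
  have hr2 : (2:ℝ) ≤ r := by exact_mod_cast hr
  have hinv : 1 / (r : ℝ) ≤ 1 / 2 := one_div_le_one_div_of_le (by norm_num) hr2
  have hinv0 : 0 < 1 / (r : ℝ) := by positivity
  have h1 := cvn_int_rpow Y hY k0 A hA h (p := 1 - 1 / (r : ℝ)) (by linarith) (by linarith)
  have h2 := cvn_int_rpow Y hY k0 A hA h (p := 2 * (1 - 1 / (r : ℝ))) (by linarith) (by linarith)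
  have h0 : 0 ≤ Y.intM k0 (Y.N + 1) fun j => Y.D j ^ (1 - 1 / (r : ℝ)) :=
    Finset.sum_nonneg fun j hj => mul_nonneg (cvn_dM_nonneg Y hY (by have := (Finset.mem_Ico.1 hj).2; omega)) (Real.rpow_nonneg (Real.sqrt_nonneg _) _)
  have h3 : (Y.intM k0 (Y.N + 1) fun j => Y.D j ^ (1 - 1 / (r : ℝ))) ^ 2 ≤ (A ^ (1 - 1 / (r : ℝ))) ^ 2 := pow_le_pow_left₀ h0 h1 2
  have e : (A ^ (1 - 1 / (r : ℝ))) ^ 2 = A ^ (2 * (1 - 1 / (r : ℝ))) := by
    rw [← Real.rpow_natCast (A ^ (1 - 1 / (r : ℝ))) 2, ← Real.rpow_mul hA]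
    congr 1
    push_cast
    ring
  rw [e] at h3
  linarith

end atoms

/-- E10. the polynomial saving pays a fixed Hoelder loss: `sv ≤ x^ρ`, `r ≥ 2 + 2/ρ`  ⟹  `(sv y)^{2 (1 - 1/r)} ≤ sv y²` for `x ≤ y ≤ 1`... used with `y = x` and `y = x²/W ≤ x`: see E11, E12 -/
theorem cvn_save {sv x ρ : ℝ} (hx0 : 0 < x) (hx1 : x ≤ 1) (hs0 : 0 < sv) (hs : sv ≤ x ^ ρ) (hρ : 0 < ρ) {r : ℕ} (hr : 2 + 2 / ρ ≤ (r : ℝ)) :
    (sv * x) ^ (2 * (1 - 1 / (r : ℝ))) ≤ sv * x ^ 2 := by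
  have hr2 : (2:ℝ) < r := by have : 0 < 2 / ρ := by positivity
                             linarith
  have hr0 : (0:ℝ) < r := by linarith
  obtain ⟨t, ht⟩ : ∃ t : ℝ, t = 2 / (r : ℝ) := ⟨_, rfl⟩
  have ht0 : 0 < t := by rw [ht]; positivity
  have ht1 : t < 1 := by rw [ht, div_lt_one hr0]; exact hr2
  have e0 : 2 * (1 - 1 / (r : ℝ)) = 2 - t := by rw [ht]; ring
  have hkey : t ≤ ρ * (1 - t) := by
    have h1 : 2 ≤ ρ * ((r : ℝ) - 2) := by
      have : 2 / ρ ≤ (r : ℝ) - 2 := by linarith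
      rw [div_le_iff₀ hρ] at this
      linarith
    have e : ρ * (1 - t) = ρ * ((r : ℝ) - 2) / r := by rw [ht]; field_simp
    rw [e, ht]
    exact div_le_div_of_nonneg_right h1 hr0.le
  rw [e0, Real.mul_rpow hs0.le hx0.le]
  have a1 : sv ^ (2 - t) = sv * sv ^ (1 - t) := by
    rw [show (2 - t) = 1 + (1 - t) by ring, Real.rpow_add hs0, Real.rpow_one]
  have a2 : x ^ 2 = x ^ (2 - t) * x ^ t := by
    rw [← Real.rpow_add hx0, show (2 - t + t) = (2:ℝ) by ring, Real.rpow_two]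
  have a3 : sv ^ (1 - t) ≤ x ^ t := by
    calc sv ^ (1 - t) ≤ (x ^ ρ) ^ (1 - t) := Real.rpow_le_rpow hs0.le hs (by linarith)
      _ = x ^ (ρ * (1 - t)) := by rw [← Real.rpow_mul hx0.le]
      _ ≤ x ^ t := Real.rpow_le_rpow_of_exponent_ge hx0 hx1 hkey
  rw [a1, a2]
  have hxp : 0 < x ^ (2 - t) := Real.rpow_pos_of_pos hx0 _
  calc sv * sv ^ (1 - t) * x ^ (2 - t) ≤ sv * x ^ t * x ^ (2 - t) := by gcongr
    _ = sv * (x ^ (2 - t) * x ^ t) := by ring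

end Claimed.Agent.R286
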