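import Claimed.Agent.R286.Cav.RepHi
import Claimed.Agent.R286.Cav.Defs
import Claimed.Agent.R286.Cav.Num
import Claimed.Agent.R286.Fd.ExtD

/-!
# Row 286 (S0533), folder Cav (PE Section 4), file Rep : UNIT REP = PE Lemma 4.8 "projected replacements": EXACT LEAVES, EXITS, INSTANCE      (owner / architect helper185; X1-X3: PROVER helper16, in place)

The vocabulary, the frame and the list of the files of the unit are in the header of `Cav/RepDefs.lean`.
EXACT LEAVES X1-X3 (PE l.722-727: "the partner operation is exact", "fresh-block averaging is exact").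
EXITS (consumer: `Cav/Eq25.lean` of 244 = field `h25` of the model record): `cvr_main1`, `cvr_main2`.      INSTANCE of the hypotheses `CvrIn`: `cvr_in_of_cav`.
-/

set_option autoImplicit false

namespace Claimed.Agent.R286

open MeasureTheory ProbabilityTheory

section
variable {n : ℕ} {ι : Type} [Fintype ι]

/-- fresh-block averaging: the LAST new label `d = q` is summed in the block of `b` (alone in its block); the test reads `d` but not `b`.
`cvr_sum_blk` + `tr_nu_comap` (`b ↦ d`).  LEAF X1 -/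
theorem cvr_avg {B : GhB (SkCfg n)} (hB : B.Ok) {ls : List (GhLv (SkCfg n) ι)} (hls : GhAdm B 0 ls) {q tU b : ℕ} {τ : ℕ → ℕ → ℕ}
    (hτ : IsTr ls.length q τ) (hb : b < q) (hU : tU ≤ ls.length) (hal : ∀ y, y < q → y ≠ b → τ b y < tU) (gam : ℕ → ℝ)
    (F : (ℕ → SkCfg n) → ℝ) (hFu : TrUses q F) :
    trSum (trMs B ls) ls.length q τ (fun τ' => (if tU ≤ τ' b q then gam (τ' b q) else 0) *
        trNu B ls (q + 1) τ' 0 fun σ => F (Function.update σ b (σ q)))
      = cvrChi (trMs B ls) ls.length tU gam * trNu B ls q τ 0 F := by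
  have e1 : (fun τ' : ℕ → ℕ → ℕ => (if tU ≤ τ' b q then gam (τ' b q) else 0) *
        trNu B ls (q + 1) τ' 0 fun σ => F (Function.update σ b (σ q)))
      = fun τ' => if tU ≤ τ' b q then gam (τ' b q) * trNu B ls (q + 1) τ' 0 (fun σ => F (Function.update σ b (σ q))) else 0 := by
    funext τ'
    split_ifs <;> simp
  rw [e1, cvr_sum_blk (trMs B ls) hτ hb hU hal, cvrChi, Finset.sum_mul]
  refine Finset.sum_congr rfl fun j hj => ?_
  obtain ⟨hj1, hj2⟩ := Finset.mem_Icc.1 hj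
  have hbq : trAtt ls.length q τ b j b q = j := by
    unfold trAtt
    rw [if_neg (by omega), if_pos rfl, hτ.diag b hb]
    exact min_eq_left hj2
  have hτ₁ : IsTr ls.length (q + 1) (trAtt ls.length q τ b j) := tr_att_isTr hτ hb hj2
  have hν : trNu B ls (q + 1) (trAtt ls.length q τ b j) 0 (fun σ => F (Function.update σ b (σ q))) = trNu B ls q τ 0 F := by
    have h1 : (fun σ : ℕ → SkCfg n => F (Function.update σ b (σ q))) = fun σ => F fun x => σ (if x = b then q else x) := by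
      funext σ
      congr 1
      funext x
      by_cases hx : x = b
      · simp [hx]
      · simp [hx]
    rw [h1, tr_nu_comap hB hls hτ₁ 0 (fun x => if x = b then q else x) (fun x hx => by split_ifs <;> omega) F hFu]
    refine tr_nu_congr B ls (fun x y hx hy => ?_) 0 F
    by_cases hxb : x = b <;> by_cases hyb : y = b
    · simp only [hxb, hyb, if_true]
      rw [hτ₁.diag q (by omega), hτ.diag b hb]
    · simp only [hxb, hyb, if_true, if_false]
      unfold trAtt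
      rw [if_pos rfl, if_neg (by omega)]
      exact min_eq_right (by have := hal y hy hyb; omega)
    · simp only [hxb, hyb, if_true, if_false]
      unfold trAtt
      rw [if_neg (by omega), if_pos rfl, hτ.symm x b hx hb]
      exact min_eq_right (by have := hal x hx hxb; omega)
    · simp only [hxb, hyb, if_false]
      exact tr_att_old hx hy
  rw [hbq, hν]
  ring

/-- the summand of `𝓛` reads the labels `< q + 3` only -/
theorem cvr_L_loc (B : GhB (SkCfg n)) (ls : List (GhLv (SkCfg n) ι)) {q tU r : ℕ} (hr : r < q)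
    {v gam : ℕ → ℝ} {kap : (ℕ → ℕ → ℕ) → ℕ → ℕ → ℕ → ℕ → ℝ} {bf : ℕ → ℝ} {Cg Ck Cb : ℝ}
    (hs : CvrScal ls.length tU v gam kap bf Cg Ck Cb) (X : (ℕ → SkCfg n) → ℝ) :
    TrLoc (q + 3) fun τ' => cvrCo ls.length tU kap bf r q (q + 1) (q + 2) τ' *
      trNu B ls (q + 3) τ' 0 fun σ => X σ * cvrDl (cvrS B ls) τ' (q + 1) (q + 2) σ := by
  intro τ₁ τ₂ h
  have hk : kap τ₁ r q (q + 1) (q + 2) = kap τ₂ r q (q + 1) (q + 2) := by
    refine hs.kap_loc τ₁ τ₂ ![r, q, q + 1, q + 2] ![r, q, q + 1, q + 2] fun i j => ?_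
    refine h _ _ ?_ ?_
    · fin_cases i <;> simp
      omega
    · fin_cases j <;> simp
      omega
  have hco : cvrCo ls.length tU kap bf r q (q + 1) (q + 2) τ₁ = cvrCo ls.length tU kap bf r q (q + 1) (q + 2) τ₂ := by
    unfold cvrCo
    rw [h r q (by omega) (by omega), h r (q + 1) (by omega) (by omega), h r (q + 2) (by omega) (by omega),
      h (q + 1) (q + 2) (by omega) (by omega), hk]
  have hd : ∀ σ : ℕ → SkCfg n, cvrDl (cvrS B ls) τ₁ (q + 1) (q + 2) σ = cvrDl (cvrS B ls) τ₂ (q + 1) (q + 2) σ := by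
    intro σ
    unfold cvrDl
    rw [h (q + 1) (q + 2) (by omega) (by omega)]
  simp only [hco, hd]
  rw [tr_nu_congr B ls h]

/-- an unused old leaf `c = q` drops out of `𝓛` (`tr_sumK_del`, `tr_nu_del`, `kap_loc`).  LEAF X2 -/
theorem cvr_L_prune {B : GhB (SkCfg n)} (hB : B.Ok) {ls : List (GhLv (SkCfg n) ι)} (hls : GhAdm B 0 ls) {q tU r : ℕ} {τ : ℕ → ℕ → ℕ}
    (hτ : IsTr ls.length (q + 1) τ) (hr : r < q) {v gam : ℕ → ℝ} {kap : (ℕ → ℕ → ℕ) → ℕ → ℕ → ℕ → ℕ → ℝ} {bf : ℕ → ℝ} {Cg Ck Cb : ℝ}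
    (hs : CvrScal ls.length tU v gam kap bf Cg Ck Cb) (X : (ℕ → SkCfg n) → ℝ) (hX : TrUses q X) :
    cvrL B ls tU kap bf (q + 1) τ r X = cvrL B ls tU kap bf q τ r X := by
  unfold cvrL
  have hloc := cvr_L_loc B ls hr hs X
  have hdel : ∀ y z, y < q → z < q → trDel q τ y z = τ y z := by
    intro y z hy hz
    unfold trDel
    rw [if_pos hy, if_pos hz]
  rw [← tr_sumK_tree_congr hdel 3 _ hloc, ← tr_sumK_del hτ le_rfl 3 _ hloc]
  refine tr_sumK_congr hτ 3 _ _ fun τ' hτ' _ => ?_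
  have d1 : ∀ y, y < q → ∀ i, trDel q τ' y (q + i) = τ' y (q + 1 + i) := by
    intro y hy i
    unfold trDel
    rw [if_pos hy, if_neg (by omega)]
    congr 1; omega
  have d2 : ∀ i j, trDel q τ' (q + i) (q + j) = τ' (q + 1 + i) (q + 1 + j) := by
    intro i j
    unfold trDel
    rw [if_neg (by omega), if_neg (by omega)]
    congr 1 <;> omega
  have d3 : trDel q τ' r r = τ' r r := by
    unfold trDel
    rw [if_pos hr]
  have d1' : ∀ y, y < q → ∀ i, trDel q τ' (q + i) y = τ' (q + 1 + i) y := by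
    intro y hy i
    unfold trDel
    rw [if_pos hy, if_neg (by omega)]
    congr 1; omega
  have hk : kap (trDel q τ') r q (q + 1) (q + 2) = kap τ' r (q + 1) (q + 1 + 1) (q + 1 + 2) := by
    refine hs.kap_loc _ _ ![r, q, q + 1, q + 2] ![r, q + 1, q + 1 + 1, q + 1 + 2] fun i j => ?_
    have e0 := d1 r hr 0
    have e1 := d1 r hr 1
    have e2 := d1 r hr 2
    have f0 := d1' r hr 0
    have f1 := d1' r hr 1
    have f2 := d1' r hr 2
    have g00 := d2 0 0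
    have g01 := d2 0 1
    have g02 := d2 0 2
    have g10 := d2 1 0
    have g11 := d2 1 1
    have g12 := d2 1 2
    have g20 := d2 2 0
    have g21 := d2 2 1
    have g22 := d2 2 2
    simp only [add_zero] at e0 f0 g00 g01 g02 g10 g20
    fin_cases i <;> fin_cases j <;> simp <;> assumption
  have hco : cvrCo ls.length tU kap bf r q (q + 1) (q + 2) (trDel q τ') = cvrCo ls.length tU kap bf r (q + 1) (q + 1 + 1) (q + 1 + 2) τ' := by
    unfold cvrCo
    have e0 := d1 r hr 0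
    rw [add_zero, add_zero] at e0
    rw [e0, d1 r hr 1, d1 r hr 2, d2 1 2, hk]
  rw [hco]
  congr 1
  have hτ'' : IsTr ls.length (q + 1 + 3) τ' := hτ'
  rw [← tr_nu_del hB hls hτ'' 0 (fun σ => X σ * cvrDl (cvrS B ls) (trDel q τ') (q + 1) (q + 2) σ) (by
    intro σ σ' h
    unfold cvrDl
    beta_reduce
    rw [hX σ σ' (fun i hi => h i (by omega)), h (q + 1) (by omega), h (q + 2) (by omega)])]
  congr 1
  funext σ
  unfold cvrDl
  beta_reduce
  rw [d2 1 2, if_neg (by omega), if_neg (by omega)]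
  congr 1
  exact hX _ _ fun i hi => by rw [if_pos hi]

/-- TEX[PE:lem:cavity-replacements] **Lemma 4.8 (iii)**, EXACT exchange of the root `b` (alone in its block, not read by `F`) with the summed leaf `d = q` of its block (`e = q+1`, `f = q+2`).
The table `τ + d` is invariant under `b ↔ d`: `tr_sumK_relabel` + `tr_sumK_tree_congr` + `tr_nu_perm` + `kap_loc`, `kap_symm`.  LEAF X3 -/
theorem cvr_swap {B : GhB (SkCfg n)} (hB : B.Ok) {ls : List (GhLv (SkCfg n) ι)} (hls : GhAdm B 0 ls) {q tU b : ℕ} {τ : ℕ → ℕ → ℕ}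
    (hτ : IsTr ls.length q τ) (hb : b < q) (hU : tU ≤ ls.length) (hal : ∀ y, y < q → y ≠ b → τ b y < tU)
    {v gam : ℕ → ℝ} {kap : (ℕ → ℕ → ℕ) → ℕ → ℕ → ℕ → ℕ → ℝ} {bf : ℕ → ℝ} {Cg Ck Cb : ℝ}
    (hs : CvrScal ls.length tU v gam kap bf Cg Ck Cb) (F : (ℕ → SkCfg n) → ℝ) (hFu : TrUses q F) :
    (trSumK (trMs B ls) ls.length 3 q τ fun τ' => cvrCo ls.length tU kap bf b q (q + 1) (q + 2) τ' *
        trNu B ls (q + 3) τ' 0 fun σ => F (Function.update σ b (σ q)) * cvrDl (cvrS B ls) τ' (q + 1) (q + 2) σ)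
      = cvrL B ls tU kap bf q τ b F := by
  unfold cvrL
  have hloc := cvr_L_loc B ls hb hs F
  rw [← tr_x_swap_first hτ hb hal 2 _ hloc (fun τ' _ h => by
    have : cvrCo ls.length tU kap bf b q (q + 1) (q + 2) τ' = 0 := by
      unfold cvrCo
      rw [if_neg (fun hc => by omega)]
    rw [this, zero_mul])]
  refine tr_sumK_congr hτ 3 _ _ fun τ' hτ' _ => ?_
  set s : Equiv.Perm ℕ := Equiv.swap b q with hsd
  have hsb : s b = q := Equiv.swap_apply_left _ _
  have hsq : s q = b := Equiv.swap_apply_right _ _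
  have hso : ∀ y, y ≠ b → y ≠ q → s y = y := fun y h1 h2 => Equiv.swap_apply_of_ne_of_ne h1 h2
  have hs1 : s (q + 1) = q + 1 := hso _ (by omega) (by omega)
  have hs2 : s (q + 2) = q + 2 := hso _ (by omega) (by omega)
  have hk : kap (fun y z => τ' (s y) (s z)) b q (q + 1) (q + 2) = kap τ' b q (q + 1) (q + 2) := by
    rw [hs.kap_symm τ' b q]
    refine hs.kap_loc _ _ ![b, q, q + 1, q + 2] ![q, b, q + 1, q + 2] fun i j => ?_
    fin_cases i <;> fin_cases j <;> simp [hsb, hsq, hs1, hs2]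
  have hcond : (tU ≤ τ' q b ∧ tU ≤ τ' q (q + 1) ∧ tU ≤ τ' q (q + 2) ∧ τ' (q + 1) (q + 2) ≤ ls.length)
      ↔ (tU ≤ τ' b q ∧ tU ≤ τ' b (q + 1) ∧ tU ≤ τ' b (q + 2) ∧ τ' (q + 1) (q + 2) ≤ ls.length) := by
    have sy := hτ'.symm q b (by omega) (by omega)
    have u1 := hτ'.ultra b q (q + 1) (by omega) (by omega) (by omega)
    have u2 := hτ'.ultra b q (q + 2) (by omega) (by omega) (by omega)
    have u3 := hτ'.ultra q b (q + 1) (by omega) (by omega) (by omega)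
    have u4 := hτ'.ultra q b (q + 2) (by omega) (by omega) (by omega)
    rw [sy] at u3 u4 ⊢
    constructor
    · rintro ⟨h1, h2, h3, h4⟩
      exact ⟨h1, le_trans (le_min h1 h2) u1, le_trans (le_min h1 h3) u2, h4⟩
    · rintro ⟨h1, h2, h3, h4⟩
      exact ⟨h1, le_trans (le_min h1 h2) u3, le_trans (le_min h1 h3) u4, h4⟩
  have hco : cvrCo ls.length tU kap bf b q (q + 1) (q + 2) (fun y z => τ' (s y) (s z)) = cvrCo ls.length tU kap bf b q (q + 1) (q + 2) τ' := by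
    unfold cvrCo
    simp only [hsb, hsq, hs1, hs2, hk, hcond]
  beta_reduce
  rw [hco]
  congr 1
  have hsfix : ∀ x, q + 3 ≤ x → s x = x := fun x hx => hso x (by omega) (by omega)
  have hss : s.symm = s := Equiv.symm_swap _ _
  have hperm := tr_nu_perm hB hls hτ' 0 (fun σ => F (Function.update σ b (σ q)) * cvrDl (cvrS B ls) τ' (q + 1) (q + 2) σ) (by
    intro σ σ' h
    unfold cvrDl
    beta_reduce
    rw [h (q + 1) (by omega), h (q + 2) (by omega)]
    congr 1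
    refine hFu _ _ fun i hi => ?_
    by_cases hib : i = b
    · simp [hib, h q (by omega)]
    · simp [hib, h i (by omega)]) s hsfix
  rw [← hperm, hss]
  congr 1
  funext σ
  unfold cvrDl
  simp only [hs1, hs2]
  congr 1
  refine hFu _ _ fun i hi => ?_
  by_cases hib : i = b
  · simp [hib, hsq]
  · simp [hib, hso i hib (by omega)]

/-! ### helpers of the exits (helper158; prefix `cvrx_`) -/

theorem cvrx_sumK_add (ms : ℕ → ℝ) (N k : ℕ) : ∀ (q : ℕ) (τ : ℕ → ℕ → ℕ) (Φ Ψ : (ℕ → ℕ → ℕ) → ℝ),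
    trSumK ms N k q τ (fun τ' => Φ τ' + Ψ τ') = trSumK ms N k q τ Φ + trSumK ms N k q τ Ψ := by
  induction k with
  | zero => intro q τ Φ Ψ; rfl
  | succ k ih =>
    intro q τ Φ Ψ
    simp only [trSumK, trSum, ih, mul_add, Finset.sum_add_distrib]

theorem cvrx_sumK_mul (ms : ℕ → ℝ) (N k : ℕ) (c : ℝ) : ∀ (q : ℕ) (τ : ℕ → ℕ → ℕ) (Φ : (ℕ → ℕ → ℕ) → ℝ),
    trSumK ms N k q τ (fun τ' => c * Φ τ') = c * trSumK ms N k q τ Φ := by
  induction k with
  | zero => intro q τ Φ; rfl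
  | succ k ih =>
    intro q τ Φ
    simp only [trSumK, trSum, ih, Finset.mul_sum]
    refine Finset.sum_congr rfl fun x _ => Finset.sum_congr rfl fun j _ => ?_
    ring

theorem cvrx_sumK_one (ms : ℕ → ℝ) (N q : ℕ) (τ : ℕ → ℕ → ℕ) (Φ : (ℕ → ℕ → ℕ) → ℝ) :
    trSumK ms N 1 q τ Φ = trSum ms N q τ Φ := rfl

theorem cvrx_sum_congr {N q : ℕ} {τ : ℕ → ℕ → ℕ} {ms : ℕ → ℝ} (hτ : IsTr N q τ) (Φ Ψ : (ℕ → ℕ → ℕ) → ℝ)
    (h : ∀ τ', IsTr N (q + 1) τ' → (∀ y z, y < q → z < q → τ' y z = τ y z) → Φ τ' = Ψ τ') :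
    trSum ms N q τ Φ = trSum ms N q τ Ψ := tr_sumK_congr hτ 1 Φ Ψ h

theorem cvrx_sum_mul (ms : ℕ → ℝ) (N q : ℕ) (τ : ℕ → ℕ → ℕ) (c : ℝ) (Φ : (ℕ → ℕ → ℕ) → ℝ) :
    trSum ms N q τ (fun τ' => c * Φ τ') = c * trSum ms N q τ Φ := cvrx_sumK_mul ms N 1 c q τ Φ

theorem cvrx_sum_zero (ms : ℕ → ℝ) (N q : ℕ) (τ : ℕ → ℕ → ℕ) : trSum ms N q τ (fun _ => 0) = 0 := by
  simp [trSum]

theorem cvrx_nu_add {S ι : Type} [Fintype S] [Fintype ι] [Inhabited S] {B : GhB S} (hB : B.Ok) {ls : List (GhLv S ι)} (hls : GhAdm B 0 ls)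
    (q : ℕ) (τ : ℕ → ℕ → ℕ) (z : S → ℝ) (f g : (ℕ → S) → ℝ) :
    trNu B ls q τ z (fun σ => f σ + g σ) = trNu B ls q τ z f + trNu B ls q τ z g := (cvpE hB hls q τ z).add f g

theorem cvrx_nu_mul {S ι : Type} [Fintype S] [Fintype ι] [Inhabited S] {B : GhB S} (hB : B.Ok) {ls : List (GhLv S ι)} (hls : GhAdm B 0 ls)
    (q : ℕ) (τ : ℕ → ℕ → ℕ) (z : S → ℝ) (c : ℝ) (f : (ℕ → S) → ℝ) :
    trNu B ls q τ z (fun σ => c * f σ) = c * trNu B ls q τ z f := (cvpE hB hls q τ z).smul c f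

/-- a monomial only reads the end points of its edges -/
theorem cvrx_mon_congr {n : ℕ} (Sf : ℕ → ℝ) (τ : ℕ → ℕ → ℕ) (es : List (ℕ × ℕ)) (σ σ' : ℕ → SkCfg n)
    (h : ∀ e ∈ es, σ e.1 = σ' e.1 ∧ σ e.2 = σ' e.2) : cvrMon Sf τ es σ = cvrMon Sf τ es σ' := by
  unfold cvrMon
  congr 1
  refine List.map_congr_left fun e he => ?_
  unfold cvrDl
  rw [(h e he).1, (h e he).2]

theorem cvrx_sc_nonneg (τ : ℕ → ℕ → ℕ) (tS : ℕ) {W x : ℝ} (hW : 0 ≤ W) (hx : 0 ≤ x) (es : List (ℕ × ℕ)) : 0 ≤ cvrSc τ tS W x es := by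
  unfold cvrSc
  refine List.prod_nonneg fun r hr => ?_
  obtain ⟨e, _, rfl⟩ := List.mem_map.1 hr
  split_ifs <;> assumption

/-- the end points of the edges of an admissible monomial -/
theorem cvrx_es_mem {N tI tS q : ℕ} {τ : ℕ → ℕ → ℕ} {a b : ℕ} {ths : List ℕ} {io : Option ℕ} {rest : List (ℕ × ℕ)}
    (h : CvrAdm N tI tS q τ a b ths io rest) (hab : a ≠ b) :
    ∀ e ∈ cvrEs a ths io rest, (e.1 < q ∧ e.2 < q) ∧ e.1 ≠ b ∧ e.2 ≠ b := by
  intro e he
  unfold cvrEs at he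
  rw [List.mem_append, List.mem_append] at he
  rcases he with (he | he) | he
  · obtain ⟨θ, hθ, rfl⟩ := List.mem_map.1 he
    exact ⟨⟨h.ha, (h.th_lt θ hθ).1⟩, hab, (h.th_lt θ hθ).2.2.1⟩
  · obtain ⟨o, ho, rfl⟩ := List.mem_map.1 he
    have ho' : o ∈ io := by simpa using ho
    exact ⟨⟨h.ha, (h.io_lt o ho').1⟩, hab, (h.io_lt o ho').2.2.1⟩
  · exact ⟨⟨(h.rest_lt e he).1, (h.rest_lt e he).2.1⟩, (h.rest_free e he).2.2.1, (h.rest_free e he).2.2.2.1⟩

theorem cvrx_tele (ms : ℕ → ℝ) (tU : ℕ) : ∀ M, tU ≤ M → ∑ j ∈ Finset.Icc tU M, (ms j - trPm ms j) = ms M - trPm ms tU := by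
  intro M hM
  induction M, hM using Nat.le_induction with
  | base => simp
  | succ M hM ih =>
    rw [Finset.sum_Icc_succ_top (by omega), ih, tra2_pm_succ]
    ring

theorem cvrx_pm_nonneg {N : ℕ} {ms : ℕ → ℝ} (hms : IsMs N ms) (j : ℕ) : 0 ≤ trPm ms j := by
  unfold trPm
  split_ifs
  · exact le_rfl
  · exact hms.nonneg _

theorem cvrx_pm_le {N : ℕ} {ms : ℕ → ℝ} (hms : IsMs N ms) {j : ℕ} (hj : j ≤ N + 1) : trPm ms j ≤ ms N := by
  unfold trPm
  split_ifs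
  · exact hms.nonneg _
  · exact hms.mono _ _ (by omega) le_rfl

/-- `|χ| ≤ 20 C_γ` at terminal mass `≤ 4` -/
theorem cvrx_chi_le {N tU : ℕ} {ms : ℕ → ℝ} (hms : IsMs N ms) (h4 : ms N ≤ 4) (hU : tU ≤ N) {gam : ℕ → ℝ} {Cg : ℝ}
    (hg : ∀ j, tU ≤ j → j ≤ N → |gam j| ≤ Cg * trPm ms j) (hgt : |gam (N + 1)| ≤ Cg) :
    |cvrChi ms N tU gam| ≤ 20 * Cg := by
  have hCg : 0 ≤ Cg := (abs_nonneg _).trans hgt
  unfold cvrChi
  rw [Finset.sum_Icc_succ_top (by omega)]
  have h1 : |∑ j ∈ Finset.Icc tU N, cvrW ms N j * gam j| ≤ ∑ j ∈ Finset.Icc tU N, (ms j - trPm ms j) * (Cg * 4) := by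
    refine (Finset.abs_sum_le_sum_abs _ _).trans (Finset.sum_le_sum fun j hj => ?_)
    obtain ⟨hj1, hj2⟩ := Finset.mem_Icc.1 hj
    have hw : cvrW ms N j = -(ms j - trPm ms j) := by
      unfold cvrW
      rw [if_neg (by omega)]
      ring
    have hd : 0 ≤ ms j - trPm ms j := trw_step_nonneg hms hj2
    rw [abs_mul, hw, abs_neg, abs_of_nonneg hd]
    refine mul_le_mul_of_nonneg_left ((hg j hj1 hj2).trans ?_) hd
    exact mul_le_mul_of_nonneg_left ((cvrx_pm_le hms (by omega)).trans h4) hCg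
  rw [← Finset.sum_mul, cvrx_tele ms tU N hU] at h1
  have h2 : |cvrW ms N (N + 1) * gam (N + 1)| ≤ 4 * Cg := by
    unfold cvrW
    rw [if_pos rfl, abs_mul, abs_of_nonneg (hms.nonneg N)]
    exact mul_le_mul h4 hgt (abs_nonneg _) (by norm_num)
  have h3 : (ms N - trPm ms tU) * (Cg * 4) ≤ 4 * (Cg * 4) :=
    mul_le_mul_of_nonneg_right (by have := cvrx_pm_nonneg hms tU; linarith) (by positivity)
  calc _ ≤ |∑ j ∈ Finset.Icc tU N, cvrW ms N j * gam j| + |cvrW ms N (N + 1) * gam (N + 1)| := abs_add_le _ _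
    _ ≤ 20 * Cg := by linarith


/-- two labels in the blocks of `a` and of `b` split where `a` and `b` split -/
theorem cvrx_split {N Q : ℕ} {τ' : ℕ → ℕ → ℕ} (hτ' : IsTr N Q τ') {a b c d tS tU : ℕ} (ha : a < Q) (hb : b < Q) (hc : c < Q) (hd : d < Q)
    (hab : τ' a b = tS) (hSU : tS < tU) (hac : tU ≤ τ' a c) (hbd : tU ≤ τ' b d) : τ' c d = tS := by
  have h1 := hτ'.ultra c a b hc ha hb
  have h2 := hτ'.ultra c b d hc hb hd
  have h3 := hτ'.ultra a c d ha hc hd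
  have h4 := hτ'.ultra a d b ha hd hb
  rw [hτ'.symm c a hc ha] at h1
  rw [hτ'.symm d b hd hb] at h4
  omega

/-- EXACT part of EXIT 1: both averages are carried out -/
theorem cvrx_main1_eq {B : GhB (SkCfg n)} (hB : B.Ok) {ls : List (GhLv (SkCfg n) ι)} (hls : GhAdm B 0 ls) {q tS tU a b : ℕ} {τ : ℕ → ℕ → ℕ}
    (hτ : IsTr ls.length q τ) (ha : a < q) (hb : b < q) (hab : τ a b = tS) (hSU : tS < tU) (hU : tU ≤ ls.length)
    (hlow : ∀ x y, x < q → y < q → x ≠ y → τ x y < tU) (gam : ℕ → ℝ) (X : (ℕ → SkCfg n) → ℝ) (hXu : TrUses q X)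
    (hXb : ∀ (σ : ℕ → SkCfg n) (s : SkCfg n), X (Function.update σ b s) = X σ) :
    cvrMain1 B ls tU gam q τ a b X = cvrChi (trMs B ls) ls.length tU gam *
      ∑ j ∈ Finset.Icc tU (ls.length + 1), cvrW (trMs B ls) ls.length j * gam j *
        trNu B ls (q + 1) (trAtt ls.length q τ a j) 0 fun σ => (skOv (σ q) (σ b) - cvrS B ls tS) * X σ := by
  set F : (ℕ → SkCfg n) → ℝ := fun σ => (skOv (σ q) (σ b) - cvrS B ls tS) * X σ with hF
  have hFu : TrUses (q + 1) F := by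
    intro σ σ' h
    simp only [hF]
    rw [h q (by omega), h b (by omega), hXu σ σ' fun i hi => h i (by omega)]
  have hbq : b ≠ q := by omega
  have hFb : ∀ σ : ℕ → SkCfg n, F (Function.update σ b (σ (q + 1))) = (skOv (σ q) (σ (q + 1)) - cvrS B ls tS) * X σ := by
    intro σ
    simp only [hF]
    rw [hXb, Function.update_self, Function.update_of_ne (Ne.symm hbq)]
  have inner : ∀ τ₁, IsTr ls.length (q + 1) τ₁ → (∀ y z, y < q → z < q → τ₁ y z = τ y z) →
      trSum (trMs B ls) ls.length (q + 1) τ₁ (fun τ' =>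
        (if tU ≤ τ' a q ∧ tU ≤ τ' b (q + 1) then gam (τ' a q) * gam (τ' b (q + 1)) else 0) *
          trNu B ls (q + 2) τ' 0 fun σ => cvrDl (cvrS B ls) τ' q (q + 1) σ * X σ)
        = if tU ≤ τ₁ a q then gam (τ₁ a q) * (cvrChi (trMs B ls) ls.length tU gam * trNu B ls (q + 1) τ₁ 0 F) else 0 := by
    intro τ₁ hτ₁ hag
    by_cases hc : tU ≤ τ₁ a q
    · rw [if_pos hc, ← cvr_avg hB hls hτ₁ (by omega : b < q + 1) hU ?_ gam F hFu, ← cvrx_sum_mul]
      · refine cvrx_sum_congr hτ₁ _ _ fun τ' hτ' hag' => ?_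
        rw [hag' a q (by omega) (by omega)]
        by_cases hd : tU ≤ τ' b (q + 1)
        · rw [if_pos ⟨hc, hd⟩, if_pos hd, mul_assoc]
          congr 2
          have hs : τ' q (q + 1) = tS := by
            refine cvrx_split hτ' (a := a) (b := b) (by omega) (by omega) (by omega) (by omega) ?_ hSU ?_ hd
            · rw [hag' a b (by omega) (by omega), hag a b ha hb, hab]
            · rw [hag' a q (by omega) (by omega)]; exact hc
          show trNu B ls (q + 2) τ' 0 _ = trNu B ls (q + 2) τ' 0 _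
          congr 1
          funext σ
          rw [hFb]
          unfold cvrDl
          rw [hs]
        · rw [if_neg (fun h => hd h.2), if_neg hd]
          ring
      · intro y hy hyb
        by_cases hyq : y = q
        · subst hyq
          by_contra hcon
          push Not at hcon
          have h1 := hτ₁.ultra a y b (by omega) (by omega) (by omega)
          rw [hτ₁.symm y b (by omega) (by omega), hag a b ha hb, hab] at h1
          omega
        · rw [hag b y hb (by omega)]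
          exact hlow b y hb (by omega) (Ne.symm hyb)
    · rw [if_neg hc]
      refine Eq.trans ?_ (cvrx_sum_zero (trMs B ls) ls.length (q + 1) τ₁)
      refine cvrx_sum_congr hτ₁ _ _ fun τ' hτ' hag' => ?_
      rw [hag' a q (by omega) (by omega), if_neg (fun h => hc h.1), zero_mul]
  unfold cvrMain1
  have e0 : ∀ Φ : (ℕ → ℕ → ℕ) → ℝ, trSumK (trMs B ls) ls.length 2 q τ Φ
      = trSum (trMs B ls) ls.length q τ fun τ₁ => trSum (trMs B ls) ls.length (q + 1) τ₁ Φ := fun Φ => rfl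
  rw [e0, cvrx_sum_congr hτ _ _ inner, cvr_sum_blk (trMs B ls) hτ ha hU (fun y hy hya => hlow a y ha hy (Ne.symm hya)), Finset.mul_sum]
  refine Finset.sum_congr rfl fun j hj => ?_
  obtain ⟨_, hj2⟩ := Finset.mem_Icc.1 hj
  have : trAtt ls.length q τ a j a q = j := by
    rw [trw_att_nr ha, hτ.diag a ha, min_eq_left hj2]
  rw [this]
  ring


/-- the standing facts on an admissible monomial -/
theorem cvrx_adm_facts {B : GhB (SkCfg n)} {ls : List (GhLv (SkCfg n) ι)} {tI tS tU : ℕ} {W x A lg : ℝ} {Cr Ca : ℕ → ℝ} {kM : ℕ}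
    (hin : CvrIn B ls tI tS tU W x A lg Cr Ca kM) {q : ℕ} {τ : ℕ → ℕ → ℕ} {a b : ℕ} {ths : List ℕ} {io : Option ℕ} {rest : List (ℕ × ℕ)}
    (hadm : CvrAdm ls.length tI tS q τ a b ths io rest) (Sf : ℕ → ℝ) :
    a ≠ b ∧ TrUses q (cvrMon (n := n) Sf τ (cvrEs a ths io rest)) ∧
      (∀ (σ : ℕ → SkCfg n) (s : SkCfg n), cvrMon Sf τ (cvrEs a ths io rest) (Function.update σ b s) = cvrMon Sf τ (cvrEs a ths io rest) σ) ∧
      (∀ y z, y < q → z < q → y ≠ z → τ y z < tU) := by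
  have hab : a ≠ b := by
    intro h
    have h1 := hadm.hab
    rw [← h, hadm.tr.diag a hadm.ha] at h1
    have := hin.ord
    omega
  have hmem := cvrx_es_mem hadm hab
  refine ⟨hab, fun σ σ' h => cvrx_mon_congr _ _ _ _ _ fun e he => ⟨h _ (hmem e he).1.1, h _ (hmem e he).1.2⟩,
    fun σ s => cvrx_mon_congr _ _ _ _ _ fun e he =>
      ⟨Function.update_of_ne (hmem e he).2.1 _ _, Function.update_of_ne (hmem e he).2.2 _ _⟩, ?_⟩
  intro y z hy hz hyz
  have := hin.ord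
  rcases hadm.low y z hy hz hyz with h | h <;> omega

/-- TEX[PE:lem:cavity-replacements] **EXIT 1**: the first retained term of (24).   `tr_sumK` unfolded, `cvr_sum_blk`, `cvr_avg` (over `d`), `cvr_one`, `tr_nu_prune`.  LEAF E1 -/
theorem cvr_main1 (Nd : ℕ) (Cr Ca : ℕ → ℝ) (Cg : ℝ) : ∃ (kM : ℕ) (C : ℝ), 0 ≤ C ∧ ∀ (n : ℕ) (ι : Type) [Fintype ι] (B : GhB (SkCfg n))
    (ls : List (GhLv (SkCfg n) ι)) (tI tS tU : ℕ) (W x A lg : ℝ), CvrIn B ls tI tS tU W x A lg Cr Ca kM →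
    ∀ (q : ℕ) (τ : ℕ → ℕ → ℕ) (a b : ℕ) (ths : List ℕ) (io : Option ℕ) (rest : List (ℕ × ℕ)), CvrAdm ls.length tI tS q τ a b ths io rest →
    q ≤ Nd → (cvrEs a ths io rest).length ≤ Nd →
    ∀ gam : ℕ → ℝ, (∀ j, tU ≤ j → j ≤ ls.length → |gam j| ≤ Cg * cvrV B ls j) → |gam (ls.length + 1)| ≤ Cg →
      |cvrMain1 B ls tU gam q τ a b (cvrMon (cvrS B ls) τ (cvrEs a ths io rest))
          - cvrChi (trMs B ls) ls.length tU gam ^ 2 *
            trNu B ls q τ 0 fun σ => cvrDl (cvrS B ls) τ a b σ * cvrMon (cvrS B ls) τ (cvrEs a ths io rest) σ|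
        ≤ C * lg * A ^ 2 * (W / x) * cvrSc τ tS W x (cvrEs a ths io rest) := by
  obtain ⟨kM, C₁, hC₁, h1⟩ := cvr_one Nd Cr Ca Cg
  refine ⟨kM, 20 * |Cg| * C₁, by positivity, ?_⟩
  intro n ι _ B ls tI tS tU W x A lg hin q τ a b ths io rest hadm hq hes gam hg hgt
  have hCg : 0 ≤ Cg := (abs_nonneg _).trans hgt
  obtain ⟨hab, hXu, hXb, hlow⟩ := cvrx_adm_facts hin hadm (cvrS B ls)
  have hone := h1 n ι B ls tI tS tU W x A lg hin q τ a b ths io rest hadm hq hes gam hg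
  set X := cvrMon (cvrS B ls) τ (cvrEs a ths io rest) with hX
  have hchi := cvrx_chi_le (tr_ms_isMs hin.okB hin.adm).1 (by
    rw [(tr_ms_isMs hin.okB hin.adm).2]; exact hin.a_le) hin.ord.2.2 hg hgt
  rw [cvrx_main1_eq hin.okB hin.adm hadm.tr hadm.ha hadm.hb hadm.hab hin.ord.2.1 hin.ord.2.2 hlow gam X hXu hXb]
  have hF2u : TrUses q fun σ : ℕ → SkCfg n => cvrDl (cvrS B ls) τ a b σ * X σ := by
    intro σ σ' h
    unfold cvrDl
    simp only
    rw [h a hadm.ha, h b hadm.hb, hXu σ σ' h]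
  have hsplit : ∀ j ∈ Finset.Icc tU (ls.length + 1),
      cvrW (trMs B ls) ls.length j * gam j *
        trNu B ls (q + 1) (trAtt ls.length q τ a j) 0 (fun σ => (skOv (σ q) (σ b) - cvrS B ls tS) * X σ)
      = cvrW (trMs B ls) ls.length j * gam j *
          trNu B ls (q + 1) (trAtt ls.length q τ a j) 0 (fun σ => (skOv (σ q) (σ b) - skOv (σ a) (σ b)) * X σ)
        + cvrW (trMs B ls) ls.length j * gam j * trNu B ls q τ 0 (fun σ => cvrDl (cvrS B ls) τ a b σ * X σ) := by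
    intro j hj
    obtain ⟨_, hj2⟩ := Finset.mem_Icc.1 hj
    have hτ₁ := tr_att_isTr hadm.tr hadm.ha hj2
    rw [← mul_add]
    congr 1
    rw [← tr_nu_congr B ls (fun y z hy hz => tr_att_old (N := ls.length) (x := a) (j := j) hy hz) 0
      (fun σ => cvrDl (cvrS B ls) τ a b σ * X σ), ← tr_nu_prune hin.okB hin.adm hτ₁ 0 hF2u,
      ← cvrx_nu_add hin.okB hin.adm]
    congr 1
    funext σ
    unfold cvrDl
    rw [hadm.hab]
    ring
  rw [Finset.sum_congr rfl hsplit, Finset.sum_add_distrib, ← Finset.sum_mul]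
  have hchi_def : ∑ j ∈ Finset.Icc tU (ls.length + 1), cvrW (trMs B ls) ls.length j * gam j = cvrChi (trMs B ls) ls.length tU gam := rfl
  rw [hchi_def]
  set E1 := ∑ j ∈ Finset.Icc tU (ls.length + 1), cvrW (trMs B ls) ls.length j * gam j *
          trNu B ls (q + 1) (trAtt ls.length q τ a j) 0 (fun σ => (skOv (σ q) (σ b) - skOv (σ a) (σ b)) * X σ) with hE1
  set χ := cvrChi (trMs B ls) ls.length tU gam
  have e : χ * (E1 + χ * trNu B ls q τ 0 (fun σ => cvrDl (cvrS B ls) τ a b σ * X σ))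
      - χ ^ 2 * trNu B ls q τ 0 (fun σ => cvrDl (cvrS B ls) τ a b σ * X σ) = χ * E1 := by ring
  rw [e, abs_mul, abs_of_nonneg hCg]
  calc |χ| * |E1| ≤ (20 * Cg) * (C₁ * lg * A ^ 2 * (W / x) * cvrSc τ tS W x (cvrEs a ths io rest)) :=
        mul_le_mul hchi hone (abs_nonneg _) (by positivity)
    _ = 20 * Cg * C₁ * lg * A ^ 2 * (W / x) * cvrSc τ tS W x (cvrEs a ths io rest) := by ring

theorem cvrx_L_add {B : GhB (SkCfg n)} (hB : B.Ok) {ls : List (GhLv (SkCfg n) ι)} (hls : GhAdm B 0 ls) (tU : ℕ)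
    (kap : (ℕ → ℕ → ℕ) → ℕ → ℕ → ℕ → ℕ → ℝ) (bf : ℕ → ℝ) (q : ℕ) (τ : ℕ → ℕ → ℕ) (r : ℕ) (X Y : (ℕ → SkCfg n) → ℝ) :
    cvrL B ls tU kap bf q τ r (fun σ => X σ + Y σ) = cvrL B ls tU kap bf q τ r X + cvrL B ls tU kap bf q τ r Y := by
  unfold cvrL
  rw [← cvrx_sumK_add]
  congr 1
  funext τ'
  rw [← mul_add, ← cvrx_nu_add hB hls]
  congr 2
  funext σ
  ring

theorem cvrx_L_mul {B : GhB (SkCfg n)} (hB : B.Ok) {ls : List (GhLv (SkCfg n) ι)} (hls : GhAdm B 0 ls) (tU : ℕ)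
    (kap : (ℕ → ℕ → ℕ) → ℕ → ℕ → ℕ → ℕ → ℝ) (bf : ℕ → ℝ) (q : ℕ) (τ : ℕ → ℕ → ℕ) (r : ℕ) (c : ℝ) (X : (ℕ → SkCfg n) → ℝ) :
    cvrL B ls tU kap bf q τ r (fun σ => c * X σ) = c * cvrL B ls tU kap bf q τ r X := by
  unfold cvrL
  rw [← cvrx_sumK_mul]
  congr 1
  funext τ'
  have : (fun σ : ℕ → SkCfg n => c * X σ * cvrDl (cvrS B ls) τ' (q + 1) (q + 2) σ)
      = fun σ => c * (X σ * cvrDl (cvrS B ls) τ' (q + 1) (q + 2) σ) := by
    funext σ
    ring
  rw [this, cvrx_nu_mul hB hls]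
  ring

theorem cvrx_L_congr (B : GhB (SkCfg n)) (ls : List (GhLv (SkCfg n) ι)) {q tU r : ℕ} (hr : r < q)
    {v gam : ℕ → ℝ} {kap : (ℕ → ℕ → ℕ) → ℕ → ℕ → ℕ → ℕ → ℝ} {bf : ℕ → ℝ} {Cg Ck Cb : ℝ}
    (hs : CvrScal ls.length tU v gam kap bf Cg Ck Cb) {τ τ' : ℕ → ℕ → ℕ} (h : ∀ y z, y < q → z < q → τ y z = τ' y z)
    (X : (ℕ → SkCfg n) → ℝ) : cvrL B ls tU kap bf q τ r X = cvrL B ls tU kap bf q τ' r X :=
  tr_sumK_tree_congr h 3 _ (cvr_L_loc B ls hr hs X)

/-- a label in the block of `a` is not in the block of `b` -/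
theorem cvrx_not_blk {N Q : ℕ} {τ' : ℕ → ℕ → ℕ} (hτ' : IsTr N Q τ') {a b c tS tU : ℕ} (ha : a < Q) (hb : b < Q) (hc : c < Q)
    (hab : τ' a b = tS) (hSU : tS < tU) (hac : tU ≤ τ' a c) : τ' b c < tU := by
  by_contra hcon
  push Not at hcon
  have h1 := hτ'.ultra a c b ha hc hb
  rw [hτ'.symm c b hc hb, hab] at h1
  omega

/-- EXACT part of EXIT 2, the term `γ_ac G_bd` -/
theorem cvrx_main2_P2 {B : GhB (SkCfg n)} (hB : B.Ok) {ls : List (GhLv (SkCfg n) ι)} (hls : GhAdm B 0 ls) {q tS tU a b : ℕ} {τ : ℕ → ℕ → ℕ}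
    (hτ : IsTr ls.length q τ) (ha : a < q) (hb : b < q) (hab : τ a b = tS) (hSU : tS < tU) (hU : tU ≤ ls.length)
    (hlow : ∀ x y, x < q → y < q → x ≠ y → τ x y < tU)
    {v gam : ℕ → ℝ} {kap : (ℕ → ℕ → ℕ) → ℕ → ℕ → ℕ → ℕ → ℝ} {bf : ℕ → ℝ} {Cg Ck Cb : ℝ}
    (hs : CvrScal ls.length tU v gam kap bf Cg Ck Cb) (Ks bs : ℝ) (X : (ℕ → SkCfg n) → ℝ) (hXu : TrUses q X)
    (hXb : ∀ (σ : ℕ → SkCfg n) (s : SkCfg n), X (Function.update σ b s) = X σ) :
    (trSumK (trMs B ls) ls.length 4 q τ fun τ' =>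
      (if tU ≤ τ' a q then gam (τ' a q) else 0) * cvrCo ls.length tU kap bf b (q + 1) (q + 2) (q + 3) τ' *
        trNu B ls (q + 4) τ' 0 fun σ => X σ * cvrDl (cvrS B ls) τ' (q + 2) (q + 3) σ * (Ks + bs * cvrDl (cvrS B ls) τ' q (q + 1) σ))
      = ∑ j ∈ Finset.Icc tU (ls.length + 1), cvrW (trMs B ls) ls.length j * gam j *
          cvrL B ls tU kap bf (q + 1) (trAtt ls.length q τ a j) b fun σ => X σ * (Ks + bs * (skOv (σ q) (σ b) - cvrS B ls tS)) := by
  set F : (ℕ → SkCfg n) → ℝ := fun σ => X σ * (Ks + bs * (skOv (σ q) (σ b) - cvrS B ls tS)) with hF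
  have hFu : TrUses (q + 1) F := by
    intro σ σ' h
    simp only [hF]
    rw [h q (by omega), h b (by omega), hXu σ σ' fun i hi => h i (by omega)]
  have hbq : b ≠ q := by omega
  have hFb : ∀ σ : ℕ → SkCfg n, F (Function.update σ b (σ (q + 1))) = X σ * (Ks + bs * (skOv (σ q) (σ (q + 1)) - cvrS B ls tS)) := by
    intro σ
    simp only [hF]
    rw [hXb, Function.update_self, Function.update_of_ne (Ne.symm hbq)]
  have inner : ∀ τ₁, IsTr ls.length (q + 1) τ₁ → (∀ y z, y < q → z < q → τ₁ y z = τ y z) →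
      trSumK (trMs B ls) ls.length 3 (q + 1) τ₁ (fun τ' =>
        (if tU ≤ τ' a q then gam (τ' a q) else 0) * cvrCo ls.length tU kap bf b (q + 1) (q + 2) (q + 3) τ' *
          trNu B ls (q + 4) τ' 0 fun σ => X σ * cvrDl (cvrS B ls) τ' (q + 2) (q + 3) σ * (Ks + bs * cvrDl (cvrS B ls) τ' q (q + 1) σ))
        = if tU ≤ τ₁ a q then gam (τ₁ a q) * cvrL B ls tU kap bf (q + 1) τ₁ b F else 0 := by
    intro τ₁ hτ₁ hag
    have hab₁ : τ₁ a b = tS := by rw [hag a b ha hb, hab]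
    by_cases hc : tU ≤ τ₁ a q
    · rw [if_pos hc, ← cvr_swap hB hls hτ₁ (by omega : b < q + 1) hU ?_ hs F hFu, ← cvrx_sumK_mul]
      · refine tr_sumK_congr hτ₁ 3 _ _ fun τ' hτ' hag' => ?_
        rw [hag' a q (by omega) (by omega), if_pos hc, mul_assoc]
        congr 1
        show cvrCo ls.length tU kap bf b (q + 1) (q + 2) (q + 3) τ' * trNu B ls (q + 4) τ' 0 _
          = cvrCo ls.length tU kap bf b (q + 1) (q + 2) (q + 3) τ' * trNu B ls (q + 4) τ' 0 _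
        by_cases hd : tU ≤ τ' b (q + 1)
        · congr 2
          have hs' : τ' q (q + 1) = tS := by
            refine cvrx_split hτ' (a := a) (b := b) (by omega) (by omega) (by omega) (by omega) ?_ hSU ?_ hd
            · rw [hag' a b (by omega) (by omega), hab₁]
            · rw [hag' a q (by omega) (by omega)]; exact hc
          funext σ
          rw [hFb]
          unfold cvrDl
          rw [hs']
          ring
        · have : cvrCo ls.length tU kap bf b (q + 1) (q + 2) (q + 3) τ' = 0 := by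
            unfold cvrCo
            rw [if_neg (fun h => hd h.1)]
          rw [this, zero_mul, zero_mul]
      · intro y hy hyb
        by_cases hyq : y = q
        · subst hyq
          exact cvrx_not_blk hτ₁ (by omega) (by omega) (by omega) hab₁ hSU hc
        · rw [hag b y hb (by omega)]
          exact hlow b y hb (by omega) (Ne.symm hyb)
    · rw [if_neg hc]
      have hz : trSumK (trMs B ls) ls.length 3 (q + 1) τ₁ (fun _ => 0) = 0 := by
        have := cvrx_sumK_mul (trMs B ls) ls.length 3 0 (q + 1) τ₁ (fun _ => 0)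
        simpa using this
      refine Eq.trans ?_ hz
      refine tr_sumK_congr hτ₁ 3 _ _ fun τ' hτ' hag' => ?_
      rw [hag' a q (by omega) (by omega), if_neg hc, zero_mul, zero_mul]
  have e0 : ∀ Φ : (ℕ → ℕ → ℕ) → ℝ, trSumK (trMs B ls) ls.length 4 q τ Φ
      = trSum (trMs B ls) ls.length q τ fun τ₁ => trSumK (trMs B ls) ls.length 3 (q + 1) τ₁ Φ := fun Φ => rfl
  rw [e0, cvrx_sum_congr hτ _ _ inner, cvr_sum_blk (trMs B ls) hτ ha hU (fun y hy hya => hlow a y ha hy (Ne.symm hya))]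
  refine Finset.sum_congr rfl fun j hj => ?_
  obtain ⟨_, hj2⟩ := Finset.mem_Icc.1 hj
  have : trAtt ls.length q τ a j a q = j := by
    rw [trw_att_nr ha, hτ.diag a ha, min_eq_left hj2]
  rw [this]
  ring


/-- the coefficient of `G` only reads the table of its four labels -/
theorem cvrx_Co_loc {N tU : ℕ} {v gam : ℕ → ℝ} {kap : (ℕ → ℕ → ℕ) → ℕ → ℕ → ℕ → ℕ → ℝ} {bf : ℕ → ℝ} {Cg Ck Cb : ℝ}
    (hs : CvrScal N tU v gam kap bf Cg Ck Cb) (τ₁ τ₂ : ℕ → ℕ → ℕ) (u w : Fin 4 → ℕ) (h : ∀ i j, τ₁ (u i) (u j) = τ₂ (w i) (w j)) :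
    cvrCo N tU kap bf (u 0) (u 1) (u 2) (u 3) τ₁ = cvrCo N tU kap bf (w 0) (w 1) (w 2) (w 3) τ₂ := by
  unfold cvrCo
  rw [h 0 1, h 0 2, h 0 3, h 2 3, hs.kap_loc τ₁ τ₂ u w h]

/-- EXACT part of EXIT 2, the term `G_ac γ_bd` -/
theorem cvrx_main2_P1 {B : GhB (SkCfg n)} (hB : B.Ok) {ls : List (GhLv (SkCfg n) ι)} (hls : GhAdm B 0 ls) {q tS tU a b : ℕ} {τ : ℕ → ℕ → ℕ}
    (hτ : IsTr ls.length q τ) (ha : a < q) (hb : b < q) (hab : τ a b = tS) (hSU : tS < tU) (hU : tU ≤ ls.length)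
    (hlow : ∀ x y, x < q → y < q → x ≠ y → τ x y < tU)
    {v gam : ℕ → ℝ} {kap : (ℕ → ℕ → ℕ) → ℕ → ℕ → ℕ → ℕ → ℝ} {bf : ℕ → ℝ} {Cg Ck Cb : ℝ}
    (hs : CvrScal ls.length tU v gam kap bf Cg Ck Cb) (Ks bs : ℝ) (X : (ℕ → SkCfg n) → ℝ) (hXu : TrUses q X)
    (hXb : ∀ (σ : ℕ → SkCfg n) (s : SkCfg n), X (Function.update σ b s) = X σ) :
    (trSumK (trMs B ls) ls.length 4 q τ fun τ' =>
      (if tU ≤ τ' b (q + 1) then gam (τ' b (q + 1)) else 0) * cvrCo ls.length tU kap bf a q (q + 2) (q + 3) τ' *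
        trNu B ls (q + 4) τ' 0 fun σ => X σ * cvrDl (cvrS B ls) τ' (q + 2) (q + 3) σ * (Ks + bs * cvrDl (cvrS B ls) τ' q (q + 1) σ))
      = cvrChi (trMs B ls) ls.length tU gam *
          cvrL B ls tU kap bf q τ a fun σ => X σ * (Ks + bs * (skOv (σ q) (σ b) - cvrS B ls tS)) := by
  -- the cycle which moves `d` to the last place
  set e : Equiv.Perm ℕ := Equiv.swap (q + 1) (q + 2) * Equiv.swap (q + 1) (q + 3) with he
  have hdef : ∀ y, e y = if y = q + 1 then q + 3 else if y = q + 2 then q + 1 else if y = q + 3 then q + 2 else y := by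
    intro y
    simp only [he, Equiv.Perm.mul_apply, Equiv.swap_apply_def]
    split_ifs <;> omega
  have he1 : e (q + 1) = q + 3 := by rw [hdef]; simp
  have he2 : e (q + 2) = q + 1 := by rw [hdef]; simp
  have he3 : e (q + 3) = q + 2 := by rw [hdef]; simp
  have he0 : ∀ y, y < q + 1 ∨ q + 4 ≤ y → e y = y := by
    intro y hy
    rw [hdef, if_neg (by omega), if_neg (by omega), if_neg (by omega)]
  have hs1 : e.symm (q + 1) = q + 2 := (Equiv.symm_apply_eq e).2 he2.symm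
  have hs2 : e.symm (q + 2) = q + 3 := (Equiv.symm_apply_eq e).2 he3.symm
  have hs3 : e.symm (q + 3) = q + 1 := (Equiv.symm_apply_eq e).2 he1.symm
  have hs0 : ∀ y, y < q + 1 → e.symm y = y := fun y hy => (Equiv.symm_apply_eq e).2 (he0 y (Or.inl hy)).symm
  set Φ : (ℕ → ℕ → ℕ) → ℝ := fun τ' =>
      (if tU ≤ τ' b (q + 1) then gam (τ' b (q + 1)) else 0) * cvrCo ls.length tU kap bf a q (q + 2) (q + 3) τ' *
        trNu B ls (q + 4) τ' 0 fun σ => X σ * cvrDl (cvrS B ls) τ' (q + 2) (q + 3) σ * (Ks + bs * cvrDl (cvrS B ls) τ' q (q + 1) σ) with hΦ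
  have hloc : ∀ τ₁ τ₂ : ℕ → ℕ → ℕ, (∀ y z, y < q + 4 → z < q + 4 → τ₁ y z = τ₂ y z) → Φ τ₁ = Φ τ₂ := by
    intro τ₁ τ₂ h
    have hco : cvrCo ls.length tU kap bf a q (q + 2) (q + 3) τ₁ = cvrCo ls.length tU kap bf a q (q + 2) (q + 3) τ₂ := by
      refine cvrx_Co_loc hs τ₁ τ₂ ![a, q, q + 2, q + 3] ![a, q, q + 2, q + 3] fun i j => h _ _ ?_ ?_
      · fin_cases i <;> simp <;> omega
      · fin_cases j <;> simp <;> omega
    simp only [hΦ]
    unfold cvrDl
    rw [hco, h b (q + 1) (by omega) (by omega), h (q + 2) (q + 3) (by omega) (by omega), h q (q + 1) (by omega) (by omega),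
      tr_nu_congr B ls h]
  set F : (ℕ → ℕ → ℕ) → (ℕ → SkCfg n) → ℝ := fun τ₃ σ =>
    X σ * (Ks + bs * (skOv (σ q) (σ b) - cvrS B ls tS)) * cvrDl (cvrS B ls) τ₃ (q + 1) (q + 2) σ with hF
  have hbq : ∀ k, b ≠ q + k := fun k => by omega
  have hFu : ∀ τ₃, TrUses (q + 3) (F τ₃) := by
    intro τ₃ σ σ' h
    simp only [hF]
    unfold cvrDl
    rw [h q (by omega), h b (by omega), h (q + 1) (by omega), h (q + 2) (by omega), hXu σ σ' fun i hi => h i (by omega)]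
  have hFb : ∀ τ₃ (σ : ℕ → SkCfg n), F τ₃ (Function.update σ b (σ (q + 3)))
      = X σ * (Ks + bs * (skOv (σ q) (σ (q + 3)) - cvrS B ls tS)) * cvrDl (cvrS B ls) τ₃ (q + 1) (q + 2) σ := by
    intro τ₃ σ
    simp only [hF]
    unfold cvrDl
    rw [hXb, Function.update_self, Function.update_of_ne (by omega : q ≠ b), Function.update_of_ne (Ne.symm (hbq 1)),
      Function.update_of_ne (Ne.symm (hbq 2))]
  -- step 1, 2: `d` last
  have step12 : trSumK (trMs B ls) ls.length 4 q τ Φ = trSumK (trMs B ls) ls.length 4 q τ fun τ' =>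
      (if tU ≤ τ' b (q + 3) then gam (τ' b (q + 3)) else 0) * cvrCo ls.length tU kap bf a q (q + 1) (q + 2) τ' *
        trNu B ls (q + 4) τ' 0 fun σ => X σ * cvrDl (cvrS B ls) τ' (q + 1) (q + 2) σ * (Ks + bs * cvrDl (cvrS B ls) τ' q (q + 3) σ) := by
    rw [tr_sumK_perm hτ 4 Φ hloc e (fun y hy => he0 y (by omega))]
    refine tr_sumK_congr hτ 4 _ _ fun τ' hτ' _ => ?_
    simp only [hΦ]
    have hco : cvrCo ls.length tU kap bf a q (q + 2) (q + 3) (fun y z => τ' (e y) (e z))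
        = cvrCo ls.length tU kap bf a q (q + 1) (q + 2) τ' := by
      refine cvrx_Co_loc hs _ τ' ![a, q, q + 2, q + 3] ![a, q, q + 1, q + 2] fun i j => ?_
      have : ∀ i : Fin 4, e (![a, q, q + 2, q + 3] i) = ![a, q, q + 1, q + 2] i := by
        intro i
        fin_cases i
        · exact he0 a (by omega)
        · exact he0 q (by omega)
        · exact he2
        · exact he3
      simp only [this]
    rw [hco, he0 b (by omega), he1]
    congr 1
    rw [← tr_nu_perm hB hls hτ' 0 (fun σ => X σ * cvrDl (cvrS B ls) τ' (q + 1) (q + 2) σ * (Ks + bs * cvrDl (cvrS B ls) τ' q (q + 3) σ))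
      ?_ e (fun y hy => he0 y (Or.inr hy))]
    · congr 1
      funext σ
      unfold cvrDl
      simp only [hs1, hs2, hs3, hs0 q (by omega), he2, he3, he1, he0 q (by omega)]
      rw [hXu (fun i => σ (e.symm i)) σ fun i hi => by rw [hs0 i (by omega)]]
    · intro σ σ' h
      unfold cvrDl
      simp only
      rw [h q (by omega), h (q + 1) (by omega), h (q + 2) (by omega), h (q + 3) (by omega), hXu σ σ' fun i hi => h i (by omega)]
  -- step 4: the average over `d`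
  have inner : ∀ τ₃, IsTr ls.length (q + 3) τ₃ → (∀ y z, y < q → z < q → τ₃ y z = τ y z) →
      trSumK (trMs B ls) ls.length 1 (q + 3) τ₃ (fun τ' =>
        (if tU ≤ τ' b (q + 3) then gam (τ' b (q + 3)) else 0) * cvrCo ls.length tU kap bf a q (q + 1) (q + 2) τ' *
          trNu B ls (q + 4) τ' 0 fun σ => X σ * cvrDl (cvrS B ls) τ' (q + 1) (q + 2) σ * (Ks + bs * cvrDl (cvrS B ls) τ' q (q + 3) σ))
        = cvrChi (trMs B ls) ls.length tU gam * (cvrCo ls.length tU kap bf a q (q + 1) (q + 2) τ₃ * trNu B ls (q + 3) τ₃ 0 (F τ₃)) := by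
    intro τ₃ hτ₃ hag
    have hab₃ : τ₃ a b = tS := by rw [hag a b ha hb, hab]
    have hco : ∀ τ', (∀ y z, y < q + 3 → z < q + 3 → τ' y z = τ₃ y z) →
        cvrCo ls.length tU kap bf a q (q + 1) (q + 2) τ' = cvrCo ls.length tU kap bf a q (q + 1) (q + 2) τ₃ := by
      intro τ' h
      refine cvrx_Co_loc hs τ' τ₃ ![a, q, q + 1, q + 2] ![a, q, q + 1, q + 2] fun i j => h _ _ ?_ ?_
      · fin_cases i <;> simp <;> omega
      · fin_cases j <;> simp <;> omega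
    rw [cvrx_sumK_one]
    by_cases hc : tU ≤ τ₃ a q ∧ tU ≤ τ₃ a (q + 1) ∧ tU ≤ τ₃ a (q + 2) ∧ τ₃ (q + 1) (q + 2) ≤ ls.length
    · rw [mul_left_comm, ← cvr_avg hB hls hτ₃ (by omega : b < q + 3) hU ?_ gam (F τ₃) (hFu τ₃), ← cvrx_sum_mul]
      · refine cvrx_sum_congr hτ₃ _ _ fun τ' hτ' hag' => ?_
        rw [hco τ' hag']
        by_cases hd : tU ≤ τ' b (q + 3)
        · rw [if_pos hd]
          have hs' : τ' q (q + 3) = tS := by
            refine cvrx_split hτ' (a := a) (b := b) (by omega) (by omega) (by omega) (by omega) ?_ hSU ?_ hd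
            · rw [hag' a b (by omega) (by omega), hab₃]
            · rw [hag' a q (by omega) (by omega)]; exact hc.1
          have : (fun σ : ℕ → SkCfg n => X σ * cvrDl (cvrS B ls) τ' (q + 1) (q + 2) σ * (Ks + bs * cvrDl (cvrS B ls) τ' q (q + 3) σ))
              = fun σ => F τ₃ (Function.update σ b (σ (q + 3))) := by
            funext σ
            rw [hFb]
            unfold cvrDl
            rw [hs', hag' (q + 1) (q + 2) (by omega) (by omega)]
            ring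
          rw [this]
          show _ * _ * trNu B ls (q + 4) τ' 0 _ = _ * (_ * trNu B ls (q + 4) τ' 0 _)
          ring
        · rw [if_neg hd]
          ring
      · intro y hy hyb
        by_cases hyq : y < q
        · rw [hag b y hb hyq]
          exact hlow b y hb hyq (Ne.symm hyb)
        · have hy3 : y = q ∨ y = q + 1 ∨ y = q + 2 := by omega
          rcases hy3 with rfl | rfl | rfl
          · exact cvrx_not_blk hτ₃ (by omega) (by omega) (by omega) hab₃ hSU hc.1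
          · exact cvrx_not_blk hτ₃ (by omega) (by omega) (by omega) hab₃ hSU hc.2.1
          · exact cvrx_not_blk hτ₃ (by omega) (by omega) (by omega) hab₃ hSU hc.2.2.1
    · have h0 : cvrCo ls.length tU kap bf a q (q + 1) (q + 2) τ₃ = 0 := by
        unfold cvrCo
        rw [if_neg hc]
      rw [h0, zero_mul, mul_zero]
      refine Eq.trans ?_ (cvrx_sum_zero (trMs B ls) ls.length (q + 3) τ₃)
      refine cvrx_sum_congr hτ₃ _ _ fun τ' hτ' hag' => ?_
      rw [hco τ' hag', h0, mul_zero, zero_mul]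
  rw [step12, tr_sumK_add 3 1, tr_sumK_congr hτ 3 _ _ inner, cvrx_sumK_mul]
  rfl


theorem cvrx_num {χ bs E2 E4 Cg C₂ C₄ Ck Cb lg A sW eH p₀ x : ℝ} (hCg : 0 ≤ Cg) (hC₂ : 0 ≤ C₂) (hC₄ : 0 ≤ C₄) (hCk : 0 ≤ Ck)
    (hCb : 0 ≤ Cb) (hlg : 0 ≤ lg) (hA : 0 ≤ A) (hsW : 0 ≤ sW) (heH : 0 ≤ eH) (hp₀ : 0 ≤ p₀) (hx : 0 < x)
    (hchi : |χ| ≤ 20 * Cg) (h2 : |E2| ≤ C₂ * Ck * Cb * lg * A * sW * eH * p₀)
    (h4 : |E4| ≤ C₄ * Ck * Cb * lg * A ^ 2 * eH * (p₀ / x)) :
    |χ * (bs * E2) + bs * E4| ≤ (20 * Cg * C₂ + C₄) * Ck * Cb * |bs| * lg * (A * sW + A ^ 2 / x) * eH * p₀ := by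
  have b1 : |χ * (bs * E2)| ≤ (20 * Cg) * (|bs| * (C₂ * Ck * Cb * lg * A * sW * eH * p₀)) := by
    rw [abs_mul, abs_mul]
    exact mul_le_mul hchi (mul_le_mul_of_nonneg_left h2 (abs_nonneg _)) (by positivity) (by positivity)
  have b2 : |bs * E4| ≤ |bs| * (C₄ * Ck * Cb * lg * A ^ 2 * eH * (p₀ / x)) := by
    rw [abs_mul]
    exact mul_le_mul_of_nonneg_left h4 (abs_nonneg _)
  have hbs := abs_nonneg bs
  have n1 : 0 ≤ 20 * Cg * C₂ * (Ck * Cb * |bs| * lg * eH * p₀) * (A ^ 2 / x) := by positivity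
  have n2 : 0 ≤ C₄ * (Ck * Cb * |bs| * lg * eH * p₀) * (A * sW) := by positivity
  calc |χ * (bs * E2) + bs * E4| ≤ |χ * (bs * E2)| + |bs * E4| := abs_add_le _ _
    _ ≤ (20 * Cg) * (|bs| * (C₂ * Ck * Cb * lg * A * sW * eH * p₀))
        + |bs| * (C₄ * Ck * Cb * lg * A ^ 2 * eH * (p₀ / x)) := add_le_add b1 b2
    _ ≤ (20 * Cg) * (|bs| * (C₂ * Ck * Cb * lg * A * sW * eH * p₀))
        + |bs| * (C₄ * Ck * Cb * lg * A ^ 2 * eH * (p₀ / x))
        + (20 * Cg * C₂ * (Ck * Cb * |bs| * lg * eH * p₀) * (A ^ 2 / x) + C₄ * (Ck * Cb * |bs| * lg * eH * p₀) * (A * sW)) := by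
      linarith
    _ = (20 * Cg * C₂ + C₄) * Ck * Cb * |bs| * lg * (A * sW + A ^ 2 / x) * eH * p₀ := by ring

/-- TEX[PE:lem:cavity-replacements] **EXIT 2**: the second retained term of (24).
Part `G_ac γ_bd`: `tr_sumK_perm` (`d` last), `cvr_avg`, `cvr_two`.   Part `γ_ac G_bd`: `cvr_sum_blk` (over `c`), `cvr_swap`, `cvr_L_prune`, `cvr_four`.  LEAF E2 -/
theorem cvr_main2 (Nd : ℕ) (Cr Ca : ℕ → ℝ) (Cg : ℝ) : ∃ (kM : ℕ) (C : ℝ), 0 ≤ C ∧ ∀ (n : ℕ) (ι : Type) [Fintype ι] (B : GhB (SkCfg n))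
    (ls : List (GhLv (SkCfg n) ι)) (tI tS tU : ℕ) (W x A lg : ℝ), CvrIn B ls tI tS tU W x A lg Cr Ca kM →
    ∀ (q : ℕ) (τ : ℕ → ℕ → ℕ) (a b : ℕ) (ths : List ℕ) (io : Option ℕ) (rest : List (ℕ × ℕ)), CvrAdm ls.length tI tS q τ a b ths io rest →
    q ≤ Nd → (cvrEs a ths io rest).length ≤ Nd →
    ∀ (gam : ℕ → ℝ) (kap : (ℕ → ℕ → ℕ) → ℕ → ℕ → ℕ → ℕ → ℝ) (bf : ℕ → ℝ) (Ck Cb eH Ks bs : ℝ) (dH : ℕ → ℝ),
      CvrScal ls.length tU (cvrV B ls) gam kap bf Cg Ck Cb → CvrHigh B ls tU lg eH dH →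
      |cvrMain2 B ls tU gam kap bf Ks bs q τ a b (cvrMon (cvrS B ls) τ (cvrEs a ths io rest))
          - cvrChi (trMs B ls) ls.length tU gam * Ks *
              (cvrL B ls tU kap bf q τ a (cvrMon (cvrS B ls) τ (cvrEs a ths io rest))
                + cvrL B ls tU kap bf q τ b (cvrMon (cvrS B ls) τ (cvrEs a ths io rest)))
          - bs * cvrChi (trMs B ls) ls.length tU gam *
              (cvrL B ls tU kap bf q τ a (fun σ => cvrMon (cvrS B ls) τ (cvrEs a ths io rest) σ * cvrDl (cvrS B ls) τ a b σ)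
                + cvrL B ls tU kap bf q τ b (fun σ => cvrMon (cvrS B ls) τ (cvrEs a ths io rest) σ * cvrDl (cvrS B ls) τ a b σ))|
        ≤ C * Ck * Cb * |bs| * lg * (A * Real.sqrt W + A ^ 2 / x) * eH * cvrSc τ tS W x (cvrEs a ths io rest) := by
  obtain ⟨k₂, C₂, hC₂, h2⟩ := cvr_two Nd Cr Ca Cg
  obtain ⟨k₄, C₄, hC₄, h4⟩ := cvr_four Nd Cr Ca Cg
  refine ⟨max k₂ k₄, 20 * |Cg| * C₂ + C₄, by positivity, ?_⟩
  intro n ι _ B ls tI tS tU W x A lg hin q τ a b ths io rest hadm hq hes gam kap bf Ck Cb eH Ks bs dH hs hH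
  have hCg : 0 ≤ Cg := (abs_nonneg _).trans hs.gam_top
  have hCk : 0 ≤ Ck := (abs_nonneg _).trans (hs.kap_le (fun _ _ => 0) 0 0 0 0)
  have hCb : 0 ≤ Cb := (abs_nonneg _).trans (hs.bf_le 0)
  have hms := (tr_ms_isMs hin.okB hin.adm).1
  have heH : 0 ≤ eH := by
    refine le_trans (Finset.sum_nonneg fun j hj => ?_) hH.tot
    exact mul_nonneg (trw_step_nonneg hms (Finset.mem_Icc.1 hj).2) (hH.nonneg j)
  have hx := hin.x_pos
  have hW : 0 ≤ W := hx.le.trans hin.x_le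
  have hA := hin.A_nonneg
  have hlg := hin.lg_nonneg
  have hp0 := cvrx_sc_nonneg τ tS hW hx.le (cvrEs a ths io rest)
  obtain ⟨hab, hXu, hXb, hlow⟩ := cvrx_adm_facts hin hadm (cvrS B ls)
  have htwo := h2 n ι B ls tI tS tU W x A lg (hin.mono (le_max_left _ _)) q τ a b ths io rest hadm hq hes gam kap bf Ck Cb eH dH hs hH
  have hfour := h4 n ι B ls tI tS tU W x A lg (hin.mono (le_max_right _ _)) q τ a b ths io rest hadm hq hes gam kap bf Ck Cb eH dH hs hH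
  have hchi := cvrx_chi_le hms (by rw [(tr_ms_isMs hin.okB hin.adm).2]; exact hin.a_le) hin.ord.2.2 hs.gam_le hs.gam_top
  set X := cvrMon (cvrS B ls) τ (cvrEs a ths io rest) with hX
  set p₀ := cvrSc τ tS W x (cvrEs a ths io rest) with hp₀
  set χ := cvrChi (trMs B ls) ls.length tU gam with hχ
  have hXDu : TrUses q fun σ : ℕ → SkCfg n => X σ * cvrDl (cvrS B ls) τ a b σ := by
    intro σ σ' h
    unfold cvrDl
    simp only
    rw [h a hadm.ha, h b hadm.hb, hXu σ σ' h]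
  have hLY : ∀ (Q : ℕ) (τ' : ℕ → ℕ → ℕ) (r : ℕ),
      cvrL B ls tU kap bf Q τ' r (fun σ => X σ * (Ks + bs * (skOv (σ q) (σ b) - cvrS B ls tS)))
        = Ks * cvrL B ls tU kap bf Q τ' r X + (bs * cvrL B ls tU kap bf Q τ' r (fun σ => X σ * cvrDl (cvrS B ls) τ a b σ)
            + bs * cvrL B ls tU kap bf Q τ' r (fun σ => X σ * (skOv (σ q) (σ b) - skOv (σ a) (σ b)))) := by
    intro Q τ' r
    rw [← cvrx_L_mul hin.okB hin.adm, ← cvrx_L_mul hin.okB hin.adm, ← cvrx_L_mul hin.okB hin.adm,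
      ← cvrx_L_add hin.okB hin.adm, ← cvrx_L_add hin.okB hin.adm]
    congr 1
    funext σ
    unfold cvrDl
    rw [hadm.hab]
    ring
  have hsplit : cvrMain2 B ls tU gam kap bf Ks bs q τ a b X
      = χ * cvrL B ls tU kap bf q τ a (fun σ => X σ * (Ks + bs * (skOv (σ q) (σ b) - cvrS B ls tS)))
        + ∑ j ∈ Finset.Icc tU (ls.length + 1), cvrW (trMs B ls) ls.length j * gam j *
          cvrL B ls tU kap bf (q + 1) (trAtt ls.length q τ a j) b fun σ => X σ * (Ks + bs * (skOv (σ q) (σ b) - cvrS B ls tS)) := by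
    rw [← cvrx_main2_P1 hin.okB hin.adm hadm.tr hadm.ha hadm.hb hadm.hab hin.ord.2.1 hin.ord.2.2 hlow hs Ks bs X hXu hXb,
      ← cvrx_main2_P2 hin.okB hin.adm hadm.tr hadm.ha hadm.hb hadm.hab hin.ord.2.1 hin.ord.2.2 hlow hs Ks bs X hXu hXb,
      ← cvrx_sumK_add]
    unfold cvrMain2
    congr 1
    funext τ'
    ring
  have hold : ∀ j ∈ Finset.Icc tU (ls.length + 1), ∀ Z : (ℕ → SkCfg n) → ℝ, TrUses q Z →
      cvrL B ls tU kap bf (q + 1) (trAtt ls.length q τ a j) b Z = cvrL B ls tU kap bf q τ b Z := by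
    intro j hj Z hZ
    rw [cvr_L_prune hin.okB hin.adm (tr_att_isTr hadm.tr hadm.ha (Finset.mem_Icc.1 hj).2) hadm.hb hs Z hZ]
    exact cvrx_L_congr B ls hadm.hb hs (fun y z hy hz => tr_att_old hy hz) Z
  have hsum : ∑ j ∈ Finset.Icc tU (ls.length + 1), cvrW (trMs B ls) ls.length j * gam j *
          cvrL B ls tU kap bf (q + 1) (trAtt ls.length q τ a j) b (fun σ => X σ * (Ks + bs * (skOv (σ q) (σ b) - cvrS B ls tS)))
      = χ * (Ks * cvrL B ls tU kap bf q τ b X + bs * cvrL B ls tU kap bf q τ b (fun σ => X σ * cvrDl (cvrS B ls) τ a b σ))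
        + bs * ∑ j ∈ Finset.Icc tU (ls.length + 1), cvrW (trMs B ls) ls.length j * gam j *
          cvrL B ls tU kap bf (q + 1) (trAtt ls.length q τ a j) b (fun σ => X σ * (skOv (σ q) (σ b) - skOv (σ a) (σ b))) := by
    rw [hχ, cvrChi, Finset.sum_mul, Finset.mul_sum, ← Finset.sum_add_distrib]
    refine Finset.sum_congr rfl fun j hj => ?_
    rw [hLY, hold j hj X hXu, hold j hj _ hXDu]
    ring
  rw [hsplit, hsum, hLY]
  set E2 := cvrL B ls tU kap bf q τ a (fun σ => X σ * (skOv (σ q) (σ b) - skOv (σ a) (σ b))) with hE2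
  set E4 := ∑ j ∈ Finset.Icc tU (ls.length + 1), cvrW (trMs B ls) ls.length j * gam j *
          cvrL B ls tU kap bf (q + 1) (trAtt ls.length q τ a j) b (fun σ => X σ * (skOv (σ q) (σ b) - skOv (σ a) (σ b))) with hE4
  have htwo' : |E2| ≤ C₂ * Ck * Cb * lg * A * Real.sqrt W * eH * p₀ := htwo
  have e : χ * (Ks * cvrL B ls tU kap bf q τ a X + (bs * cvrL B ls tU kap bf q τ a (fun σ => X σ * cvrDl (cvrS B ls) τ a b σ) + bs * E2))
        + (χ * (Ks * cvrL B ls tU kap bf q τ b X + bs * cvrL B ls tU kap bf q τ b (fun σ => X σ * cvrDl (cvrS B ls) τ a b σ)) + bs * E4)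
        - χ * Ks * (cvrL B ls tU kap bf q τ a X + cvrL B ls tU kap bf q τ b X)
        - bs * χ * (cvrL B ls tU kap bf q τ a (fun σ => X σ * cvrDl (cvrS B ls) τ a b σ)
            + cvrL B ls tU kap bf q τ b (fun σ => X σ * cvrDl (cvrS B ls) τ a b σ))
      = χ * (bs * E2) + bs * E4 := by ring
  rw [e, abs_of_nonneg hCg]
  exact cvrx_num hCg hC₂ hC₄ hCk hCb hlg hA (Real.sqrt_nonneg W) heH hp0 hx hchi htwo' hfour

end

/-- monotonicity of the iterated planted average -/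
theorem cvr_it_mono {S ι : Type} [Fintype S] [Fintype ι] {B : GhB S} (hB : B.Ok) {ls : List (GhLv S ι)} (hls : GhNn ls) (j : ℕ)
    {φ ψ : (S → ℝ) → ℝ} (hφ : ObuBC φ) (hψ : ObuBC ψ) (h : ∀ y, φ y ≤ ψ y) (z : S → ℝ) :
    obuIt B ls j φ z ≤ obuIt B ls j ψ z := by
  obtain ⟨M, hφ⟩ := hφ
  obtain ⟨M', hψ⟩ := hψ
  induction ls generalizing j z with
  | nil => exact h z
  | cons l ls ih =>
    cases j with
    | zero => exact h z
    | succ j =>
      simp only [obuIt]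
      exact gh_b_A_mono hB hls (obu_it_bc hB hls.tail j hφ) (obu_it_bc hB hls.tail j hψ) (fun y => ih hls.tail j y) z

/-- a planted conditional mean is the sum over the atoms -/
theorem cvr_E_ind {S ι : Type} [Fintype S] [Fintype ι] [DecidableEq S] {B : GhB S} (hB : B.Ok) {ls : List (GhLv S ι)} (hls : GhNn ls)
    (Φ : S → ℝ) (w : S → ℝ) : ghE B ls Φ w = ∑ u, Φ u * ghE B ls (fun s => if s = u then 1 else 0) w := by
  have e : Φ = fun s => ∑ u ∈ Finset.univ, Φ u * (if s = u then 1 else 0) := by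
    funext s
    simp
  conv_lhs => rw [e]
  rw [gh_b_E_sum hB _ _ hls]
  exact Finset.sum_congr rfl fun u _ => gh_b_E_const_mul B _ _ ls w

theorem cvr_bc_pow {S : Type} [Fintype S] {g : (S → ℝ) → ℝ} (h : ObuBC g) (k : ℕ) : ObuBC (fun z => g z ^ k) := by
  induction k with
  | zero =>
    simp only [pow_zero]
    exact ⟨_, gh_b_bc_const (S := S) 1⟩
  | succ k ih => simpa only [pow_succ] using ih.mul h

/-- a planted conditional mean of a test which depends continuously on the field -/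
theorem cvr_E_bc {S ι : Type} [Fintype S] [Fintype ι] {B : GhB S} (hB : B.Ok) {ls : List (GhLv S ι)} (hls : GhNn ls)
    (Φ : (S → ℝ) → S → ℝ) (hΦ : ∀ u, ObuBC fun w => Φ w u) : ObuBC fun w => ghE B ls (Φ w) w := by
  classical
  have e : (fun w => ghE B ls (Φ w) w) = fun w => ∑ u ∈ Finset.univ, Φ w u * ghE B ls (fun s => if s = u then 1 else 0) w :=
    funext fun w => cvr_E_ind hB hls (Φ w) w
  rw [e]
  exact ObuBC.sum _ fun u _ => (hΦ u).mul ⟨_, gh_b_E_bc' hB _ hls⟩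

/-- the law of a pair which shares `r` revelations: planted path up to the cut `r`, then two independent continuations -/
theorem cvr_pair_it {S ι : Type} [Fintype S] [Fintype ι] {B : GhB S} (hB : B.Ok) {ls : List (GhLv S ι)} (hls : GhNn ls) (z : S → ℝ)
    (r : ℕ) (hr : r ≤ ls.length) (f : S → S → ℝ) :
    (obT2 r).nu B ls z (fun _ σ => f (σ 0) (σ 1))
      = obuIt B ls r (fun w => ghE B (ls.drop r) (fun s => ghE B (ls.drop r) (fun s' => f s s') w) w) z := by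
  classical
  have hL : GhNn (ls.drop r) := fun l hl => hls l (List.mem_of_mem_drop hl)
  have e : (fun (_ : ℕ → Fin 2 → ι → ℝ) (σ : Fin 2 → S) => f (σ 0) (σ 1))
      = fun _ σ => ∑ p ∈ (Finset.univ : Finset (S × S)),
          (f p.1 p.2 * if σ 0 = p.1 then 1 else 0) * (if σ 1 = p.2 then 1 else 0) := by
    funext _ σ
    rw [Finset.sum_eq_single (σ 0, σ 1)]
    · simp
    · intro p _ hp
      by_cases h1 : σ 0 = p.1
      · have h2 : σ 1 ≠ p.2 := fun h2 => hp (by rw [h1, h2])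
        simp [h2]
      · simp [h1]
    · intro h
      exact absurd (Finset.mem_univ _) h
  rw [e, obt_two_sum hB ls z r hr (Finset.univ : Finset (S × S)) (fun p s => f p.1 p.2 * if s = p.1 then 1 else 0)
    (fun p s => if s = p.2 then 1 else 0), ← obu_path_field hB hls z r]
  congr 1
  funext ξ _
  generalize z + ghPre ls ξ r = w
  rw [cvr_E_ind hB hL (fun s => ghE B (ls.drop r) (fun s' => f s s') w) w, Fintype.sum_prod_type]
  refine Finset.sum_congr rfl fun u _ => ?_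
  rw [cvr_E_ind hB hL (fun s' => f u s') w, Finset.sum_mul]
  refine Finset.sum_congr rfl fun u' _ => ?_
  simp only
  rw [gh_b_E_const_mul]
  ring

/-- convexity of an even power -/
theorem cvr_even_sub (x y : ℝ) (k : ℕ) : (x - y) ^ (2 * k) ≤ 2 ^ (2 * k) / 2 * (x ^ (2 * k) + y ^ (2 * k)) := by
  have h := (even_two_mul k).convexOn_pow (𝕜 := ℝ)
  have h1 := h.2 (Set.mem_univ x) (Set.mem_univ (-y)) (by norm_num : (0:ℝ) ≤ 1 / 2) (by norm_num : (0:ℝ) ≤ 1 / 2) (by norm_num)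
  simp only [smul_eq_mul, (even_two_mul k).neg_pow] at h1
  have e : (x - y) ^ (2 * k) = 2 ^ (2 * k) * (1 / 2 * x + 1 / 2 * -y) ^ (2 * k) := by
    rw [← mul_pow]
    congr 1
    ring
  rw [e]
  calc (2:ℝ) ^ (2 * k) * (1 / 2 * x + 1 / 2 * -y) ^ (2 * k) ≤ 2 ^ (2 * k) * (1 / 2 * x ^ (2 * k) + 1 / 2 * y ^ (2 * k)) :=
        mul_le_mul_of_nonneg_left h1 (by positivity)
    _ = _ := by ring

/-- two independent copies: `E (c(s) - c(s'))^{2k} ≤ 2^{2k} E c^{2k}` -/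
theorem cvr_E_pair_le {S ι : Type} [Fintype S] [Fintype ι] {B : GhB S} (hB : B.Ok) {ls : List (GhLv S ι)} (hls : GhNn ls)
    (cf : S → ℝ) (k : ℕ) (w : S → ℝ) :
    ghE B ls (fun s => ghE B ls (fun s' => (cf s - cf s') ^ (2 * k)) w) w ≤ 2 ^ (2 * k) * ghE B ls (fun s => cf s ^ (2 * k)) w := by
  have h1 : ∀ s, ghE B ls (fun s' => (cf s - cf s') ^ (2 * k)) w
      ≤ 2 ^ (2 * k) / 2 * (cf s ^ (2 * k) + ghE B ls (fun s => cf s ^ (2 * k)) w) := by
    intro s
    refine (gh_b_E_mono hB (fun s' => cvr_even_sub (cf s) (cf s') k) hls w).trans (le_of_eq ?_)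
    rw [gh_b_E_const_mul, gh_b_E_add hB _ _ hls, gh_b_E_const hB _ hls]
  refine (gh_b_E_mono hB h1 hls w).trans (le_of_eq ?_)
  rw [gh_b_E_const_mul, gh_b_E_add hB _ _ hls, gh_b_E_const hB _ hls]
  ring

/-- the two leaf law with an arbitrary root field -/
theorem cvr_two_root {S ι : Type} [Fintype S] [Fintype ι] [Inhabited S] (B : GhB S) (ls : List (GhLv S ι)) (r : ℕ) (hr : r ≤ ls.length)
    (z : S → ℝ) (f : S → S → ℝ) :
    trNu B ls 2 (trTwo ls.length r) z (fun σ => f (σ 0) (σ 1)) = (obT2 r).nu B ls z fun _ σ => f (σ 0) (σ 1) := by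
  rw [tr_nu_of_ghTree B ls (obT2 r) z (fun σ => f (σ 0) (σ 1))]
  refine tr_nu_congr _ _ (fun x y hx hy => ?_) _ _
  unfold trTwo trOf obT2
  simp only [hx, hy, and_self, dite_true]
  split_ifs
  · rfl
  · omega

/-- `cvProj` as an iterated planted average of a function of the field at the cut `r` -/
theorem cvr_prj_it (n : ℕ) (Q : SkStp) (hQ : SkAdm 1 Q) (z : SkCfg n → ℝ) (V : Fin n → ℝ) (r k : ℕ) :
    cvProj n Q z V r k = obuIt (skBase n 1) (skLvs n Q) r (fun w => ghE (skBase n 1) ((skLvs n Q).drop r)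
      (fun s => (∑ i, V i * (skY s i - ghE (skBase n 1) ((skLvs n Q).drop r) (obY i) w)) ^ (2 * k)) w) z := by
  have hB := obu_base_ok n (a := 1) one_pos
  have hls := obu_lvs_nn n hQ
  unfold cvProj obE
  rw [obu_tower_gen hB hls z r _ (fun ξ ξ' h => by
    funext σ
    simp only [obXp, obFld]
    rw [obu_pre_loc (skLvs n Q) r ξ ξ' h]), ← obu_path_field hB hls z r]
  simp only [obXp, obX, obFld, obu_lvs_drop]

/-- (13) for one planted path (`CavIn.Star.prj`) gives the anchor property of a pair: `y_a - y_c = (y_a - X_j) - (y_c - X_j)`, the two residuals have the law of `cvProj`.  LEAF I2 -/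
theorem cvr_anchor_of_prj (n : ℕ) (P : SkStp) (hP : SkAdm 1 P) (t j k : ℕ) (htj : t < j) (hj : j ≤ P.length) (c : ℝ) (hc : 0 ≤ c)
    (h : ∀ (z : SkCfg n → ℝ) (V : Fin n → ℝ), cvProj n (P.drop t) z V (j - t) k ≤ c ^ (2 * k) * (∑ i, V i ^ 2) ^ k) :
    CvrAnchor (skBase n 1) (skLvs n P) t j k (2 * c) := by
  intro G ξ
  have hB := obu_base_ok n (a := 1) one_pos
  have hQ : SkAdm 1 (P.drop t) := obu_adm_drop hP t
  have hls := obu_lvs_nn n hQ
  have hlen : (skLvs n P).length - t = (skLvs n (P.drop t)).length := by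
    rw [obu_lvs_length, obu_lvs_length, List.length_drop]
  have hr : j - t ≤ (skLvs n (P.drop t)).length := by
    rw [obu_lvs_length, List.length_drop]
    omega
  have hL : GhNn ((skLvs n (P.drop t)).drop (j - t)) := fun l hl => hls l (List.mem_of_mem_drop hl)
  rw [← obu_lvs_drop, hlen]
  have hsq : Real.sqrt n * Real.sqrt n = n := Real.mul_self_sqrt (Nat.cast_nonneg n)
  -- the vector `V = ξ / √n`
  have e1 : ∀ s s' : SkCfg n, cvrIp ξ (skSp s - skSp s') = ∑ i, ξ i / Real.sqrt n * (skY s i - skY s' i) := by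
    intro s s'
    unfold cvrIp skY
    rw [Finset.sum_div]
    refine Finset.sum_congr rfl fun i _ => ?_
    rw [← sub_div, div_mul_div_comm, hsq]
    rfl
  have e2 : cvrIp ξ ξ = ∑ i, (ξ i / Real.sqrt n) ^ 2 := by
    unfold cvrIp
    rw [Finset.sum_div]
    refine Finset.sum_congr rfl fun i _ => ?_
    rw [sq, div_mul_div_comm, hsq]
  simp only [e1]
  rw [e2, cvr_two_root (skBase n 1) (skLvs n (P.drop t)) (j - t) hr G
      (fun s s' => (∑ i, ξ i / Real.sqrt n * (skY s i - skY s' i)) ^ (2 * k)),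
    cvr_pair_it hB hls G (j - t) hr (fun s s' => (∑ i, ξ i / Real.sqrt n * (skY s i - skY s' i)) ^ (2 * k))]
  have hprj := h G fun i => ξ i / Real.sqrt n
  rw [cvr_prj_it n (P.drop t) hQ] at hprj
  have hφB : ObuBC fun w => ghE (skBase n 1) ((skLvs n (P.drop t)).drop (j - t)) (fun s => ghE (skBase n 1) ((skLvs n (P.drop t)).drop (j - t))
      (fun s' => (∑ i, ξ i / Real.sqrt n * (skY s i - skY s' i)) ^ (2 * k)) w) w :=
    cvr_E_bc hB hL (fun w s => ghE (skBase n 1) ((skLvs n (P.drop t)).drop (j - t))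
      (fun s' => (∑ i, ξ i / Real.sqrt n * (skY s i - skY s' i)) ^ (2 * k)) w) fun u => ⟨_, gh_b_E_bc' hB _ hL⟩
  have hφA : ObuBC fun w => ghE (skBase n 1) ((skLvs n (P.drop t)).drop (j - t))
      (fun s => (∑ i, ξ i / Real.sqrt n * (skY s i - ghE (skBase n 1) ((skLvs n (P.drop t)).drop (j - t)) (obY i) w)) ^ (2 * k)) w :=
    cvr_E_bc hB hL (fun w s => (∑ i, ξ i / Real.sqrt n * (skY s i - ghE (skBase n 1) ((skLvs n (P.drop t)).drop (j - t)) (obY i) w)) ^ (2 * k))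
      fun u => cvr_bc_pow (ObuBC.sum _ fun i _ =>
        ObuBC.const_mul ⟨_, (gh_b_bc_const (skY u i)).sub (gh_b_E_bc' hB (obY i) hL)⟩ (ξ i / Real.sqrt n)) (2 * k)
  refine (cvr_it_mono hB hls (j - t) hφB (hφA.const_mul (2 ^ (2 * k))) (fun w => ?_) G).trans ?_
  · have e3 : ∀ s s' : SkCfg n, ∑ i, ξ i / Real.sqrt n * (skY s i - skY s' i)
        = (∑ i, ξ i / Real.sqrt n * (skY s i - ghE (skBase n 1) ((skLvs n (P.drop t)).drop (j - t)) (obY i) w))
          - ∑ i, ξ i / Real.sqrt n * (skY s' i - ghE (skBase n 1) ((skLvs n (P.drop t)).drop (j - t)) (obY i) w) := by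
      intro s s'
      rw [← Finset.sum_sub_distrib]
      exact Finset.sum_congr rfl fun i _ => by ring
    simp only [e3]
    exact cvr_E_pair_le hB hL _ k w
  · rw [obu_it_const_mul, mul_pow, mul_assoc]
    exact mul_le_mul_of_nonneg_left hprj (by positivity)

/-! ### INSTANCE: helpers `cvr_i_*` -/

section
variable {n : ℕ} {ι : Type} [Fintype ι]

/-- centring: `‖R - S‖_{2k} ≤ 2 ‖R‖_{2k}` -/
theorem cvr_i_cen {B : GhB (SkCfg n)} (hB : B.Ok) {ls : List (GhLv (SkCfg n) ι)} (hls : GhAdm B 0 ls) (t k : ℕ) {c : ℝ} (hc : 0 ≤ c)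
    (h : cvrM B ls t k ≤ c ^ (2 * k)) : cvrC B ls t k ≤ (2 * c) ^ (2 * k) := by
  rcases Nat.eq_zero_or_pos k with rfl | hk
  · have := (cvpE hB hls 2 (trTwo ls.length t) 0).one
    simp only [cvrC, Nat.mul_zero, pow_zero]
    exact this.le
  · have h1 : CvLe (cvpE hB hls 2 (trTwo ls.length t) 0) k (fun σ => skOv (σ 0) (σ 1)) c := ⟨hc, h⟩
    have h2 : |cvrS B ls t| ≤ c := h1.abs_mean_le hk
    have h3 := h1.sub ((CvLe.const (cvpE hB hls 2 (trTwo ls.length t) 0) k (cvrS B ls t)).weaken h2)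
    have h4 := h3.2
    rw [two_mul]
    exact h4

end

theorem cvr_i_len (n : ℕ) (P : SkStp) : (skLvs n P).length = P.length := by simp [skLvs]

theorem cvr_i_ms (n : ℕ) (P : SkStp) (j : ℕ) : trMs (skBase n 1) (skLvs n P) j = skMs 1 P j := by
  unfold trMs skMs skLvs
  rcases lt_or_ge j P.length with h | h
  · rw [List.getD_eq_getElem _ _ (by simpa using h), List.getElem?_eq_getElem (by simpa using h)]
    simp [SkInc.lv, ghLvF]
  · rw [List.getD_eq_default _ _ (by simpa using h), List.getElem?_eq_none (by simpa using h)]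
    simp [skBase, ghUnif]

theorem cvr_i_V (n : ℕ) (P : SkStp) (j : ℕ) : cvrV (skBase n 1) (skLvs n P) j = cvLo P j := by
  unfold cvrV trPm cvLo
  split_ifs
  · rfl
  · exact cvr_i_ms n P _

theorem cvr_i_Dm (n : ℕ) (P : SkStp) (j : ℕ) : cvrDm (skBase n 1) (skLvs n P) j = skGap 1 P j := by
  have h := cvr_i_V n P j
  unfold cvrV at h
  unfold cvrDm skGap
  rw [h, cvr_i_ms]
  rfl

theorem cvr_i_M (n : ℕ) (P : SkStp) {j : ℕ} (hj : j ≤ P.length) (k : ℕ) :
    cvrM (skBase n 1) (skLvs n P) j k = cvNu n P (obT2 j) fun σ => skOv (σ 0) (σ 1) ^ (2 * k) :=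
  cvr_two_eq n P j hj fun s s' => skOv s s' ^ (2 * k)

theorem cvr_i_S {n : ℕ} (hn : 0 < n) {P : SkStp} (hP : SkAdm 1 P) {j : ℕ} (hj : j ≤ P.length) :
    cvrS (skBase n 1) (skLvs n P) j = cvS n P j := by
  have h1 := cvr_two_eq n P j hj fun s s' => skOv s s'
  have h2 := ob_S_two hn one_pos P hP 0 j hj
  unfold cvrS cvS
  rw [h1, ← h2]
  rfl

theorem cvr_i_C {n : ℕ} (hn : 0 < n) {P : SkStp} (hP : SkAdm 1 P) {j : ℕ} (hj : j ≤ P.length) (k : ℕ) :
    cvrC (skBase n 1) (skLvs n P) j k = cvNu n P (obT2 j) fun σ => (skOv (σ 0) (σ 1) - cvS n P j) ^ (2 * k) := by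
  unfold cvrC
  rw [cvr_i_S hn hP hj]
  exact cvr_two_eq n P j hj fun s s' => (skOv s s' - cvS n P j) ^ (2 * k)

theorem cvr_i_ok (n : ℕ) : (skBase n 1).Ok := sk_sy_base_ok n one_pos

/-- **generic instance on an SK path**: raw moments at the two low cuts + (13) from the cut `tS` -/
theorem cvr_in_of_sk {n : ℕ} (hn : 0 < n) {P : SkStp} (hP : SkAdm 1 P) {tI tS tU kM : ℕ} (hIS : tI ≤ tS) (hSU : tS < tU) (hU : tU ≤ P.length)
    {W x A : ℝ} (hx : 0 < x) (hxW : x ≤ W) (hA : 0 ≤ A) (hV : 0 < cvLo P tU) {r ca : ℕ → ℝ} (hr : ∀ k, 0 ≤ r k) (hca : ∀ k, 0 ≤ ca k)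
    (hS : ∀ k, k ≤ kM → cvNu n P (obT2 tS) (fun σ => skOv (σ 0) (σ 1) ^ (2 * k)) ≤ (r k * W) ^ (2 * k))
    (hI : ∀ k, k ≤ kM → cvNu n P (obT2 tI) (fun σ => skOv (σ 0) (σ 1) ^ (2 * k)) ≤ (r k * x) ^ (2 * k))
    (hprj : ∀ (z : SkCfg n → ℝ) (V : Fin n → ℝ) (j k : ℕ), tU ≤ j → j ≤ P.length → k ≤ kM →
      cvProj n (P.drop tS) z V (j - tS) k ≤ (ca k * A / cvLo P j) ^ (2 * k) * (∑ i, V i ^ 2) ^ k) :
    CvrIn (skBase n 1) (skLvs n P) tI tS tU W x A
      (∑ j ∈ Finset.Icc tU (skLvs n P).length, cvrDm (skBase n 1) (skLvs n P) j / cvrV (skBase n 1) (skLvs n P) j)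
      (fun k => 2 * r k) (fun k => 2 * ca k) kM := by
  have hW : 0 < W := lt_of_lt_of_le hx hxW
  have hB := cvr_i_ok n
  have hls : GhAdm (skBase n 1) 0 (skLvs n P) := sk_sy_adm hP
  have hlen := cvr_i_len n P
  refine
    { okB := hB
      adm := hls
      a_le := by show (1 : ℝ) ≤ 4; norm_num
      hn := hn
      ord := ⟨hIS, hSU, by rw [hlen]; exact hU⟩
      x_pos := hx
      x_le := hxW
      A_nonneg := hA
      Cr_nonneg := fun k => by have := hr k; positivity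
      Ca_nonneg := fun k => by have := hca k; positivity
      lg_nonneg := ?_
      U_pos := by rw [cvr_i_V]; exact hV
      raw_star := fun k hk => ?_
      cen_star := fun k hk => ?_
      cen_ini := fun k hk => ?_
      anchor := fun k j hk hj hjN => ?_
      mesh := le_rfl }
  · refine Finset.sum_nonneg fun j hj => ?_
    rw [hlen] at hj
    rw [cvr_i_V, cvr_i_Dm]
    exact div_nonneg (cvn_gap_nonneg P hP (Finset.mem_Icc.1 hj).2) (cvn_lo_nonneg P hP j)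
  · rw [cvr_i_M n P (by omega)]
    refine (hS k hk).trans (pow_le_pow_left₀ (mul_nonneg (hr k) hW.le) ?_ _)
    have := mul_nonneg (hr k) hW.le
    nlinarith
  · have h := cvr_i_cen hB hls tS k (mul_nonneg (hr k) hW.le) (by rw [cvr_i_M n P (by omega)]; exact hS k hk)
    exact h.trans (le_of_eq (by ring))
  · have h := cvr_i_cen hB hls tI k (mul_nonneg (hr k) hx.le) (by rw [cvr_i_M n P (by omega)]; exact hI k hk)
    exact h.trans (le_of_eq (by ring))
  · rw [hlen] at hjN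
    have h := cvr_anchor_of_prj n P hP tS j k (by omega) hjN (ca k * A / cvLo P j)
      (div_nonneg (mul_nonneg (hca k) hA) (cvn_lo_nonneg P hP j)) (fun z V => hprj z V j k hj hjN hk)
    have e : 2 * (ca k * A / cvLo P j) = 2 * ca k * A / cvrV (skBase n 1) (skLvs n P) j := by
      rw [cvr_i_V]; ring
    rw [← e]
    exact h

/-- (13) of `CavIn.Star` in the form of `cvr_in_of_sk` -/
theorem cvr_i_prj {c C ρ : ℝ} {Cp : ℕ → ℝ} {kM : ℕ} {I : CavIn} (h : I.Ok c C ρ Cp kM) (hS : I.Star c C Cp kM)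
    (z : SkCfg I.n → ℝ) (V : Fin I.n → ℝ) (j k : ℕ) (hj : I.jU + 1 ≤ j) (hjN : j ≤ I.P.length) (hk : k ≤ kM) :
    cvProj I.n (I.P.drop I.js) z V (j - I.js) k
      ≤ (|Cp k| * (I.sv * I.x ^ 3 / (I.W * Real.sqrt I.W)) / cvLo I.P j) ^ (2 * k) * (∑ i, V i ^ 2) ^ k := by
  have hx0 := h.x0
  have hW0 : 0 < I.W := lt_of_lt_of_le hx0 h.xW
  have hsv0 := h.sv0
  have hlo := cvn_lo_nonneg I.P h.adm j
  have hy0 : 0 ≤ I.x ^ 3 / (I.W * Real.sqrt I.W * cvLo I.P j) := by positivity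
  refine (hS.prj z V j k (by omega) hjN hk).trans (le_of_eq ?_)
  congr 1
  rw [← (even_two_mul k).pow_abs, abs_mul, abs_mul, abs_of_pos hsv0, abs_of_nonneg hy0]
  congr 1
  simp only [div_eq_mul_inv, mul_inv]
  ring

/-- **INSTANCE of `CvrIn`** from the inputs of the section; `lg` = the mesh sum itself (`≤ 2 log (1/U)` on a dyadically fine path).  I3 (helper185) -/
theorem cvr_in_of_cav (c C ρ : ℝ) (Cp : ℕ → ℝ) (hc : 0 < c) : ∃ Cr Ca : ℕ → ℝ, ∀ (kM : ℕ) (I : CavIn), I.Ok c C ρ Cp kM → I.Star c C Cp kM → ∀ ji, ji ≤ I.jB →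
    CvrIn (skBase I.n 1) (skLvs I.n I.P) ji I.js (I.jU + 1) I.W I.x (I.sv * I.x ^ 3 / (I.W * Real.sqrt I.W))
      (∑ j ∈ Finset.Icc (I.jU + 1) (skLvs I.n I.P).length, cvrDm (skBase I.n 1) (skLvs I.n I.P) j / cvrV (skBase I.n 1) (skLvs I.n I.P) j) Cr Ca kM := by
  refine ⟨fun k => 2 * (|Cp k| * (|C| + 1)), fun k => 2 * |Cp k|, fun kM I h hS ji hji => ?_⟩
  have hx0 := h.x0
  have hW0 : 0 < I.W := lt_of_lt_of_le hx0 h.xW
  have hsv0 := h.sv0
  have hC0 : 0 < C := cvn_C_pos I h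
  have hjs := hS.jBs
  have hjsU := hS.jsU
  have hjBX := h.jBX
  refine cvr_in_of_sk (r := fun k => |Cp k| * (|C| + 1)) (ca := fun k => |Cp k|) (by have := h.n2; omega) h.adm (by omega) (by omega) hS.jUN hx0 h.xW
    (by positivity) ?_ (fun k => by positivity) (fun k => abs_nonneg _) (fun k hk => ?_) (fun k hk => ?_)
    (fun z V j k hj hjN hk => cvr_i_prj h hS z V j k hj hjN hk)
  · rw [cvn_lo_succ]
    exact lt_of_lt_of_le (mul_pos hc hW0) hS.ULo
  · rw [abs_of_pos hC0]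
    exact cvn_raw_W I h hS (by omega) hk
  · rw [abs_of_pos hC0]
    exact cvn_raw_x I h (by omega) hk

/-- **INSTANCE of `CvrIn` for the STAR-ONLY tests** (`kI = js`, no initial edge): initial cut `= *`, initial scale `:= W`, SAME anchor constant `A = sv x³ / W^{3/2}` -/
theorem cvr_in_of_cav_star (c C ρ : ℝ) (Cp : ℕ → ℝ) (hc : 0 < c) : ∃ Cr Ca : ℕ → ℝ, ∀ (kM : ℕ) (I : CavIn), I.Ok c C ρ Cp kM → I.Star c C Cp kM →
    CvrIn (skBase I.n 1) (skLvs I.n I.P) I.js I.js (I.jU + 1) I.W I.W (I.sv * I.x ^ 3 / (I.W * Real.sqrt I.W))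
      (∑ j ∈ Finset.Icc (I.jU + 1) (skLvs I.n I.P).length, cvrDm (skBase I.n 1) (skLvs I.n I.P) j / cvrV (skBase I.n 1) (skLvs I.n I.P) j) Cr Ca kM := by
  refine ⟨fun k => 2 * (|Cp k| * (|C| + 1)), fun k => 2 * |Cp k|, fun kM I h hS => ?_⟩
  have hx0 := h.x0
  have hW0 : 0 < I.W := lt_of_lt_of_le hx0 h.xW
  have hsv0 := h.sv0
  have hC0 : 0 < C := cvn_C_pos I h
  have hjsU := hS.jsU
  refine cvr_in_of_sk (r := fun k => |Cp k| * (|C| + 1)) (ca := fun k => |Cp k|) (by have := h.n2; omega) h.adm le_rfl (by omega) hS.jUN hW0 le_rfl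
    (by positivity) ?_ (fun k => by positivity) (fun k => abs_nonneg _) (fun k hk => ?_) (fun k hk => ?_)
    (fun z V j k hj hjN hk => cvr_i_prj h hS z V j k hj hjN hk)
  · rw [cvn_lo_succ]
    exact lt_of_lt_of_le (mul_pos hc hW0) hS.ULo
  · rw [abs_of_pos hC0]
    exact cvn_raw_W I h hS (by omega) hk
  · rw [abs_of_pos hC0]
    exact cvn_raw_W I h hS (by omega) hk


end Claimed.Agent.R286
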