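import Claimed.Agent.R286.Cav.TstInst
import Claimed.Agent.R286.Cav.Sys
import Claimed.Agent.R286.Cav.Defs
import Claimed.Agent.R286.Cav.Num
import Claimed.Agent.R286.Cav.Bdy
import Claimed.Agent.R286.Cav.Rep
import Claimed.Agent.R286.Cav.ScPair

/-!
# Row 286 (S0533), folder Cav (PE Section 4), file EqPr : VOCABULARY OF (24)/(25) ON THE SK SYSTEM + THE PROJECTED BOUND `hpr` OF `led_main`      (owner helper244; prefix `cve`, `Cve`)

* 1. vocabulary of `Cav/Eq24` (204) and `Cav/Eq25` (244): `CveHyp` (standing hypotheses on one instance), `CveTg` (initial tooth), `CveMon` (monomial, target, fresh label), `Y.cveA`, `Y.cveM1`, `Y.cveM2`.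
* 2. **`cve_pr`** = the hypotheses `hPi`, `hgp`, `hpr` of `led_main` (204, `Cav/LedTayG`) at `Y = cvySys m0 I.P`, `τ = cvtStar Y.N kI I.js`, `kU = I.jU + 1`:      TEX[PE:lem:cavity-row-identity] (l.632-640, use of (13))
      `Pi j = Cpr sv x³ / (W lo_j)`,   `|γ_j| Pi j ≤ Cpi sv x³ / W`.
  ROUTE: `cvy_rest` (the rest-only law is the SK path `cvRest n P` of size `m0`), `cvr_proj_bound` (232, unit Rep: singly projected difference) on THAT path, with the instance `cve_rest_in : CvrIn ..` from `Star.prjR` ((13) for the rest-only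
  system, `cvr_anchor_of_prj`), raw moments under the rest-only law from the actual law (`cvb_leR_of_leA` = PE Lemma 4.3 for norms, 169) and (12) (`cvn_raw_W`, `cvn_raw_x`, `cvn_le_del`, 56);   `γ_j ≤ K_j ≤ C lo_j` (`cvs_x_gam_le`, 205).
-/

set_option autoImplicit false

namespace Claimed.Agent.R286

/-! ## 1. vocabulary -/

/-- the standing hypotheses on one instance -/
structure CveHyp (c C ρ : ℝ) (Cp : ℕ → ℝ) (kM : ℕ) (w0 δ : ℝ) (I : CavIn) (m0 : ℕ) : Prop where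
  hn : I.n = m0 + 1
  ok : I.Ok c C ρ Cp kM
  star : I.Star c C Cp kM
  hW : I.W ≤ w0
  hx : I.x ≤ δ
  hsv : I.sv ≤ δ
  het : I.et ≤ δ

/-- the initial tooth: a target cut of the low band (one initial edge allowed), or the star cut itself (star-only tests) -/
def CveTg (I : CavIn) (kI Ii : ℕ) : Prop := (kI ≤ I.jB ∧ Ii = 1) ∨ (kI = I.js ∧ Ii = 0)

/-- the monomial, the target and the fresh label -/
structure CveMon (Nd Qd Ii a f : ℕ) (μ : CvtMon) : Prop where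
  ok : CvtOk Nd Qd Ii a μ
  top : cvtTopM μ ≤ f
  ne : f ≠ a
  le : f ≤ Qd + 1

namespace LedSys

variable {Ω : Type} (Y : LedSys Ω)

/-- `A(μ) = ν[s_a s_f μ]` on the star table with `q` labels -/
def cveA (kI kS q a f : ℕ) (μ : CvtMon) : ℝ :=
  Y.act q (cvtStar Y.N kI kS) fun σ => ledSg (σ a).1 * ledSg (σ f).1 * Y.mEv kI kS μ (ledRs σ)

/-- first retained term of (24) for the monomial `μ` -/
def cveM1 (kI kS kU q a f : ℕ) (μ : CvtMon) : ℝ := Y.main1 kU kS q (cvtStar Y.N kI kS) a f (Y.mEv kI kS μ)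

/-- second retained term of (24) for the monomial `μ` -/
noncomputable def cveM2 (kI kS kU q a f : ℕ) (μ : CvtMon) : ℝ := Y.main2 kU kS q (cvtStar Y.N kI kS) a f (Y.mEv kI kS μ)

end LedSys

/-- the projected cost at the split depth `j` -/
noncomputable def cvePi (I : CavIn) (Cpr : ℝ) (j : ℕ) : ℝ := Cpr * I.sv * (I.x ^ 3 / (I.W * cvLo I.P j))

theorem cve_eqns_cite2 : True := by
  have := @CveTg.eq_1
  have := @LedSys.cveA.eq_1
  have := @LedSys.cveM1.eq_1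
  have := @LedSys.cveM2.eq_1
  have := @cvePi.eq_1
  trivial

theorem CavIn.Ok.cve_mono {I : CavIn} {c C ρ : ℝ} {Cp : ℕ → ℝ} {kM kM' : ℕ} (h : I.Ok c C ρ Cp kM) (hk : kM' ≤ kM) : I.Ok c C ρ Cp kM' :=
  { h with
    raw := fun j k hj hk' => h.raw j k hj (hk'.trans hk) }

theorem CavIn.Star.cve_mono {I : CavIn} {c C : ℝ} {Cp : ℕ → ℝ} {kM kM' : ℕ} (h : I.Star c C Cp kM) (hk : kM' ≤ kM) : I.Star c C Cp kM' :=
  { h with
    mom := fun k hk' => h.mom k (hk'.trans hk)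
    resU := fun j0 jv k h1 h2 h3 hk' => h.resU j0 jv k h1 h2 h3 (hk'.trans hk)
    prj := fun z V jv k h1 h2 hk' => h.prj z V jv k h1 h2 (hk'.trans hk)
    prjR := fun z V jv k h1 h2 hk' => h.prjR z V jv k h1 h2 (hk'.trans hk) }

theorem CveHyp.mono {c C ρ : ℝ} {Cp : ℕ → ℝ} {kM kM' : ℕ} {w0 w0' δ δ' : ℝ} {I : CavIn} {m0 : ℕ} (h : CveHyp c C ρ Cp kM w0 δ I m0)
    (hk : kM' ≤ kM) (hw : w0 ≤ w0') (hδ : δ ≤ δ') : CveHyp c C ρ Cp kM' w0' δ' I m0 :=
  ⟨h.hn, h.ok.cve_mono hk, h.star.cve_mono hk, h.hW.trans hw, h.hx.trans hδ, h.hsv.trans hδ, h.het.trans hδ⟩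

/-- the weak form used by the leaves without smallness -/
theorem CveHyp.weak {c C ρ : ℝ} {Cp : ℕ → ℝ} {kM kM' : ℕ} {w0 δ : ℝ} {I : CavIn} {m0 : ℕ} (h : CveHyp c C ρ Cp kM w0 δ I m0)
    (hk : kM' ≤ kM) (hδ : δ ≤ 1) : CveHyp c C ρ Cp kM' C 1 I m0 :=
  ⟨h.hn, h.ok.cve_mono hk, h.star.cve_mono hk, h.ok.WC, h.hx.trans hδ, h.hsv.trans hδ, h.het.trans hδ⟩

theorem cve_N (m0 : ℕ) (P : SkStp) : (cvySys m0 P).N = P.length := rfl

theorem CveTg.le {I : CavIn} {c C : ℝ} {Cp : ℕ → ℝ} {kM kI Ii : ℕ} (h : CveTg I kI Ii) (hs : I.Star c C Cp kM) : kI ≤ I.js := by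
  rcases h with h | h
  · exact h.1.trans hs.jBs.le
  · exact h.1.le

theorem cve_js_le {I : CavIn} {c C : ℝ} {Cp : ℕ → ℝ} {kM : ℕ} (hs : I.Star c C Cp kM) (m0 : ℕ) : I.js ≤ (cvySys m0 I.P).N := by
  rw [cve_N]
  have h1 := hs.jsU
  have h2 : I.jU < I.P.length := hs.jUN
  omega

/-- `ν[1] = 1` -/
theorem cve_nu_nil {Ω : Type} (Y : LedSys Ω) (hY : Y.Ok) {kI kS : ℕ} (h1 : kI ≤ kS) (h2 : kS ≤ Y.N) : Y.nuM kI kS [] = 1 :=
  (hY.mean (fun _ => 1) 1 _ _ led_t_prof1 led_t_one_mem (cvt_star_isTr h1 h2 (cvtTopM []))).one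

theorem CveMon.nil {Nd Qd Ii a f : ℕ} {μ : CvtMon} (h : CveMon Nd Qd Ii a f μ) : CveMon Nd Qd Ii a f [] :=
  ⟨cvt_ok_nil h.ok, (cvtTopM_pos μ).trans h.top, h.ne, h.le⟩

/-! ## 2. the projected bound -/

/-- the extension of the star table: the fresh partner `b` leaves every other label by the depth `kS` -/
theorem cve_ext_le {N kI kS kU q : ℕ} (hIS : kI ≤ kS) (hSU : kS < kU) {τ' : ℕ → ℕ → ℕ} (hτ' : IsTr N (q + 3) τ')
    (hag : ∀ x y, x < q → y < q → τ' x y = cvtStar N kI kS x y) {a b : ℕ} (ha : a < q) (hb : b < q) (hab : a ≠ b)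
    (h1 : kU ≤ τ' a q) (h2 : ∃ o, o < q ∧ kU ≤ τ' o (q + 1)) (h2b : τ' (q + 1) b < kU) (h3 : kU ≤ τ' (q + 1) (q + 2)) :
    ∀ v, v < q + 3 → v ≠ b → τ' b v ≤ kS := by
  have hold : ∀ v, v < q → v ≠ b → τ' b v ≤ kS := by
    intro v hv hvb
    rw [hag b v hb hv]
    unfold cvtStar
    rw [if_neg (Ne.symm hvb)]
    split_ifs
    · exact hIS
    · exact le_rfl
  have hq : τ' b q ≤ kS := by
    have u := hτ'.ultra b q a (by omega) (by omega) (by omega)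
    have s := hτ'.symm q a (by omega) (by omega)
    have o := hold a ha hab
    rw [s] at u
    rcases min_le_iff.1 (u.trans o) with h | h
    · exact h
    · omega
  have hq1 : τ' b (q + 1) ≤ kS := by
    obtain ⟨o, ho, hko⟩ := h2
    have hob : o ≠ b := by
      rintro rfl
      rw [hτ'.symm (q + 1) o (by omega) (by omega)] at h2b
      omega
    have u := hτ'.ultra b (q + 1) o (by omega) (by omega) (by omega)
    have s := hτ'.symm (q + 1) o (by omega) (by omega)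
    have o' := hold o ho hob
    rw [s] at u
    rcases min_le_iff.1 (u.trans o') with h | h
    · exact h
    · omega
  have hq2 : τ' b (q + 2) ≤ kS := by
    have u := hτ'.ultra b (q + 2) (q + 1) (by omega) (by omega) (by omega)
    have s := hτ'.symm (q + 2) (q + 1) (by omega) (by omega)
    rw [s] at u
    rcases min_le_iff.1 (u.trans hq1) with h | h
    · exact h
    · omega
  intro v hv hvb
  rcases Nat.lt_or_ge v q with h | h
  · exact hold v h hvb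
  · have : v = q ∨ v = q + 1 ∨ v = q + 2 := by omega
    rcases this with rfl | rfl | rfl
    · exact hq
    · exact hq1
    · exact hq2

/-- the masses of the rest path -/
theorem cve_rest_ms (m0 n : ℕ) (P : SkStp) (j : ℕ) : trMs (skBase m0 1) (skLvs m0 (cvRest n P)) j = skMs 1 P j := by
  unfold trMs skMs skLvs cvRest
  rw [List.getD_eq_getElem?_getD]
  simp only [List.getElem?_map, Option.map_map]
  rcases P[j]? with _ | e
  · rfl
  · rfl

/-- the masses of the rest path -/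
theorem cve_rest_V (m0 : ℕ) (P : SkStp) (j : ℕ) : cvrV (skBase m0 1) (skLvs m0 (cvRest (m0 + 1) P)) j = cvLo P j := by
  unfold cvrV trPm cvLo
  simp only [cve_rest_ms]

theorem cve_rest_adm (m0 : ℕ) {P : SkStp} (hP : SkAdm 1 P) : SkAdm 1 (cvRest (m0 + 1) P) := by
  constructor
  · unfold cvRest
    rw [List.pairwise_map]
    exact hP.1
  · intro e he
    unfold cvRest at he
    rw [List.mem_map] at he
    obtain ⟨e', he', rfl⟩ := he
    obtain ⟨h1, h2, h3, h4⟩ := hP.2 e' he'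
    refine ⟨h1, h2, ?_, h4⟩
    show 0 ≤ e'.db * (((m0 + 1 : ℕ) : ℝ) - 1) / ((m0 + 1 : ℕ) : ℝ)
    push_cast
    simp only [add_sub_cancel_right]
    positivity

theorem cve_rest_len (m0 n : ℕ) (P : SkStp) : (skLvs m0 (cvRest n P)).length = P.length := by simp [skLvs, cvRest]

/-- **raw moments of the overlap of the rest-only system** from (12) for the actual system: deleted site, PE Lemma 4.3 for norms, normalisation `m0` instead of `m0 + 1` -/
theorem cve_rest_raw (Cb : ℝ) : ∃ G : ℝ, 1 ≤ G ∧ ∀ (m0 : ℕ) (P : SkStp) (hP : SkAdm 1 P), 1 ≤ m0 → (∀ r, skCumB P r ≤ Cb) → (∀ r, skCumH P r ≤ Cb) →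
    ∀ (t k : ℕ) (w : ℝ), t ≤ P.length → cvNu (m0 + 1) P (obT2 t) (fun σ => skOv (σ 0) (σ 1) ^ (2 * k)) ≤ w ^ (2 * k) →
      CvLe (cvpE (sk_sy_base_ok m0 one_pos) (sk_sy_adm (n := m0) (cve_rest_adm m0 hP)) 2 (trTwo P.length t) 0) k (fun σ => skOv (σ 0) (σ 1))
        (G * (2 * (|w| + 1 / ((m0 : ℝ) + 1)))) := by
  obtain ⟨G, hG1, hG⟩ := cvb_leR_of_leA 2 Cb
  refine ⟨G, hG1, fun m0 P hP hm hb hh t k w ht hw => ?_⟩
  have hY := cvy_ok m0 P hP
  have hτ : IsTr (cvySys m0 P).N 2 (ledPair P.length t) := ret_pair_isTr P.length t (by omega)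
  have h0 := cvn_le_del m0 P hP t ht k 0 w (by simpa using hw)
  have hm0 : (0 : ℝ) < (m0 : ℝ) := by exact_mod_cast hm
  have h1 := h0.smul (((m0 : ℝ) + 1) / (m0 : ℝ))
  have hfac : |((m0 : ℝ) + 1) / (m0 : ℝ)| ≤ 2 := by
    rw [abs_of_nonneg (by positivity), div_le_iff₀ hm0]
    have : (1 : ℝ) ≤ (m0 : ℝ) := by exact_mod_cast hm
    linarith
  have h2 := h1.weaken (mul_le_mul_of_nonneg_right hfac h0.1)
  have hA : (cvySys m0 P).LeA 2 (ledPair P.length t) k (fun ω => skOv (ω 0) (ω 1)) (2 * (|w| + 1 / ((m0 : ℝ) + 1))) := by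
    refine ⟨h2.1, le_trans (le_of_eq ?_) h2.2⟩
    have eE : ∀ F, (cvnE m0 P hP t ht).E F = (cvySys m0 P).act 2 (ledPair P.length t) F := fun F => rfl
    rw [eE]
    congr 1
    funext σ
    have e := cvy_r_ov (σ 0).2 (σ 1).2
    show skOv (σ 0).2 (σ 1).2 ^ (2 * k) = (((m0 : ℝ) + 1) / (m0 : ℝ) * (liR (σ 0).2 (σ 1).2 - 0)) ^ (2 * k)
    congr 1
    rw [sub_zero, div_mul_eq_mul_div, ← e]
    field_simp
  have hu : TrUses 2 fun ω : ℕ → SkCfg m0 => skOv (ω 0) (ω 1) := by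
    intro σ σ' h
    show skOv (σ 0) (σ 1) = skOv (σ' 0) (σ' 1)
    rw [h 0 (by norm_num), h 1 (by norm_num)]
  have hR := hG _ (cvySys m0 P) hY hb hh (ledPair P.length t) k _ _ hτ hu hA
  refine ⟨hR.1, le_trans (le_of_eq ?_) hR.2⟩
  rw [sk_cvpl_nu_E]
  exact (cvy_rest m0 P hP 2 (ledPair P.length t) hτ _ (fun σ σ' h => by
    show skOv (σ 0) (σ 1) ^ (2 * k) = skOv (σ' 0) (σ' 1) ^ (2 * k)
    rw [h 0 (by norm_num), h 1 (by norm_num)])).symm

/-- centring in `L^{2k}` -/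
theorem cve_cen_le {X : Type} {ν : CvExp X} {k : ℕ} {f : X → ℝ} {c : ℝ} (h : CvLe ν k f c) : CvLe ν k (fun ω => f ω - ν.E f) (2 * c) := by
  rcases Nat.eq_zero_or_pos k with rfl | hk
  · refine ⟨by have := h.1; positivity, ?_⟩
    simp only [mul_zero, pow_zero]
    exact (ν.const 1).le
  · have h1 := CvLe.abs_mean_le hk h
    have h2 := h.sub ((CvLe.const ν k (ν.E f)).weaken h1)
    rw [two_mul]
    exact h2

/-- **the instance of `CvrIn` for the REST-ONLY system** (initial depth `0`: `cvr_proj_bound` does not see it) -/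
theorem cve_rest_in (c C ρ : ℝ) (Cp : ℕ → ℝ) (hc : 0 < c) : ∃ Cr Ca : ℕ → ℝ, ∀ (I : CavIn) (m0 : ℕ), CveHyp c C ρ Cp 2 C 1 I m0 →
    CvrIn (skBase m0 1) (skLvs m0 (cvRest (m0 + 1) I.P)) 0 I.js (I.jU + 1) I.W I.x (I.sv * I.x ^ 3 / (I.W * Real.sqrt I.W))
      (∑ j ∈ Finset.Icc (I.jU + 1) (skLvs m0 (cvRest (m0 + 1) I.P)).length,
        cvrDm (skBase m0 1) (skLvs m0 (cvRest (m0 + 1) I.P)) j / cvrV (skBase m0 1) (skLvs m0 (cvRest (m0 + 1) I.P)) j) Cr Ca 2 := by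
  obtain ⟨G, hG1, hG⟩ := cve_rest_raw C
  refine ⟨fun k => 2 * (G * (2 * (|Cp k| * (|C| + 1) + 1))), fun k => 2 * |Cp k|, fun I m0 hI => ?_⟩
  have hP := hI.ok.adm
  have hx0 := hI.ok.x0
  have hW0 : 0 < I.W := lt_of_lt_of_le hx0 hI.ok.xW
  have hsv0 := hI.ok.sv0
  have hC0 : 0 < C := cvn_C_pos I hI.ok
  have hm : 1 ≤ m0 := by have := hI.ok.n2; have := hI.hn; omega
  have hlen := cve_rest_len m0 (m0 + 1) I.P
  have hjU : I.jU < I.P.length := hI.star.jUN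
  have hb : ∀ r, skCumB I.P r ≤ C := (cvn_bh_le I m0 hI.ok).1
  have hh : ∀ r, skCumH I.P r ≤ C := (cvn_bh_le I m0 hI.ok).2
  have hinv : 1 / ((m0 : ℝ) + 1) ≤ I.x := by
    refine (cvn_inv_n I m0 hI.hn hI.ok).trans ?_
    have h1 : I.sv ^ 2 ≤ 1 := pow_le_one₀ hsv0.le hI.hsv
    have h2 : I.x ^ 6 ≤ I.x := by
      calc I.x ^ 6 = I.x ^ 5 * I.x := by ring
        _ ≤ 1 * I.x := mul_le_mul_of_nonneg_right (pow_le_one₀ hx0.le hI.hx) hx0.le
        _ = I.x := one_mul _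
    calc I.sv ^ 2 * I.x ^ 6 ≤ 1 * I.x := mul_le_mul h1 h2 (by positivity) zero_le_one
      _ = I.x := one_mul _
  have hG0 : 0 ≤ G := by linarith
  -- raw moments at the depth `t`, scale `y`
  have hraw : ∀ (t k : ℕ) (y : ℝ), t ≤ I.P.length → I.x ≤ y →
      cvNu (m0 + 1) I.P (obT2 t) (fun σ => skOv (σ 0) (σ 1) ^ (2 * k)) ≤ (|Cp k| * (C + 1) * y) ^ (2 * k) →
      CvLe (cvpE (sk_sy_base_ok m0 one_pos) (sk_sy_adm (n := m0) (cve_rest_adm m0 hP)) 2 (trTwo I.P.length t) 0) k (fun σ => skOv (σ 0) (σ 1))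
        (G * (2 * (|Cp k| * (|C| + 1) + 1)) * y) := by
    intro t k y ht hy hw
    have hy0 : 0 ≤ y := hx0.le.trans hy
    refine (hG m0 I.P hP hm hb hh t k _ ht hw).weaken ?_
    rw [abs_of_nonneg (by positivity : 0 ≤ |Cp k| * (C + 1) * y), abs_of_pos hC0]
    have : |Cp k| * (C + 1) * y + 1 / ((m0 : ℝ) + 1) ≤ (|Cp k| * (C + 1) + 1) * y := by linarith [hinv.trans hy]
    calc G * (2 * (|Cp k| * (C + 1) * y + 1 / ((m0 : ℝ) + 1))) ≤ G * (2 * ((|Cp k| * (C + 1) + 1) * y)) :=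
          mul_le_mul_of_nonneg_left (mul_le_mul_of_nonneg_left this zero_le_two) hG0
      _ = _ := by ring
  have hrawS : ∀ k, k ≤ 2 → CvLe (cvpE (sk_sy_base_ok m0 one_pos) (sk_sy_adm (n := m0) (cve_rest_adm m0 hP)) 2 (trTwo I.P.length I.js) 0) k
      (fun σ => skOv (σ 0) (σ 1)) (G * (2 * (|Cp k| * (|C| + 1) + 1)) * I.W) := by
    intro k hk
    have h := cvn_raw_W I hI.ok hI.star (j := I.js) (r := k) (by have := hI.star.jsU; omega) hk
    rw [hI.hn] at h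
    exact hraw I.js k I.W (by have := hI.star.jsU; omega) hI.ok.xW h
  have hraw0 : ∀ k, k ≤ 2 → CvLe (cvpE (sk_sy_base_ok m0 one_pos) (sk_sy_adm (n := m0) (cve_rest_adm m0 hP)) 2 (trTwo I.P.length 0) 0) k
      (fun σ => skOv (σ 0) (σ 1)) (G * (2 * (|Cp k| * (|C| + 1) + 1)) * I.x) := by
    intro k hk
    have h := cvn_raw_x I hI.ok (j := 0) (r := k) (by omega) hk
    rw [hI.hn] at h
    exact hraw 0 k I.x (by omega) le_rfl h
  have hlo0 : ∀ j, 0 ≤ cvLo I.P j := cvn_lo_nonneg I.P hP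
  refine
    { okB := sk_sy_base_ok m0 one_pos
      adm := sk_sy_adm (cve_rest_adm m0 hP)
      a_le := by show (1 : ℝ) ≤ 4; norm_num
      hn := hm
      ord := ⟨Nat.zero_le _, Nat.lt_succ_of_le hI.star.jsU, by rw [hlen]; exact hjU⟩
      x_pos := hx0
      x_le := hI.ok.xW
      A_nonneg := by positivity
      Cr_nonneg := fun k => by positivity
      Ca_nonneg := fun k => by positivity
      lg_nonneg := ?_
      U_pos := ?_
      raw_star := fun k hk => ?_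
      cen_star := fun k hk => ?_
      cen_ini := fun k hk => ?_
      anchor := fun k j hk hj hjN => ?_
      mesh := le_rfl }
  · refine Finset.sum_nonneg fun j hj => ?_
    rw [hlen] at hj
    have hj2 := (Finset.mem_Icc.1 hj).2
    rw [cve_rest_V]
    refine div_nonneg ?_ (hlo0 j)
    unfold cvrDm
    have e : trPm (trMs (skBase m0 1) (skLvs m0 (cvRest (m0 + 1) I.P))) j = cvLo I.P j := cve_rest_V m0 I.P j
    rw [e, cve_rest_ms]
    linarith [cvn_lo_le I.P hP (le_refl j) hj2]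
  · rw [cve_rest_V, cvn_lo_succ]
    exact lt_of_lt_of_le (by positivity) hI.star.ULo
  · unfold cvrM
    rw [hlen]
    have h := (hrawS k hk).2
    rw [sk_cvpl_nu_E] at h
    refine h.trans (pow_le_pow_left₀ (hrawS k hk).1 ?_ _)
    have := (hrawS k hk).1
    linarith
  · unfold cvrC cvrS
    rw [hlen]
    have h := (cve_cen_le (hrawS k hk)).2
    rw [sk_cvpl_nu_E, sk_cvpl_nu_E] at h
    exact h.trans (le_of_eq (by ring))
  · unfold cvrC cvrS
    rw [hlen]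
    have h := (cve_cen_le (hraw0 k hk)).2
    rw [sk_cvpl_nu_E, sk_cvpl_nu_E] at h
    exact h.trans (le_of_eq (by ring))
  · rw [hlen] at hjN
    have hpr := hI.star.prjR
    rw [hI.hn] at hpr
    have hy0 : 0 ≤ I.x ^ 3 / (I.W * Real.sqrt I.W * cvLo I.P j) := by have := hlo0 j; positivity
    have h := cvr_anchor_of_prj m0 (cvRest (m0 + 1) I.P) (cve_rest_adm m0 hP) I.js j k (by have := hI.star.jsU; omega)
      (by unfold cvRest; rw [List.length_map]; exact hjN) (|Cp k| * I.sv * (I.x ^ 3 / (I.W * Real.sqrt I.W * cvLo I.P j))) (by positivity)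
      (fun z V => by
        refine (hpr z V j k (by omega) hjN hk).trans (le_of_eq ?_)
        congr 1
        rw [← (even_two_mul k).pow_abs, abs_mul, abs_mul, abs_of_pos hsv0, abs_of_nonneg hy0])
    have e : 2 * (|Cp k| * I.sv * (I.x ^ 3 / (I.W * Real.sqrt I.W * cvLo I.P j)))
        = 2 * |Cp k| * (I.sv * I.x ^ 3 / (I.W * Real.sqrt I.W)) / cvrV (skBase m0 1) (skLvs m0 (cvRest (m0 + 1) I.P)) j := by
      rw [cve_rest_V]
      simp only [div_eq_mul_inv, mul_inv]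
      ring
    rw [← e]
    exact h

/-- `γ_j ≤ K_j ≤ C lo_j` above `U` -/
theorem cve_gam_le (c C ρ : ℝ) (Cp : ℕ → ℝ) (hc : 0 < c) : ∃ Cg : ℝ, 0 ≤ Cg ∧ ∀ (I : CavIn) (m0 : ℕ), CveHyp c C ρ Cp 1 C 1 I m0 →
    ∀ j, I.jU + 1 ≤ j → j ≤ (cvySys m0 I.P).N → |(cvySys m0 I.P).gam (I.jU + 1) j| ≤ Cg * cvLo I.P j := by
  refine ⟨|C| + |C| * (|Cp 1| * (1 + 1 / c)), by positivity, fun I m0 hI j hj hjN => ?_⟩
  have hP := hI.ok.adm
  have hjN' : j ≤ I.P.length := hjN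
  have hC0 : 0 < C := cvn_C_pos I hI.ok
  rw [abs_of_pos hC0, abs_of_nonneg (cvs_x_gam_nonneg m0 hP (I.jU + 1) hjN')]
  refine (cvs_x_gam_le m0 hP (I.jU + 1) hjN').trans ?_
  show skCumH I.P j + skCumB I.P j * cvS (m0 + 1) I.P j ≤ _
  have hx0 := hI.ok.x0
  have h1 : skCumH I.P j ≤ C * cvLo I.P j := hI.ok.hHi j (by have := hI.star.jXU; omega) hjN'
  have h2 : skCumB I.P j ≤ C := (cvn_b_le I.P hP j).trans hI.ok.totB
  have h2' : 0 ≤ skCumB I.P j := cvn_b_nonneg I.P hP j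
  have hraw := hI.ok.raw j 1 hjN' le_rfl
  rw [hI.hn] at hraw
  have h3 := cvn_S_le m0 I.P hP j hjN' 1 le_rfl _ hraw
  have hlo0 : 0 ≤ cvLo I.P j := cvn_lo_nonneg I.P hP j
  have hlo : skMs 1 I.P I.jU ≤ cvLo I.P j := by
    unfold cvLo
    rw [if_neg (by omega)]
    exact cvn_ms_mono I.P hP (by omega) (by omega)
  have h4 : I.x ≤ 1 / c * cvLo I.P j := by
    have : c * I.x ≤ cvLo I.P j := (mul_le_mul_of_nonneg_left hI.ok.xW hc.le).trans (hI.star.ULo.trans hlo)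
    rw [div_mul_eq_mul_div, one_mul, le_div_iff₀ hc]
    linarith
  have h5 : cvS (m0 + 1) I.P j ≤ |Cp 1| * (1 + 1 / c) * cvLo I.P j := by
    refine (le_abs_self _).trans (h3.trans ?_)
    rw [abs_mul, abs_of_nonneg (by positivity : 0 ≤ cvLo I.P j + I.x)]
    have : cvLo I.P j + I.x ≤ (1 + 1 / c) * cvLo I.P j := by linarith
    calc |Cp 1| * (cvLo I.P j + I.x) ≤ |Cp 1| * ((1 + 1 / c) * cvLo I.P j) := mul_le_mul_of_nonneg_left this (abs_nonneg _)
      _ = _ := by ring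
  have h6 : skCumB I.P j * cvS (m0 + 1) I.P j ≤ C * (|Cp 1| * (1 + 1 / c) * cvLo I.P j) :=
    (mul_le_mul_of_nonneg_left h5 h2').trans (mul_le_mul_of_nonneg_right h2 (by positivity))
  calc _ ≤ C * cvLo I.P j + C * (|Cp 1| * (1 + 1 / c) * cvLo I.P j) := add_le_add h1 h6
    _ = _ := by ring

/-- **the hypotheses `hPi`, `hgp`, `hpr` of `led_main` on the star table of the SK system** -/
theorem cve_pr (c C ρ : ℝ) (Cp : ℕ → ℝ) (hc : 0 < c) (_hρ : 0 < ρ) :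
    ∃ Cpr Cpi : ℝ, 0 ≤ Cpr ∧ 0 ≤ Cpi ∧ ∀ (I : CavIn) (m0 : ℕ), CveHyp c C ρ Cp 2 C 1 I m0 →
      (∀ j, 0 ≤ cvePi I Cpr j) ∧
      (∀ j, I.jU + 1 ≤ j → j ≤ (cvySys m0 I.P).N → |(cvySys m0 I.P).gam (I.jU + 1) j| * cvePi I Cpr j ≤ Cpi * I.sv * (I.x ^ 3 / I.W)) ∧
      ∀ (kI q a b : ℕ), kI ≤ I.js → a < q → b < q → a ≠ b →
      ∀ (τ' : ℕ → ℕ → ℕ) (Φ : (ℕ → SkCfg m0) → ℝ), IsTr (cvySys m0 I.P).N (q + 3) τ' →
        (∀ x y, x < q → y < q → τ' x y = cvtStar (cvySys m0 I.P).N kI I.js x y) →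
        I.jU + 1 ≤ τ' a q → τ' (q + 1) a < I.jU + 1 → τ' (q + 1) b < I.jU + 1 → (∃ o, o < q ∧ I.jU + 1 ≤ τ' o (q + 1)) →
        I.jU + 1 ≤ τ' (q + 1) (q + 2) → τ' (q + 1) (q + 2) ≤ (cvySys m0 I.P).N → TrUses (q + 3) Φ → LedFree b Φ →
        |(cvySys m0 I.P).nuR (q + 3) τ' fun ω => Φ ω * ((cvySys m0 I.P).R (ω (q + 2)) (ω b) - (cvySys m0 I.P).R (ω (q + 1)) (ω b))|
          ≤ Real.sqrt ((cvySys m0 I.P).nuR (q + 3) τ' fun ω => Φ ω ^ 2) * cvePi I Cpr (τ' (q + 1) (q + 2)) := by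
  obtain ⟨Cr, Ca, Hin⟩ := cve_rest_in c C ρ Cp hc
  obtain ⟨Cg, hCg, Hg⟩ := cve_gam_le c C ρ Cp hc
  refine ⟨|Ca 2| * Real.sqrt |Cr 2|, Cg * (|Ca 2| * Real.sqrt |Cr 2|), by positivity, by positivity, fun I m0 hI => ?_⟩
  set Cpr := |Ca 2| * Real.sqrt |Cr 2| with hCpr
  have hCpr0 : 0 ≤ Cpr := by positivity
  have hx0 := hI.ok.x0
  have hW0 : 0 < I.W := lt_of_lt_of_le hx0 hI.ok.xW
  have hsv0 := hI.ok.sv0
  have hlo : ∀ j, 0 ≤ cvLo I.P j := cvn_lo_nonneg I.P hI.ok.adm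
  have hPi0 : ∀ j, 0 ≤ cvePi I Cpr j := fun j => by
    unfold cvePi
    have := hlo j
    positivity
  refine ⟨hPi0, fun j hj hjN => ?_, ?_⟩
  · have h1 := Hg I m0 (hI.mono (by norm_num) le_rfl le_rfl) j hj hjN
    refine (mul_le_mul_of_nonneg_right h1 (hPi0 j)).trans ?_
    unfold cvePi
    rcases (hlo j).eq_or_lt with h0 | h0
    · rw [← h0]
      simp only [mul_zero, div_zero]
      positivity
    · apply le_of_eq
      field_simp
  · intro kI q a b hkI ha hb hab τ' Φ hτ' hag h1 h2 h3 h4 h5 h6 hΦ hfr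
    have hin := Hin I m0 hI
    have hlen : (skLvs m0 (cvRest (m0 + 1) I.P)).length = I.P.length := by simp [skLvs, cvRest]
    have hτl : IsTr (skLvs m0 (cvRest (m0 + 1) I.P)).length (q + 3) τ' := by rw [hlen]; exact hτ'
    have hθs := cve_ext_le hkI (Nat.lt_succ_of_le hI.star.jsU) hτ' hag ha hb hab h1 h4 h3 h5
    have hfree : TrFree (fun b' => b' = b) Φ := by
      intro σ σ' h
      have e : σ' = Function.update σ b (σ' b) := by
        funext i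
        by_cases hi : i = b
        · subst hi; simp
        · rw [Function.update_of_ne hi, h i hi]
      rw [e, hfr]
    have hN0 : 0 ≤ trNu (skBase m0 1) (skLvs m0 (cvRest (m0 + 1) I.P)) (q + 3) τ' 0 fun ω => Φ ω ^ 2 :=
      (cvpE hin.okB hin.adm (q + 3) τ' 0).nonneg fun σ => sq_nonneg _
    have hc₁ : CvLe (cvpE hin.okB hin.adm (q + 3) τ' 0) 1 Φ
        (Real.sqrt (trNu (skBase m0 1) (skLvs m0 (cvRest (m0 + 1) I.P)) (q + 3) τ' 0 fun ω => Φ ω ^ 2)) := by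
      refine ⟨Real.sqrt_nonneg _, ?_⟩
      rw [mul_one, Real.sq_sqrt hN0]
      exact le_rfl
    have hc₂ : CvLe (cvpE hin.okB hin.adm (q + 3) τ' 0) 2 (fun _ => (1 : ℝ)) 1 := by
      simpa using CvLe.const (cvpE hin.okB hin.adm (q + 3) τ' 0) 2 (1 : ℝ)
    have key := cvr_proj_bound hin le_rfl hτl (a := q + 1) (c := q + 2) (θ := b) (j := τ' (q + 1) (q + 2)) (by omega) (by omega) (by omega) rfl h5
      (by rw [hlen]; exact h6) (by omega) (by omega) hθs Φ (fun _ => 1) hΦ (fun _ _ _ => rfl) hfree (fun _ _ _ => rfl) hc₁ hc₂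
    have hu1 : TrUses (q + 3) fun ω : ℕ → SkCfg m0 => Φ ω * ((cvySys m0 I.P).R (ω (q + 2)) (ω b) - (cvySys m0 I.P).R (ω (q + 1)) (ω b)) := by
      intro σ σ' h
      show Φ σ * _ = Φ σ' * _
      rw [hΦ σ σ' h, h (q + 2) (by omega), h (q + 1) (by omega), h b (by omega)]
    have hu2 : TrUses (q + 3) fun ω : ℕ → SkCfg m0 => Φ ω ^ 2 := by
      intro σ σ' h
      show Φ σ ^ 2 = Φ σ' ^ 2
      rw [hΦ σ σ' h]
    rw [cvy_rest m0 I.P hI.ok.adm (q + 3) τ' hτ' _ hu1, cvy_rest m0 I.P hI.ok.adm (q + 3) τ' hτ' _ hu2]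
    have hn := li_n_pos m0
    set κ : ℝ := (m0 : ℝ) / ((m0 : ℝ) + 1) with hκ
    have hκ0 : 0 ≤ κ := by positivity
    have hκ1 : κ ≤ 1 := by rw [hκ, div_le_one hn]; linarith
    have hR : ∀ ω ω' : SkCfg m0, (cvySys m0 I.P).R ω ω' = κ * skOv ω ω' := by
      intro ω ω'
      have := cvy_r_ov ω ω'
      show liR ω ω' = _
      rw [hκ, div_mul_eq_mul_div, this]
      field_simp
    have e1 : (fun ω : ℕ → SkCfg m0 => Φ ω * ((cvySys m0 I.P).R (ω (q + 2)) (ω b) - (cvySys m0 I.P).R (ω (q + 1)) (ω b)))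
        = fun ω => κ * ((skOv (ω (q + 2)) (ω b) - skOv (ω (q + 1)) (ω b)) * Φ ω * (fun _ => (1 : ℝ)) ω) := by
      funext ω
      rw [hR, hR]
      ring
    rw [e1]
    have e2 := (cvpE hin.okB hin.adm (q + 3) τ' 0).smul κ fun ω => (skOv (ω (q + 2)) (ω b) - skOv (ω (q + 1)) (ω b)) * Φ ω * (fun _ => (1 : ℝ)) ω
    rw [sk_cvpl_nu_E, sk_cvpl_nu_E] at e2
    rw [e2, abs_mul, abs_of_nonneg hκ0]
    refine (mul_le_of_le_one_left (abs_nonneg _) hκ1).trans (key.trans (le_of_eq ?_))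
    rw [cve_rest_V, hCpr, abs_of_nonneg (hin.Ca_nonneg 2), abs_of_nonneg (hin.Cr_nonneg 2), Real.sqrt_mul (hin.Cr_nonneg 2)]
    unfold cvePi
    have hs : Real.sqrt I.W ≠ 0 := (Real.sqrt_pos.2 hW0).ne'
    simp only [div_eq_mul_inv, mul_inv]
    have hs1 : (Real.sqrt I.W)⁻¹ * Real.sqrt I.W = 1 := inv_mul_cancel₀ hs
    linear_combination (Ca 2 * (I.sv * I.x ^ 3 * I.W⁻¹) * (cvLo I.P (τ' (q + 1) (q + 2)))⁻¹ * Real.sqrt (Cr 2)
      * Real.sqrt (trNu (skBase m0 1) (skLvs m0 (cvRest (m0 + 1) I.P)) (q + 3) τ' 0 fun ω => Φ ω ^ 2)) * hs1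

end Claimed.Agent.R286
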