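import Claimed.Agent.R286.Cav.Rep
import Claimed.Agent.R286.Cav.Num

/-!
# Row 286 (S0533), folder Cav (PE Section 4), file RepInst : PRODUCERS OF THE ABSTRACT RECORDS OF THE UNIT REP FROM `CavIn`      (owner helper223; prefix `cvri`)

`Cav/Rep*` (185) proves PE Lemma 4.8 from the records `CvrIn`, `CvrHigh`, `CvrScal`.      HERE: the records at the ACTUAL SK path `(skBase I.n 1, skLvs I.n I.P)` of an instance `I : CavIn`:
* dictionary `cvri_ms`, `cvri_V`, `cvri_Dm`, `cvri_len`, `cvri_S`, `cvri_M`, `cvri_C`, `cvri_C1`      (`cvr*` numbers = numbers of `Cav/Defs`)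
* `cvriLg I` = the mesh sum `∑_{j > jU} gap_j / lo_j`;   `cvri_lg_le` : `≤ 2 log (1/U)` (field `mesh`);   `cvri_sv_lg` : `sv (lg + 2) ≤ Cl` (`sv ≤ x^ρ`, `U ≥ c W ≥ c x`): THE LOGARITHM IS PAID BY ONE FACTOR `sv`
* `cvri_abel` : (18) PER DYAD in the weighted form `∑ gap D² / lo ≤ (1 + lg) (sv x²/W)²` from the cumulative field `highU` (Abel summation; ruling of 142 on the weighted field: DERIVED, not a new field)
* **`cvri_high`** : `CvrHigh … (jU+1) (lg + 2) (sv x²/W) (cvD …)`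
* **`cvri_in`**   : `CvrIn … (lg + 2)` (from `cvr_in_of_cav` of 185 + monotonicity in `lg`)
CONSUMER: `cve_E3`, `cve_E4` (150, `Cav/Eq25`).
-/

set_option autoImplicit false

namespace Claimed.Agent.R286

open Finset

/-! ## 1. dictionary -/

theorem cvri_len (n : ℕ) (P : SkStp) : (skLvs n P).length = P.length := by simp [skLvs]

theorem cvri_ms (n : ℕ) (P : SkStp) (j : ℕ) : trMs (skBase n 1) (skLvs n P) j = skMs 1 P j := by
  show (((P.map (SkInc.lv n))[j]?).map GhLv.m).getD 1 = (P.map SkInc.m).getD j 1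
  rw [List.getD_eq_getElem?_getD, List.getElem?_map, List.getElem?_map, Option.map_map]
  rfl

theorem cvri_V (n : ℕ) (P : SkStp) (j : ℕ) : cvrV (skBase n 1) (skLvs n P) j = cvLo P j := by
  unfold cvrV trPm cvLo
  split_ifs
  · rfl
  · exact cvri_ms n P _

theorem cvri_Dm (n : ℕ) (P : SkStp) (j : ℕ) : cvrDm (skBase n 1) (skLvs n P) j = skGap 1 P j := by
  have h := cvri_V n P j
  unfold cvrV at h
  unfold cvrDm skGap
  rw [cvri_ms, h]
  rfl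

theorem cvri_S (m : ℕ) (P : SkStp) (hP : SkAdm 1 P) (j : ℕ) (hj : j ≤ P.length) : cvrS (skBase (m + 1) 1) (skLvs (m + 1) P) j = cvS (m + 1) P j := by
  unfold cvrS
  rw [cvr_two_eq (m + 1) P j hj fun s s' => skOv s s']
  exact cvn_S m P hP j hj

theorem cvri_M (n : ℕ) (P : SkStp) (j k : ℕ) (hj : j ≤ P.length) :
    cvrM (skBase n 1) (skLvs n P) j k = cvNu n P (obT2 j) fun σ => skOv (σ 0) (σ 1) ^ (2 * k) := by
  unfold cvrM
  exact cvr_two_eq n P j hj fun s s' => skOv s s' ^ (2 * k)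

theorem cvri_C (m : ℕ) (P : SkStp) (hP : SkAdm 1 P) (j k : ℕ) (hj : j ≤ P.length) :
    cvrC (skBase (m + 1) 1) (skLvs (m + 1) P) j k = cvNu (m + 1) P (obT2 j) fun σ => (skOv (σ 0) (σ 1) - cvS (m + 1) P j) ^ (2 * k) := by
  unfold cvrC
  rw [cvri_S m P hP j hj]
  exact cvr_two_eq (m + 1) P j hj fun s s' => (skOv s s' - cvS (m + 1) P j) ^ (2 * k)

theorem cvri_C1 (m : ℕ) (P : SkStp) (hP : SkAdm 1 P) (j : ℕ) (hj : j ≤ P.length) :
    cvrC (skBase (m + 1) 1) (skLvs (m + 1) P) j 1 = cvD (m + 1) P j ^ 2 := by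
  rw [cvri_C m P hP j 1 hj]
  exact cvn_D2 m P hP j hj

/-! ## 2. abstract summation lemmas -/

/-- **Abel summation**: `lo (j+1) = ms j`, `g j = ms j - lo j ≥ 0`, cumulative bound `∑_{(J, j2]} w ≤ ms j2 * E`  ⟹  `∑ w / lo ≤ F_N / ms_N + E ∑ g / lo` -/
theorem cvri_abel_abs (ms lo w : ℕ → ℝ) (J : ℕ) (E : ℝ) (hlo : ∀ j, lo (j + 1) = ms j) (hpos : ∀ j, J < j → 0 < lo j) (hmono : ∀ j, J < j → lo j ≤ ms j) (N : ℕ) (hJN : J ≤ N)
    (hcum : ∀ j2, J < j2 → j2 ≤ N → ∑ j ∈ Ioc J j2, w j ≤ ms j2 * E) :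
    ∑ j ∈ Ioc J N, w j / lo j ≤ (∑ j ∈ Ioc J N, w j) / ms N + E * ∑ j ∈ Ioc J N, (ms j - lo j) / lo j := by
  induction N, hJN using Nat.le_induction with
  | base => simp
  | succ N hJN ih =>
    have ih' := ih fun j2 h1 h2 => hcum j2 h1 (h2.trans (Nat.le_succ N))
    have hN0 : 0 < ms N := by rw [← hlo N]; exact hpos _ (Nat.lt_succ_of_le hJN)
    have hN1 : ms N ≤ ms (N + 1) := by rw [← hlo N]; exact hmono _ (Nat.lt_succ_of_le hJN)
    have hN2 : 0 < ms (N + 1) := hN0.trans_le hN1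
    have hF := hcum (N + 1) (Nat.lt_succ_of_le hJN) le_rfl
    rw [Finset.sum_Ioc_succ_top hJN, Finset.sum_Ioc_succ_top hJN, Finset.sum_Ioc_succ_top hJN] at *
    rw [hlo N]
    set F := ∑ j ∈ Ioc J N, w j with hFdef
    have key : (F + w (N + 1)) / ms N ≤ (F + w (N + 1)) / ms (N + 1) + E * ((ms (N + 1) - ms N) / ms N) := by
      have e1 : (F + w (N + 1)) / ms N - (F + w (N + 1)) / ms (N + 1) = (F + w (N + 1)) * ((ms (N + 1) - ms N) / (ms N * ms (N + 1))) := by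
        field_simp
      have e2 : (F + w (N + 1)) * ((ms (N + 1) - ms N) / (ms N * ms (N + 1))) ≤ ms (N + 1) * E * ((ms (N + 1) - ms N) / (ms N * ms (N + 1))) :=
        mul_le_mul_of_nonneg_right hF (div_nonneg (by linarith) (by positivity))
      have e3 : ms (N + 1) * E * ((ms (N + 1) - ms N) / (ms N * ms (N + 1))) = E * ((ms (N + 1) - ms N) / ms N) := by
        field_simp
      linarith
    have e4 : (F + w (N + 1)) / ms N = F / ms N + w (N + 1) / ms N := add_div _ _ _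
    rw [mul_add]
    linarith

/-- telescoping of the logarithm: `∑ (ms - lo)/lo ≤ 2 log (ms N / ms J)` on a path with `ms j ≤ 2 lo j` -/
theorem cvri_log_abs (ms lo : ℕ → ℝ) (J : ℕ) (hlo : ∀ j, lo (j + 1) = ms j) (hJ : 0 < ms J) (hmono : ∀ j, J < j → lo j ≤ ms j) (N : ℕ) (hJN : J ≤ N)
    (hmesh : ∀ j, J < j → j ≤ N → ms j ≤ 2 * lo j) :
    ∑ j ∈ Ioc J N, (ms j - lo j) / lo j ≤ 2 * Real.log (ms N / ms J) := by
  have main : 0 < ms N ∧ ∑ j ∈ Ioc J N, (ms j - lo j) / lo j ≤ 2 * Real.log (ms N / ms J) := by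
    induction N, hJN using Nat.le_induction with
    | base => exact ⟨hJ, by simp [div_self hJ.ne']⟩
    | succ N hJN ih =>
      obtain ⟨hN0, ih'⟩ := ih fun j h1 h2 => hmesh j h1 (h2.trans (Nat.le_succ N))
      have hN1 : ms N ≤ ms (N + 1) := by rw [← hlo N]; exact hmono _ (Nat.lt_succ_of_le hJN)
      have hN2 : 0 < ms (N + 1) := hN0.trans_le hN1
      have hN3 : ms (N + 1) ≤ 2 * ms N := by rw [← hlo N]; exact hmesh _ (Nat.lt_succ_of_le hJN) le_rfl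
      refine ⟨hN2, ?_⟩
      rw [Finset.sum_Ioc_succ_top hJN, hlo N]
      have e1 : Real.log (ms (N + 1) / ms J) = Real.log (ms N / ms J) + Real.log (ms (N + 1) / ms N) := by
        rw [← Real.log_mul (by positivity) (by positivity)]
        congr 1
        field_simp
      have e2 : 1 - (ms (N + 1) / ms N)⁻¹ ≤ Real.log (ms (N + 1) / ms N) := Real.one_sub_inv_le_log_of_pos (by positivity)
      have e3 : (ms (N + 1) - ms N) / ms N ≤ 2 * (1 - (ms (N + 1) / ms N)⁻¹) := by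
        rw [inv_div, div_le_iff₀ hN0]
        have e4 : 2 * (1 - ms N / ms (N + 1)) * ms N = 2 * ms N * ((ms (N + 1) - ms N) / ms (N + 1)) := by
          field_simp
        rw [e4, mul_div_assoc', le_div_iff₀ hN2]
        nlinarith
      rw [e1]
      linarith
  exact main.2

/-- `∑ g d ≤ E (G + B)/2` if `∑ g ≤ G`, `∑ g d² ≤ B E²` -/
theorem cvri_amgm (s : Finset ℕ) (g d : ℕ → ℝ) (hg : ∀ j ∈ s, 0 ≤ g j) {E G B : ℝ} (hE : 0 < E) (h1 : ∑ j ∈ s, g j ≤ G) (h2 : ∑ j ∈ s, g j * d j ^ 2 ≤ B * E ^ 2) :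
    ∑ j ∈ s, g j * d j ≤ E * (G + B) / 2 := by
  have h3 : ∀ j ∈ s, g j * d j ≤ E / 2 * g j + 1 / (2 * E) * (g j * d j ^ 2) := by
    intro j hj
    have e1 : d j ≤ E / 2 + 1 / (2 * E) * d j ^ 2 := by
      have e2 : E / 2 + 1 / (2 * E) * d j ^ 2 - d j = (E - d j) ^ 2 / (2 * E) := by
        field_simp
        ring
      have e3 : 0 ≤ (E - d j) ^ 2 / (2 * E) := by positivity
      linarith
    calc g j * d j ≤ g j * (E / 2 + 1 / (2 * E) * d j ^ 2) := mul_le_mul_of_nonneg_left e1 (hg j hj)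
      _ = _ := by ring
  calc ∑ j ∈ s, g j * d j ≤ ∑ j ∈ s, (E / 2 * g j + 1 / (2 * E) * (g j * d j ^ 2)) := Finset.sum_le_sum h3
    _ = E / 2 * ∑ j ∈ s, g j + 1 / (2 * E) * ∑ j ∈ s, g j * d j ^ 2 := by rw [Finset.sum_add_distrib, Finset.mul_sum, Finset.mul_sum]
    _ ≤ E / 2 * G + 1 / (2 * E) * (B * E ^ 2) :=
      add_le_add (mul_le_mul_of_nonneg_left h1 (by positivity)) (mul_le_mul_of_nonneg_left h2 (by positivity))
    _ = E * (G + B) / 2 := by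
      field_simp

/-- the polynomial saving pays the logarithm -/
theorem cvri_pow_log {x ρ : ℝ} (hx0 : 0 < x) (_hx1 : x ≤ 1) (hρ : 0 < ρ) : x ^ ρ * Real.log (1 / x) ≤ 1 / ρ := by
  have hy : 0 < x ^ ρ := Real.rpow_pos_of_pos hx0 ρ
  have e1 : Real.log (1 / x ^ ρ) = ρ * Real.log (1 / x) := by
    rw [one_div, one_div, Real.log_inv, Real.log_inv, Real.log_rpow hx0]
    ring
  have e2 : Real.log (1 / x ^ ρ) ≤ 1 / x ^ ρ - 1 := Real.log_le_sub_one_of_pos (by positivity)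
  have e3 : x ^ ρ * (ρ * Real.log (1 / x)) ≤ 1 := by
    rw [← e1]
    calc x ^ ρ * Real.log (1 / x ^ ρ) ≤ x ^ ρ * (1 / x ^ ρ - 1) := mul_le_mul_of_nonneg_left e2 hy.le
      _ = 1 - x ^ ρ := by field_simp
      _ ≤ 1 := by linarith
  rw [le_div_iff₀ hρ]
  linarith

/-! ## 3. the instance -/

/-- the mesh sum above `U` -/
noncomputable def cvriLg (I : CavIn) : ℝ := ∑ j ∈ Ioc I.jU I.N, skGap 1 I.P j / cvLo I.P j

theorem cvri_eqns_cite : True := by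
  have := @cvriLg.eq_1
  trivial

section inst

variable {c C ρ : ℝ} {Cp : ℕ → ℝ} {kM : ℕ} {I : CavIn}

theorem cvri_U_pos (hc : 0 < c) (h : I.Ok c C ρ Cp kM) (hS : I.Star c C Cp kM) : 0 < skMs 1 I.P I.jU :=
  lt_of_lt_of_le (mul_pos hc (lt_of_lt_of_le h.x0 h.xW)) hS.ULo

theorem cvri_lo_pos (hc : 0 < c) (h : I.Ok c C ρ Cp kM) (hS : I.Star c C Cp kM) {j : ℕ} (hj : I.jU < j) (hjN : j ≤ I.N) : 0 < cvLo I.P j := by
  obtain ⟨i, rfl⟩ : ∃ i, j = i + 1 := ⟨j - 1, by omega⟩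
  rw [cvn_lo_succ]
  have hi : i ≤ I.P.length := by
    have : i + 1 ≤ I.P.length := hjN
    omega
  exact (cvri_U_pos hc h hS).trans_le (cvn_ms_mono I.P h.adm (by omega) hi)

theorem cvri_gap_eq (P : SkStp) (j : ℕ) : skGap 1 P j = skMs 1 P j - cvLo P j := rfl

theorem cvri_lo_le (h : I.Ok c C ρ Cp kM) {j : ℕ} (hjN : j ≤ I.N) : cvLo I.P j ≤ skMs 1 I.P j :=
  cvn_lo_le I.P h.adm le_rfl hjN

/-- beyond the path all masses are `1` -/
theorem cvri_ms_ge (P : SkStp) {j : ℕ} (hj : P.length ≤ j) : skMs 1 P j = 1 :=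
  List.getD_eq_default _ _ (by rw [List.length_map]; exact hj)

/-- `lo ≤ ms` at EVERY index -/
theorem cvri_lo_le' (h : I.Ok c C ρ Cp kM) (j : ℕ) : cvLo I.P j ≤ skMs 1 I.P j := by
  rcases le_or_gt j I.N with hj | hj
  · exact cvri_lo_le h hj
  · obtain ⟨i, rfl⟩ : ∃ i, j = i + 1 := ⟨j - 1, by omega⟩
    have hi : I.P.length ≤ i := by
      have : I.P.length < i + 1 := hj
      omega
    rw [cvn_lo_succ, cvri_ms_ge I.P hi, cvri_ms_ge I.P (by omega)]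

/-- `0 < lo` at EVERY index above `jU` -/
theorem cvri_lo_pos' (hc : 0 < c) (h : I.Ok c C ρ Cp kM) (hS : I.Star c C Cp kM) {j : ℕ} (hj : I.jU < j) : 0 < cvLo I.P j := by
  rcases le_or_gt j I.N with hjN | hjN
  · exact cvri_lo_pos hc h hS hj hjN
  · obtain ⟨i, rfl⟩ : ∃ i, j = i + 1 := ⟨j - 1, by omega⟩
    have hi : I.P.length ≤ i := by
      have : I.P.length < i + 1 := hjN
      omega
    rw [cvn_lo_succ, cvri_ms_ge I.P hi]
    exact one_pos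

theorem cvri_lg_nonneg (hc : 0 < c) (h : I.Ok c C ρ Cp kM) (hS : I.Star c C Cp kM) : 0 ≤ cvriLg I :=
  Finset.sum_nonneg fun j hj =>
    div_nonneg (cvn_gap_nonneg I.P h.adm (Finset.mem_Ioc.1 hj).2) (cvri_lo_pos hc h hS (Finset.mem_Ioc.1 hj).1 (Finset.mem_Ioc.1 hj).2).le

/-- `lg ≤ 2 log (1/U)` -/
theorem cvri_lg_le (hc : 0 < c) (h : I.Ok c C ρ Cp kM) (hS : I.Star c C Cp kM) : cvriLg I ≤ 2 * Real.log (1 / skMs 1 I.P I.jU) := by
  have h1 := cvri_log_abs (skMs 1 I.P) (cvLo I.P) I.jU (fun j => cvn_lo_succ I.P j) (cvri_U_pos hc h hS) (fun j _ => cvri_lo_le' h j) I.N hS.jUN.le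
    (fun j hj hjN => h.mesh j (lt_of_le_of_lt hS.jXU hj) hjN)
  have h2 : skMs 1 I.P I.N = 1 := cvn_ms_top I.P
  rw [h2] at h1
  exact h1

/-- **one factor `sv` pays the logarithm** -/
theorem cvri_sv_lg (c C ρ : ℝ) (hc : 0 < c) (hρ : 0 < ρ) : ∃ Cl : ℝ, 0 ≤ Cl ∧ ∀ (Cp : ℕ → ℝ) (kM : ℕ) (I : CavIn), I.Ok c C ρ Cp kM → I.Star c C Cp kM → I.x ≤ 1 →
    I.sv * (cvriLg I + 2) ≤ Cl := by
  refine ⟨2 * |Real.log (1 / c)| + 2 / ρ + 2, by positivity, fun Cp kM I h hS hx1 => ?_⟩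
  have hx0 := h.x0
  have hU := cvri_U_pos hc h hS
  have hcx : c * I.x ≤ skMs 1 I.P I.jU := (mul_le_mul_of_nonneg_left h.xW hc.le).trans hS.ULo
  have hlg0 := cvri_lg_nonneg hc h hS
  have hlg := cvri_lg_le hc h hS
  have hy0 : 0 < I.x ^ ρ := Real.rpow_pos_of_pos hx0 ρ
  have hy1 : I.x ^ ρ ≤ 1 := Real.rpow_le_one hx0.le hx1 hρ.le
  have e1 : Real.log (1 / skMs 1 I.P I.jU) ≤ Real.log (1 / c) + Real.log (1 / I.x) := by
    rw [← Real.log_mul (by positivity) (by positivity)]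
    refine Real.log_le_log (by positivity) ?_
    rw [one_div_mul_one_div]
    exact one_div_le_one_div_of_le (by positivity) hcx
  have e2 := cvri_pow_log hx0 hx1 hρ
  have e3 : I.x ^ ρ * Real.log (1 / c) ≤ |Real.log (1 / c)| := by
    calc I.x ^ ρ * Real.log (1 / c) ≤ I.x ^ ρ * |Real.log (1 / c)| := mul_le_mul_of_nonneg_left (le_abs_self _) hy0.le
      _ ≤ 1 * |Real.log (1 / c)| := mul_le_mul_of_nonneg_right hy1 (abs_nonneg _)
      _ = _ := one_mul _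
  calc I.sv * (cvriLg I + 2) ≤ I.x ^ ρ * (cvriLg I + 2) := mul_le_mul_of_nonneg_right h.sv1 (by linarith)
    _ ≤ I.x ^ ρ * (2 * (Real.log (1 / c) + Real.log (1 / I.x)) + 2) := mul_le_mul_of_nonneg_left (by linarith) hy0.le
    _ = 2 * (I.x ^ ρ * Real.log (1 / c)) + 2 * (I.x ^ ρ * Real.log (1 / I.x)) + 2 * I.x ^ ρ := by ring
    _ ≤ 2 * |Real.log (1 / c)| + 2 * (1 / ρ) + 2 * 1 := by linarith
    _ = _ := by ring

/-- (18) per dyad, weighted form -/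
theorem cvri_abel (hc : 0 < c) (h : I.Ok c C ρ Cp kM) (hS : I.Star c C Cp kM) :
    ∑ j ∈ Ioc I.jU I.N, skGap 1 I.P j / cvLo I.P j * cvD I.n I.P j ^ 2 ≤ (1 + cvriLg I) * (I.sv * I.x ^ 2 / I.W) ^ 2 := by
  have h1 := cvri_abel_abs (skMs 1 I.P) (cvLo I.P) (fun j => skGap 1 I.P j * cvD I.n I.P j ^ 2) I.jU ((I.sv * I.x ^ 2 / I.W) ^ 2)
    (fun j => cvn_lo_succ I.P j) (fun j hj => cvri_lo_pos' hc h hS hj) (fun j _ => cvri_lo_le' h j) I.N hS.jUN.le hS.highU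
  have h2 : skMs 1 I.P I.N = 1 := cvn_ms_top I.P
  have h3 := hS.highU I.N hS.jUN le_rfl
  rw [h2, one_mul] at h3
  rw [h2, div_one] at h1
  have e1 : ∑ j ∈ Ioc I.jU I.N, skGap 1 I.P j / cvLo I.P j * cvD I.n I.P j ^ 2
      = ∑ j ∈ Ioc I.jU I.N, skGap 1 I.P j * cvD I.n I.P j ^ 2 / cvLo I.P j :=
    Finset.sum_congr rfl fun j _ => by ring
  rw [e1]
  refine h1.trans ?_
  have e2 : ∑ j ∈ Ioc I.jU I.N, (skMs 1 I.P j - cvLo I.P j) / cvLo I.P j = cvriLg I := rfl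
  rw [e2]
  linarith

theorem cvri_tot (hc : 0 < c) (h : I.Ok c C ρ Cp kM) (hS : I.Star c C Cp kM) :
    ∑ j ∈ Ioc I.jU I.N, skGap 1 I.P j * cvD I.n I.P j ≤ I.sv * I.x ^ 2 / I.W := by
  have hW : 0 < I.W := h.x0.trans_le h.xW
  have hE : 0 < I.sv * I.x ^ 2 / I.W := by have := h.sv0; have := h.x0; positivity
  have h2 : skMs 1 I.P I.N = 1 := cvn_ms_top I.P
  have h3 := hS.highU I.N hS.jUN le_rfl
  rw [h2] at h3
  have h4 : ∑ j ∈ Ioc I.jU I.N, skGap 1 I.P j ≤ 1 := by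
    have e : Ioc I.jU I.N = Ico (I.jU + 1) (I.N + 1) := by
      ext j
      simp only [mem_Ioc, mem_Ico]
      omega
    rw [e, cvn_gap_sum_Ico I.P hS.jUN.le, h2]
    linarith [cvri_U_pos hc h hS]
  have := cvri_amgm (Ioc I.jU I.N) (skGap 1 I.P) (cvD I.n I.P) (fun j hj => cvn_gap_nonneg I.P h.adm (Finset.mem_Ioc.1 hj).2) hE h4 h3
  linarith

theorem cvri_wtd (hc : 0 < c) (h : I.Ok c C ρ Cp kM) (hS : I.Star c C Cp kM) :
    ∑ j ∈ Ioc I.jU I.N, skGap 1 I.P j / cvLo I.P j * cvD I.n I.P j ≤ (cvriLg I + 2) * (I.sv * I.x ^ 2 / I.W) := by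
  have hW : 0 < I.W := h.x0.trans_le h.xW
  have hE : 0 < I.sv * I.x ^ 2 / I.W := by have := h.sv0; have := h.x0; positivity
  have hlg0 := cvri_lg_nonneg hc h hS
  have := cvri_amgm (Ioc I.jU I.N) (fun j => skGap 1 I.P j / cvLo I.P j) (cvD I.n I.P)
    (fun j hj => div_nonneg (cvn_gap_nonneg I.P h.adm (Finset.mem_Ioc.1 hj).2) (cvri_lo_pos hc h hS (Finset.mem_Ioc.1 hj).1 (Finset.mem_Ioc.1 hj).2).le)
    hE (G := cvriLg I) le_rfl (cvri_abel hc h hS)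
  nlinarith

theorem cvri_Icc (I : CavIn) (n : ℕ) : Icc (I.jU + 1) (skLvs n I.P).length = Ioc I.jU I.N := by
  rw [cvri_len]
  ext j
  simp only [mem_Icc, mem_Ioc, CavIn.N]
  omega

/-- **PRODUCER of `CvrHigh`** -/
theorem cvri_high (hc : 0 < c) (h : I.Ok c C ρ Cp kM) (hS : I.Star c C Cp kM) :
    CvrHigh (skBase I.n 1) (skLvs I.n I.P) (I.jU + 1) (cvriLg I + 2) (I.sv * I.x ^ 2 / I.W) (cvD I.n I.P) := by
  obtain ⟨m, hm⟩ : ∃ m, I.n = m + 1 := ⟨I.n - 1, by have := h.n2; omega⟩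
  refine ⟨fun j => Real.sqrt_nonneg _, fun j _ hj => ?_, ?_, ?_⟩
  · rw [cvri_len] at hj
    rw [hm]
    exact (cvri_C1 m I.P h.adm j hj).le
  · rw [cvri_Icc]
    simp only [cvri_Dm]
    exact cvri_tot hc h hS
  · rw [cvri_Icc]
    simp only [cvri_Dm, cvri_V]
    exact cvri_wtd hc h hS

end inst

/-- `CvrIn` is monotone in `lg` -/
theorem CvrIn.mono_lg {n : ℕ} {ι : Type} [Fintype ι] {B : GhB (SkCfg n)} {ls : List (GhLv (SkCfg n) ι)} {tI tS tU : ℕ} {W x A lg lg' : ℝ} {Cr Ca : ℕ → ℝ}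
    {kM : ℕ} (h : CvrIn B ls tI tS tU W x A lg Cr Ca kM) (hl : lg ≤ lg') : CvrIn B ls tI tS tU W x A lg' Cr Ca kM :=
  { h with
    lg_nonneg := h.lg_nonneg.trans hl
    mesh := h.mesh.trans hl }

/-- **PRODUCER of `CvrIn`** with the same `lg` as `cvri_high` -/
theorem cvri_in (c C ρ : ℝ) (Cp : ℕ → ℝ) (hc : 0 < c) : ∃ Cr Ca : ℕ → ℝ, ∀ (kM : ℕ) (I : CavIn), I.Ok c C ρ Cp kM → I.Star c C Cp kM → ∀ ji, ji ≤ I.jB →
    CvrIn (skBase I.n 1) (skLvs I.n I.P) ji I.js (I.jU + 1) I.W I.x (I.sv * I.x ^ 3 / (I.W * Real.sqrt I.W)) (cvriLg I + 2) Cr Ca kM := by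
  obtain ⟨Cr, Ca, H⟩ := cvr_in_of_cav c C ρ Cp hc
  refine ⟨Cr, Ca, fun kM I h hS ji hji => (H kM I h hS ji hji).mono_lg ?_⟩
  rw [cvri_Icc]
  simp only [cvri_Dm, cvri_V]
  unfold cvriLg
  linarith

/-- **PRODUCER of `CvrIn` in BOTH cases of the initial tooth** (`CveTg`), ONE pair of constants: target cut of the low band (initial scale `y = x`) or star-only tests (`kI = js`, `y = W`);
SAME `A = sv x³ / W^{3/2}`, same `lg` as `cvri_high`      (helper185) -/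
theorem cvri_in_tg (c C ρ : ℝ) (Cp : ℕ → ℝ) (hc : 0 < c) : ∃ Cr Ca : ℕ → ℝ, ∀ (kM : ℕ) (I : CavIn), I.Ok c C ρ Cp kM → I.Star c C Cp kM →
    ∀ (kI : ℕ) (y : ℝ), ((kI ≤ I.jB ∧ y = I.x) ∨ (kI = I.js ∧ y = I.W)) →
    CvrIn (skBase I.n 1) (skLvs I.n I.P) kI I.js (I.jU + 1) I.W y (I.sv * I.x ^ 3 / (I.W * Real.sqrt I.W)) (cvriLg I + 2) Cr Ca kM := by
  refine ⟨fun k => 2 * (|Cp k| * (|C| + 1)), fun k => 2 * |Cp k|, fun kM I h hS kI y hy => ?_⟩
  have hx0 := h.x0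
  have hW0 : 0 < I.W := lt_of_lt_of_le hx0 h.xW
  have hsv0 := h.sv0
  have hC0 : 0 < C := cvn_C_pos I h
  have hjs := hS.jBs
  have hjsU := hS.jsU
  have hjBX := h.jBX
  have hy0 : 0 < y := by rcases hy with ⟨-, e⟩ | ⟨-, e⟩ <;> rw [e] <;> assumption
  have hyW : y ≤ I.W := by
    rcases hy with ⟨-, e⟩ | ⟨-, e⟩ <;> rw [e]
    exact h.xW
  have hkI : kI ≤ I.js := by rcases hy with ⟨e, -⟩ | ⟨e, -⟩ <;> omega
  refine (cvr_in_of_sk (r := fun k => |Cp k| * (|C| + 1)) (ca := fun k => |Cp k|) (by have := h.n2; omega) h.adm hkI (by omega) hS.jUN hy0 hyW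
    (by positivity) ?_ (fun k => by positivity) (fun k => abs_nonneg _) (fun k hk => ?_) (fun k hk => ?_)
    (fun z V j k hj hjN hk => cvr_i_prj h hS z V j k hj hjN hk)).mono_lg ?_
  · rw [cvn_lo_succ]
    exact lt_of_lt_of_le (mul_pos hc hW0) hS.ULo
  · rw [abs_of_pos hC0]
    exact cvn_raw_W I h hS (by omega) hk
  · rw [abs_of_pos hC0]
    rcases hy with ⟨e1, e2⟩ | ⟨e1, e2⟩
    · rw [e2]
      exact cvn_raw_x I h (by omega) hk
    · rw [e1, e2]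
      exact cvn_raw_W I h hS (by omega) hk
  · rw [cvri_Icc]
    simp only [cvri_Dm, cvri_V]
    unfold cvriLg
    linarith

end Claimed.Agent.R286
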