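import Claimed.Agent.R286.Cav.EqPr
import Claimed.Agent.R286.Cav.RepInst
import Claimed.Agent.R286.Cav.H25Res

/-!
# Row 286 (S0533), folder Cav (PE Section 4), file H25Dic : THE DICTIONARY `LedSys` (deleted overlaps, 204/218) <-> unit REP (full overlaps on `SkCfg n`, 185)      (owner / architect helper150; prefix `h25`, `H25`)

CONSUMER: `Cav/H25.lean` (`cve_E3`, `cve_E4` = leaves of equation (25), `Cav/Eq25`, 244).      TEX[PE:lem:cavity-replacements] (transfer of the replacements to the deleted overlaps, cavity.tex l.375-392, l.868-884)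
DESIGN.  Four objects, each in an `eps`-family ON THE `LedSys` SIDE (`Y.gFl eps τ es` = `∏ (R⁻ + eps s s' - S_{τ e})`, `Cav/H25Res`):
      `Y.fM1 eps`  (first retained term of (24) without `b_*`),   `Y.fM2 eps` (second retained term),   `Y.fL eps` (`𝓛(μ,u)`),   `Y.act q τ (Y.gFl eps τ μ)` (`ν[μ]`).
  (a) `eps = 0`      : the objects of 204 / 218      `h25_a1 .. h25_a4`      (any `LedSys`)
  (b) `eps = 1/n`    : the objects of 185 at `cvySys`      `h25_b1 .. h25_b4`      (`cvy_act`, `cvn_R`, `cvri_S`, `cvri_ms`)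
  (c) `|f eps - f 0| ≤ loss`      `h25_c1 .. h25_c4`      (any `LedSys`; `h25_loss` = `h25_gfl0` + `h25_num`, `h25_sum_le`)
  + scalar data: `h25Kap` (`κ₄` as a function of the table of four labels), `h25_scal : CvrScal`, `h25_chi`;   + admissibility: `h25_adm : CveMon -> CvrAdm`.
EVERY `sorry` = ONE LEAF (claim table `claim286`, key = name of the theorem).   PROVERS PATCH IN PLACE (helper lemmas just above the leaf); a false / awkward statement = one line to helper150.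
-/

set_option autoImplicit false

namespace Claimed.Agent.R286

open Finset

/-! ## 1. vocabulary -/

/-- scale of a factor as a function of the DEPTH of its pair: `w` at the star cut, `x` at the initial cut, `2 + x` elsewhere -/
noncomputable def h25ScD (kI kS : ℕ) (w x : ℝ) (j : ℕ) : ℝ := if j = kS then w else if j = kI then x else 2 + x

namespace LedSys

variable {Ω : Type} (Y : LedSys Ω)

/-- the coefficient of `main1` -/
def fC1 (kU q a f : ℕ) (τ' : ℕ → ℕ → ℕ) : ℝ :=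
  if kU ≤ τ' a q ∧ kU ≤ τ' f (q + 1) then Y.gam kU (τ' a q) * Y.gam kU (τ' f (q + 1)) else 0

/-- first retained term of (24), without `b_*` -/
def fM1 (eps : ℝ) (kU q : ℕ) (τ : ℕ → ℕ → ℕ) (a f : ℕ) (μ : List (ℕ × ℕ)) : ℝ :=
  trSumK Y.ms Y.N 2 q τ fun τ' => Y.fC1 kU q a f τ' * Y.act (q + 2) τ' (Y.gFl eps τ' ((q, q + 1) :: μ))

/-- second retained term of (24) -/
noncomputable def fM2 (eps : ℝ) (kU kS q : ℕ) (τ : ℕ → ℕ → ℕ) (a f : ℕ) (μ : List (ℕ × ℕ)) : ℝ :=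
  trSumK Y.ms Y.N 4 q τ fun τ' => Y.coef2 kU q a f τ' * Y.b (τ' (q + 2) (q + 3)) *
    Y.act (q + 4) τ' fun σ => Y.K kS * Y.gFl eps τ' ((q + 2, q + 3) :: μ) σ + Y.b kS * Y.gFl eps τ' ((q, q + 1) :: (q + 2, q + 3) :: μ) σ

/-- `𝓛(μ, u)` -/
noncomputable def fL (eps : ℝ) (kU q : ℕ) (τ : ℕ → ℕ → ℕ) (u : ℕ) (μ : List (ℕ × ℕ)) : ℝ :=
  trSumK Y.ms Y.N 3 q τ fun τ' => Y.coefM kU q u τ' * Y.b (τ' (q + 1) (q + 2)) * Y.act (q + 3) τ' (Y.gFl eps τ' ((q + 1, q + 2) :: μ))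

end LedSys

/-- the labels `r, c, e, f` as a function on `ℕ` -/
def h25V (r c e f : ℕ) (i : ℕ) : ℕ := if i = 0 then r else if i = 1 then c else if i = 2 then e else f

open Classical in
/-- `κ₄` as a function of the table of the four labels (`0` if this table is not a tree) -/
noncomputable def h25Kap {Ω : Type} (Y : LedSys Ω) (kU : ℕ) (τ' : ℕ → ℕ → ℕ) (r c e f : ℕ) : ℝ :=
  if IsTr Y.N 4 (fun x y => τ' (h25V r c e f x) (h25V r c e f y)) then
    Y.kap4 kU 4 (fun x y => τ' (h25V r c e f x) (h25V r c e f y)) 0 1 2 3 else 0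

/-- the scales of the restoration: Hoelder order `2r`, `w` = star factor, `x` = initial factor, `eps` = size of the site term -/
structure H25Sc {Ω : Type} (Y : LedSys Ω) (r kI kS : ℕ) (w x eps Cb : ℝ) : Prop where
  ok : Y.Ok
  eps0 : 0 ≤ eps
  x0 : 0 < x
  ex : eps ≤ x
  xw : x ≤ w
  momS : Y.mom r kS ≤ w ^ (2 * r)
  momI : Y.mom r kI ≤ x ^ (2 * r)
  b_le : ∀ j, Y.b j ≤ Cb
  /-- two different cuts, or one cut and one scale -/
  hm : kI ≠ kS ∨ x = w

theorem h25_eqns_cite3 : True := by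
  have := @h25ScD.eq_1
  have := @LedSys.fC1.eq_1
  have := @LedSys.fM1.eq_1
  have := @LedSys.fM2.eq_1
  have := @LedSys.fL.eq_1
  have := @h25V.eq_1
  have := @h25Kap.eq_1
  trivial

/-! ## 2. sizes -/

/-- LEAF Z1. homogeneity of the size -/
theorem h25_msz_smul (s w x : ℝ) (m : CvtMon) : cvtMsz (s * w) (s * x) m = s ^ m.length * cvtMsz w x m := by
  induction m with
  | nil => simp [cvtMsz]
  | cons e m ih =>
    unfold cvtMsz at ih ⊢
    simp only [List.map_cons, List.prod_cons, List.length_cons, ih]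
    have : cvtEsz (s * w) (s * x) e = s * cvtEsz w x e := by
      unfold cvtEsz
      split_ifs <;> rfl
    rw [this]
    ring

/-- LEAF Z2. a monomial without initial edge does not see the scale `x` -/
theorem h25_msz_star {m : CvtMon} (h : m.countP (fun e => decide (e.1 = 0 ∨ e.2 = 0)) ≤ 0) (w x x' : ℝ) : cvtMsz w x m = cvtMsz w x' m := by
  unfold cvtMsz
  congr 1
  refine List.map_congr_left fun e he => ?_
  have h0 : m.countP (fun e => decide (e.1 = 0 ∨ e.2 = 0)) = 0 := Nat.le_zero.1 h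
  rw [List.countP_eq_zero] at h0
  have := h0 e he
  unfold cvtEsz
  rw [if_neg (by simpa using this), if_neg (by simpa using this)]

/-- LEAF Z3. the product of the depth scales on the star table is the size -/
theorem h25_scD_msz {N kI kS : ℕ} {w x : ℝ} (hm : kI ≠ kS ∨ x = w) (m : CvtMon) (hloop : ∀ e ∈ m, e.1 ≠ e.2) {τ : ℕ → ℕ → ℕ}
    (hst : ∀ e ∈ m, τ e.1 e.2 = cvtStar N kI kS e.1 e.2) :
    (m.map fun e => h25ScD kI kS w x (τ e.1 e.2)).prod = cvtMsz w x m := by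
  unfold cvtMsz
  congr 1
  refine List.map_congr_left fun e he => ?_
  rw [hst e he]
  unfold cvtStar h25ScD cvtEsz
  rw [if_neg (hloop e he)]
  by_cases h0 : e.1 = 0 ∨ e.2 = 0
  · rw [if_pos h0, if_pos h0]
    by_cases hk : kI = kS
    · rw [if_pos hk]
      rcases hm with hm | hm
      · exact absurd hk hm
      · exact hm.symm
    · rw [if_neg hk, if_pos rfl]
  · rw [if_neg h0, if_neg h0, if_pos rfl]

/-! ## 3. (c): the loss, any `LedSys` -/

section abs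

variable {Ω : Type} {Y : LedSys Ω} {r kI kS : ℕ} {w x eps Cb : ℝ}

/-- the depth scale is at least `x` -/
theorem h25x_scD_ge (hx : 0 < x) (hxw : x ≤ w) (j : ℕ) : x ≤ h25ScD kI kS w x j := by
  unfold h25ScD
  split_ifs <;> linarith

/-- the depth scale is at most `2 + w` -/
theorem h25x_scD_le (hx : 0 < x) (hxw : x ≤ w) (j : ℕ) : h25ScD kI kS w x j ≤ 2 + w := by
  unfold h25ScD
  split_ifs <;> linarith

/-- the depth scale bounds the moment -/
theorem h25x_scD_mom (hsc : H25Sc Y r kI kS w x eps Cb) {j : ℕ} (hj : j ≤ Y.N + 1) : Y.mom r j ≤ h25ScD kI kS w x j ^ (2 * r) := by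
  unfold h25ScD
  split_ifs with h1 h2
  · rw [h1]; exact hsc.momS
  · rw [h2]; exact hsc.momI
  · exact (h25_mom_two Y hsc.ok r hj).trans (pow_le_pow_left₀ (by norm_num) (by have := hsc.x0; linarith) _)

/-- LEAF C0. **loss on one table** (`h25_gfl0` with `sc e = h25ScD .. (τ e)`, `h25_mom_two`, `h25_num` with `y = x`) -/
theorem h25_loss (hsc : H25Sc Y r kI kS w x eps Cb) {Q : ℕ} {τ : ℕ → ℕ → ℕ} (hτ : IsTr Y.N Q τ) (es : List (ℕ × ℕ))
    (hes : ∀ e ∈ es, e.1 < Q ∧ e.2 < Q ∧ e.1 ≠ e.2) (hlen : es.length ≤ 2 * r) :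
    |Y.act Q τ (Y.gFl eps τ es) - Y.act Q τ (Y.gFl 0 τ es)| ≤ (es.map fun e => h25ScD kI kS w x (τ e.1 e.2)).prod * 2 ^ es.length * (eps / x) := by
  have h1 := h25_gfl0 Y hsc.ok r hsc.eps0 hτ es (fun e => h25ScD kI kS w x (τ e.1 e.2)) hlen (by
    intro e he
    obtain ⟨a1, a2, a3⟩ := hes e he
    exact ⟨a1, a2, a3, hsc.x0.le.trans (h25x_scD_ge hsc.x0 hsc.xw _), h25x_scD_mom hsc (hτ.le _ _ a1 a2)⟩)
  have h2 := h25_num hsc.eps0 hsc.x0 hsc.ex (es.map fun e => h25ScD kI kS w x (τ e.1 e.2)) (by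
    intro A hA
    obtain ⟨e, _, rfl⟩ := List.mem_map.1 hA
    exact h25x_scD_ge hsc.x0 hsc.xw _)
  simp only [List.map_map, Function.comp_def, List.length_map] at h2
  have hP : 0 ≤ (es.map fun e => h25ScD kI kS w x (τ e.1 e.2)).prod := List.prod_nonneg (by
    intro A hA
    obtain ⟨e, _, rfl⟩ := List.mem_map.1 hA
    exact hsc.x0.le.trans (h25x_scD_ge hsc.x0 hsc.xw _))
  have ht : 0 ≤ eps / x := div_nonneg hsc.eps0 hsc.x0.le
  refine h1.trans (h2.trans ?_)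
  refine mul_le_mul_of_nonneg_right (mul_le_mul_of_nonneg_left (by linarith) hP) ht

/-- LEAF C4. `ν[μ]` -/
theorem h25_c4 (hsc : H25Sc Y r kI kS w x eps Cb) (hIS : kI ≤ kS) (hSN : kS ≤ Y.N) {q : ℕ} (μ : CvtMon)
    (hμ : ∀ e ∈ μ, e.1 < q ∧ e.2 < q ∧ e.1 ≠ e.2) (hlen : μ.length ≤ 2 * r) :
    |Y.act q (cvtStar Y.N kI kS) (Y.gFl eps (cvtStar Y.N kI kS) μ) - Y.act q (cvtStar Y.N kI kS) (Y.gFl 0 (cvtStar Y.N kI kS) μ)|
      ≤ cvtMsz w x μ * 2 ^ μ.length * (eps / x) := by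
  have h := h25_loss hsc (cvt_star_isTr hIS hSN q) μ hμ hlen
  rwa [h25_scD_msz hsc.hm μ (fun e he => (hμ e he).2.2) (fun _ _ => rfl)] at h

/-- the size is nonnegative -/
theorem h25x_msz_nonneg (hx : 0 < x) (hxw : x ≤ w) (μ : CvtMon) : 0 ≤ cvtMsz w x μ := by
  unfold cvtMsz
  refine List.prod_nonneg ?_
  intro A hA
  obtain ⟨e, _, rfl⟩ := List.mem_map.1 hA
  unfold cvtEsz
  split_ifs <;> linarith

/-- loss on an extension of the star table: `new` = the new edges, `B` = bound of the product of their scales -/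
theorem h25x_loss_ext (hsc : H25Sc Y r kI kS w x eps Cb) {q k : ℕ} (μ : CvtMon)
    (hμ : ∀ e ∈ μ, e.1 < q ∧ e.2 < q ∧ e.1 ≠ e.2) {τ' : ℕ → ℕ → ℕ} (hτ' : IsTr Y.N (q + k) τ')
    (hext : ∀ y z, y < q → z < q → τ' y z = cvtStar Y.N kI kS y z) (new : List (ℕ × ℕ))
    (hnew : ∀ e ∈ new, e.1 < q + k ∧ e.2 < q + k ∧ e.1 ≠ e.2) (hlen : μ.length + new.length ≤ 2 * r) {B : ℝ}
    (hB : (new.map fun e => h25ScD kI kS w x (τ' e.1 e.2)).prod ≤ B) :
    |Y.act (q + k) τ' (Y.gFl eps τ' (new ++ μ)) - Y.act (q + k) τ' (Y.gFl 0 τ' (new ++ μ))|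
      ≤ B * cvtMsz w x μ * 2 ^ (μ.length + new.length) * (eps / x) := by
  have h := h25_loss hsc hτ' (new ++ μ) (by
    intro e he
    rcases List.mem_append.1 he with he | he
    · exact hnew e he
    · obtain ⟨a1, a2, a3⟩ := hμ e he
      exact ⟨by omega, by omega, a3⟩) (by rw [List.length_append]; omega)
  rw [List.map_append, List.prod_append, h25_scD_msz hsc.hm μ (fun e he => (hμ e he).2.2)
    (fun e he => hext _ _ (hμ e he).1 (hμ e he).2.1), List.length_append, add_comm new.length] at h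
  refine h.trans ?_
  have ht : 0 ≤ eps / x := div_nonneg hsc.eps0 hsc.x0.le
  exact mul_le_mul_of_nonneg_right (mul_le_mul_of_nonneg_right
    (mul_le_mul_of_nonneg_right hB (h25x_msz_nonneg hsc.x0 hsc.xw μ)) (by positivity)) ht

theorem h25x_fC1_le (hY : Y.Ok) (kU : ℕ) {q a f : ℕ} {τ' : ℕ → ℕ → ℕ} (hτ' : IsTr Y.N (q + 2) τ') (ha : a < q) (hf : f < q) :
    |Y.fC1 kU q a f τ'| ≤ 1 := by
  unfold LedSys.fC1
  split_ifs
  · rw [abs_mul]
    calc _ ≤ (1 : ℝ) * 1 := mul_le_mul (led_a_gam_le Y hY kU (hτ'.le a q (by omega) (by omega)))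
          (led_a_gam_le Y hY kU (hτ'.le f (q + 1) (by omega) (by omega))) (abs_nonneg _) zero_le_one
      _ = 1 := one_mul 1
  · simp

/-- LEAF C1. first retained term (`h25_sum_le`, `|fC1| ≤ 1` by `led_a_gam_le`, `cvrx_split`: the pair `(q, q+1)` splits at `kS` on the support) -/
theorem h25_c1 (hsc : H25Sc Y r kI kS w x eps Cb) (hIS : kI ≤ kS) {kU : ℕ} (hSU : kS < kU) (hUN : kU ≤ Y.N) {q a f : ℕ} (μ : CvtMon)
    (hμ : ∀ e ∈ μ, e.1 < q ∧ e.2 < q ∧ e.1 ≠ e.2) (hlen : μ.length + 1 ≤ 2 * r) (ha : a < q) (hf : f < q) (haf : cvtStar Y.N kI kS a f = kS) :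
    |Y.fM1 eps kU q (cvtStar Y.N kI kS) a f μ - Y.fM1 0 kU q (cvtStar Y.N kI kS) a f μ|
      ≤ h25TV 2 q * (w * cvtMsz w x μ * 2 ^ (μ.length + 1) * (eps / x)) := by
  have hw : 0 ≤ w := hsc.x0.le.trans hsc.xw
  have ht : 0 ≤ eps / x := div_nonneg hsc.eps0 hsc.x0.le
  have hM : 0 ≤ w * cvtMsz w x μ * 2 ^ (μ.length + 1) * (eps / x) :=
    mul_nonneg (mul_nonneg (mul_nonneg hw (h25x_msz_nonneg hsc.x0 hsc.xw μ)) (by positivity)) ht
  unfold LedSys.fM1
  refine h25_sum_le (cvt_star_isTr hIS (by omega) q) hsc.ok.ms_ok hsc.ok.ms_top 2 _ _ hM fun τ' hτ' hext => ?_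
  rw [← mul_sub, abs_mul]
  by_cases hc : kU ≤ τ' a q ∧ kU ≤ τ' f (q + 1)
  · have hs : τ' q (q + 1) = kS := cvrx_split hτ' (a := a) (b := f) (by omega) (by omega) (by omega) (by omega)
      (by rw [hext a f ha hf, haf]) hSU hc.1 hc.2
    have h := h25x_loss_ext hsc μ hμ hτ' hext [(q, q + 1)] (by
      intro e he
      rw [List.mem_singleton] at he
      subst he
      exact ⟨by simp, by simp, by simp⟩) (by simpa using hlen) (B := w) (by
        simp only [List.map_cons, List.map_nil, List.prod_cons, List.prod_nil, mul_one, hs]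
        unfold h25ScD
        rw [if_pos rfl])
    simp only [List.cons_append, List.nil_append, List.length_cons, List.length_nil, zero_add] at h
    calc _ ≤ 1 * _ := mul_le_mul (h25x_fC1_le hsc.ok kU hτ' ha hf) h (abs_nonneg _) zero_le_one
      _ = _ := one_mul _
  · have : Y.fC1 kU q a f τ' = 0 := by
      unfold LedSys.fC1
      rw [if_neg hc]
    rw [this, abs_zero, zero_mul]
    exact hM

theorem h25x_coefM_le (hY : Y.Ok) (kU : ℕ) {q u : ℕ} {τ' : ℕ → ℕ → ℕ} (hτ' : IsTr Y.N (q + 3) τ') (hu : u < q) :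
    |Y.coefM kU q u τ'| ≤ 1 := by
  unfold LedSys.coefM
  split_ifs
  · rw [abs_mul, abs_of_pos (by norm_num : (0 : ℝ) < 1 / 2)]
    have := led_a_kap4_le Y hY kU hτ' (a := u) (c := q) (e := q + 1) (f := q + 2) (by omega) (by omega) (by omega) (by omega)
    linarith
  · simp

/-- LEAF C3. `𝓛(μ,u)` (`|coefM| ≤ 1`, `b ≤ Cb`; the scale of the high pair is at most `2 + w`) -/
theorem h25_c3 (hsc : H25Sc Y r kI kS w x eps Cb) (hIS : kI ≤ kS) (hSN : kS ≤ Y.N) (kU : ℕ) {q u : ℕ} (μ : CvtMon)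
    (hμ : ∀ e ∈ μ, e.1 < q ∧ e.2 < q ∧ e.1 ≠ e.2) (hlen : μ.length + 1 ≤ 2 * r) (hu : u < q) :
    |Y.fL eps kU q (cvtStar Y.N kI kS) u μ - Y.fL 0 kU q (cvtStar Y.N kI kS) u μ|
      ≤ h25TV 3 q * (Cb * ((2 + w) * cvtMsz w x μ * 2 ^ (μ.length + 1) * (eps / x))) := by
  have hw : 0 ≤ w := hsc.x0.le.trans hsc.xw
  have ht : 0 ≤ eps / x := div_nonneg hsc.eps0 hsc.x0.le
  have hCb : 0 ≤ Cb := (led_a_b_nonneg Y hsc.ok 0).trans (hsc.b_le 0)
  have hM0 : 0 ≤ (2 + w) * cvtMsz w x μ * 2 ^ (μ.length + 1) * (eps / x) :=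
    mul_nonneg (mul_nonneg (mul_nonneg (by linarith) (h25x_msz_nonneg hsc.x0 hsc.xw μ)) (by positivity)) ht
  unfold LedSys.fL
  refine h25_sum_le (cvt_star_isTr hIS hSN q) hsc.ok.ms_ok hsc.ok.ms_top 3 _ _ (mul_nonneg hCb hM0) fun τ' hτ' hext => ?_
  rw [← mul_sub, abs_mul, abs_mul, abs_of_nonneg (led_a_b_nonneg Y hsc.ok _)]
  have h := h25x_loss_ext hsc μ hμ hτ' hext [(q + 1, q + 2)] (by
    intro e he
    rw [List.mem_singleton] at he
    subst he
    exact ⟨by simp, by simp, by simp⟩) (by simpa using hlen) (B := 2 + w) (by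
      simp only [List.map_cons, List.map_nil, List.prod_cons, List.prod_nil, mul_one]
      exact h25x_scD_le hsc.x0 hsc.xw _)
  simp only [List.cons_append, List.nil_append, List.length_cons, List.length_nil, zero_add] at h
  refine mul_le_mul ?_ h (abs_nonneg _) hCb
  calc _ ≤ 1 * Cb := mul_le_mul (h25x_coefM_le hsc.ok kU hτ' hu) (hsc.b_le _) (led_a_b_nonneg Y hsc.ok _) zero_le_one
    _ = Cb := one_mul _

/-- LEAF C2. second retained term (`|coef2| ≤ 2`) -/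
theorem h25_c2 (hsc : H25Sc Y r kI kS w x eps Cb) (hIS : kI ≤ kS) {kU : ℕ} (hSU : kS < kU) (hUN : kU ≤ Y.N) {q a f : ℕ} (μ : CvtMon)
    (hμ : ∀ e ∈ μ, e.1 < q ∧ e.2 < q ∧ e.1 ≠ e.2) (hlen : μ.length + 2 ≤ 2 * r) (ha : a < q) (hf : f < q) (haf : cvtStar Y.N kI kS a f = kS) :
    |Y.fM2 eps kU kS q (cvtStar Y.N kI kS) a f μ - Y.fM2 0 kU kS q (cvtStar Y.N kI kS) a f μ|
      ≤ h25TV 4 q * (2 * Cb * ((|Y.K kS| + Cb * w) * ((2 + w) * cvtMsz w x μ * 2 ^ (μ.length + 2) * (eps / x)))) := by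
  have hw : 0 ≤ w := hsc.x0.le.trans hsc.xw
  have ht : 0 ≤ eps / x := div_nonneg hsc.eps0 hsc.x0.le
  have hCb : 0 ≤ Cb := (led_a_b_nonneg Y hsc.ok 0).trans (hsc.b_le 0)
  have hmz := h25x_msz_nonneg hsc.x0 hsc.xw μ
  have hM0 : 0 ≤ (2 + w) * cvtMsz w x μ * 2 ^ (μ.length + 2) * (eps / x) :=
    mul_nonneg (mul_nonneg (mul_nonneg (by linarith) hmz) (by positivity)) ht
  have hM1 : 0 ≤ (|Y.K kS| + Cb * w) * ((2 + w) * cvtMsz w x μ * 2 ^ (μ.length + 2) * (eps / x)) :=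
    mul_nonneg (add_nonneg (abs_nonneg _) (mul_nonneg hCb hw)) hM0
  have hM : 0 ≤ 2 * Cb * ((|Y.K kS| + Cb * w) * ((2 + w) * cvtMsz w x μ * 2 ^ (μ.length + 2) * (eps / x))) :=
    mul_nonneg (by positivity) hM1
  unfold LedSys.fM2
  refine h25_sum_le (cvt_star_isTr hIS (by omega) q) hsc.ok.ms_ok hsc.ok.ms_top 4 _ _ hM fun τ' hτ' hext => ?_
  rw [← mul_sub, abs_mul, abs_mul, abs_of_nonneg (led_a_b_nonneg Y hsc.ok _)]
  by_cases hc : Y.coef2 kU q a f τ' = 0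
  · rw [hc, abs_zero, zero_mul, zero_mul]
    exact hM
  obtain ⟨c1, c2, -, -⟩ := ledc_coef2_supp hτ' (by omega) (by omega) (by omega) hc
  have hs : τ' q (q + 1) = kS := cvrx_split hτ' (a := a) (b := f) (by omega) (by omega) (by omega) (by omega)
    (by rw [hext a f ha hf, haf]) hSU c1 c2
  have hmean := hsc.ok.mean (fun _ => 1) 1 (q + 4) τ' led_t_prof1 led_t_one_mem hτ'
  have lin : ∀ e : ℝ, Y.act (q + 4) τ' (fun σ => Y.K kS * Y.gFl e τ' ((q + 2, q + 3) :: μ) σ + Y.b kS * Y.gFl e τ' ((q, q + 1) :: (q + 2, q + 3) :: μ) σ)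
      = Y.K kS * Y.act (q + 4) τ' (Y.gFl e τ' ((q + 2, q + 3) :: μ)) + Y.b kS * Y.act (q + 4) τ' (Y.gFl e τ' ((q, q + 1) :: (q + 2, q + 3) :: μ)) := by
    intro e
    unfold LedSys.act
    rw [hmean.add, hmean.smul, hmean.smul]
  rw [lin, lin]
  have h1 := h25x_loss_ext hsc μ hμ hτ' hext [(q + 2, q + 3)] (by
    intro e he
    rw [List.mem_singleton] at he
    subst he
    exact ⟨by simp, by simp, by simp⟩) (by simp only [List.length_cons, List.length_nil]; omega) (B := 2 + w) (by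
      simp only [List.map_cons, List.map_nil, List.prod_cons, List.prod_nil, mul_one]
      exact h25x_scD_le hsc.x0 hsc.xw _)
  have h2 := h25x_loss_ext hsc μ hμ hτ' hext [(q, q + 1), (q + 2, q + 3)] (by
    intro e he
    simp only [List.mem_cons, List.mem_nil_iff, or_false] at he
    rcases he with rfl | rfl
    · exact ⟨by simp, by simp, by simp⟩
    · exact ⟨by simp, by simp, by simp⟩) (by simp only [List.length_cons, List.length_nil]; omega) (B := w * (2 + w)) (by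
      simp only [List.map_cons, List.map_nil, List.prod_cons, List.prod_nil, mul_one, hs]
      have e1 : h25ScD kI kS w x kS = w := by
        unfold h25ScD
        rw [if_pos rfl]
      rw [e1]
      exact mul_le_mul_of_nonneg_left (h25x_scD_le hsc.x0 hsc.xw _) hw)
  simp only [List.cons_append, List.nil_append, List.length_cons, List.length_nil, zero_add] at h1 h2
  set A1 := Y.act (q + 4) τ' (Y.gFl eps τ' ((q + 2, q + 3) :: μ)) with hA1
  set A0 := Y.act (q + 4) τ' (Y.gFl 0 τ' ((q + 2, q + 3) :: μ)) with hA0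
  set B1 := Y.act (q + 4) τ' (Y.gFl eps τ' ((q, q + 1) :: (q + 2, q + 3) :: μ)) with hB1
  set B0 := Y.act (q + 4) τ' (Y.gFl 0 τ' ((q, q + 1) :: (q + 2, q + 3) :: μ)) with hB0
  set Z := cvtMsz w x μ with hZ
  set t := eps / x with htd
  have h1' : |A1 - A0| ≤ (2 + w) * Z * 2 ^ (μ.length + 2) * t := by
    refine h1.trans ?_
    refine mul_le_mul_of_nonneg_right (mul_le_mul_of_nonneg_left ?_ (mul_nonneg (by linarith) hmz)) ht
    exact pow_le_pow_right₀ (by norm_num) (by omega)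
  have h2' : |B1 - B0| ≤ w * ((2 + w) * Z * 2 ^ (μ.length + 2) * t) := by
    refine h2.trans (le_of_eq ?_)
    ring
  refine mul_le_mul ?_ ?_ (abs_nonneg _) (by positivity)
  · exact mul_le_mul (ledc_coef2_le hsc.ok kU hτ' ha hf) (hsc.b_le _) (led_a_b_nonneg Y hsc.ok _) (by norm_num)
  · have e : Y.K kS * A1 + Y.b kS * B1 - (Y.K kS * A0 + Y.b kS * B0) = Y.K kS * (A1 - A0) + Y.b kS * (B1 - B0) := by ring
    rw [e]
    calc _ ≤ |Y.K kS * (A1 - A0)| + |Y.b kS * (B1 - B0)| := abs_add_le _ _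
      _ = |Y.K kS| * |A1 - A0| + Y.b kS * |B1 - B0| := by rw [abs_mul, abs_mul, abs_of_nonneg (led_a_b_nonneg Y hsc.ok _)]
      _ ≤ |Y.K kS| * ((2 + w) * Z * 2 ^ (μ.length + 2) * t) + Cb * (w * ((2 + w) * Z * 2 ^ (μ.length + 2) * t)) :=
        add_le_add (mul_le_mul_of_nonneg_left h1' (abs_nonneg _)) (mul_le_mul (hsc.b_le _) h2' (abs_nonneg _) hCb)
      _ = _ := by ring

end abs

/-! ## 4. (a): `eps = 0` gives the objects of `Led*`, `Tst*`, any `LedSys` -/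

section zero

variable {Ω : Type} (Y : LedSys Ω)

/-- LEAF A4. -/
theorem h25_a4 {kI kS q : ℕ} (μ : CvtMon) (hloop : ∀ e ∈ μ, e.1 ≠ e.2) :
    Y.nuQ kI kS q μ = Y.act q (cvtStar Y.N kI kS) (Y.gFl 0 (cvtStar Y.N kI kS) μ) := by
  unfold LedSys.nuQ
  congr 1
  funext σ
  exact h25_mEv_eq Y μ hloop (fun _ _ => rfl) σ

/-- LEAF A1. (`tr_sumK_congr`, `cvrx_split`, `h25_mEv_eq`, `LedMean.smul`) -/
theorem h25_a1 (hY : Y.Ok) {kI kS kU q a f : ℕ} (hIS : kI ≤ kS) (hSU : kS < kU) (hUN : kU ≤ Y.N) (μ : CvtMon)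
    (hμ : ∀ e ∈ μ, e.1 < q ∧ e.2 < q ∧ e.1 ≠ e.2) (ha : a < q) (hf : f < q) (haf : cvtStar Y.N kI kS a f = kS) :
    Y.cveM1 kI kS kU q a f μ = Y.b kS * Y.fM1 0 kU q (cvtStar Y.N kI kS) a f μ := by
  unfold LedSys.cveM1 LedSys.main1 LedSys.fM1
  rw [← cvrx_sumK_mul]
  refine tr_sumK_congr (cvt_star_isTr hIS (by omega) q) 2 _ _ fun τ' hτ' hext => ?_
  unfold LedSys.fC1
  by_cases hc : kU ≤ τ' a q ∧ kU ≤ τ' f (q + 1)
  · have hs : τ' q (q + 1) = kS := cvrx_split hτ' (a := a) (b := f) (by omega) (by omega) (by omega) (by omega)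
      (by rw [hext a f ha hf, haf]) hSU hc.1 hc.2
    have hmean := hY.mean (fun _ => 1) 1 (q + 2) τ' led_t_prof1 led_t_one_mem hτ'
    have e : (fun σ : ℕ → Bool × Ω => Y.dl kS (σ q).2 (σ (q + 1)).2 * Y.mEv kI kS μ (ledRs σ))
        = fun σ => Y.b kS * Y.gFl 0 τ' ((q, q + 1) :: μ) σ := by
      funext σ
      rw [h25_gFl_cons, ← h25_mEv_eq Y μ (fun e he => (hμ e he).2.2) (fun e he => hext _ _ (hμ e he).1 (hμ e he).2.1) σ]
      unfold LedSys.dl LedSys.eFl ledRs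
      simp only [hs]
      ring
    rw [e]
    unfold LedSys.act
    rw [hmean.smul]
    ring
  · rw [if_neg hc, zero_mul, zero_mul, mul_zero]

/-- LEAF A2. (`Q = K + b (R⁻ - S)`) -/
theorem h25_a2 (hY : Y.Ok) {kI kS kU q a f : ℕ} (hIS : kI ≤ kS) (hSU : kS < kU) (hUN : kU ≤ Y.N) (μ : CvtMon)
    (hμ : ∀ e ∈ μ, e.1 < q ∧ e.2 < q ∧ e.1 ≠ e.2) (ha : a < q) (hf : f < q) (haf : cvtStar Y.N kI kS a f = kS) :
    Y.cveM2 kI kS kU q a f μ = Y.fM2 0 kU kS q (cvtStar Y.N kI kS) a f μ := by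
  unfold LedSys.cveM2 LedSys.main2 LedSys.fM2
  refine tr_sumK_congr (cvt_star_isTr hIS (by omega) q) 4 _ _ fun τ' hτ' hext => ?_
  by_cases hc : Y.coef2 kU q a f τ' = 0
  · rw [hc, zero_mul, zero_mul, zero_mul]
  obtain ⟨c1, c2, -, -⟩ := ledc_coef2_supp hτ' (by omega) (by omega) (by omega) hc
  have hs : τ' q (q + 1) = kS := cvrx_split hτ' (a := a) (b := f) (by omega) (by omega) (by omega) (by omega)
    (by rw [hext a f ha hf, haf]) hSU c1 c2
  have hmean := hY.mean (fun _ => 1) 1 (q + 4) τ' led_t_prof1 led_t_one_mem hτ'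
  have e : (fun σ : ℕ → Bool × Ω => Y.mEv kI kS μ (ledRs σ) * Y.dl (τ' (q + 2) (q + 3)) (σ (q + 2)).2 (σ (q + 3)).2 * Y.Q kS (σ q).2 (σ (q + 1)).2)
      = fun σ => Y.b (τ' (q + 2) (q + 3)) * (Y.K kS * Y.gFl 0 τ' ((q + 2, q + 3) :: μ) σ + Y.b kS * Y.gFl 0 τ' ((q, q + 1) :: (q + 2, q + 3) :: μ) σ) := by
    funext σ
    rw [h25_gFl_cons, h25_gFl_cons, h25_gFl_cons, ← h25_mEv_eq Y μ (fun e he => (hμ e he).2.2) (fun e he => hext _ _ (hμ e he).1 (hμ e he).2.1) σ]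
    unfold LedSys.dl LedSys.eFl ledRs LedSys.Q LedSys.K
    simp only [hs]
    ring
  rw [e]
  unfold LedSys.act
  rw [hmean.smul]
  ring

/-- LEAF A3. -/
theorem h25_a3 (hY : Y.Ok) {kI kS : ℕ} (hIS : kI ≤ kS) (hSN : kS ≤ Y.N) (kU : ℕ) {q u : ℕ} (μ : CvtMon)
    (hμ : ∀ e ∈ μ, e.1 < q ∧ e.2 < q ∧ e.1 ≠ e.2) :
    Y.LQ kI kS kU q μ u = Y.fL 0 kU q (cvtStar Y.N kI kS) u μ := by
  unfold LedSys.LQ LedSys.insM LedSys.fL
  refine tr_sumK_congr (cvt_star_isTr hIS hSN q) 3 _ _ fun τ' hτ' hext => ?_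
  have hmean := hY.mean (fun _ => 1) 1 (q + 3) τ' led_t_prof1 led_t_one_mem hτ'
  have e : (fun σ : ℕ → Bool × Ω => (Y.mEv kI kS μ fun i => (σ i).2) * Y.dl (τ' (q + 1) (q + 2)) (σ (q + 1)).2 (σ (q + 2)).2)
      = fun σ => Y.b (τ' (q + 1) (q + 2)) * Y.gFl 0 τ' ((q + 1, q + 2) :: μ) σ := by
    funext σ
    rw [h25_gFl_cons, ← h25_mEv_eq Y μ (fun e he => (hμ e he).2.2) (fun e he => hext _ _ (hμ e he).1 (hμ e he).2.1) σ]
    unfold LedSys.dl LedSys.eFl
    ring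
  rw [e]
  unfold LedSys.act
  rw [hmean.smul]
  ring

end zero

/-! ## 5. scalar data -/

section scal

variable {Ω : Type} (Y : LedSys Ω)

theorem h25_V_lt {Q r c e f : ℕ} (hr : r < Q) (hc : c < Q) (he : e < Q) (hf : f < Q) (i : ℕ) : h25V r c e f i < Q := by
  unfold h25V
  split_ifs <;> assumption

/-- LEAF K1. on a genuine table and four DISTINCT labels `h25Kap` is `κ₄` (`ret_kap4_comap`, `tr_comap_isTr`) -/
theorem h25_kap_eq (hY : Y.Ok) (kU : ℕ) {Q : ℕ} {τ' : ℕ → ℕ → ℕ} (hτ' : IsTr Y.N Q τ') {r c e f : ℕ} (hr : r < Q) (hc : c < Q) (he : e < Q) (hf : f < Q)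
    (h1 : r ≠ c) (h2 : r ≠ e) (h3 : r ≠ f) (h4 : c ≠ e) (h5 : c ≠ f) (h6 : e ≠ f) :
    h25Kap Y kU τ' r c e f = Y.kap4 kU Q τ' r c e f := by
  have hQ : 4 ≤ Q := by
    by_contra hlt
    omega
  unfold h25Kap
  rw [if_pos (tr_comap_isTr hτ' (h25V r c e f) fun x _ => h25_V_lt hr hc he hf x)]
  have h := ret_kap4_comap hY kU hQ hτ' (h25V r c e f) (fun x _ => h25_V_lt hr hc he hf x) (by
    intro i j hi hj hij
    unfold h25V at hij
    split_ifs at hij <;> omega) (a := 0) (c := 1) (e := 2) (f := 3) (by omega) (by omega) (by omega) (by omega)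
  rw [h]
  rfl

/-- LEAF K2. `|κ₄| ≤ 2` -/
theorem h25_kap_le (hY : Y.Ok) (kU : ℕ) (τ' : ℕ → ℕ → ℕ) (r c e f : ℕ) : |h25Kap Y kU τ' r c e f| ≤ 2 := by
  unfold h25Kap
  split_ifs with h
  · exact led_a_kap4_le Y hY kU h (by omega) (by omega) (by omega) (by omega)
  · simp

/-- LEAF K3. locality -/
theorem h25_kap_loc (kU : ℕ) (τ₁ τ₂ : ℕ → ℕ → ℕ) (u w : Fin 4 → ℕ) (h : ∀ i j, τ₁ (u i) (u j) = τ₂ (w i) (w j)) :
    h25Kap Y kU τ₁ (u 0) (u 1) (u 2) (u 3) = h25Kap Y kU τ₂ (w 0) (w 1) (w 2) (w 3) := by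
  have e : (fun x y => τ₁ (h25V (u 0) (u 1) (u 2) (u 3) x) (h25V (u 0) (u 1) (u 2) (u 3) y))
      = fun x y => τ₂ (h25V (w 0) (w 1) (w 2) (w 3) x) (h25V (w 0) (w 1) (w 2) (w 3) y) := by
    funext x y
    unfold h25V
    split_ifs <;> exact h _ _
  unfold h25Kap
  rw [e]

/-- LEAF K4. symmetry in the first two labels (`ret_kap4_comap` with the swap of `0, 1`; `kap4` is symmetric in its first two arguments) -/
theorem h25_kap_symm (hY : Y.Ok) (kU : ℕ) (τ' : ℕ → ℕ → ℕ) (r c e f : ℕ) : h25Kap Y kU τ' r c e f = h25Kap Y kU τ' c r e f := by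
  have key : ∀ r c : ℕ, IsTr Y.N 4 (fun x y => τ' (h25V r c e f x) (h25V r c e f y)) →
      IsTr Y.N 4 (fun x y => τ' (h25V c r e f x) (h25V c r e f y)) ∧
      Y.kap4 kU 4 (fun x y => τ' (h25V c r e f x) (h25V c r e f y)) 0 1 2 3
        = Y.kap4 kU 4 (fun x y => τ' (h25V r c e f x) (h25V r c e f y)) 0 1 2 3 := by
    intro r c hT
    have e1 : (fun x y => τ' (h25V c r e f x) (h25V c r e f y))
        = fun x y => (fun x y => τ' (h25V r c e f x) (h25V r c e f y)) (h25V 1 0 2 3 x) (h25V 1 0 2 3 y) := by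
      have e0 : ∀ x, h25V c r e f x = h25V r c e f (h25V 1 0 2 3 x) := by
        intro x
        by_cases h0 : x = 0
        · subst h0; rfl
        by_cases h1 : x = 1
        · subst h1; rfl
        by_cases h2 : x = 2
        · subst h2; rfl
        simp [h25V, h0, h1, h2]
      funext x y
      show _ = τ' (h25V r c e f (h25V 1 0 2 3 x)) (h25V r c e f (h25V 1 0 2 3 y))
      rw [← e0, ← e0]
    rw [e1]
    refine ⟨tr_comap_isTr hT (h25V 1 0 2 3) fun x _ => h25_V_lt (by omega) (by omega) (by omega) (by omega) x, ?_⟩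
    rw [ret_kap4_comap hY kU le_rfl hT (h25V 1 0 2 3) (fun x _ => h25_V_lt (by omega) (by omega) (by omega) (by omega) x) (by
      intro i j hi hj hij
      unfold h25V at hij
      split_ifs at hij <;> omega) (a := 0) (c := 1) (e := 2) (f := 3) (by omega) (by omega) (by omega) (by omega)]
    show Y.kap4 kU 4 _ 1 0 2 3 = _
    unfold LedSys.kap4
    beta_reduce
    rw [hT.symm 1 0 (by omega) (by omega)]
    congr 2
    funext s
    ring
  unfold h25Kap
  by_cases hT : IsTr Y.N 4 (fun x y => τ' (h25V r c e f x) (h25V r c e f y))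
  · rw [if_pos hT, if_pos (key r c hT).1, (key r c hT).2]
  · rw [if_neg hT, if_neg fun h => hT (key c r h).1]

/-- **the record `CvrScal`** -/
theorem h25_scal (hY : Y.Ok) (kU : ℕ) {v : ℕ → ℝ} {Cg Cb : ℝ} (hg : ∀ j, kU ≤ j → j ≤ Y.N → |Y.gam kU j| ≤ Cg * v j) (hCg : 1 ≤ Cg)
    (hb : ∀ j, Y.b j ≤ Cb) : CvrScal Y.N kU v (Y.gam kU) (h25Kap Y kU) Y.b Cg 2 Cb where
  gam_le := hg
  gam_top := (led_a_gam_le Y hY kU le_rfl).trans hCg
  kap_le := h25_kap_le Y hY kU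
  kap_loc := h25_kap_loc Y kU
  kap_symm := h25_kap_symm Y hY kU
  bf_le := fun j => by rw [abs_of_nonneg (led_a_b_nonneg Y hY j)]; exact hb j

/-- LEAF K5. `χ` (`cvr_sum_blk` with `q = 1`, `trw_att_nr`) -/
theorem h25_chi (hY : Y.Ok) {kU : ℕ} (hU : kU ≤ Y.N) : Y.chi kU = cvrChi Y.ms Y.N kU (Y.gam kU) := by
  have hτ : IsTr Y.N 1 (fun _ _ => Y.N + 1) :=
    ⟨fun _ _ _ _ => le_rfl, fun _ _ => rfl, fun _ _ _ _ => rfl, fun _ _ _ _ _ _ => by simp⟩
  have h := cvr_sum_blk Y.ms hτ (a := 0) (tU := kU) (by omega) hU (fun y hy hy0 => by omega) (fun τ' => Y.gam kU (τ' 0 1))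
  unfold LedSys.chi cvrChi
  rw [trSumK]
  refine Eq.trans h ?_
  refine Finset.sum_congr rfl fun j hj => ?_
  rw [Finset.mem_Icc] at hj
  have : trAtt Y.N 1 (fun _ _ => Y.N + 1) 0 j 0 1 = j := by
    unfold trAtt
    simp
    omega
  rw [this]

/-- LEAF K6. the coefficient of `𝓛` -/
theorem h25_coefM (hY : Y.Ok) (kU : ℕ) {q u : ℕ} (hu : u < q) {τ' : ℕ → ℕ → ℕ} (hτ' : IsTr Y.N (q + 3) τ') :
    Y.coefM kU q u τ' * Y.b (τ' (q + 1) (q + 2)) = cvrCo Y.N kU (h25Kap Y kU) Y.b u q (q + 1) (q + 2) τ' := by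
  unfold LedSys.coefM cvrCo
  rw [h25_kap_eq Y hY kU hτ' (by omega) (by omega) (by omega) (by omega) (by omega) (by omega) (by omega) (by omega) (by omega) (by omega)]
  split_ifs
  · rfl
  · rw [zero_mul]

/-- LEAF K7. the coefficient of the second retained term -/
theorem h25_coef2 (hY : Y.Ok) (kU : ℕ) {q a f : ℕ} (ha : a < q) (hf : f < q) {τ' : ℕ → ℕ → ℕ} (hτ' : IsTr Y.N (q + 4) τ') :
    Y.coef2 kU q a f τ' * Y.b (τ' (q + 2) (q + 3))
      = (if kU ≤ τ' f (q + 1) then Y.gam kU (τ' f (q + 1)) else 0) * cvrCo Y.N kU (h25Kap Y kU) Y.b a q (q + 2) (q + 3) τ'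
        + (if kU ≤ τ' a q then Y.gam kU (τ' a q) else 0) * cvrCo Y.N kU (h25Kap Y kU) Y.b f (q + 1) (q + 2) (q + 3) τ' := by
  unfold LedSys.coef2 cvrCo
  rw [h25_kap_eq Y hY kU hτ' (r := a) (c := q) (e := q + 2) (f := q + 3) (by omega) (by omega) (by omega) (by omega) (by omega) (by omega) (by omega) (by omega) (by omega) (by omega),
    h25_kap_eq Y hY kU hτ' (r := f) (c := q + 1) (e := q + 2) (f := q + 3) (by omega) (by omega) (by omega) (by omega) (by omega) (by omega) (by omega) (by omega) (by omega) (by omega)]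
  by_cases c1 : kU ≤ τ' a q <;> by_cases c2 : kU ≤ τ' f (q + 1) <;> by_cases c3 : τ' (q + 2) (q + 3) ≤ Y.N <;>
    by_cases c4 : kU ≤ τ' a (q + 2) <;> by_cases c5 : kU ≤ τ' a (q + 3) <;> by_cases c6 : kU ≤ τ' f (q + 2) <;> by_cases c7 : kU ≤ τ' f (q + 3) <;>
    simp only [c1, c2, c3, c4, c5, c6, c7, and_true, and_false, if_true, if_false] <;> ring

end scal

/-! ## 6. (b): `eps = 1/n` gives the objects of the unit REP at `cvySys` -/

section dic

variable (m : ℕ) (P : SkStp)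

theorem h25_msf (n : ℕ) : trMs (skBase n 1) (skLvs n P) = skMs 1 P := funext (cvri_ms n P)

/-- one factor along `cvyJoin` -/
theorem h25_dl_join (hP : SkAdm 1 P) (τ : ℕ → ℕ → ℕ) (e : ℕ × ℕ) (he : τ e.1 e.2 ≤ P.length) (σ : ℕ → Bool × SkCfg m) :
    cvrDl (cvrS (skBase (m + 1) 1) (skLvs (m + 1) P)) τ e.1 e.2 (fun i => cvyJoin (σ i)) = (cvySys m P).eFl (1 / ((m : ℝ) + 1)) τ σ e := by
  unfold cvrDl LedSys.eFl
  rw [cvri_S m P hP _ he]
  show _ = liR (σ e.1).2 (σ e.2).2 + _ - cvS (m + 1) P (τ e.1 e.2)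
  rw [cvn_R]
  ring

/-- LEAF B0. **the full monomial along `cvyJoin`** (`cvn_R`, `cvri_S`) -/
theorem h25_mon_join (hP : SkAdm 1 P) (τ : ℕ → ℕ → ℕ) (es : List (ℕ × ℕ)) (hes : ∀ e ∈ es, τ e.1 e.2 ≤ P.length) (σ : ℕ → Bool × SkCfg m) :
    cvrMon (cvrS (skBase (m + 1) 1) (skLvs (m + 1) P)) τ es (fun i => cvyJoin (σ i)) = (cvySys m P).gFl (1 / ((m : ℝ) + 1)) τ es σ := by
  unfold cvrMon LedSys.gFl
  congr 1
  exact List.map_congr_left fun e he => h25_dl_join m P hP τ e (hes e he) σ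

/-- a monomial uses the labels of its edges -/
theorem h25_mon_uses {n : ℕ} (Sf : ℕ → ℝ) (τ : ℕ → ℕ → ℕ) (es : List (ℕ × ℕ)) {Q : ℕ} (h : ∀ e ∈ es, e.1 < Q ∧ e.2 < Q) :
    TrUses Q (cvrMon (n := n) Sf τ es) := by
  intro σ σ' hσ
  unfold cvrMon
  congr 1
  refine List.map_congr_left fun e he => ?_
  unfold cvrDl
  rw [hσ _ (h e he).1, hσ _ (h e he).2]

/-- only the table on the edges matters -/
theorem h25_mon_congr {n : ℕ} (Sf : ℕ → ℝ) {τ τ' : ℕ → ℕ → ℕ} (es : List (ℕ × ℕ)) (h : ∀ e ∈ es, τ' e.1 e.2 = τ e.1 e.2) :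
    cvrMon (n := n) Sf τ' es = cvrMon Sf τ es := by
  funext σ
  unfold cvrMon
  congr 1
  refine List.map_congr_left fun e he => ?_
  unfold cvrDl
  rw [h e he]

/-- LEAF B4. `ν[μ]` (`cvy_act`, `h25_mon_join`) -/
theorem h25_b4 (hP : SkAdm 1 P) {Q : ℕ} {τ : ℕ → ℕ → ℕ} (hτ : IsTr P.length Q τ) (es : List (ℕ × ℕ))
    (hes : ∀ e ∈ es, e.1 < Q ∧ e.2 < Q ∧ τ e.1 e.2 ≤ P.length) :
    trNu (skBase (m + 1) 1) (skLvs (m + 1) P) Q τ 0 (cvrMon (cvrS (skBase (m + 1) 1) (skLvs (m + 1) P)) τ es)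
      = (cvySys m P).act Q τ ((cvySys m P).gFl (1 / ((m : ℝ) + 1)) τ es) := by
  rw [← cvy_act m P hP Q τ hτ _ (h25_mon_uses _ τ es fun e he => ⟨(hes e he).1, (hes e he).2.1⟩)]
  congr 1
  funext σ
  exact h25_mon_join m P hP τ es (fun e he => (hes e he).2.2) σ

/-- LEAF B1. first retained term -/
theorem h25_b1 (hP : SkAdm 1 P) {kS kU q a f : ℕ} {τ : ℕ → ℕ → ℕ} (hτ : IsTr P.length q τ) (hSU : kS < kU) (hUN : kU ≤ P.length) (μ : List (ℕ × ℕ))
    (hμ : ∀ e ∈ μ, e.1 < q ∧ e.2 < q ∧ τ e.1 e.2 ≤ P.length) (ha : a < q) (hf : f < q) (haf : τ a f = kS) :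
    cvrMain1 (skBase (m + 1) 1) (skLvs (m + 1) P) kU ((cvySys m P).gam kU) q τ a f (cvrMon (cvrS (skBase (m + 1) 1) (skLvs (m + 1) P)) τ μ)
      = (cvySys m P).fM1 (1 / ((m : ℝ) + 1)) kU q τ a f μ := by
  unfold cvrMain1 LedSys.fM1
  rw [h25_msf, cvri_len]
  refine tr_sumK_congr hτ 2 _ _ fun τ' hτ' hag => ?_
  unfold LedSys.fC1
  by_cases hc : kU ≤ τ' a q ∧ kU ≤ τ' f (q + 1)
  · rw [if_pos hc]
    congr 1
    have hsp : τ' q (q + 1) = kS := cvrx_split hτ' (a := a) (b := f) (by omega) (by omega) (by omega) (by omega)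
      (by rw [hag a f ha hf]; exact haf) hSU hc.1 hc.2
    have h := h25_b4 m P hP hτ' ((q, q + 1) :: μ) (by
      intro e he
      rcases List.mem_cons.1 he with rfl | he
      · exact ⟨by show q < q + 2; omega, by show q + 1 < q + 2; omega, by show τ' q (q + 1) ≤ _; omega⟩
      · obtain ⟨h1, h2, h3⟩ := hμ e he
        exact ⟨by omega, by omega, by rw [hag _ _ h1 h2]; exact h3⟩)
    rw [← h]
    congr 1
    funext σ
    rw [← h25_mon_congr _ (τ' := τ') μ fun e he => hag _ _ (hμ e he).1 (hμ e he).2.1]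
    simp [cvrMon]
  · rw [if_neg hc, zero_mul, zero_mul]

/-- LEAF B3. `𝓛(μ,u)` -/
theorem h25_b3 (hP : SkAdm 1 P) {kU q u : ℕ} {τ : ℕ → ℕ → ℕ} (hτ : IsTr P.length q τ) (μ : List (ℕ × ℕ))
    (hμ : ∀ e ∈ μ, e.1 < q ∧ e.2 < q ∧ τ e.1 e.2 ≤ P.length) (hu : u < q) :
    cvrL (skBase (m + 1) 1) (skLvs (m + 1) P) kU (h25Kap (cvySys m P) kU) (cvySys m P).b q τ u (cvrMon (cvrS (skBase (m + 1) 1) (skLvs (m + 1) P)) τ μ)
      = (cvySys m P).fL (1 / ((m : ℝ) + 1)) kU q τ u μ := by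
  unfold cvrL LedSys.fL
  rw [h25_msf, cvri_len]
  refine tr_sumK_congr hτ 3 _ _ fun τ' hτ' hag => ?_
  rw [h25_coefM (cvySys m P) (cvy_ok m P hP) kU hu hτ']
  show cvrCo P.length kU _ _ u q (q + 1) (q + 2) τ' * _ = cvrCo P.length kU _ _ u q (q + 1) (q + 2) τ' * _
  by_cases hc : τ' (q + 1) (q + 2) ≤ P.length
  · congr 1
    have h := h25_b4 m P hP hτ' ((q + 1, q + 2) :: μ) (by
      intro e he
      rcases List.mem_cons.1 he with rfl | he
      · exact ⟨by show q + 1 < q + 3; omega, by show q + 2 < q + 3; omega, hc⟩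
      · obtain ⟨h1, h2, h3⟩ := hμ e he
        exact ⟨by omega, by omega, by rw [hag _ _ h1 h2]; exact h3⟩)
    rw [← h]
    congr 1
    funext σ
    rw [← h25_mon_congr _ (τ' := τ') μ fun e he => hag _ _ (hμ e he).1 (hμ e he).2.1]
    simp [cvrMon, mul_comm]
  · have h0 : cvrCo P.length kU (h25Kap (cvySys m P) kU) (cvySys m P).b u q (q + 1) (q + 2) τ' = 0 := by
      unfold cvrCo
      rw [if_neg fun h => hc h.2.2.2]
    rw [h0, zero_mul, zero_mul]

/-- LEAF B2. second retained term -/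
theorem h25_b2 (hP : SkAdm 1 P) {kS kU q a f : ℕ} {τ : ℕ → ℕ → ℕ} (hτ : IsTr P.length q τ) (hSU : kS < kU) (hUN : kU ≤ P.length) (μ : List (ℕ × ℕ))
    (hμ : ∀ e ∈ μ, e.1 < q ∧ e.2 < q ∧ τ e.1 e.2 ≤ P.length) (ha : a < q) (hf : f < q) (haf : τ a f = kS) :
    cvrMain2 (skBase (m + 1) 1) (skLvs (m + 1) P) kU ((cvySys m P).gam kU) (h25Kap (cvySys m P) kU) (cvySys m P).b ((cvySys m P).K kS) ((cvySys m P).b kS)
        q τ a f (cvrMon (cvrS (skBase (m + 1) 1) (skLvs (m + 1) P)) τ μ)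
      = (cvySys m P).fM2 (1 / ((m : ℝ) + 1)) kU kS q τ a f μ := by
  unfold cvrMain2 LedSys.fM2
  rw [h25_msf, cvri_len]
  refine tr_sumK_congr hτ 4 _ _ fun τ' hτ' hag => ?_
  rw [h25_coef2 (cvySys m P) (cvy_ok m P hP) kU ha hf hτ']
  show ((if kU ≤ τ' f (q + 1) then (cvySys m P).gam kU (τ' f (q + 1)) else 0) * cvrCo P.length kU _ _ a q (q + 2) (q + 3) τ'
        + (if kU ≤ τ' a q then (cvySys m P).gam kU (τ' a q) else 0) * cvrCo P.length kU _ _ f (q + 1) (q + 2) (q + 3) τ') * _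
      = ((if kU ≤ τ' f (q + 1) then (cvySys m P).gam kU (τ' f (q + 1)) else 0) * cvrCo P.length kU _ _ a q (q + 2) (q + 3) τ'
        + (if kU ≤ τ' a q then (cvySys m P).gam kU (τ' a q) else 0) * cvrCo P.length kU _ _ f (q + 1) (q + 2) (q + 3) τ') * _
  by_cases hc : kU ≤ τ' a q ∧ kU ≤ τ' f (q + 1) ∧ τ' (q + 2) (q + 3) ≤ P.length
  · congr 1
    have hsp : τ' q (q + 1) = kS := cvrx_split hτ' (a := a) (b := f) (by omega) (by omega) (by omega) (by omega)
      (by rw [hag a f ha hf]; exact haf) hSU hc.1 hc.2.1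
    have hu : TrUses (q + 4) (fun σ : ℕ → SkCfg (m + 1) => cvrMon (cvrS (skBase (m + 1) 1) (skLvs (m + 1) P)) τ μ σ
        * cvrDl (cvrS (skBase (m + 1) 1) (skLvs (m + 1) P)) τ' (q + 2) (q + 3) σ
        * ((cvySys m P).K kS + (cvySys m P).b kS * cvrDl (cvrS (skBase (m + 1) 1) (skLvs (m + 1) P)) τ' q (q + 1) σ)) := by
      intro σ σ' hσ
      beta_reduce
      rw [h25_mon_uses _ τ μ (Q := q + 4) (fun e he => ⟨by have := (hμ e he).1; omega, by have := (hμ e he).2.1; omega⟩) σ σ' hσ]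
      unfold cvrDl
      rw [hσ q (by omega), hσ (q + 1) (by omega), hσ (q + 2) (by omega), hσ (q + 3) (by omega)]
    rw [← cvy_act m P hP (q + 4) τ' hτ' _ hu]
    congr 1
    funext σ
    rw [h25_mon_join m P hP τ μ (fun e he => (hμ e he).2.2) σ,
      h25_dl_join m P hP τ' (q + 2, q + 3) hc.2.2 σ, h25_dl_join m P hP τ' (q, q + 1) (by show τ' q (q + 1) ≤ _; omega) σ,
      h25_gFl_cons, h25_gFl_cons, h25_gFl_cons,
      h25_gFl_congr (cvySys m P) _ (τ := τ) (τ' := τ') μ (fun e he => hag _ _ (hμ e he).1 (hμ e he).2.1) σ]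
    ring
  · have h0 : (if kU ≤ τ' f (q + 1) then (cvySys m P).gam kU (τ' f (q + 1)) else 0) * cvrCo P.length kU (h25Kap (cvySys m P) kU) (cvySys m P).b a q (q + 2) (q + 3) τ'
        + (if kU ≤ τ' a q then (cvySys m P).gam kU (τ' a q) else 0) * cvrCo P.length kU (h25Kap (cvySys m P) kU) (cvySys m P).b f (q + 1) (q + 2) (q + 3) τ' = 0 := by
      unfold cvrCo
      by_cases c1 : kU ≤ τ' a q
      · by_cases c2 : kU ≤ τ' f (q + 1)
        · have c3 : ¬ τ' (q + 2) (q + 3) ≤ P.length := fun h => hc ⟨c1, c2, h⟩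
          simp only [c3, and_false, if_false, mul_zero, add_zero]
        · simp only [c2, false_and, if_false, mul_zero, zero_mul, add_zero]
      · simp only [c1, false_and, if_false, mul_zero, zero_mul, add_zero]
    rw [h0, zero_mul, zero_mul]

end dic

/-! ## 7. admissibility -/

/-- LEAF D1. **an admissible monomial of 218 is an admissible monomial of 185** (the incoming edge is oriented from the target) -/
theorem h25_adm {N kI kS Nd Qd Ii a f : ℕ} {μ : CvtMon} (h1 : kI ≤ kS) (h2 : kS ≤ N) (hμ : CveMon Nd Qd Ii a f μ) (hI : kI ≠ kS ∨ Ii = 0) :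
    ∃ (ths : List ℕ) (io : Option ℕ) (rest : List (ℕ × ℕ)), CvrAdm N kI kS (Qd + 2) (cvtStar N kI kS) a f ths io rest ∧
      (cvrEs a ths io rest).length = μ.length ∧
      (∀ (n : ℕ) (Sf : ℕ → ℝ), cvrMon (n := n) Sf (cvtStar N kI kS) (cvrEs a ths io rest) = cvrMon Sf (cvtStar N kI kS) μ) ∧
      ∀ W x : ℝ, cvrSc (cvtStar N kI kS) kS W x (cvrEs a ths io rest) = cvtMsz W x μ := by
  obtain ⟨ts, inc, H, hm, g1, g2, g3, g4, g5⟩ := hμ.ok.root
  have hlt : ∀ e ∈ μ, e.1 < Qd ∧ e.2 < Qd ∧ e.1 < f ∧ e.2 < f ∧ e.1 ≠ e.2 := by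
    intro e he
    have t1 := cvt_lt_topM he
    have t2 := hμ.ok.top
    have t3 := hμ.top
    exact ⟨by omega, by omega, by omega, by omega, hμ.ok.loop e he⟩
  have ha0 := hμ.ok.a_ne
  have hfa := hμ.ne
  have hf0 : f ≠ 0 := by
    have := cvtTopM_pos μ
    have := hμ.top
    omega
  have haq : a < Qd + 2 := by have := hμ.ok.rt; omega
  have hfq : f < Qd + 2 := by have := hμ.le; omega
  have hno0 : kI = kS → ∀ e ∈ μ, e.1 ≠ 0 ∧ e.2 ≠ 0 := by
    intro hk e he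
    have hIi : Ii = 0 := hI.resolve_left (fun h => h hk)
    have h3 := hμ.ok.ini
    rw [hIi, Nat.le_zero, List.countP_eq_zero] at h3
    have h4 := h3 e he
    simpa [not_or] using h4
  have mts : ∀ t ∈ ts, (a, t) ∈ μ := fun t ht => by
    rw [hm]
    exact List.mem_append_left _ (List.mem_append_left _ (List.mem_map.2 ⟨t, ht, rfl⟩))
  have minc : ∀ e ∈ inc, e ∈ μ := fun e he => by
    rw [hm]
    exact List.mem_append_left _ (List.mem_append_right _ he)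
  have mH : ∀ e ∈ H, e ∈ μ := fun e he => by
    rw [hm]
    exact List.mem_append_right _ he
  have hsym : ∀ u v, cvtStar N kI kS u v = cvtStar N kI kS v u := by
    intro u v
    unfold cvtStar
    by_cases huv : u = v
    · rw [if_pos huv, if_pos huv.symm]
    · rw [if_neg huv, if_neg (Ne.symm huv)]
      simp only [or_comm]
  have hsc : ∀ (W x : ℝ) (e : ℕ × ℕ), e ∈ μ → (if cvtStar N kI kS e.1 e.2 = kS then W else x) = cvtEsz W x e := by
    intro W x e he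
    obtain ⟨-, -, -, -, hne⟩ := hlt e he
    unfold cvtStar cvtEsz
    rw [if_neg hne]
    by_cases h0 : e.1 = 0 ∨ e.2 = 0
    · rw [if_pos h0, if_pos h0, if_neg]
      intro hk
      obtain ⟨t1, t2⟩ := hno0 hk e he
      exact h0.elim t1 t2
    · rw [if_neg h0, if_neg h0, if_pos rfl]
  have hscl : ∀ (W x : ℝ) (l : List (ℕ × ℕ)), (∀ e ∈ l, e ∈ μ) → cvrSc (cvtStar N kI kS) kS W x l = cvtMsz W x l := by
    intro W x l hl
    unfold cvrSc cvtMsz
    congr 1
    exact List.map_congr_left fun e he => hsc W x e (hl e he)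
  have mk : ∀ io : Option ℕ, (∀ o ∈ io, (a, o) ∈ inc ∨ (o, a) ∈ inc) → CvrAdm N kI kS (Qd + 2) (cvtStar N kI kS) a f ts io H := by
    intro io hio
    refine ⟨cvt_star_isTr h1 h2 _, haq, hfq, ?_, ?_, ?_, g4, ?_, ?_, ?_⟩
    · unfold cvtStar
      rw [if_neg (Ne.symm hfa), if_neg (by tauto)]
    · intro u v _ _ huv
      unfold cvtStar
      rw [if_neg huv]
      split_ifs
      · exact Or.inr rfl
      · exact Or.inl rfl
    · intro θ hθ
      obtain ⟨-, t2, -, t4, t5⟩ := hlt _ (mts θ hθ)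
      obtain ⟨t6, t7, -⟩ := g5 θ hθ
      refine ⟨by simp only at t2; omega, t7, by simp only at t4; omega, ?_⟩
      unfold cvtStar
      rw [if_neg (Ne.symm t7), if_neg (by tauto)]
    · intro o ho
      rcases hio o ho with h | h
      · obtain ⟨-, t2, -, t4, t5⟩ := hlt _ (minc _ h)
        simp only at t2 t4 t5
        exact ⟨by omega, Ne.symm t5, by omega, fun hot => ((g5 o hot).2.2 _ (List.mem_append_left _ h)).2 rfl⟩
      · obtain ⟨t2, -, t4, -, t5⟩ := hlt _ (minc _ h)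
        simp only at t2 t4 t5
        exact ⟨by omega, t5, by omega, fun hot => ((g5 o hot).2.2 _ (List.mem_append_left _ h)).1 rfl⟩
    · intro e he
      obtain ⟨t1, t2, -, -, t5⟩ := hlt _ (mH e he)
      exact ⟨by omega, by omega, t5⟩
    · intro e he
      obtain ⟨-, -, t3, t4, -⟩ := hlt _ (mH e he)
      obtain ⟨t6, t7⟩ := g3 e he
      exact ⟨t6, t7, by omega, by omega, fun h => ((g5 _ h).2.2 e (List.mem_append_right _ he)).1 rfl,
        fun h => ((g5 _ h).2.2 e (List.mem_append_right _ he)).2 rfl⟩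
  rcases inc with _ | ⟨e, _ | ⟨e', l⟩⟩
  · refine ⟨ts, none, H, mk none (by simp), ?_, ?_, ?_⟩
    · rw [hm]; simp [cvrEs]
    · intro n Sf
      rw [hm]; simp [cvrEs]
    · intro W x
      have : cvrEs a ts none H = μ := by rw [hm]; simp [cvrEs]
      rw [this]
      exact hscl W x μ fun e he => he
  · rcases g2 e (by simp) with he | he
    · have hee : e = (a, e.2) := by rw [← he]
      have hes : cvrEs a ts (some e.2) H = μ := by
        rw [hm, hee]; simp [cvrEs]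
      refine ⟨ts, some e.2, H, mk (some e.2) (by
        intro o ho
        rw [Option.mem_some_iff] at ho
        left
        rw [← ho, ← hee]
        simp), by rw [hes], fun n Sf => by rw [hes], fun W x => by rw [hes]; exact hscl W x μ fun e he => he⟩
    · have hee : e = (e.1, a) := by rw [← he]
      refine ⟨ts, some e.1, H, mk (some e.1) (by
        intro o ho
        rw [Option.mem_some_iff] at ho
        right
        rw [← ho, ← hee]
        simp), ?_, ?_, ?_⟩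
      · rw [hm]; simp [cvrEs]
      · intro n Sf
        funext σ
        rw [hm]
        unfold cvrEs
        simp only [cvrMon_append, Option.toList_some, List.map_cons, List.map_nil, cvrMon_cons, cvrMon_nil, mul_one]
        congr 2
        unfold cvrDl
        rw [cvr_ov_comm, hsym, he]
      · intro W x
        have hemem : e ∈ μ := minc e (by simp)
        rw [hm]
        unfold cvrEs
        have e5 : cvtMsz W x (ts.map (fun t => (a, t)) ++ [e] ++ H)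
            = cvtMsz W x (ts.map fun t => (a, t)) * cvtMsz W x [e] * cvtMsz W x H := by
          simp [cvtMsz, mul_assoc]
        rw [e5, cvrSc_append, cvrSc_append, hscl W x _ (fun e' he' => by
            obtain ⟨t, ht, rfl⟩ := List.mem_map.1 he'
            exact mts t ht), hscl W x H mH, ← hscl W x [e] (fun e' he' => by
            rw [List.mem_singleton] at he'
            rw [he']
            exact hemem)]
        congr 2
        simp only [Option.toList_some, List.map_cons, List.map_nil, cvrSc_cons, cvrSc_nil, mul_one]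
        rw [hsym, he]
  · simp at g1

/-- the labels of an admissible monomial -/
theorem h25_lab {Nd Qd Ii a f : ℕ} {μ : CvtMon} (hμ : CveMon Nd Qd Ii a f μ) :
    (∀ e ∈ μ, e.1 < Qd + 2 ∧ e.2 < Qd + 2 ∧ e.1 ≠ e.2) ∧ a < Qd + 2 ∧ f < Qd + 2 ∧ a ≠ 0 ∧ f ≠ 0 ∧ a ≠ f := by
  refine ⟨fun e he => ?_, ?_, ?_, hμ.ok.a_ne, ?_, fun h => hμ.ne h.symm⟩
  · have h1 := cvt_lt_topM he
    have h2 := hμ.ok.top
    exact ⟨by omega, by omega, hμ.ok.loop e he⟩
  · have := hμ.ok.rt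
    omega
  · have := hμ.le
    omega
  · have h1 := cvtTopM_pos μ
    have h2 := hμ.top
    omega

end Claimed.Agent.R286
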