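import Claimed.Agent.R286.Cav.LedDefs

/-!
# Row 286 (S0533), unit Cav, file LedExit      (owner: helper204; adversary: helper217)

EXIT of the package `Led*`: the PARAMETRIC LEDGER LEMMA  `led_main`  =  PE Lemma 4.7, eq. (24), before the restoration of the deleted overlaps
(cavity.tex l.407-700; re-used at l.1015-1046 with the split `i`, `P = 1`, the cut `U_x`; and at l.1145-1156 for omitted lower cuts).

POINTWISE: one observed table `τ` on the labels `< q`, targets `a`, `b` which share `kS` stages, cut of depth `kU` (blocks = classes of `kU ≤ τ`, `U = trPm ms kU`),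
smaller cut of depth `kV ≤ kS` (parity argument below it).  `b` is alone in its block, `P` is ANY function of the rest spins of the labels `< q` which does not use `b`.
NO hypothesis on the shape of `τ`: the old forks enter the bound as atoms (`ledAt`); integrated families of tests are integrated by the USER (Rep*, Alg*, Ret*).
New labels: `c = q`, `d = q + 1`, `e = q + 2`, `f = q + 3`.

IMPORTED ESTIMATES (hypotheses, both under the REST-ONLY law `nuR`; suppliers: `Pre*` (helper18) from PE (13), (16), Lemma 4.5):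
 `hpr` projected bound (PE l.632-640): `|nuR[Φ (R_{e b} - R_{c b})]| ≤ ‖Φ‖_2 Pi(split of c, e)`, `b` fresh and unseen by `Φ`;   `hgp` : `|γ| Pi ≤ pi`;
 `hbd` boundary covariance (PE Lemma 4.5): placement sum of `c` in an old block minus its fresh-at-cut baseline.
-/

set_option autoImplicit false

namespace Claimed.Agent.R286

open Finset

/-- the rest configurations of a table of configurations -/
def ledRs {Ω : Type} (σ : ℕ → Bool × Ω) : ℕ → Ω := fun i => (σ i).2

namespace LedSys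

variable {Ω : Type} (Y : LedSys Ω)

/-- first retained term of (24): `b_* ∑_{c ∈ A, d ∈ B'} γ_{ac} γ_{bd} ν[Δ⁻_{cd} P]` -/
def main1 (kU kS q : ℕ) (τ : ℕ → ℕ → ℕ) (a b : ℕ) (P : (ℕ → Ω) → ℝ) : ℝ :=
  trSumK Y.ms Y.N 2 q τ fun τ' =>
    (if kU ≤ τ' a q ∧ kU ≤ τ' b (q + 1) then Y.gam kU (τ' a q) * Y.gam kU (τ' b (q + 1)) else 0) *
      Y.act (q + 2) τ' fun σ => Y.dl kS (σ q).2 (σ (q + 1)).2 * P (ledRs σ)

/-- the scalar coefficient of the second retained term: `(1/2) (κ_{ac;ef} γ_{bd} 1[e,f ∈ A] + γ_{ac} κ_{bd;ef} 1[e,f ∈ B'])`, `c ∈ A`, `d ∈ B'`, `e ≠ f` -/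
noncomputable def coef2 (kU q : ℕ) (a b : ℕ) (τ' : ℕ → ℕ → ℕ) : ℝ :=
  if kU ≤ τ' a q ∧ kU ≤ τ' b (q + 1) ∧ τ' (q + 2) (q + 3) ≤ Y.N then
    1 / 2 * ((if kU ≤ τ' a (q + 2) ∧ kU ≤ τ' a (q + 3) then
          Y.kap4 kU (q + 4) τ' a q (q + 2) (q + 3) * Y.gam kU (τ' b (q + 1)) else 0)
      + (if kU ≤ τ' b (q + 2) ∧ kU ≤ τ' b (q + 3) then
          Y.gam kU (τ' a q) * Y.kap4 kU (q + 4) τ' b (q + 1) (q + 2) (q + 3) else 0))
  else 0

/-- second retained term of (24): `∑_{c ∈ A, d ∈ B'} ν[P (G_{ac} γ_{bd} + γ_{ac} G_{bd}) (K_* + b_* Δ⁻_{cd})]` -/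
noncomputable def main2 (kU kS q : ℕ) (τ : ℕ → ℕ → ℕ) (a b : ℕ) (P : (ℕ → Ω) → ℝ) : ℝ :=
  trSumK Y.ms Y.N 4 q τ fun τ' => Y.coef2 kU q a b τ' *
    Y.act (q + 4) τ' fun σ =>
      P (ledRs σ) * Y.dl (τ' (q + 2) (q + 3)) (σ (q + 2)).2 (σ (q + 3)).2 * Y.Q kS (σ q).2 (σ (q + 1)).2

/-- integral + old atoms of `f` over the split depths `k0 ≤ j < k1` -/
def tot (q : ℕ) (τ : ℕ → ℕ → ℕ) (k0 k1 : ℕ) (f : ℕ → ℝ) : ℝ := Y.intM k0 k1 f + ledAt q τ k0 k1 f

/-- **the ledger** (`p₀` suppressed).  `om` = cost of a low factor, `xi` = cost of a low factor below the smaller cut, `pi`, `be` = the two imported estimates;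
Hoelder loss `th = 1 - 1/r` on a pair of errors (plain factors in `L^{2r}`). -/
noncomputable def ledger (r kV kU q : ℕ) (τ : ℕ → ℕ → ℕ) (om xi pi be : ℝ) : ℝ :=
  om * Y.intM 0 kU Y.D
    + (om ^ 2 + trPm Y.ms kU * om) * ledAt q τ kV kU Y.D
    + (om + trPm Y.ms kU) * xi * ledAt q τ 0 kV Y.D
    + om ^ 2 * Y.tot q τ kU (Y.N + 1) Y.D
    + om * ((Y.tot q τ kU (Y.N + 1) fun j => Y.D j ^ (1 - 1 / (r : ℝ))) ^ 2
        + Y.tot q τ kU (Y.N + 1) fun j => Y.D j ^ (2 * (1 - 1 / (r : ℝ))))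
    + om * pi + be

end LedSys

/-! **PARAMETRIC LEDGER LEMMA** `led_main`  TEX[PE:cavity-row-identity]: the STATEMENT AND ITS PROOF (from the leaves of `Cav/LedLeaves`) are in `Cav/LedTayG.lean`
(this file is imported by `LedTerms`, so the theorem cannot be closed here).   CONSUMERS: `import Claimed.Agent.R286.Cav.LedTayG`. -/

/-- the equation lemmas of the definitions of this file are generated HERE (no on-demand copies downstream).   NEVER cite `.eq_def` of a non-recursive definition: it changes `unfold`. -/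
theorem led_exit_eqns_cite : True := by
  have := @ledRs.eq_1
  have := @LedSys.main1.eq_1
  have := @LedSys.coef2.eq_1
  have := @LedSys.main2.eq_1
  have := @LedSys.tot.eq_1
  have := @LedSys.ledger.eq_1
  trivial

end Claimed.Agent.R286
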