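import Claimed.Agent.R286.Cav.LedKit
import Claimed.Agent.R286.Cav.LedTbIns

/-!
# Row 286 (S0533), unit Cav, file LedGen      (owner: helper204; prefix `ledg_`, `led_gen`)      THE MASTER BOUND of a single term `LedSys.tm`

COROLLARY of the kit of helper32 (`ledk_tm_le`, Hoelder + Lemma 4.3 + pair marginals) and of `led_dens1/2` (`Cav/LedComb`), in the form in which `Bd5 .. Bd8` use it
(PE l.489-497, l.536-543: "allocate an error pair first; Hoelder; bounded split density").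
 * `LedSys.IsLow r τ' f w` : the factor `f` has `L^{2r}` norm `≤ w` under the ACTUAL law of its pair;
 * `LedSys.IsErr k0 k1 τ' f` : `|f| ≤ |δ|` at the depth of its pair if this depth is in `[k0, k1)`, `f = 0` otherwise;
 * `led_gen` : `|tm| ≤ C M p0 ∏ w * eCost`.
SHAPES: no error or one error: at most 4 low factors (`J` and the low factors in `L^{2r}`, `r ≥ 5`, the error in `L^2`);   two errors: at most 1 low factor, loss `D^{1 - 1/r}`.
-/

set_option autoImplicit false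

namespace Claimed.Agent.R286

open Finset

namespace LedSys

variable {Ω : Type} (Y : LedSys Ω)

/-- the factor `f` has `L^{2r}` norm at most `w` under the actual law of its pair of labels -/
def IsLow (r : ℕ) (τ' : ℕ → ℕ → ℕ) (f : LedFac Ω) (w : ℝ) : Prop :=
  Y.act 2 (ledPair Y.N (τ' f.1 f.2.1)) (fun σ => f.2.2 (τ' f.1 f.2.1) (σ 0) (σ 1) ^ (2 * r)) ≤ w ^ (2 * r)

/-- the factor `f` is dominated by the error `δ` of its pair when the depth of the pair is in `[k0, k1)`, and vanishes otherwise -/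
def IsErr (k0 k1 : ℕ) (τ' : ℕ → ℕ → ℕ) (f : LedFac Ω) : Prop :=
  ∀ u v : Bool × Ω, |f.2.2 (τ' f.1 f.2.1) u v| ≤ if k0 ≤ τ' f.1 f.2.1 ∧ τ' f.1 f.2.1 < k1 then |Y.dl (τ' f.1 f.2.1) u.2 v.2| else 0

/-- admissible numbers of low factors and of errors -/
def ledShape (nl ne : ℕ) : Prop := (ne ≤ 1 ∧ nl ≤ 4) ∨ (ne = 2 ∧ nl ≤ 1)

/-- the density factor of `ne` errors in the window `[k0, k1)` -/
noncomputable def eCost (r q : ℕ) (τ : ℕ → ℕ → ℕ) (k0 k1 : ℕ) (ne : ℕ) : ℝ :=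
  if ne = 0 then 1 else if ne = 1 then Y.tot q τ k0 k1 Y.D
  else (Y.tot q τ k0 k1 fun j => Y.D j ^ (1 - 1 / (r : ℝ))) ^ 2 + Y.tot q τ k0 k1 fun j => Y.D j ^ (2 * (1 - 1 / (r : ℝ)))

end LedSys

theorem ledg_eqns_cite : True := by
  have := @LedSys.IsLow.eq_1
  have := @LedSys.IsErr.eq_1
  have := @LedSys.ledShape.eq_1
  have := @LedSys.eCost.eq_1
  trivial

/-! ### tools -/

theorem ledg_facs_perm {Ω : Type} {fs gs : List (LedFac Ω)} (h : fs.Perm gs) (τ : ℕ → ℕ → ℕ) (σ : ℕ → Bool × Ω) :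
    ledFacs fs τ σ = ledFacs gs τ σ := (h.map _).prod_eq

theorem ledg_tm_perm {Ω : Type} (Y : LedSys Ω) {fs gs : List (LedFac Ω)} (h : fs.Perm gs) (lam : ℕ → ℝ) (t : ℝ) (q : ℕ) (τ : ℕ → ℕ → ℕ)
    (k : ℕ) (κ : (ℕ → ℕ → ℕ) → ℝ) (J : (ℕ → Bool × Ω) → ℝ) : Y.tm lam t q τ k κ J fs = Y.tm lam t q τ k κ J gs := by
  unfold LedSys.tm
  congr 1; funext τ'
  congr 2; funext σ
  rw [ledg_facs_perm h]

theorem ledg_nm_mono {X : Type} {μ : (X → ℝ) → ℝ} (h : LedMean μ) {p : ℝ} (hp : 0 < p) {f g : X → ℝ} (hfg : ∀ x, |f x| ≤ |g x|) :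
    ledNm μ p f ≤ ledNm μ p g := by
  unfold ledNm
  refine Real.rpow_le_rpow (h.nonneg _ fun x => Real.rpow_nonneg (abs_nonneg _) _) ?_ (by positivity)
  exact ledk_mono h fun x => Real.rpow_le_rpow (abs_nonneg _) (hfg x) hp.le

theorem ledg_nm_zero {X : Type} {μ : (X → ℝ) → ℝ} (h : LedMean μ) {p : ℝ} (hp : 0 < p) {f : X → ℝ} (hf : ∀ x, f x = 0) :
    ledNm μ p f = 0 := by
  unfold ledNm
  have e : (fun x => |f x| ^ p) = fun _ => (0 : ℝ) := by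
    funext x; rw [hf x, abs_zero, Real.zero_rpow hp.ne']
  rw [e, ledk_const h, Real.zero_rpow (by positivity)]

/-- natural even moments give the norm -/
theorem ledg_nm_of_pow {X : Type} {μ : (X → ℝ) → ℝ} (h : LedMean μ) {r : ℕ} (hr : 1 ≤ r) {f : X → ℝ} {B : ℝ} (hB : 0 ≤ B)
    (hf : μ (fun x => f x ^ (2 * r)) ≤ B ^ (2 * r)) : ledNm μ (1 / (1 / ((2 * r : ℕ) : ℝ))) f ≤ B := by
  rw [one_div_one_div]
  have hp : (0 : ℝ) < ((2 * r : ℕ) : ℝ) := by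
    have : 0 < 2 * r := by omega
    exact_mod_cast this
  refine ledk_nm_le_of_pow_le h hp hB f ?_
  rw [Real.rpow_natCast]
  have e : (fun x => |f x| ^ ((2 * r : ℕ) : ℝ)) = fun x => f x ^ (2 * r) := by
    funext x; rw [Real.rpow_natCast, Even.pow_abs (even_two_mul r)]
  rw [e]; exact hf

section sys

variable {Ω : Type} {Y : LedSys Ω}

theorem ledg_act_mean (hY : Y.Ok) {q : ℕ} {τ : ℕ → ℕ → ℕ} (hτ : IsTr Y.N q τ) : LedMean (Y.act q τ) :=
  hY.mean _ 1 q τ ledk_one_prof ⟨zero_le_one, le_rfl⟩ hτ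

theorem ledg_D_nonneg (Y : LedSys Ω) (j : ℕ) : 0 ≤ Y.D j := Real.sqrt_nonneg _

/-- the `L²` norm of `δ` at its own depth -/
theorem ledg_dl_L2 (hY : Y.Ok) {j : ℕ} (hj : j ≤ Y.N + 1) :
    ledNm (Y.act 2 (ledPair Y.N j)) 2 (fun σ => Y.dl j (σ 0).2 (σ 1).2) = Y.b j * Y.D j := by
  have hm := ledg_act_mean hY (ledk_pair_isTr Y.N j hj)
  have hb0 : 0 ≤ Y.b j := by rw [← hY.b_zero]; exact hY.b_mono (Nat.zero_le j)
  unfold ledNm LedSys.D
  have e : (fun σ : ℕ → Bool × Ω => |Y.dl j (σ 0).2 (σ 1).2| ^ (2 : ℝ))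
      = fun σ => Y.b j ^ 2 * (Y.R (σ 0).2 (σ 1).2 - Y.S j) ^ 2 := by
    funext σ
    rw [show (2 : ℝ) = ((2 : ℕ) : ℝ) by norm_num, Real.rpow_natCast, sq_abs]
    unfold LedSys.dl; ring
  rw [e, hm.smul, ← Real.sqrt_eq_rpow, Real.sqrt_mul (sq_nonneg _), Real.sqrt_sq hb0]

theorem ledg_dl_le (hY : Y.Ok) {Cb : ℝ} (hb : ∀ j, Y.b j ≤ Cb) (j : ℕ) (ω ω' : Ω) : |Y.dl j ω ω'| ≤ 2 * Cb := by
  have hb0 : 0 ≤ Y.b j := by rw [← hY.b_zero]; exact hY.b_mono (Nat.zero_le j)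
  have hR := abs_le.1 (hY.R_le ω ω')
  have hS0 := hY.S_nonneg j
  have hS1 := hY.S_le j
  unfold LedSys.dl
  rw [abs_mul, abs_of_nonneg hb0]
  have h1 : |Y.R ω ω' - Y.S j| ≤ 2 := by rw [abs_le]; constructor <;> linarith [hR.1, hR.2]
  calc Y.b j * |Y.R ω ω' - Y.S j| ≤ Y.b j * 2 := mul_le_mul_of_nonneg_left h1 hb0
    _ ≤ 2 * Cb := by linarith [hb j]

/-- an error factor in `L^{2/θ}` -/
theorem ledg_err_nm (hY : Y.Ok) {Cb : ℝ} (hb : ∀ j, Y.b j ≤ Cb) {θ : ℝ} (hθ0 : 0 < θ) (hθ1 : θ ≤ 1) {k0 k1 : ℕ} {τ' : ℕ → ℕ → ℕ}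
    {f : LedFac Ω} (hf : Y.IsErr k0 k1 τ' f) (hj : τ' f.1 f.2.1 ≤ Y.N + 1) :
    Y.nK (1 / (θ / 2)) f.2.2 (τ' f.1 f.2.1)
      ≤ (2 * Cb + 1) * (if k0 ≤ τ' f.1 f.2.1 ∧ τ' f.1 f.2.1 < k1 then Y.D (τ' f.1 f.2.1) ^ θ else 0) := by
  set j := τ' f.1 f.2.1 with hjdef
  have hm := ledg_act_mean hY (ledk_pair_isTr Y.N j hj)
  have hb0 : 0 ≤ Y.b j := by rw [← hY.b_zero]; exact hY.b_mono (Nat.zero_le j)
  have hCb : 0 ≤ Cb := hb0.trans (hb j)
  have hp : (0 : ℝ) < 1 / (θ / 2) := by positivity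
  unfold LedSys.nK
  by_cases hw : k0 ≤ j ∧ j < k1
  · rw [if_pos hw]
    have hdom : ∀ u v : Bool × Ω, |f.2.2 j u v| ≤ |Y.dl j u.2 v.2| := fun u v => by
      have := hf u v
      rw [← hjdef, if_pos hw] at this
      exact this
    have h2 : (2 : ℝ) ≤ 1 / (θ / 2) := by
      rw [le_div_iff₀ (by positivity)]; linarith
    have hc : (0 : ℝ) ≤ 2 * Cb + 1 := by linarith
    have hi := ledk_nm_interp hm h2 hc (fun σ : ℕ → Bool × Ω => f.2.2 j (σ 0) (σ 1)) fun σ =>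
      ((hdom _ _).trans (ledg_dl_le hY hb j _ _)).trans (by linarith)
    have e1 : (2 : ℝ) / (1 / (θ / 2)) = θ := by field_simp
    rw [e1] at hi
    have hn2 : ledNm (Y.act 2 (ledPair Y.N j)) 2 (fun σ => f.2.2 j (σ 0) (σ 1)) ≤ (2 * Cb + 1) * Y.D j := by
      refine (ledg_nm_mono hm (by norm_num) (g := fun σ => Y.dl j (σ 0).2 (σ 1).2) fun σ => hdom _ _).trans ?_
      rw [ledg_dl_L2 hY hj]
      exact mul_le_mul_of_nonneg_right (by linarith [hb j]) (ledg_D_nonneg Y j)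
    refine hi.trans ?_
    have h3 : ledNm (Y.act 2 (ledPair Y.N j)) 2 (fun σ => f.2.2 j (σ 0) (σ 1)) ^ θ ≤ ((2 * Cb + 1) * Y.D j) ^ θ :=
      Real.rpow_le_rpow (ledk_nm_nonneg hm _ _) hn2 hθ0.le
    refine (mul_le_mul_of_nonneg_left h3 (Real.rpow_nonneg hc _)).trans (le_of_eq ?_)
    have hc' : (0 : ℝ) < 2 * Cb + 1 := by linarith
    rw [Real.mul_rpow hc (ledg_D_nonneg Y j), ← mul_assoc, ← Real.rpow_add hc']
    rw [show (1 : ℝ) - θ + θ = 1 by ring, Real.rpow_one]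
  · rw [if_neg hw, mul_zero]
    refine le_of_eq (ledg_nm_zero hm hp fun σ => ?_)
    have := hf (σ 0) (σ 1)
    rw [← hjdef, if_neg hw] at this
    exact abs_nonpos_iff.1 this

theorem ledg_tot_eq (Y : LedSys Ω) (q : ℕ) (τ : ℕ → ℕ → ℕ) (k0 k1 : ℕ) (f : ℕ → ℝ) : Y.tot q τ k0 k1 f = ledTot Y.ms q τ k0 k1 f := rfl

theorem ledg_tot_nonneg (hY : Y.Ok) (q : ℕ) (τ : ℕ → ℕ → ℕ) {k0 k1 : ℕ} (hk1 : k1 ≤ Y.N + 1) {f : ℕ → ℝ} (hf : ∀ j, 0 ≤ f j) :
    0 ≤ Y.tot q τ k0 k1 f := by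
  unfold LedSys.tot LedSys.intM ledAt
  refine add_nonneg (Finset.sum_nonneg fun j hj => mul_nonneg ?_ (hf j)) (Finset.sum_nonneg fun j _ => hf j)
  have := (Finset.mem_Ico.1 hj).2
  exact trw_step_nonneg hY.ms_ok (by omega)

theorem ledg_eCost_nonneg (hY : Y.Ok) (r q : ℕ) (τ : ℕ → ℕ → ℕ) {k0 k1 : ℕ} (hk1 : k1 ≤ Y.N + 1) (ne : ℕ) : 0 ≤ Y.eCost r q τ k0 k1 ne := by
  unfold LedSys.eCost
  split_ifs
  · exact zero_le_one
  · exact ledg_tot_nonneg hY q τ hk1 (ledg_D_nonneg Y)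
  · exact add_nonneg (sq_nonneg _) (ledg_tot_nonneg hY q τ hk1 fun j => Real.rpow_nonneg (ledg_D_nonneg Y j) _)

end sys

/-! ### the master bound -/

/-- a factor with the Hoelder weight `w`, its cost = its norm -/
noncomputable def ledgCF {Ω : Type} (Y : LedSys Ω) (w : ℝ) (f : LedFac Ω) : LedCF Ω := ⟨f.1, f.2.1, f.2.2, w, Y.nK (1 / w) f.2.2⟩

theorem ledg_cf_eqns_cite : True := by
  have := @ledgCF.eq_1
  trivial

theorem ledg_cf_map {Ω : Type} (Y : LedSys Ω) (w : ℝ) (l : List (LedFac Ω)) : (l.map (ledgCF Y w)).map LedCF.fac = l := by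
  rw [List.map_map]
  exact List.map_id l

theorem ledg_cf_w {Ω : Type} (Y : LedSys Ω) (w : ℝ) (l : List (LedFac Ω)) : ((l.map (ledgCF Y w)).map fun f => f.w).sum = l.length * w := by
  rw [List.map_map]
  have : ((fun f : LedCF Ω => f.w) ∘ ledgCF Y w) = fun _ => w := rfl
  rw [this, List.map_const', List.sum_replicate, nsmul_eq_mul]

theorem ledg_cf_cost {Ω : Type} (Y : LedSys Ω) (w : ℝ) (l : List (LedFac Ω)) (τ' : ℕ → ℕ → ℕ) :
    ((l.map (ledgCF Y w)).map fun f => f.cost (τ' f.c f.d)) = l.map fun f => Y.nK (1 / w) f.2.2 (τ' f.1 f.2.1) := by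
  rw [List.map_map]; rfl

/-- **THE MASTER BOUND.**   `κ` bounded by `M` on the extensions of `τ`; where `κ ≠ 0` the low factors cost `w`, the errors live on pairs with a NEW second label and a depth in `[k0, k1)`. -/
theorem led_gen (q k r : ℕ) (hr : 5 ≤ r) (Cb : ℝ) : ∃ C : ℝ, 0 ≤ C ∧ ∀ (Ω : Type) (Y : LedSys Ω), Y.Ok → (∀ j, Y.b j ≤ Cb) → (∀ j, Y.h j ≤ Cb) →
    ∀ (lam : ℕ → ℝ) (t : ℝ) (τ : ℕ → ℕ → ℕ) (κ : (ℕ → ℕ → ℕ) → ℝ) (J : (ℕ → Bool × Ω) → ℝ) (M p0 : ℝ)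
      (fs lows errs : List (LedFac Ω)) (w : LedFac Ω → ℝ) (k0 k1 : ℕ),
      LedProf lam → t ∈ Set.Icc (0 : ℝ) 1 → IsTr Y.N q τ → TrUses q J → 0 ≤ p0 → Y.act q τ (fun σ => J σ ^ (2 * r)) ≤ p0 ^ (2 * r) →
      0 ≤ M → (∀ τ', IsTr Y.N (q + k) τ' → (∀ x y, x < q → y < q → τ' x y = τ x y) → |κ τ'| ≤ M) → fs.Perm (lows ++ errs) → k1 ≤ Y.N + 1 →
      (∀ f ∈ lows, f.1 < q + k ∧ f.2.1 < q + k ∧ f.1 ≠ f.2.1 ∧ 0 ≤ w f) →
      (∀ f ∈ errs, f.1 < q + k ∧ q ≤ f.2.1 ∧ f.2.1 < q + k ∧ f.1 ≠ f.2.1) →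
      (∀ τ', IsTr Y.N (q + k) τ' → (∀ x y, x < q → y < q → τ' x y = τ x y) → κ τ' ≠ 0 →
        (∀ f ∈ lows, Y.IsLow r τ' f (w f)) ∧ ∀ f ∈ errs, Y.IsErr k0 k1 τ' f) →
      LedSys.ledShape lows.length errs.length →
      |Y.tm lam t q τ k κ J fs| ≤ C * M * p0 * (lows.map w).prod * Y.eCost r q τ k0 k1 errs.length := by
  obtain ⟨C0, hC0, h0⟩ := ledk_tm_le q k 6 Cb
  obtain ⟨C1, hC1, h1⟩ := led_dens1 q k
  obtain ⟨C2, hC2, h2⟩ := led_dens2 q k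
  set cE : ℝ := 2 * Cb + 1 with hcE
  set TV : ℝ := 2 ^ k * ∏ i ∈ Finset.range k, ((q : ℝ) + i) with hTV
  have hTV0 : 0 ≤ TV := by positivity
  refine ⟨C0 * (TV + |cE| * C1 + cE ^ 2 * C2), by positivity, ?_⟩
  intro Ω Y hY hb hh lam t τ κ J M p0 fs lows errs w k0 k1 hlam ht hτ hJ hp0 hJm hM hκ hperm hk1 hlows herrs hcl hsh
  have hCb : 0 ≤ Cb := by have := hb 0; rw [hY.b_zero] at this; exact this
  have hcE0 : 0 < cE := by rw [hcE]; linarith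
  rw [abs_of_pos hcE0]
  have hr0 : (0 : ℝ) < r := by have : 0 < r := by omega
                               exact_mod_cast this
  have hr5 : (5 : ℝ) ≤ r := by exact_mod_cast hr
  have hinv : 1 / (r : ℝ) ≤ 1 / 5 := one_div_le_one_div_of_le (by norm_num) hr5
  have hinv0 : 0 < 1 / (r : ℝ) := by positivity
  set θ : ℝ := if errs.length = 2 then 1 - 1 / (r : ℝ) else 1 with hθ
  have hθ0 : 0 < θ := by rw [hθ]; split_ifs <;> linarith
  have hθ1 : θ ≤ 1 := by rw [hθ]; split_ifs <;> linarith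
  set wL : ℝ := 1 / ((2 * r : ℕ) : ℝ) with hwL
  have hwLe : wL = 1 / (r : ℝ) / 2 := by rw [hwL]; push_cast; field_simp
  have hwL0 : 0 < wL := by rw [hwLe]; positivity
  set cfs : List (LedCF Ω) := lows.map (ledgCF Y wL) ++ errs.map (ledgCF Y (θ / 2)) with hcfs
  have hfac : cfs.map LedCF.fac = lows ++ errs := by
    rw [hcfs, List.map_append, ledg_cf_map, ledg_cf_map]
  have hlen : cfs.length ≤ 6 := by
    rw [hcfs, List.length_append, List.length_map, List.length_map]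
    rcases hsh with h | h <;> omega
  have hsum : wL + (cfs.map fun f => f.w).sum ≤ 1 := by
    rw [hcfs, List.map_append, List.sum_append, ledg_cf_w, ledg_cf_w, hwLe]
    rcases hsh with ⟨h1', h2'⟩ | ⟨h1', h2'⟩
    · have e1 : (errs.length : ℝ) ≤ 1 := by exact_mod_cast h1'
      have e2 : (lows.length : ℝ) ≤ 4 := by exact_mod_cast h2'
      have e3 : (errs.length : ℝ) * (θ / 2) ≤ 1 * (1 / 2) :=
        mul_le_mul e1 (by linarith) (by positivity) (by norm_num)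
      have e4 : (lows.length : ℝ) * (1 / (r : ℝ) / 2) ≤ 4 * (1 / 5 / 2) :=
        mul_le_mul e2 (by linarith) (by positivity) (by norm_num)
      linarith
    · have e2 : (lows.length : ℝ) ≤ 1 := by exact_mod_cast h2'
      have e4 : (lows.length : ℝ) * (1 / (r : ℝ) / 2) ≤ 1 * (1 / (r : ℝ) / 2) :=
        mul_le_mul_of_nonneg_right e2 (by positivity)
      have e5 : θ = 1 - 1 / (r : ℝ) := by rw [hθ, if_pos h1']
      rw [h1', e5]
      push_cast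
      linarith
  have hok : ∀ f ∈ cfs, f.Ok Y (q + k) := by
    intro f hf
    rw [hcfs, List.mem_append, List.mem_map, List.mem_map] at hf
    rcases hf with ⟨g, hg, rfl⟩ | ⟨g, hg, rfl⟩
    · obtain ⟨a1, a2, a3, _⟩ := hlows g hg
      exact ⟨a1, a2, a3, hwL0, fun j _ => le_rfl⟩
    · obtain ⟨a1, _, a2, a3⟩ := herrs g hg
      exact ⟨a1, a2, a3, by show 0 < θ / 2; positivity, fun j _ => le_rfl⟩
  have hJn : ledNm (Y.act q τ) (1 / wL) J ≤ p0 := ledg_nm_of_pow (ledg_act_mean hY hτ) (by omega) hp0 hJm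
  have hmain := h0 Ω Y hY hb hh lam t τ κ J cfs wL p0 hlam ht hτ hJ hlen hok hwL0 hsum hJn
  rw [hfac] at hmain
  rw [ledg_tm_perm Y hperm]
  refine hmain.trans ?_
  have hW0 : 0 ≤ (lows.map w).prod := List.prod_nonneg fun a ha => by
    obtain ⟨f, hf, rfl⟩ := List.mem_map.1 ha
    exact (hlows f hf).2.2.2
  set E : (ℕ → ℕ → ℕ) → ℝ := fun τ' =>
    (errs.map fun f => cE * (if k0 ≤ τ' f.1 f.2.1 ∧ τ' f.1 f.2.1 < k1 then Y.D (τ' f.1 f.2.1) ^ θ else 0)).prod with hE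
  have hE0 : ∀ τ', 0 ≤ E τ' := fun τ' => List.prod_nonneg fun a ha => by
    obtain ⟨f, hf, rfl⟩ := List.mem_map.1 ha
    refine mul_nonneg hcE0.le ?_
    split_ifs
    · exact Real.rpow_nonneg (ledg_D_nonneg Y _) _
    · exact le_rfl
  have hpt : ∀ τ', LediExt Y.N q (q + k) τ τ' →
      |κ τ'| * (cfs.map fun f => f.cost (τ' f.c f.d)).prod ≤ M * (lows.map w).prod * E τ' := by
    intro τ' hext
    by_cases hk0 : κ τ' = 0
    · rw [hk0, abs_zero, zero_mul]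
      exact mul_nonneg (mul_nonneg hM hW0) (hE0 τ')
    obtain ⟨hL, hEr⟩ := hcl τ' hext.tr hext.old hk0
    rw [hcfs, List.map_append, List.prod_append, ledg_cf_cost, ledg_cf_cost, mul_assoc]
    have hnn : ∀ (p : ℝ) (f : LedFac Ω), f.1 < q + k → f.2.1 < q + k → 0 ≤ Y.nK p f.2.2 (τ' f.1 f.2.1) := fun p f a1 a2 =>
      ledk_nm_nonneg (ledg_act_mean hY (ledk_pair_isTr Y.N _ (hext.tr.le _ _ a1 a2))) _ _
    have hA : (lows.map fun f => Y.nK (1 / wL) f.2.2 (τ' f.1 f.2.1)).prod ≤ (lows.map w).prod := by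
      refine List.prod_map_le_prod_map₀ _ _ (fun f hf => hnn _ f (hlows f hf).1 (hlows f hf).2.1) fun f hf => ?_
      obtain ⟨a1, a2, _, a4⟩ := hlows f hf
      exact ledg_nm_of_pow (ledg_act_mean hY (ledk_pair_isTr Y.N _ (hext.tr.le _ _ a1 a2))) (by omega) a4 (hL f hf)
    have hB : (errs.map fun f => Y.nK (1 / (θ / 2)) f.2.2 (τ' f.1 f.2.1)).prod ≤ E τ' := by
      refine List.prod_map_le_prod_map₀ _ _ (fun f hf => hnn _ f (herrs f hf).1 (herrs f hf).2.2.1) fun f hf => ?_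
      obtain ⟨a1, _, a2, _⟩ := herrs f hf
      exact ledg_err_nm hY hb hθ0 hθ1 (hEr f hf) (hext.tr.le _ _ a1 a2)
    refine mul_le_mul (hκ τ' hext.tr hext.old) (mul_le_mul hA hB ?_ hW0) ?_ hM
    · exact List.prod_nonneg fun a ha => by
        obtain ⟨f, hf, rfl⟩ := List.mem_map.1 ha
        exact hnn _ f (herrs f hf).1 (herrs f hf).2.2.1
    · refine mul_nonneg (List.prod_nonneg fun a ha => ?_) (List.prod_nonneg fun a ha => ?_)
      · obtain ⟨f, hf, rfl⟩ := List.mem_map.1 ha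
        exact hnn _ f (hlows f hf).1 (hlows f hf).2.1
      · obtain ⟨f, hf, rfl⟩ := List.mem_map.1 ha
        exact hnn _ f (herrs f hf).1 (herrs f hf).2.2.1
  have hsumE : trAbsK Y.ms Y.N k q τ E ≤ (TV + cE * C1 + cE ^ 2 * C2) * Y.eCost r q τ k0 k1 errs.length := by
    have hec := ledg_eCost_nonneg hY r q τ (k0 := k0) hk1 errs.length
    have htop : Y.ms Y.N ≤ 1 := hY.ms_top.le
    match errs with
    | [] =>
      have e1 : E = fun _ => (1 : ℝ) := by funext τ'; rw [hE]; rfl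
      have h3 := ledi_absK_const hτ hY.ms_ok k 1 zero_le_one
      rw [hY.ms_top, mul_one, mul_one] at h3
      rw [e1]
      have e2 : Y.eCost r q τ k0 k1 ([] : List (LedFac Ω)).length = 1 := by unfold LedSys.eCost; simp
      rw [e2, mul_one]
      have : 0 ≤ cE * C1 + cE ^ 2 * C2 := by positivity
      linarith
    | [f] =>
      obtain ⟨a1, a2, a3, a4⟩ := herrs f (List.mem_singleton.2 rfl)
      have hθe : θ = 1 := by rw [hθ]; simp
      have e1 : E = fun τ' => cE * (if k0 ≤ τ' f.1 f.2.1 ∧ τ' f.1 f.2.1 < k1 then Y.D (τ' f.1 f.2.1) else 0) := by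
        funext τ'; rw [hE]; simp [hθe]
      have h3 := h1 Y.N τ Y.ms hτ hY.ms_ok htop f.1 f.2.1 k0 k1 a1 a2 a3 a4 hk1 Y.D (ledg_D_nonneg Y)
      rw [e1, ledi_absK_smul]
      have e2 : Y.eCost r q τ k0 k1 [f].length = Y.tot q τ k0 k1 Y.D := by unfold LedSys.eCost; simp
      rw [e2] at hec ⊢
      rw [← ledg_tot_eq] at h3
      have h4 : cE * trAbsK Y.ms Y.N k q τ (fun τ' => if k0 ≤ τ' f.1 f.2.1 ∧ τ' f.1 f.2.1 < k1 then Y.D (τ' f.1 f.2.1) else 0)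
          ≤ cE * (C1 * Y.tot q τ k0 k1 Y.D) := mul_le_mul_of_nonneg_left h3 hcE0.le
      have h5 : 0 ≤ (TV + cE ^ 2 * C2) * Y.tot q τ k0 k1 Y.D := mul_nonneg (by positivity) hec
      nlinarith
    | [f, g] =>
      obtain ⟨a1, a2, a3, a4⟩ := herrs f (by simp)
      obtain ⟨b1, b2, b3, b4⟩ := herrs g (by simp)
      have hθe : θ = 1 - 1 / (r : ℝ) := by rw [hθ]; simp
      have e1 : E = fun τ' => cE ^ 2 * ((if k0 ≤ τ' f.1 f.2.1 ∧ τ' f.1 f.2.1 < k1 then Y.D (τ' f.1 f.2.1) ^ θ else 0)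
          * (if k0 ≤ τ' g.1 g.2.1 ∧ τ' g.1 g.2.1 < k1 then Y.D (τ' g.1 g.2.1) ^ θ else 0)) := by
        funext τ'; rw [hE]
        simp only [List.map_cons, List.map_nil, List.prod_cons, List.prod_nil, mul_one]
        ring
      have h3 := h2 Y.N τ Y.ms hτ hY.ms_ok htop f.1 f.2.1 g.1 g.2.1 k0 k1 a1 a2 a3 a4 b1 b2 b3 b4 hk1 (fun j => Y.D j ^ θ)
        fun j => Real.rpow_nonneg (ledg_D_nonneg Y j) _
      rw [e1, ledi_absK_smul]
      have e3 : (fun j => (Y.D j ^ θ) ^ 2) = fun j => Y.D j ^ (2 * (1 - 1 / (r : ℝ))) := by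
        funext j
        rw [← Real.rpow_natCast, ← Real.rpow_mul (ledg_D_nonneg Y j), hθe]
        congr 1; push_cast; ring
      have e2 : Y.eCost r q τ k0 k1 [f, g].length
          = (Y.tot q τ k0 k1 fun j => Y.D j ^ θ) ^ 2 + Y.tot q τ k0 k1 fun j => (Y.D j ^ θ) ^ 2 := by
        unfold LedSys.eCost; rw [e3, hθe]; simp
      rw [e2] at hec ⊢
      rw [← ledg_tot_eq, ← ledg_tot_eq] at h3
      have h4 := mul_le_mul_of_nonneg_left h3 (sq_nonneg cE)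
      refine h4.trans ?_
      have h5 : 0 ≤ (TV + cE * C1) * ((Y.tot q τ k0 k1 fun j => Y.D j ^ θ) ^ 2 + Y.tot q τ k0 k1 fun j => (Y.D j ^ θ) ^ 2) :=
        mul_nonneg (by positivity) hec
      nlinarith
    | f :: g :: g' :: l =>
      exfalso
      rcases hsh with h | h <;> simp at h
  have hfin : trAbsK Y.ms Y.N k q τ (fun τ' => |κ τ'| * (cfs.map fun f => f.cost (τ' f.c f.d)).prod)
      ≤ M * (lows.map w).prod * ((TV + cE * C1 + cE ^ 2 * C2) * Y.eCost r q τ k0 k1 errs.length) := by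
    refine (ledi_absK_mono hτ k _ _ hpt).trans ?_
    rw [ledi_absK_smul]
    exact mul_le_mul_of_nonneg_left hsumE (mul_nonneg hM hW0)
  calc C0 * p0 * trAbsK Y.ms Y.N k q τ (fun τ' => |κ τ'| * (cfs.map fun f => f.cost (τ' f.c f.d)).prod)
      ≤ C0 * p0 * (M * (lows.map w).prod * ((TV + cE * C1 + cE ^ 2 * C2) * Y.eCost r q τ k0 k1 errs.length)) :=
        mul_le_mul_of_nonneg_left hfin (mul_nonneg hC0 hp0)
    _ = _ := by ring

end Claimed.Agent.R286
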