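import Claimed.Agent.R286.Cav.LedKit
import Claimed.Agent.R286.Cav.LedTayC

/-!
# Row 286 (S0533), unit Cav, file LedPar      (owner: helper32; prefix `ledk_`, `LedOdd`, `LedLowK`, `LedErrK`, `LedTst`)

K6 = THE PARITY ARGUMENT below the smaller cut `kV` (PE cavity.tex l.499-519) and the bounds of insertions with ONE error (any position, `L²`) or TWO errors (`L^{2r/(r-1)}`).
* `ledk_parity`      exact identity (mean value in the third parameter `θ`, profile `ledLam2 kV kU θ l`; at `θ = 0` the flip of a `kV`-block is a symmetry)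
* `LedLowK`          low kernels (odd in each site spin, `0` on pairs of one block, cost `om`, cost `xi` below `kV`): `kLow kU s`, `kLV kV l s`
* `LedErrK e`        error kernels `|V| ≤ e_j |s s' δ|`, `e_j ∈ [0,1]`, no diagonal: `kE kU l`, `kDl kU`
* `LedTst`           tests: `J0`, `J1`
* `ledk_pwe`         ONE extended table: one error + `k` low kernels:  `≤ C p0 e_j D_j * (om^k  if j ≥ kV,   xi om^(k-1)  if j < kV)`
* `ledk_ins_err1`, `ledk_ins_err2`     the same after the signed summation (`led_dens1`, `led_dens2`)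
-/

set_option autoImplicit false

namespace Claimed.Agent.R286

open Finset

variable {Ω : Type}

/-- flip of the site spin -/
def ledFl (x : Bool × Ω) : Bool × Ω := (!x.1, x.2)

/-- a kernel which is odd in each of its two site spins -/
structure LedOdd (V : LedKer Ω) : Prop where
  l : ∀ j x y, V j (ledFl x) y = - V j x y
  r : ∀ j x y, V j x (ledFl y) = - V j x y

/-- **K6, the parity identity.**   `G` is odd under the flip of the `kV`-block of the label `c`. -/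
theorem ledk_parity {Y : LedSys Ω} (hY : Y.Ok) {kV kU : ℕ} (hk : kV ≤ kU) {l t : ℝ} (hl : l ∈ Set.Icc (0 : ℝ) 1)
    (ht : t ∈ Set.Icc (0 : ℝ) 1) {Q : ℕ} {τ' : ℕ → ℕ → ℕ} (hτ' : IsTr Y.N Q τ') {c : ℕ} (hc : c < Q)
    (G : (ℕ → Bool × Ω) → ℝ) (hG : TrUses Q G) (hodd : ∀ σ, G (ledFlip τ' kV c σ) = - G σ) :
    ∃ θ ∈ Set.Ioo (0 : ℝ) 1, Y.nu (ledLam kU l) t Q τ' G =
      trSumK Y.ms Y.N 2 Q τ' fun τ'' => Y.nu (ledLam2 kV kU θ l) t (Q + 2) τ'' fun σ =>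
        G σ * Y.kLV kV l t (τ'' Q (Q + 1)) (σ Q) (σ (Q + 1)) := by
  have z0 : (0 : ℝ) ∈ Set.Icc (0 : ℝ) 1 := ⟨le_rfl, zero_le_one⟩
  have z1 : (1 : ℝ) ∈ Set.Icc (0 : ℝ) 1 := ⟨zero_le_one, le_rfl⟩
  have p0 : LedProf (ledLam2 kV kU 0 l) := ledk_lam2_prof hk z0 hl
  have p1 : LedProf (ledLam2 kV kU 1 l) := ledk_lam2_prof hk z1 hl
  set f : ℝ → ℝ := fun θ => Y.nu (ledSeg (ledLam2 kV kU 0 l) (ledLam2 kV kU 1 l) θ) t Q τ' G with hf
  have hcont : ContinuousOn f (Set.Icc 0 1) := hY.contL _ _ t Q τ' G p0 p1 ht hτ' hG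
  have hder := fun θ (hθ : θ ∈ Set.Ioo (0 : ℝ) 1) => hY.derivL _ _ t Q τ' G θ p0 p1 ht hτ' hG hθ
  obtain ⟨θ, hθ, hmv⟩ := exists_hasDerivAt_eq_slope f _ (zero_lt_one) hcont hder
  refine ⟨θ, hθ, ?_⟩
  -- end points
  have e1 : f 1 = Y.nu (ledLam kU l) t Q τ' G := by
    show Y.nu (ledSeg (ledLam2 kV kU 0 l) (ledLam2 kV kU 1 l) 1) t Q τ' G = _
    rw [ledk_seg_lam2, ledk_lam2_one hk]
  have e0 : f 0 = 0 := by
    show Y.nu (ledSeg (ledLam2 kV kU 0 l) (ledLam2 kV kU 1 l) 0) t Q τ' G = _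
    rw [ledk_seg_lam2]
    have hz : ∀ r, r < kV → ledLam2 kV kU 0 l r = 0 := by
      intro r hr
      simp [ledLam2, hr]
    have h1 := hY.flip _ t Q τ' G kV c p0 ht hτ' hG hc hz
    have h2 : (fun σ => G (ledFlip τ' kV c σ)) = fun σ => (-1) * G σ := by
      funext σ; rw [hodd σ]; ring
    rw [h2, (hY.mean _ t Q τ' p0 ht hτ').smul] at h1
    linarith
  rw [e1, e0] at hmv
  have hmv' : Y.nu (ledLam kU l) t Q τ' G = 1 / 2 * trSumK Y.ms Y.N 2 Q τ' fun τ'' =>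
      Y.nu (ledSeg (ledLam2 kV kU 0 l) (ledLam2 kV kU 1 l) θ) t (Q + 2) τ'' fun σ =>
        G σ * ((ledLam2 kV kU 1 l (τ'' Q (Q + 1)) - ledLam2 kV kU 0 l (τ'' Q (Q + 1))) * Y.kRow t (τ'' Q (Q + 1)) (σ Q) (σ (Q + 1))) := by
    rw [hmv]; ring
  rw [hmv', ← ledi_sumK_smul]
  have pθ : LedProf (ledLam2 kV kU θ l) := ledk_lam2_prof hk ⟨hθ.1.le, hθ.2.le⟩ hl
  refine tr_sumK_congr hτ' 2 _ _ fun τ'' hτ'' _ => ?_
  rw [ledk_seg_lam2, ← (hY.mean _ t (Q + 2) τ'' pθ ht hτ'').smul]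
  congr 1
  funext σ
  unfold LedSys.kLV ledLam2
  by_cases h : τ'' Q (Q + 1) < kV
  · simp only [h, if_true]; ring
  · simp only [h, if_false]; ring

/-- low kernels -/
structure LedLowK (Y : LedSys Ω) (r kV kU : ℕ) (om xi : ℝ) (V : LedKer Ω) : Prop where
  odd : LedOdd V
  zero : ∀ j, kU ≤ j → ∀ x y, V j x y = 0
  low : ∀ j, j < kU → Y.nK ((2 * r : ℕ) : ℝ) V j ≤ om
  lowV : ∀ j, j < kV → Y.nK ((2 * r : ℕ) : ℝ) V j ≤ xi

/-- error kernels with the profile `e` -/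
structure LedErrK (Y : LedSys Ω) (e : ℕ → ℝ) (V : LedKer Ω) : Prop where
  odd : LedOdd V
  e_nonneg : ∀ j, 0 ≤ e j
  e_le : ∀ j, e j ≤ 1
  e_zero : ∀ j, Y.N < j → e j = 0
  le : ∀ j x y, |V j x y| ≤ e j * |Y.kErr j x y|

/-- tests -/
structure LedTst (X : LedCtx Ω) (r : ℕ) (J : (ℕ → Bool × Ω) → ℝ) : Prop where
  uses : TrUses X.q J
  mom : ledNm (X.Y.act X.q X.τ) ((2 * r : ℕ) : ℝ) J ≤ X.p0
  even : ∀ x, x < X.q → ∀ σ, J (ledFlip X.τ X.kV x σ) = J σ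

/-! ### the members of the classes -/

theorem ledk_p97_sg_flip (s : Bool) : ledSg (!s) = - ledSg s := by cases s <;> simp [ledSg]

theorem ledk_p97_sg_abs (s : Bool) : |ledSg s| = 1 := by cases s <;> simp [ledSg]

theorem ledk_p97_kRow_l (Y : LedSys Ω) (s : ℝ) (j : ℕ) (x y : Bool × Ω) : Y.kRow s j (ledFl x) y = - Y.kRow s j x y := by
  simp only [LedSys.kRow, ledFl, ledk_p97_sg_flip]; ring

theorem ledk_p97_kRow_r (Y : LedSys Ω) (s : ℝ) (j : ℕ) (x y : Bool × Ω) : Y.kRow s j x (ledFl y) = - Y.kRow s j x y := by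
  simp only [LedSys.kRow, ledFl, ledk_p97_sg_flip]; ring

theorem ledk_p97_kErr_l (Y : LedSys Ω) (j : ℕ) (x y : Bool × Ω) : Y.kErr j (ledFl x) y = - Y.kErr j x y := by
  simp only [LedSys.kErr, ledFl, ledk_p97_sg_flip]; ring

theorem ledk_p97_kErr_r (Y : LedSys Ω) (j : ℕ) (x y : Bool × Ω) : Y.kErr j x (ledFl y) = - Y.kErr j x y := by
  simp only [LedSys.kErr, ledFl, ledk_p97_sg_flip]; ring

theorem ledk_p97_act_mean {Y : LedSys Ω} (hY : Y.Ok) {q : ℕ} {τ : ℕ → ℕ → ℕ} (hτ : IsTr Y.N q τ) : LedMean (Y.act q τ) :=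
  hY.mean (fun _ => 1) 1 q τ ledk_one_prof ⟨zero_le_one, le_rfl⟩ hτ

theorem ledk_p97_b_nonneg {Y : LedSys Ω} (hY : Y.Ok) (j : ℕ) : 0 ≤ Y.b j := by
  have := hY.b_mono (Nat.zero_le j)
  rwa [hY.b_zero] at this

theorem ledk_p97_h_nonneg {Y : LedSys Ω} (hY : Y.Ok) (j : ℕ) : 0 ≤ Y.h j := by
  have := hY.h_mono (Nat.zero_le j)
  rwa [hY.h_zero] at this

theorem ledk_p97_K_nonneg {Y : LedSys Ω} (hY : Y.Ok) (j : ℕ) : 0 ≤ Y.K j :=
  add_nonneg (ledk_p97_h_nonneg hY j) (mul_nonneg (ledk_p97_b_nonneg hY j) (hY.S_nonneg j))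

theorem ledk_p97_nm_congr {X : Type} (μ : (X → ℝ) → ℝ) (r : ℝ) {f g : X → ℝ} (h : ∀ x, |f x| = |g x|) :
    ledNm μ r f = ledNm μ r g := by
  unfold ledNm
  simp only [h]

theorem ledk_p97_nm_zero {X : Type} {μ : (X → ℝ) → ℝ} (h : LedMean μ) {r : ℝ} (hr : 0 < r) : ledNm μ r (fun _ => 0) = 0 := by
  refine le_antisymm (ledk_nm_le_of_pow_le h hr le_rfl _ ?_) (ledk_nm_nonneg h r _)
  simp only [abs_zero, Real.zero_rpow hr.ne']
  exact (ledk_const h 0).le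

/-- the `L^{2r}` norm of a multiple of the row kernel -/
theorem ledk_p97_row_nm {Y : LedSys Ω} (hY : Y.Ok) {r : ℕ} (hr : 1 ≤ r) {A s c : ℝ} (hA : 0 ≤ A) (hs : s ∈ Set.Icc (0 : ℝ) 1)
    (hc : |c| ≤ 1) {j : ℕ} (hj : j ≤ Y.N + 1) (hQ : Y.mQ (2 * r) j ≤ A ^ (2 * r)) (hK : Y.K j ≤ A) :
    ledNm (Y.act 2 (ledPair Y.N j)) ((2 * r : ℕ) : ℝ) (fun σ => c * Y.kRow s j (σ 0) (σ 1)) ≤ A := by
  have hμ := ledk_p97_act_mean hY (ledk_pair_isTr Y.N j hj)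
  have hp : (1 : ℝ) ≤ ((2 * r : ℕ) : ℝ) := by
    have : 1 ≤ 2 * r := by omega
    exact_mod_cast this
  have hp0 : (0 : ℝ) < ((2 * r : ℕ) : ℝ) := lt_of_lt_of_le one_pos hp
  have h1 : ledNm (Y.act 2 (ledPair Y.N j)) ((2 * r : ℕ) : ℝ) (fun _ => Y.K j) ≤ A := by
    refine ledk_nm_le_of_pow_le hμ hp0 hA _ ?_
    rw [ledk_const hμ, abs_of_nonneg (ledk_p97_K_nonneg hY j)]
    exact Real.rpow_le_rpow (ledk_p97_K_nonneg hY j) hK hp0.le
  have h2 : ledNm (Y.act 2 (ledPair Y.N j)) ((2 * r : ℕ) : ℝ) (fun σ => Y.Q j (σ 0).2 (σ 1).2) ≤ A := by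
    refine ledk_nm_le_of_pow_le hμ hp0 hA _ ?_
    simp only [Real.rpow_natCast]
    have e : (fun σ : ℕ → Bool × Ω => |Y.Q j (σ 0).2 (σ 1).2| ^ (2 * r)) = fun σ => Y.Q j (σ 0).2 (σ 1).2 ^ (2 * r) := by
      funext σ
      rw [pow_mul, pow_mul, sq_abs]
    rw [e]
    exact hQ
  have h3 := ledk_nm_convex hμ hp hs _ _ h1 h2
  have h4 : ledNm (Y.act 2 (ledPair Y.N j)) ((2 * r : ℕ) : ℝ) (fun σ => Y.kRow s j (σ 0) (σ 1)) ≤ A := by
    refine le_of_eq_of_le (ledk_p97_nm_congr _ _ fun σ => ?_) h3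
    simp only [LedSys.kRow, LedSys.Q, LedSys.K, LedSys.dl, abs_mul, ledk_p97_sg_abs, one_mul]
    congr 1
    ring
  rw [ledk_nm_smul hμ hp0]
  calc |c| * ledNm (Y.act 2 (ledPair Y.N j)) ((2 * r : ℕ) : ℝ) (fun σ => Y.kRow s j (σ 0) (σ 1))
      ≤ 1 * A := mul_le_mul hc h4 (ledk_nm_nonneg hμ _ _) zero_le_one
    _ = A := one_mul A

theorem ledk_kLow_low (X : LedCtx Ω) {r : ℕ} {Cb : ℝ} (hr : 1 ≤ r) (h : X.Ok r Cb) {s : ℝ} (hs : s ∈ Set.Icc (0 : ℝ) 1) :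
    LedLowK X.Y r X.kV X.kU X.om X.xi (X.Y.kLow X.kU s) := by
  have hh : |(1 / 2 : ℝ)| ≤ 1 := by rw [abs_of_nonneg (by norm_num)]; norm_num
  refine ⟨⟨fun j x y => ?_, fun j x y => ?_⟩, fun j hj x y => ?_, fun j hj => ?_, fun j hj => ?_⟩
  · simp only [LedSys.kLow, ledk_p97_kRow_l]; split_ifs <;> ring
  · simp only [LedSys.kLow, ledk_p97_kRow_r]; split_ifs <;> ring
  · simp only [LedSys.kLow, if_neg (not_lt.2 hj)]
  · have := ledk_p97_row_nm h.sys hr (h.xi_nonneg.trans h.xi_le) hs hh (j := j)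
      (by have := h.kU_le; omega) (h.low j hj).1 (h.low j hj).2
    simpa only [LedSys.nK, LedSys.kLow, if_pos hj] using this
  · have hj' : j < X.kU := by have := h.kV_le; have := h.kS_lt; omega
    have := ledk_p97_row_nm h.sys hr h.xi_nonneg hs hh (j := j)
      (by have := h.kU_le; omega) (h.lowV j hj).1 (h.lowV j hj).2
    simpa only [LedSys.nK, LedSys.kLow, if_pos hj'] using this

/-- the kernel of the parity derivative costs `xi` at every depth -/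
theorem ledk_kLV_le (X : LedCtx Ω) {r : ℕ} {Cb : ℝ} (hr : 1 ≤ r) (h : X.Ok r Cb) {l s : ℝ} (hl : l ∈ Set.Icc (0 : ℝ) 1)
    (hs : s ∈ Set.Icc (0 : ℝ) 1) (j : ℕ) (hj : j ≤ X.Y.N + 1) : X.Y.nK ((2 * r : ℕ) : ℝ) (X.Y.kLV X.kV l s) j ≤ X.xi := by
  by_cases hjV : j < X.kV
  · have hc : |1 / 2 * l| ≤ 1 := by
      rw [abs_of_nonneg (by have := hl.1; positivity)]
      have := hl.2
      linarith
    have := ledk_p97_row_nm h.sys hr h.xi_nonneg hs hc hj (h.lowV j hjV).1 (h.lowV j hjV).2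
    simpa only [LedSys.nK, LedSys.kLV, if_pos hjV, mul_assoc] using this
  · have hμ := ledk_p97_act_mean h.sys (ledk_pair_isTr X.Y.N j hj)
    have hp0 : (0 : ℝ) < ((2 * r : ℕ) : ℝ) := by
      have : 0 < 2 * r := by omega
      exact_mod_cast this
    simp only [LedSys.nK, LedSys.kLV, if_neg hjV]
    rw [ledk_p97_nm_zero hμ hp0]
    exact h.xi_nonneg

theorem ledk_kE_err (Y : LedSys Ω) (kU : ℕ) {l : ℝ} (hl : l ∈ Set.Icc (0 : ℝ) 1) :
    LedErrK Y (fun j => if j ≤ Y.N then ledLam kU l j else 0) (Y.kE kU l) := by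
  have h0 : ∀ j, 0 ≤ ledLam kU l j := fun j => by
    unfold ledLam; split_ifs
    · exact hl.1
    · exact zero_le_one
  have h1 : ∀ j, ledLam kU l j ≤ 1 := fun j => by
    unfold ledLam; split_ifs
    · exact hl.2
    · exact le_rfl
  refine ⟨⟨fun j x y => ?_, fun j x y => ?_⟩, fun j => ?_, fun j => ?_, fun j hj => ?_, fun j x y => ?_⟩
  · simp only [LedSys.kE, ledk_p97_kErr_l]; split_ifs <;> ring
  · simp only [LedSys.kE, ledk_p97_kErr_r]; split_ifs <;> ring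
  · split_ifs
    · exact h0 j
    · exact le_rfl
  · split_ifs
    · exact h1 j
    · exact zero_le_one
  · simp only [if_neg (not_le.2 hj)]
  · simp only [LedSys.kE]
    split_ifs
    · rw [abs_mul, abs_mul, abs_of_nonneg (h0 j), abs_of_nonneg (by norm_num : (0 : ℝ) ≤ 1 / 2)]
      have := mul_nonneg (h0 j) (abs_nonneg (Y.kErr j x y))
      linarith
    · simp

theorem ledk_kDl_err (Y : LedSys Ω) {kU : ℕ} (hkU : kU ≤ Y.N) : LedErrK Y (fun j => if j < kU then 1 else 0) (Y.kDl kU) := by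
  refine ⟨⟨fun j x y => ?_, fun j x y => ?_⟩, fun j => ?_, fun j => ?_, fun j hj => ?_, fun j x y => ?_⟩
  · simp only [LedSys.kDl, ledk_p97_kErr_l]; split_ifs <;> ring
  · simp only [LedSys.kDl, ledk_p97_kErr_r]; split_ifs <;> ring
  · split_ifs <;> norm_num
  · split_ifs <;> norm_num
  · simp only [if_neg (by omega : ¬ j < kU)]
  · simp only [LedSys.kDl]
    split_ifs
    · rw [abs_mul, abs_of_nonneg (by norm_num : (0 : ℝ) ≤ 1 / 2)]
      have := abs_nonneg (Y.kErr j x y)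
      linarith
    · simp

theorem ledk_p97_rs_flip (τ : ℕ → ℕ → ℕ) (k x : ℕ) (σ : ℕ → Bool × Ω) : ledRs (ledFlip τ k x σ) = ledRs σ := by
  funext i
  simp only [ledRs, ledFlip]
  split_ifs <;> rfl

theorem ledk_p97_mom (X : LedCtx Ω) {r : ℕ} {Cb : ℝ} (hr : 1 ≤ r) (h : X.Ok r Cb) (J : (ℕ → Bool × Ω) → ℝ)
    (hJ : ∀ σ, |J σ| = |X.P (ledRs σ)|) : ledNm (X.Y.act X.q X.τ) ((2 * r : ℕ) : ℝ) J ≤ X.p0 := by
  have hμ := ledk_p97_act_mean h.sys h.tr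
  have hp0 : (0 : ℝ) < ((2 * r : ℕ) : ℝ) := by
    have : 0 < 2 * r := by omega
    exact_mod_cast this
  refine ledk_nm_le_of_pow_le hμ hp0 h.p0_nonneg _ ?_
  simp only [Real.rpow_natCast, hJ]
  have e : (fun σ : ℕ → Bool × Ω => |X.P (ledRs σ)| ^ (2 * r)) = fun σ => X.P (ledRs σ) ^ (2 * r) := by
    funext σ
    rw [pow_mul, pow_mul, sq_abs]
  rw [e]
  exact h.test

theorem ledk_J0_tst (X : LedCtx Ω) {r : ℕ} {Cb : ℝ} (hr : 1 ≤ r) (h : X.Ok r Cb) : LedTst X r X.J0 := by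
  refine ⟨fun σ σ' hσ => ?_, ledk_p97_mom X hr h _ fun σ => rfl, fun x _ σ => ?_⟩
  · exact h.uses _ _ fun i hi => by simp only [ledRs, hσ i hi]
  · simp only [LedCtx.J0, ledk_p97_rs_flip]

theorem ledk_J1_tst (X : LedCtx Ω) {r : ℕ} {Cb : ℝ} (hr : 1 ≤ r) (h : X.Ok r Cb) : LedTst X r X.J1 := by
  refine ⟨fun σ σ' hσ => ?_, ledk_p97_mom X hr h _ fun σ => ?_, fun x hx σ => ?_⟩
  · simp only [LedCtx.J1, hσ X.a h.a_lt, hσ X.b h.b_lt]
    congr 1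
    exact h.uses _ _ fun i hi => by simp only [ledRs, hσ i hi]
  · simp only [LedCtx.J1, abs_mul, ledk_p97_sg_abs, one_mul]
  · have hab : X.kV ≤ X.τ X.a X.b := by rw [h.split]; exact h.kV_le
    have hba : X.kV ≤ X.τ X.b X.a := by rw [h.tr.symm X.b X.a h.b_lt h.a_lt]; exact hab
    have hiff : X.kV ≤ X.τ x X.a ↔ X.kV ≤ X.τ x X.b :=
      ⟨fun h1 => (le_min h1 hab).trans (h.tr.ultra x X.a X.b hx h.a_lt h.b_lt),
        fun h1 => (le_min h1 hba).trans (h.tr.ultra x X.b X.a hx h.b_lt h.a_lt)⟩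
    simp only [LedCtx.J1, ledk_p97_rs_flip, ledFlip]
    by_cases h1 : X.kV ≤ X.τ x X.a
    · rw [if_pos h1, if_pos (hiff.1 h1)]
      simp only [ledk_p97_sg_flip]
      ring
    · rw [if_neg h1, if_neg fun h2 => h1 (hiff.2 h2)]

/-- an error kernel in `L²` -/
theorem ledk_err_L2 {Y : LedSys Ω} (hY : Y.Ok) {Cb : ℝ} (hb : ∀ r, Y.b r ≤ Cb) {e : ℕ → ℝ} {V : LedKer Ω} (hV : LedErrK Y e V)
    (j : ℕ) (hj : j ≤ Y.N + 1) : Y.nK 2 V j ≤ Cb * (e j * Y.D j) := by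
  have hμ := ledk_p97_act_mean hY (ledk_pair_isTr Y.N j hj)
  have hb0 := ledk_p97_b_nonneg hY j
  have hCb : 0 ≤ Cb := hb0.trans (hb j)
  have he := hV.e_nonneg j
  have hD : 0 ≤ Y.D j := Real.sqrt_nonneg _
  have hm0 : 0 ≤ Y.act 2 (ledPair Y.N j) fun σ => (Y.R (σ 0).2 (σ 1).2 - Y.S j) ^ 2 := hμ.nonneg _ fun σ => sq_nonneg _
  have hD2 : Y.D j ^ 2 = Y.act 2 (ledPair Y.N j) fun σ => (Y.R (σ 0).2 (σ 1).2 - Y.S j) ^ 2 := Real.sq_sqrt hm0
  refine ledk_nm_le_of_pow_le hμ two_pos (by positivity) _ ?_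
  simp only [Real.rpow_two]
  calc Y.act 2 (ledPair Y.N j) (fun σ => |V j (σ 0) (σ 1)| ^ 2)
      ≤ Y.act 2 (ledPair Y.N j) (fun σ => (e j * Y.b j) ^ 2 * (Y.R (σ 0).2 (σ 1).2 - Y.S j) ^ 2) := by
        refine ledk_mono hμ fun σ => ?_
        have h1 := hV.le j (σ 0) (σ 1)
        have h2 : |Y.kErr j (σ 0) (σ 1)| = Y.b j * |Y.R (σ 0).2 (σ 1).2 - Y.S j| := by
          simp only [LedSys.kErr, LedSys.dl, abs_mul, ledk_p97_sg_abs, one_mul, abs_of_nonneg hb0]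
        rw [h2] at h1
        calc |V j (σ 0) (σ 1)| ^ 2 ≤ (e j * (Y.b j * |Y.R (σ 0).2 (σ 1).2 - Y.S j|)) ^ 2 :=
              pow_le_pow_left₀ (abs_nonneg _) h1 2
          _ = (e j * Y.b j) ^ 2 * (Y.R (σ 0).2 (σ 1).2 - Y.S j) ^ 2 := by
              rw [← mul_assoc, mul_pow, sq_abs]
    _ = (e j * Y.b j) ^ 2 * Y.D j ^ 2 := by rw [hμ.smul, hD2]
    _ ≤ (Cb * (e j * Y.D j)) ^ 2 := by
        have : e j * Y.b j * Y.D j ≤ Cb * (e j * Y.D j) := by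
          have := mul_le_mul_of_nonneg_right (hb j) (mul_nonneg he hD)
          linarith
        calc (e j * Y.b j) ^ 2 * Y.D j ^ 2 = (e j * Y.b j * Y.D j) ^ 2 := by ring
          _ ≤ _ := pow_le_pow_left₀ (by positivity) this 2

/-- an error kernel in `L^{2r/(r-1)}` -/
theorem ledk_err_Lr {Y : LedSys Ω} (hY : Y.Ok) {Cb : ℝ} (hb : ∀ r, Y.b r ≤ Cb) {e : ℕ → ℝ} {V : LedKer Ω} (hV : LedErrK Y e V)
    {r : ℕ} (hr : 2 ≤ r) (j : ℕ) (hj : j ≤ Y.N + 1) :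
    Y.nK (1 / ((1 - 1 / (r : ℝ)) / 2)) V j ≤ 2 * Cb * (e j * Y.D j ^ (1 - 1 / (r : ℝ))) := by
  have hμ := ledk_p97_act_mean hY (ledk_pair_isTr Y.N j hj)
  have hb0 := ledk_p97_b_nonneg hY j
  have hCb : 0 ≤ Cb := hb0.trans (hb j)
  have he := hV.e_nonneg j
  have hD : 0 ≤ Y.D j := Real.sqrt_nonneg _
  have hr' : (2 : ℝ) ≤ r := by exact_mod_cast hr
  set θ : ℝ := 1 - 1 / (r : ℝ) with hθ
  have hθ1 : θ ≤ 1 := by
    have : 0 ≤ 1 / (r : ℝ) := by positivity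
    linarith
  have hθ0 : 0 < θ := by
    have : 1 / (r : ℝ) ≤ 1 / 2 := one_div_le_one_div_of_le two_pos hr'
    linarith
  have hp : 1 / (θ / 2) = 2 / θ := by field_simp
  have hp2 : 2 ≤ 2 / θ := by
    rw [le_div_iff₀ hθ0]
    linarith
  have h2p : 2 / (2 / θ) = θ := by field_simp
  have hM : ∀ σ : ℕ → Bool × Ω, |V j (σ 0) (σ 1)| ≤ 2 * (Cb * e j) := fun σ => by
    have h1 := hV.le j (σ 0) (σ 1)
    have h2 : |Y.kErr j (σ 0) (σ 1)| = Y.b j * |Y.R (σ 0).2 (σ 1).2 - Y.S j| := by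
      simp only [LedSys.kErr, LedSys.dl, abs_mul, ledk_p97_sg_abs, one_mul, abs_of_nonneg hb0]
    have h3 : |Y.R (σ 0).2 (σ 1).2 - Y.S j| ≤ 2 := by
      have a1 := abs_le.1 (hY.R_le (σ 0).2 (σ 1).2)
      have a2 := hY.S_nonneg j
      have a3 := hY.S_le j
      rw [abs_le]; constructor <;> linarith [a1.1, a1.2]
    have h4 : Y.b j * |Y.R (σ 0).2 (σ 1).2 - Y.S j| ≤ Cb * 2 := mul_le_mul (hb j) h3 (abs_nonneg _) hCb
    rw [h2] at h1
    have := mul_le_mul_of_nonneg_left h4 he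
    linarith
  have h1 := ledk_nm_interp hμ hp2 (by positivity : 0 ≤ 2 * (Cb * e j)) (fun σ => V j (σ 0) (σ 1)) hM
  have h2 : ledNm (Y.act 2 (ledPair Y.N j)) 2 (fun σ => V j (σ 0) (σ 1)) ≤ Cb * (e j * Y.D j) := ledk_err_L2 hY hb hV j hj
  rw [h2p] at h1
  unfold LedSys.nK
  rw [hp]
  refine h1.trans ?_
  have h3 : ledNm (Y.act 2 (ledPair Y.N j)) 2 (fun σ => V j (σ 0) (σ 1)) ^ θ ≤ (Cb * (e j * Y.D j)) ^ θ :=
    Real.rpow_le_rpow (ledk_nm_nonneg hμ _ _) h2 hθ0.le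
  have hce : 0 ≤ Cb * e j := mul_nonneg hCb he
  calc (2 * (Cb * e j)) ^ (1 - θ) * ledNm (Y.act 2 (ledPair Y.N j)) 2 (fun σ => V j (σ 0) (σ 1)) ^ θ
      ≤ (2 * (Cb * e j)) ^ (1 - θ) * (Cb * (e j * Y.D j)) ^ θ :=
        mul_le_mul_of_nonneg_left h3 (Real.rpow_nonneg (by positivity) _)
    _ = 2 ^ (1 - θ) * ((Cb * e j) ^ (1 - θ) * (Cb * e j) ^ θ) * Y.D j ^ θ := by
        rw [Real.mul_rpow two_pos.le hce, ← mul_assoc Cb, Real.mul_rpow hce hD]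
        ring
    _ = 2 ^ (1 - θ) * (Cb * e j) * Y.D j ^ θ := by
        rw [← Real.rpow_add' hce (by norm_num), sub_add_cancel, Real.rpow_one]
    _ ≤ 2 * (Cb * e j) * Y.D j ^ θ := by
        have : (2 : ℝ) ^ (1 - θ) ≤ 2 ^ (1 : ℝ) := Real.rpow_le_rpow_of_exponent_le one_le_two (by linarith)
        rw [Real.rpow_one] at this
        exact mul_le_mul_of_nonneg_right (mul_le_mul_of_nonneg_right this hce) (Real.rpow_nonneg hD _)
    _ = 2 * Cb * (e j * Y.D j ^ θ) := by ring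

/-! ### flips of products of factors -/

/-- a test on the old labels which is even under the flips of the old `kV`-blocks is even under the flips of the blocks of an extended table -/
theorem ledk_tst_flip (X : LedCtx Ω) {r : ℕ} {J : (ℕ → Bool × Ω) → ℝ} (hJ : LedTst X r J) (hτ : IsTr X.Y.N X.q X.τ) {Q : ℕ}
    {τ' : ℕ → ℕ → ℕ} (hQ : X.q ≤ Q) (hτ' : IsTr X.Y.N Q τ') (hext : ∀ y z, y < X.q → z < X.q → τ' y z = X.τ y z) {c : ℕ} (hc : c < Q)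
    (σ : ℕ → Bool × Ω) : J (ledFlip τ' X.kV c σ) = J σ := by
  by_cases hx : ∃ x, x < X.q ∧ X.kV ≤ τ' c x
  · obtain ⟨x, hxq, hcx⟩ := hx
    have hxQ : x < Q := lt_of_lt_of_le hxq hQ
    rw [← hJ.even x hxq σ]
    refine hJ.uses _ _ fun i hi => ?_
    have hiQ : i < Q := lt_of_lt_of_le hi hQ
    have hxc : X.kV ≤ τ' x c := by rw [hτ'.symm x c hxQ hc]; exact hcx
    have hiff : X.kV ≤ τ' c i ↔ X.kV ≤ X.τ x i := by
      rw [← hext x i hxq hi]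
      exact ⟨fun h1 => (le_min hxc h1).trans (hτ'.ultra x c i hxQ hc hiQ),
        fun h1 => (le_min hcx h1).trans (hτ'.ultra c x i hc hxQ hiQ)⟩
    simp only [ledFlip, hiff]
  · refine hJ.uses _ _ fun i hi => ?_
    have : ¬ X.kV ≤ τ' c i := fun h1 => hx ⟨i, hi, h1⟩
    simp only [ledFlip, if_neg this]

/-- an odd kernel on a pair inside one `k`-block, or on a pair which does not meet the block of `c`, does not see the flip;
on a pair with exactly one end in the block of `c` it changes sign -/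
theorem ledk_fac_flip {V : LedKer Ω} (hV : LedOdd V) (τ' : ℕ → ℕ → ℕ) (k c x y j : ℕ) (σ : ℕ → Bool × Ω) :
    V j (ledFlip τ' k c σ x) (ledFlip τ' k c σ y) = (if (k ≤ τ' c x ↔ k ≤ τ' c y) then 1 else -1) * V j (σ x) (σ y) := by
  have hl := hV.l j
  have hr := hV.r j
  simp only [ledFl] at hl hr
  by_cases h1 : k ≤ τ' c x <;> by_cases h2 : k ≤ τ' c y <;> simp [ledFlip, h1, h2, hl, hr]

/-! ### one error -/

/-- cost of one error at the depth `j` together with `k` low kernels -/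
noncomputable def LedCtx.cost1 (X : LedCtx Ω) (e : ℕ → ℝ) (k j : ℕ) : ℝ :=
  (if j < X.kV then X.xi * X.om ^ (k - 1) else X.om ^ k) * (e j * X.Y.D j)

/-- a low factor with its weight `1/(2r)` and its cost -/
noncomputable def ledkLowCF (X : LedCtx Ω) (r : ℕ) (f : LedFac Ω) : LedCF Ω :=
  ⟨f.1, f.2.1, f.2.2, 1 / ((2 * r : ℕ) : ℝ), fun j => if j < X.kV then X.xi else X.om⟩

theorem ledk_pe_low_ok (X : LedCtx Ω) {r : ℕ} {Cb : ℝ} (hr : 1 ≤ r) (h : X.Ok r Cb) {Q : ℕ} {f : LedFac Ω} (h1 : f.1 < Q) (h2 : f.2.1 < Q)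
    (hne : f.1 ≠ f.2.1) (hV : LedLowK X.Y r X.kV X.kU X.om X.xi f.2.2) : (ledkLowCF X r f).Ok X.Y Q := by
  have hp0 : (0 : ℝ) < ((2 * r : ℕ) : ℝ) := by
    have : 0 < 2 * r := by omega
    exact_mod_cast this
  refine ⟨h1, h2, hne, one_div_pos.2 hp0, fun j hj => ?_⟩
  show X.Y.nK (1 / (1 / ((2 * r : ℕ) : ℝ))) f.2.2 j ≤ if j < X.kV then X.xi else X.om
  rw [one_div_one_div]
  split_ifs with hjV
  · exact hV.lowV j hjV
  · by_cases hjU : j < X.kU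
    · exact hV.low j hjU
    · have hμ := ledk_p97_act_mean h.sys (ledk_pair_isTr X.Y.N j hj)
      have e : (fun σ : ℕ → Bool × Ω => f.2.2 j (σ 0) (σ 1)) = fun _ => 0 := by
        funext σ; exact hV.zero j (not_lt.1 hjU) _ _
      unfold LedSys.nK
      rw [e, ledk_p97_nm_zero hμ hp0]
      exact h.xi_nonneg.trans h.xi_le

theorem ledk_pe_cost {xi om : ℝ} (hxi : 0 ≤ xi) (hxo : xi ≤ om) (kV : ℕ) (L : List ℕ) :
    0 ≤ (L.map fun j => if j < kV then xi else om).prod ∧ (L.map fun j => if j < kV then xi else om).prod ≤ om ^ L.length := by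
  induction L with
  | nil => simp
  | cons j L ih =>
    simp only [List.map_cons, List.prod_cons, List.length_cons, pow_succ']
    have h0 : 0 ≤ (if j < kV then xi else om) := by
      split_ifs
      · exact hxi
      · exact hxi.trans hxo
    have h1 : (if j < kV then xi else om) ≤ om := by
      split_ifs
      · exact hxo
      · exact le_rfl
    exact ⟨mul_nonneg h0 ih.1, mul_le_mul h1 ih.2 ih.1 (hxi.trans hxo)⟩

theorem ledk_pe_cost_lt {xi om : ℝ} (hxi : 0 ≤ xi) (hxo : xi ≤ om) (kV : ℕ) (L : List ℕ) (h : ∃ j ∈ L, j < kV) :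
    (L.map fun j => if j < kV then xi else om).prod ≤ xi * om ^ (L.length - 1) := by
  induction L with
  | nil => obtain ⟨j, hj, _⟩ := h; simp at hj
  | cons j L ih =>
    simp only [List.map_cons, List.prod_cons, List.length_cons, Nat.add_sub_cancel]
    by_cases hj : j < kV
    · rw [if_pos hj]
      exact mul_le_mul_of_nonneg_left (ledk_pe_cost hxi hxo kV L).2 hxi
    · rw [if_neg hj]
      obtain ⟨j', hj', hlt⟩ := h
      rcases List.mem_cons.1 hj' with rfl | hj'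
      · exact absurd hlt hj
      · have := ih ⟨j', hj', hlt⟩
        have hpos : 1 ≤ L.length := List.length_pos_of_mem hj'
        calc om * (L.map fun j => if j < kV then xi else om).prod
            ≤ om * (xi * om ^ (L.length - 1)) := mul_le_mul_of_nonneg_left this (hxi.trans hxo)
          _ = xi * om ^ (L.length - 1 + 1) := by ring
          _ = xi * om ^ L.length := by rw [Nat.sub_add_cancel hpos]

/-- odd kernels on pairs inside `k`-blocks do not see a block flip -/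
theorem ledk_pe_facs_flip {N Q : ℕ} {τ' : ℕ → ℕ → ℕ} (hτ' : IsTr N Q τ') {k c : ℕ} (hc : c < Q) (Ls : List (LedFac Ω))
    (h : ∀ f ∈ Ls, f.1 < Q ∧ f.2.1 < Q ∧ LedOdd f.2.2 ∧ k ≤ τ' f.1 f.2.1) (σ : ℕ → Bool × Ω) :
    ledFacs Ls τ' (ledFlip τ' k c σ) = ledFacs Ls τ' σ := by
  induction Ls with
  | nil => rfl
  | cons f Ls ih =>
    obtain ⟨h1, h2, ho, hk⟩ := h f List.mem_cons_self
    rw [ledy_facs_cons, ledy_facs_cons, ih fun g hg => h g (List.mem_cons_of_mem _ hg), ledk_fac_flip ho, if_pos, one_mul]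
    constructor
    · intro h3
      exact (le_min h3 hk).trans (hτ'.ultra c f.1 f.2.1 hc h1 h2)
    · intro h3
      have hk' : k ≤ τ' f.2.1 f.1 := by rw [hτ'.symm _ _ h2 h1]; exact hk
      exact (le_min h3 hk').trans (hτ'.ultra c f.2.1 f.1 hc h2 h1)

theorem ledk_pe_fac (X : LedCtx Ω) (r : ℕ) (Ls : List (LedFac Ω)) : (Ls.map (ledkLowCF X r)).map LedCF.fac = Ls := by
  rw [List.map_map]
  exact List.map_id _

theorem ledk_pe_w (X : LedCtx Ω) (r : ℕ) (Ls : List (LedFac Ω)) :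
    ((Ls.map (ledkLowCF X r)).map fun f => f.w).sum = Ls.length * (1 / ((2 * r : ℕ) : ℝ)) := by
  rw [List.map_map]
  have : ((fun f : LedCF Ω => f.w) ∘ ledkLowCF X r) = fun _ => 1 / ((2 * r : ℕ) : ℝ) := rfl
  rw [this, List.map_const', List.sum_replicate, nsmul_eq_mul]

theorem ledk_pe_costs (X : LedCtx Ω) (r : ℕ) (Ls : List (LedFac Ω)) (τ' : ℕ → ℕ → ℕ) :
    ((Ls.map (ledkLowCF X r)).map fun f => f.cost (τ' f.c f.d)).prod
      = ((Ls.map fun f => τ' f.1 f.2.1).map fun j => if j < X.kV then X.xi else X.om).prod := by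
  rw [List.map_map, List.map_map]
  rfl

theorem ledk_pwe_core (Q nf r : ℕ) (hr : nf + 2 ≤ r) (Cb : ℝ) : ∃ C : ℝ, 0 ≤ C ∧ ∀ (Ω : Type) (X : LedCtx Ω), X.q ≤ Q → X.Ok r Cb →
    ∀ l ∈ Set.Icc (0 : ℝ) 1, ∀ t ∈ Set.Icc (0 : ℝ) 1, ∀ (J : (ℕ → Bool × Ω) → ℝ) (Ls : List (LedFac Ω)) (Er : LedKer Ω) (e : ℕ → ℝ) (c d : ℕ),
      LedTst X r J → Ls.length = nf → (∀ f ∈ Ls, f.1 < Q ∧ f.2.1 < Q ∧ f.1 ≠ f.2.1 ∧ LedLowK X.Y r X.kV X.kU X.om X.xi f.2.2) →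
      LedErrK X.Y e Er → c < Q → d < Q → c ≠ d →
      ∀ τ' : ℕ → ℕ → ℕ, IsTr X.Y.N Q τ' → (∀ y z, y < X.q → z < X.q → τ' y z = X.τ y z) →
      |X.Y.nu (ledLam X.kU l) t Q τ' fun σ => J σ * ledFacs ((c, d, Er) :: Ls) τ' σ| ≤ C * X.p0 * X.cost1 e nf (τ' c d) := by
  obtain ⟨C1, hC1, h1⟩ := ledk_pw Q (nf + 1) Cb
  obtain ⟨C2, hC2, h2⟩ := ledk_pw (Q + 2) (nf + 2) Cb
  refine ⟨C1 * |Cb| + 4 * ((Q : ℝ) * (Q + 1)) * (C2 * |Cb|), by positivity, ?_⟩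
  intro Ω X hqQ hX l hl t ht J Ls Er e c d hJ hlen hLs hEr hc hd hcd τ' hτ' hext
  have hY := hX.sys
  have hr1 : 1 ≤ r := by omega
  have hom : 0 ≤ X.om := hX.xi_nonneg.trans hX.xi_le
  have hCb : 0 ≤ Cb := by have := hX.b_le 0; rwa [hY.b_zero] at this
  rw [abs_of_nonneg hCb]
  have hp0 : (0 : ℝ) < ((2 * r : ℕ) : ℝ) := by
    have : 0 < 2 * r := by omega
    exact_mod_cast this
  have hwL : 0 < 1 / ((2 * r : ℕ) : ℝ) := one_div_pos.2 hp0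
  have hw2 : ((nf : ℝ) + 2) * (1 / ((2 * r : ℕ) : ℝ)) ≤ 1 / 2 := by
    rw [mul_one_div, div_le_iff₀ hp0]
    push_cast
    have : ((nf : ℝ) + 2) ≤ r := by exact_mod_cast hr
    linarith
  have hJn : ∀ τ₁ : ℕ → ℕ → ℕ, (∀ y z, y < X.q → z < X.q → τ₁ y z = X.τ y z) →
      ledNm (X.Y.act X.q τ₁) (1 / (1 / ((2 * r : ℕ) : ℝ))) J ≤ X.p0 := by
    intro τ₁ h
    rw [one_div_one_div]
    have : X.Y.act X.q τ₁ (fun x => |J x| ^ (((2 * r : ℕ) : ℝ))) = X.Y.act X.q X.τ fun x => |J x| ^ (((2 * r : ℕ) : ℝ)) :=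
      hY.congr _ 1 X.q τ₁ X.τ _ h
    unfold ledNm
    rw [this]
    exact hJ.mom
  have hED : ∀ j, 0 ≤ e j * X.Y.D j := fun j => mul_nonneg (hEr.e_nonneg j) (Real.sqrt_nonneg _)
  have hEok : ∀ Q', Q ≤ Q' → (⟨c, d, Er, 1 / 2, fun j => Cb * (e j * X.Y.D j)⟩ : LedCF Ω).Ok X.Y Q' := by
    intro Q' hQ'
    refine ⟨lt_of_lt_of_le hc hQ', lt_of_lt_of_le hd hQ', hcd, by norm_num, fun j hj => ?_⟩
    show X.Y.nK (1 / (1 / 2)) Er j ≤ Cb * (e j * X.Y.D j)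
    rw [one_div_one_div]
    exact ledk_err_L2 hY hX.b_le hEr j hj
  have hLok : ∀ Q', Q ≤ Q' → ∀ f ∈ Ls.map (ledkLowCF X r), f.Ok X.Y Q' := by
    intro Q' hQ' f hf
    obtain ⟨g, hg, rfl⟩ := List.mem_map.1 hf
    obtain ⟨a1, a2, a3, a4⟩ := hLs g hg
    exact ledk_pe_low_ok X hr1 hX (lt_of_lt_of_le a1 hQ') (lt_of_lt_of_le a2 hQ') a3 a4
  have hP := fun τ₁ : ℕ → ℕ → ℕ => ledk_pe_cost hX.xi_nonneg hX.xi_le X.kV (Ls.map fun f => τ₁ f.1 f.2.1)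
  simp only [List.length_map, hlen] at hP
  -- the direct Hoelder bound
  have hdir : |X.Y.nu (ledLam X.kU l) t Q τ' fun σ => J σ * ledFacs ((c, d, Er) :: Ls) τ' σ|
      ≤ C1 * X.p0 * (Cb * (e (τ' c d) * X.Y.D (τ' c d))
          * ((Ls.map fun f => τ' f.1 f.2.1).map fun j => if j < X.kV then X.xi else X.om).prod) := by
    have h3 := h1 Ω X.Y hY hX.b_le hX.h_le (ledLam X.kU l) t X.q τ' J
      ((⟨c, d, Er, 1 / 2, fun j => Cb * (e j * X.Y.D j)⟩ : LedCF Ω) :: Ls.map (ledkLowCF X r)) (1 / ((2 * r : ℕ) : ℝ)) X.p0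
      (ledk_lam_prof _ hl) ht hqQ hτ' hJ.uses (by simp [hlen])
      (by
        intro f hf
        rcases List.mem_cons.1 hf with rfl | hf
        · exact hEok Q le_rfl
        · exact hLok Q le_rfl f hf)
      hwL
      (by
        rw [List.map_cons, List.sum_cons, ledk_pe_w, hlen]
        show 1 / ((2 * r : ℕ) : ℝ) + (1 / 2 + (nf : ℝ) * (1 / ((2 * r : ℕ) : ℝ))) ≤ 1
        nlinarith [hw2, hwL])
      (hJn τ' hext)
    rw [List.map_cons, List.map_cons, List.prod_cons, ledk_pe_fac, ledk_pe_costs] at h3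
    exact h3
  have hC1p : 0 ≤ C1 * X.p0 := mul_nonneg hC1 hX.p0_nonneg
  have hrest : 0 ≤ 4 * ((Q : ℝ) * (Q + 1)) * (C2 * Cb) * X.p0 * X.cost1 e nf (τ' c d) := by
    have : 0 ≤ X.cost1 e nf (τ' c d) := by
      unfold LedCtx.cost1
      refine mul_nonneg ?_ (hED _)
      split_ifs
      · exact mul_nonneg hX.xi_nonneg (pow_nonneg hom _)
      · exact pow_nonneg hom _
    have h4 : 0 ≤ 4 * ((Q : ℝ) * (Q + 1)) * (C2 * Cb) := by positivity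
    exact mul_nonneg (mul_nonneg h4 hX.p0_nonneg) this
  -- a bound of the product of the costs is enough
  have hfin : ((Ls.map fun f => τ' f.1 f.2.1).map fun j => if j < X.kV then X.xi else X.om).prod
      ≤ (if τ' c d < X.kV then X.xi * X.om ^ (nf - 1) else X.om ^ nf) →
      |X.Y.nu (ledLam X.kU l) t Q τ' fun σ => J σ * ledFacs ((c, d, Er) :: Ls) τ' σ|
        ≤ (C1 * Cb + 4 * ((Q : ℝ) * (Q + 1)) * (C2 * Cb)) * X.p0 * X.cost1 e nf (τ' c d) := by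
    intro h
    have h5 := mul_le_mul_of_nonneg_left h (mul_nonneg hCb (hED (τ' c d)))
    have h6 := mul_le_mul_of_nonneg_left h5 hC1p
    have e1 : C1 * X.p0 * (Cb * (e (τ' c d) * X.Y.D (τ' c d)) * (if τ' c d < X.kV then X.xi * X.om ^ (nf - 1) else X.om ^ nf))
        = C1 * Cb * X.p0 * X.cost1 e nf (τ' c d) := by
      unfold LedCtx.cost1
      ring
    rw [e1] at h6
    have := hdir.trans h6
    linarith
  by_cases hjV : τ' c d < X.kV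
  swap
  · exact hfin (by rw [if_neg hjV]; exact (hP τ').2)
  by_cases hex : ∃ f ∈ Ls, τ' f.1 f.2.1 < X.kV
  · refine hfin ?_
    rw [if_pos hjV]
    obtain ⟨f, hf, hlt⟩ := hex
    have := ledk_pe_cost_lt hX.xi_nonneg hX.xi_le X.kV (Ls.map fun f => τ' f.1 f.2.1) ⟨_, List.mem_map.2 ⟨f, hf, rfl⟩, hlt⟩
    rwa [List.length_map, hlen] at this
  -- the parity argument
  push Not at hex
  have hkVN : X.kV ≤ X.Y.N + 1 := by have := hX.kV_le; have := hX.kS_lt; have := hX.kU_le; omega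
  have hlt : ∀ f ∈ ((c, d, Er) :: Ls), f.1 < Q ∧ f.2.1 < Q := by
    intro f hf
    rcases List.mem_cons.1 hf with rfl | hf
    · exact ⟨hc, hd⟩
    · exact ⟨(hLs f hf).1, (hLs f hf).2.1⟩
  have hG : TrUses Q fun σ => J σ * ledFacs ((c, d, Er) :: Ls) τ' σ :=
    ledy_uses_facs (ledk_uses_mono hqQ hJ.uses) hlt τ'
  have hodd : ∀ σ, (fun σ => J σ * ledFacs ((c, d, Er) :: Ls) τ' σ) (ledFlip τ' X.kV c σ)
      = - (fun σ => J σ * ledFacs ((c, d, Er) :: Ls) τ' σ) σ := by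
    intro σ
    show J (ledFlip τ' X.kV c σ) * ledFacs ((c, d, Er) :: Ls) τ' (ledFlip τ' X.kV c σ) = - (J σ * ledFacs ((c, d, Er) :: Ls) τ' σ)
    rw [ledk_tst_flip X hJ hX.tr hqQ hτ' hext hc, ledy_facs_cons, ledy_facs_cons,
      ledk_pe_facs_flip hτ' hc Ls (fun f hf => ⟨(hLs f hf).1, (hLs f hf).2.1, (hLs f hf).2.2.2.odd, hex f hf⟩)]
    show J σ * (Er (τ' c d) (ledFlip τ' X.kV c σ c) (ledFlip τ' X.kV c σ d) * ledFacs Ls τ' σ)
      = - (J σ * (Er (τ' c d) (σ c) (σ d) * ledFacs Ls τ' σ))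
    rw [ledk_fac_flip hEr.odd, if_neg]
    · ring
    · intro h
      have := h.1 (by rw [hτ'.diag c hc]; exact hkVN)
      omega
  obtain ⟨θ, hθ, hpar⟩ := ledk_parity hY (hX.kV_le.trans hX.kS_lt.le) hl ht hτ' hc _ hG hodd
  rw [hpar]
  have hM0 : 0 ≤ C2 * X.p0 * (X.xi * (Cb * (e (τ' c d) * X.Y.D (τ' c d)) * X.om ^ nf)) :=
    mul_nonneg (mul_nonneg hC2 hX.p0_nonneg) (mul_nonneg hX.xi_nonneg (mul_nonneg (mul_nonneg hCb (hED _)) (pow_nonneg hom _)))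
  have hsum := ledi_sumK_le_const hτ' hY.ms_ok 2 (fun τ'' => X.Y.nu (ledLam2 X.kV X.kU θ l) t (Q + 2) τ'' fun σ =>
        (fun σ => J σ * ledFacs ((c, d, Er) :: Ls) τ' σ) σ * X.Y.kLV X.kV l t (τ'' Q (Q + 1)) (σ Q) (σ (Q + 1)))
    (C2 * X.p0 * (X.xi * (Cb * (e (τ' c d) * X.Y.D (τ' c d)) * X.om ^ nf))) hM0 (by
      intro τ'' hτ''
      obtain ⟨hτ2, hag⟩ := hτ''
      have h3 := h2 Ω X.Y hY hX.b_le hX.h_le (ledLam2 X.kV X.kU θ l) t X.q τ'' J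
        ((⟨Q, Q + 1, X.Y.kLV X.kV l t, 1 / ((2 * r : ℕ) : ℝ), fun _ => X.xi⟩ : LedCF Ω) ::
          (⟨c, d, Er, 1 / 2, fun j => Cb * (e j * X.Y.D j)⟩ : LedCF Ω) :: Ls.map (ledkLowCF X r)) (1 / ((2 * r : ℕ) : ℝ)) X.p0
        (ledk_lam2_prof (hX.kV_le.trans hX.kS_lt.le) ⟨hθ.1.le, hθ.2.le⟩ hl) ht (by omega) hτ2 hJ.uses (by simp [hlen])
        (by
          intro f hf
          rcases List.mem_cons.1 hf with rfl | hf
          · refine ⟨by show Q < Q + 2; omega, by show Q + 1 < Q + 2; omega, by show Q ≠ Q + 1; omega, hwL, fun j hj => ?_⟩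
            show X.Y.nK (1 / (1 / ((2 * r : ℕ) : ℝ))) (X.Y.kLV X.kV l t) j ≤ X.xi
            rw [one_div_one_div]
            exact ledk_kLV_le X hr1 hX hl ht j hj
          rcases List.mem_cons.1 hf with rfl | hf
          · exact hEok (Q + 2) (by omega)
          · exact hLok (Q + 2) (by omega) f hf)
        hwL
        (by
          rw [List.map_cons, List.map_cons, List.sum_cons, List.sum_cons, ledk_pe_w, hlen]
          show 1 / ((2 * r : ℕ) : ℝ) + (1 / ((2 * r : ℕ) : ℝ) + (1 / 2 + (nf : ℝ) * (1 / ((2 * r : ℕ) : ℝ)))) ≤ 1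
          nlinarith [hw2, hwL])
        (hJn τ'' fun y z hy hz => by rw [hag y z (by omega) (by omega), hext y z hy hz])
      rw [List.map_cons, List.map_cons, List.map_cons, List.map_cons, List.prod_cons, List.prod_cons, ledk_pe_fac,
        ledk_pe_costs] at h3
      have e1 : (fun σ => (fun σ => J σ * ledFacs ((c, d, Er) :: Ls) τ' σ) σ * X.Y.kLV X.kV l t (τ'' Q (Q + 1)) (σ Q) (σ (Q + 1)))
          = fun σ => J σ * ledFacs (LedCF.fac ⟨Q, Q + 1, X.Y.kLV X.kV l t, 1 / ((2 * r : ℕ) : ℝ), fun _ => X.xi⟩ ::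
              LedCF.fac ⟨c, d, Er, 1 / 2, fun j => Cb * (e j * X.Y.D j)⟩ :: Ls) τ'' σ := by
        funext σ
        rw [ledy_facs_cons]
        have : ledFacs (LedCF.fac ⟨c, d, Er, 1 / 2, fun j => Cb * (e j * X.Y.D j)⟩ :: Ls) τ'' σ
            = ledFacs ((c, d, Er) :: Ls) τ' σ := ledy_facs_congr hlt hag fun _ _ => rfl
        rw [this]
        show J σ * ledFacs ((c, d, Er) :: Ls) τ' σ * X.Y.kLV X.kV l t (τ'' Q (Q + 1)) (σ Q) (σ (Q + 1))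
          = J σ * (X.Y.kLV X.kV l t (τ'' Q (Q + 1)) (σ Q) (σ (Q + 1)) * ledFacs ((c, d, Er) :: Ls) τ' σ)
        ring
      rw [e1]
      refine h3.trans ?_
      show C2 * X.p0 * (X.xi * (Cb * (e (τ'' c d) * X.Y.D (τ'' c d))
          * ((Ls.map fun f => τ'' f.1 f.2.1).map fun j => if j < X.kV then X.xi else X.om).prod)) ≤ _
      rw [hag c d hc hd]
      exact mul_le_mul_of_nonneg_left (mul_le_mul_of_nonneg_left (mul_le_mul_of_nonneg_left (hP τ'').2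
        (mul_nonneg hCb (hED _))) hX.xi_nonneg) (mul_nonneg hC2 hX.p0_nonneg))
  refine hsum.trans ?_
  rw [hY.ms_top]
  have hpw : X.om ^ nf ≤ X.om ^ (nf - 1) := pow_le_pow_of_le_one hom hX.om_le (Nat.sub_le _ _)
  have e2 : X.cost1 e nf (τ' c d) = X.xi * X.om ^ (nf - 1) * (e (τ' c d) * X.Y.D (τ' c d)) := by
    unfold LedCtx.cost1
    rw [if_pos hjV]
  have e3 : (∏ i ∈ Finset.range 2, ((Q : ℝ) + (i : ℕ))) = (Q : ℝ) * (Q + 1) := by
    rw [Finset.prod_range_succ, Finset.prod_range_one]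
    push_cast
    ring
  rw [e3, e2]
  have h7 : 0 ≤ C1 * Cb * X.p0 * (X.xi * X.om ^ (nf - 1) * (e (τ' c d) * X.Y.D (τ' c d))) :=
    mul_nonneg (mul_nonneg (mul_nonneg hC1 hCb) hX.p0_nonneg) (mul_nonneg (mul_nonneg hX.xi_nonneg (pow_nonneg hom _)) (hED _))
  have h8 : 0 ≤ 4 * ((Q : ℝ) * (Q + 1)) * (C2 * Cb) * X.p0 * X.xi * (e (τ' c d) * X.Y.D (τ' c d)) := by
    have h4 : 0 ≤ 4 * ((Q : ℝ) * (Q + 1)) * (C2 * Cb) := by positivity
    exact mul_nonneg (mul_nonneg (mul_nonneg h4 hX.p0_nonneg) hX.xi_nonneg) (hED _)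
  have h9 := mul_le_mul_of_nonneg_left hpw h8
  calc (2 * 1 : ℝ) ^ 2 * ((Q : ℝ) * (Q + 1)) * (C2 * X.p0 * (X.xi * (Cb * (e (τ' c d) * X.Y.D (τ' c d)) * X.om ^ nf)))
      = 4 * ((Q : ℝ) * (Q + 1)) * (C2 * Cb) * X.p0 * X.xi * (e (τ' c d) * X.Y.D (τ' c d)) * X.om ^ nf := by ring
    _ ≤ 4 * ((Q : ℝ) * (Q + 1)) * (C2 * Cb) * X.p0 * X.xi * (e (τ' c d) * X.Y.D (τ' c d)) * X.om ^ (nf - 1) := h9
    _ ≤ (C1 * Cb + 4 * ((Q : ℝ) * (Q + 1)) * (C2 * Cb)) * X.p0 * (X.xi * X.om ^ (nf - 1) * (e (τ' c d) * X.Y.D (τ' c d))) := by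
        nlinarith [h7]

theorem ledk_pe_pairs (Vs : List (LedKer Ω)) : ∀ q0 : ℕ, (ledPairs q0 Vs).length = Vs.length ∧
    ∀ f ∈ ledPairs q0 Vs, f.2.1 = f.1 + 1 ∧ f.2.2 ∈ Vs := by
  induction Vs with
  | nil => intro q0; exact ⟨rfl, fun f hf => by simp [ledPairs] at hf⟩
  | cons V Vs ih =>
    intro q0
    refine ⟨by rw [ledPairs, List.length_cons, List.length_cons, (ih _).1], fun f hf => ?_⟩
    rw [ledPairs, List.mem_cons] at hf
    rcases hf with rfl | hf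
    · exact ⟨rfl, List.mem_cons_self⟩
    · exact ⟨((ih (q0 + 2)).2 f hf).1, List.mem_cons_of_mem _ ((ih (q0 + 2)).2 f hf).2⟩

/-- **one error and `k = nA + nB` low kernels on ONE extended table.** -/
theorem ledk_pwe (q nA nB r : ℕ) (hr : nA + nB + 2 ≤ r) (Cb : ℝ) : ∃ C : ℝ, 0 ≤ C ∧ ∀ (Ω : Type) (X : LedCtx Ω), X.q = q → X.Ok r Cb →
    ∀ l ∈ Set.Icc (0 : ℝ) 1, ∀ t ∈ Set.Icc (0 : ℝ) 1, ∀ (J : (ℕ → Bool × Ω) → ℝ) (As Bs : List (LedKer Ω)) (Er : LedKer Ω) (e : ℕ → ℝ),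
      LedTst X r J → As.length = nA → Bs.length = nB → (∀ V ∈ As, LedLowK X.Y r X.kV X.kU X.om X.xi V) →
      (∀ V ∈ Bs, LedLowK X.Y r X.kV X.kU X.om X.xi V) → LedErrK X.Y e Er →
      ∀ τ' : ℕ → ℕ → ℕ, IsTr X.Y.N (q + 2 * (nA + 1 + nB)) τ' → (∀ y z, y < q → z < q → τ' y z = X.τ y z) →
      |X.Y.nu (ledLam X.kU l) t (q + 2 * (nA + 1 + nB)) τ' fun σ => J σ * ledFacs (ledPairs q (As ++ Er :: Bs)) τ' σ|
        ≤ C * X.p0 * X.cost1 e (nA + nB) (τ' (q + 2 * nA) (q + 2 * nA + 1)) := by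
  obtain ⟨C, hC, h⟩ := ledk_pwe_core (q + 2 * (nA + 1 + nB)) (nA + nB) r hr Cb
  refine ⟨C, hC, ?_⟩
  intro Ω X hq hX l hl t ht J As Bs Er e hJ hA hB hAs hBs hEr τ' hτ' hext
  have h1 := h Ω X (by omega) hX l hl t ht J (ledPairs q As ++ ledPairs (q + 2 * nA + 2) Bs) Er e (q + 2 * nA) (q + 2 * nA + 1) hJ
    (by rw [List.length_append, (ledk_pe_pairs As q).1, (ledk_pe_pairs Bs _).1, hA, hB])
    (by
      intro f hf
      rcases List.mem_append.1 hf with hf | hf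
      · have a1 := ledy_pairs_lt As q f hf
        have a2 := (ledk_pe_pairs As q).2 f hf
        rw [hA] at a1
        exact ⟨by omega, by omega, by omega, hAs _ a2.2⟩
      · have a1 := ledy_pairs_lt Bs _ f hf
        have a2 := (ledk_pe_pairs Bs _).2 f hf
        rw [hB] at a1
        exact ⟨by omega, by omega, by omega, hBs _ a2.2⟩)
    hEr (by omega) (by omega) (by omega) τ' hτ' (by rw [hq]; exact hext)
  have e1 : (fun σ => J σ * ledFacs (ledPairs q (As ++ Er :: Bs)) τ' σ)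
      = fun σ => J σ * ledFacs ((q + 2 * nA, q + 2 * nA + 1, Er) :: (ledPairs q As ++ ledPairs (q + 2 * nA + 2) Bs)) τ' σ := by
    funext σ
    rw [ledy_pairs_append, hA, ledPairs, ledy_facs_append, ledy_facs_cons, ledy_facs_cons, ledy_facs_append]
    ring
  rw [e1]
  exact h1

theorem ledk_absK_fadd {ms : ℕ → ℝ} {N : ℕ} (k : ℕ) : ∀ (q : ℕ) (τ : ℕ → ℕ → ℕ) (Φ Ψ : (ℕ → ℕ → ℕ) → ℝ),
    trAbsK ms N k q τ (fun τ' => Φ τ' + Ψ τ') = trAbsK ms N k q τ Φ + trAbsK ms N k q τ Ψ := by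
  induction k with
  | zero => intro q τ Φ Ψ; rfl
  | succ k ih =>
    intro q τ Φ Ψ
    simp only [trAbsK, trAbs, ih, mul_add, Finset.sum_add_distrib]

/-- **one error and `k = nA + nB` low kernels.** -/
theorem ledk_ins_err1 (q nA nB r : ℕ) (hr : nA + nB + 2 ≤ r) (Cb : ℝ) : ∃ C : ℝ, 0 ≤ C ∧ ∀ (Ω : Type) (X : LedCtx Ω), X.q = q → X.Ok r Cb →
    ∀ l ∈ Set.Icc (0 : ℝ) 1, ∀ t ∈ Set.Icc (0 : ℝ) 1, ∀ (J : (ℕ → Bool × Ω) → ℝ) (As Bs : List (LedKer Ω)) (Er : LedKer Ω) (e : ℕ → ℝ),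
      LedTst X r J → As.length = nA → Bs.length = nB → (∀ V ∈ As, LedLowK X.Y r X.kV X.kU X.om X.xi V) →
      (∀ V ∈ Bs, LedLowK X.Y r X.kV X.kU X.om X.xi V) → LedErrK X.Y e Er →
      |X.Y.ins (ledLam X.kU l) t q X.τ J (As ++ Er :: Bs)|
        ≤ C * X.p0 * (X.om ^ (nA + nB) * ledTot X.Y.ms q X.τ X.kV (X.Y.N + 1) (fun j => e j * X.Y.D j)
            + X.xi * X.om ^ (nA + nB - 1) * ledTot X.Y.ms q X.τ 0 X.kV fun j => e j * X.Y.D j) := by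
  obtain ⟨C1, hC1, h1⟩ := ledk_pwe q nA nB r hr Cb
  obtain ⟨C2, hC2, h2⟩ := led_dens1 q (2 * (nA + 1 + nB))
  refine ⟨C1 * C2, mul_nonneg hC1 hC2, ?_⟩
  intro Ω X hq hX l hl t ht J As Bs Er e hJ hAs hBs hA hB hE
  have hlen : (As ++ Er :: Bs).length = nA + 1 + nB := by
    rw [List.length_append, List.length_cons, hAs, hBs]; omega
  have hτ : IsTr X.Y.N q X.τ := hq ▸ hX.tr
  have hom : 0 ≤ X.om := hX.xi_nonneg.trans hX.xi_le
  have hf : ∀ j, 0 ≤ e j * X.Y.D j := fun j => mul_nonneg (hE.e_nonneg j) (Real.sqrt_nonneg _)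
  have hkV : X.kV ≤ X.Y.N + 1 := by
    have := hX.kV_le; have := hX.kS_lt; have := hX.kU_le; omega
  have hmsN : X.Y.ms X.Y.N ≤ 1 := hX.sys.ms_top.le
  unfold LedSys.ins LedSys.tm
  rw [hlen]
  refine (ledk_sumK_le (ms := X.Y.ms) hτ (2 * (nA + 1 + nB)) _
    (fun τ' => C1 * X.p0 * X.cost1 e (nA + nB) (τ' (q + 2 * nA) (q + 2 * nA + 1))) ?_).trans ?_
  · intro τ' hτ' hext
    rw [one_mul]
    exact h1 Ω X hq hX l hl t ht J As Bs Er e hJ hAs hBs hA hB hE τ' hτ' hext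
  have hsplit : (fun τ' : ℕ → ℕ → ℕ => C1 * X.p0 * X.cost1 e (nA + nB) (τ' (q + 2 * nA) (q + 2 * nA + 1)))
      = fun τ' => (C1 * X.p0 * X.om ^ (nA + nB)) *
            (if X.kV ≤ τ' (q + 2 * nA) (q + 2 * nA + 1) ∧ τ' (q + 2 * nA) (q + 2 * nA + 1) < X.Y.N + 1 then
              (fun j => e j * X.Y.D j) (τ' (q + 2 * nA) (q + 2 * nA + 1)) else 0)
          + (C1 * X.p0 * (X.xi * X.om ^ (nA + nB - 1))) *
            (if 0 ≤ τ' (q + 2 * nA) (q + 2 * nA + 1) ∧ τ' (q + 2 * nA) (q + 2 * nA + 1) < X.kV then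
              (fun j => e j * X.Y.D j) (τ' (q + 2 * nA) (q + 2 * nA + 1)) else 0) := by
    funext τ'
    generalize τ' (q + 2 * nA) (q + 2 * nA + 1) = j
    unfold LedCtx.cost1
    by_cases hj : j < X.kV
    · rw [if_pos hj, if_neg (by omega), if_pos ⟨Nat.zero_le _, hj⟩]; ring
    · by_cases hj2 : j < X.Y.N + 1
      · rw [if_neg hj, if_pos ⟨by omega, hj2⟩, if_neg (by omega)]; ring
      · rw [if_neg hj, if_neg (by omega), if_neg (by omega), hE.e_zero j (by omega)]; ring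
  rw [hsplit, ledk_absK_fadd, tra2_absK_const_mul, tra2_absK_const_mul]
  have b1 := h2 X.Y.N X.τ X.Y.ms hτ hX.sys.ms_ok hmsN (q + 2 * nA) (q + 2 * nA + 1) X.kV (X.Y.N + 1)
    (by omega) (by omega) (by omega) (by omega) le_rfl (fun j => e j * X.Y.D j) hf
  have b2 := h2 X.Y.N X.τ X.Y.ms hτ hX.sys.ms_ok hmsN (q + 2 * nA) (q + 2 * nA + 1) 0 X.kV
    (by omega) (by omega) (by omega) (by omega) hkV (fun j => e j * X.Y.D j) hf
  have c1 : 0 ≤ C1 * X.p0 * X.om ^ (nA + nB) := mul_nonneg (mul_nonneg hC1 hX.p0_nonneg) (pow_nonneg hom _)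
  have c2 : 0 ≤ C1 * X.p0 * (X.xi * X.om ^ (nA + nB - 1)) :=
    mul_nonneg (mul_nonneg hC1 hX.p0_nonneg) (mul_nonneg hX.xi_nonneg (pow_nonneg hom _))
  have d1 := mul_le_mul_of_nonneg_left b1 c1
  have d2 := mul_le_mul_of_nonneg_left b2 c2
  refine (add_le_add d1 d2).trans (le_of_eq ?_)
  ring

/-! ### two errors -/

/-- an error kernel as a costed factor, weight `(1 - 1/r)/2` -/
theorem ledk_errCF_ok {Y : LedSys Ω} (hY : Y.Ok) {Cb : ℝ} (hb : ∀ r, Y.b r ≤ Cb) {e : ℕ → ℝ} {V : LedKer Ω} (hV : LedErrK Y e V)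
    {r : ℕ} (hr : 2 ≤ r) {c d Q : ℕ} (hc : c < Q) (hd : d < Q) (hcd : c ≠ d) :
    (⟨c, d, V, (1 - 1 / (r : ℝ)) / 2, fun j => 2 * Cb * (e j * Y.D j ^ (1 - 1 / (r : ℝ)))⟩ : LedCF Ω).Ok Y Q := by
  refine ⟨hc, hd, hcd, ?_, fun j hj => ledk_err_Lr hY hb hV hr j hj⟩
  have h2 : (2 : ℝ) ≤ r := by exact_mod_cast hr
  have : 1 / (r : ℝ) ≤ 1 / 2 := one_div_le_one_div_of_le (by norm_num) h2
  show 0 < (1 - 1 / (r : ℝ)) / 2
  linarith

/-- a low kernel as a costed factor, weight `1/(2r)` -/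
theorem ledk_lowCF_ok {Y : LedSys Ω} (hY : Y.Ok) {r kV kU : ℕ} {om xi : ℝ} (hom : 0 ≤ om) {V : LedKer Ω} (hV : LedLowK Y r kV kU om xi V)
    (hr : 1 ≤ r) {c d Q : ℕ} (hc : c < Q) (hd : d < Q) (hcd : c ≠ d) :
    (⟨c, d, V, 1 / ((2 * r : ℕ) : ℝ), fun _ => om⟩ : LedCF Ω).Ok Y Q := by
  have hr0 : (0 : ℝ) < ((2 * r : ℕ) : ℝ) := by exact_mod_cast (by omega : 0 < 2 * r)
  refine ⟨hc, hd, hcd, by show 0 < 1 / ((2 * r : ℕ) : ℝ); positivity, fun j hj => ?_⟩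
  show Y.nK (1 / (1 / ((2 * r : ℕ) : ℝ))) V j ≤ om
  rw [one_div_one_div]
  by_cases hj2 : j < kU
  · exact hV.low j hj2
  · have hm : LedMean (Y.act 2 (ledPair Y.N j)) :=
      hY.mean _ 1 2 _ ledk_one_prof ⟨zero_le_one, le_rfl⟩ (ledk_pair_isTr Y.N j hj)
    unfold LedSys.nK
    refine ledk_nm_le_of_pow_le hm hr0 hom _ ?_
    have : (fun σ : ℕ → Bool × Ω => |V j (σ 0) (σ 1)| ^ (((2 * r : ℕ) : ℝ))) = fun _ => 0 := by
      funext σ
      rw [hV.zero j (by omega), abs_zero, Real.zero_rpow hr0.ne']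
    rw [this, ledk_const hm]
    exact Real.rpow_nonneg hom _

/-- **two errors and at most one low kernel.** -/
theorem ledk_ins_err2 (q nA r : ℕ) (hnA : nA ≤ 1) (hr : 2 ≤ r) (Cb : ℝ) : ∃ C : ℝ, 0 ≤ C ∧ ∀ (Ω : Type) (X : LedCtx Ω), X.q = q → X.Ok r Cb →
    ∀ l ∈ Set.Icc (0 : ℝ) 1, ∀ t ∈ Set.Icc (0 : ℝ) 1, ∀ (J : (ℕ → Bool × Ω) → ℝ) (As : List (LedKer Ω)) (E₁ E₂ : LedKer Ω) (e : ℕ → ℝ),
      LedTst X r J → As.length = nA → (∀ V ∈ As, LedLowK X.Y r X.kV X.kU X.om X.xi V) → LedErrK X.Y e E₁ → LedErrK X.Y e E₂ →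
      |X.Y.ins (ledLam X.kU l) t q X.τ J (As ++ [E₁, E₂])|
        ≤ C * X.p0 * (X.om ^ nA * (ledTot X.Y.ms q X.τ 0 (X.Y.N + 1) (fun j => e j * X.Y.D j ^ (1 - 1 / (r : ℝ))) ^ 2
            + ledTot X.Y.ms q X.τ 0 (X.Y.N + 1) fun j => (e j * X.Y.D j ^ (1 - 1 / (r : ℝ))) ^ 2)) := by
  obtain ⟨C1, hC1, h1⟩ := ledk_tm_le q (2 * (nA + 2)) (nA + 2) Cb
  obtain ⟨C2, hC2, h2⟩ := led_dens2 q (2 * (nA + 2))
  refine ⟨C1 * ((2 * Cb) ^ 2 * C2), mul_nonneg hC1 (mul_nonneg (sq_nonneg _) hC2), ?_⟩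
  intro Ω X hq hX l hl t ht J As E₁ E₂ e hJ hAs hA hE₁ hE₂
  have hτ : IsTr X.Y.N q X.τ := hq ▸ hX.tr
  have hom : 0 ≤ X.om := hX.xi_nonneg.trans hX.xi_le
  have hmsN : X.Y.ms X.Y.N ≤ 1 := hX.sys.ms_top.le
  have hr0 : (0 : ℝ) < ((2 * r : ℕ) : ℝ) := by exact_mod_cast (by omega : 0 < 2 * r)
  have hrr : (0 : ℝ) < r := by exact_mod_cast (by omega : 0 < r)
  have hJu : TrUses q J := hq ▸ hJ.uses
  have hJm : ledNm (X.Y.act q X.τ) (1 / (1 / ((2 * r : ℕ) : ℝ))) J ≤ X.p0 := by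
    rw [one_div_one_div]; exact hq ▸ hJ.mom
  set g : ℕ → ℝ := fun j => e j * X.Y.D j ^ (1 - 1 / (r : ℝ)) with hg
  have hg0 : ∀ j, 0 ≤ g j := fun j => mul_nonneg (hE₁.e_nonneg j) (Real.rpow_nonneg (Real.sqrt_nonneg _) _)
  have hgif : ∀ j, (if 0 ≤ j ∧ j < X.Y.N + 1 then g j else 0) = g j := by
    intro j
    by_cases hj : j < X.Y.N + 1
    · rw [if_pos ⟨Nat.zero_le _, hj⟩]
    · rw [if_neg (by omega), hg]
      show 0 = e j * _
      rw [hE₁.e_zero j (by omega), zero_mul]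
  have hlen : (As ++ [E₁, E₂]).length = nA + 2 := by
    rw [List.length_append, hAs]; rfl
  have hw2 : (1 : ℝ) / ((2 * r : ℕ) : ℝ) = 1 / (r : ℝ) / 2 := by push_cast; field_simp
  -- the two positions of the errors
  have key : ∀ fs : List (LedCF Ω), fs.map LedCF.fac = ledPairs q (As ++ [E₁, E₂]) → fs.length ≤ nA + 2 →
      (∀ f ∈ fs, f.Ok X.Y (q + 2 * (nA + 2))) → 1 / ((2 * r : ℕ) : ℝ) + (fs.map fun f => f.w).sum ≤ 1 →
      (∀ τ' : ℕ → ℕ → ℕ, (fs.map fun f => f.cost (τ' f.c f.d)).prod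
        = X.om ^ nA * (2 * Cb) ^ 2 * (g (τ' (q + 2 * nA) (q + 2 * nA + 1)) * g (τ' (q + 2 * nA + 2) (q + 2 * nA + 3)))) →
      |X.Y.ins (ledLam X.kU l) t q X.τ J (As ++ [E₁, E₂])|
        ≤ C1 * ((2 * Cb) ^ 2 * C2) * X.p0 * (X.om ^ nA * (ledTot X.Y.ms q X.τ 0 (X.Y.N + 1) g ^ 2
            + ledTot X.Y.ms q X.τ 0 (X.Y.N + 1) fun j => g j ^ 2)) := by
    intro fs hfac hfl hok hsum hprod
    have b1 := h1 Ω X.Y hX.sys hX.b_le hX.h_le (ledLam X.kU l) t X.τ (fun _ => 1) J fs (1 / ((2 * r : ℕ) : ℝ)) X.p0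
      (ledk_lam_prof _ hl) ht hτ hJu hfl hok (by positivity) hsum hJm
    unfold LedSys.ins
    rw [hlen, ← hfac]
    refine b1.trans ?_
    have e1 : (fun τ' : ℕ → ℕ → ℕ => |(1 : ℝ)| * (fs.map fun f => f.cost (τ' f.c f.d)).prod)
        = fun τ' => (X.om ^ nA * (2 * Cb) ^ 2) *
          ((if 0 ≤ τ' (q + 2 * nA) (q + 2 * nA + 1) ∧ τ' (q + 2 * nA) (q + 2 * nA + 1) < X.Y.N + 1 then
              g (τ' (q + 2 * nA) (q + 2 * nA + 1)) else 0)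
            * (if 0 ≤ τ' (q + 2 * nA + 2) (q + 2 * nA + 3) ∧ τ' (q + 2 * nA + 2) (q + 2 * nA + 3) < X.Y.N + 1 then
              g (τ' (q + 2 * nA + 2) (q + 2 * nA + 3)) else 0)) := by
      funext τ'
      rw [hgif, hgif, hprod, abs_one, one_mul]
    rw [e1, tra2_absK_const_mul]
    have b2 := h2 X.Y.N X.τ X.Y.ms hτ hX.sys.ms_ok hmsN (q + 2 * nA) (q + 2 * nA + 1) (q + 2 * nA + 2) (q + 2 * nA + 3) 0 (X.Y.N + 1)
      (by omega) (by omega) (by omega) (by omega) (by omega) (by omega) (by omega) (by omega) le_rfl g hg0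
    have c1 : 0 ≤ C1 * X.p0 * (X.om ^ nA * (2 * Cb) ^ 2) :=
      mul_nonneg (mul_nonneg hC1 hX.p0_nonneg) (mul_nonneg (pow_nonneg hom _) (sq_nonneg _))
    have d1 := mul_le_mul_of_nonneg_left b2 c1
    calc C1 * X.p0 * (X.om ^ nA * (2 * Cb) ^ 2 * _) = C1 * X.p0 * (X.om ^ nA * (2 * Cb) ^ 2) * _ := by ring
      _ ≤ _ := d1
      _ = _ := by ring
  have hnA' : nA = 0 ∨ nA = 1 := by omega
  rcases hnA' with rfl | rfl
  · obtain rfl : As = [] := List.length_eq_zero_iff.1 hAs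
    refine key [⟨q, q + 1, E₁, (1 - 1 / (r : ℝ)) / 2, fun j => 2 * Cb * (e j * X.Y.D j ^ (1 - 1 / (r : ℝ)))⟩,
      ⟨q + 2, q + 2 + 1, E₂, (1 - 1 / (r : ℝ)) / 2, fun j => 2 * Cb * (e j * X.Y.D j ^ (1 - 1 / (r : ℝ)))⟩] rfl (by simp) ?_ ?_ ?_
    · intro f hf
      simp only [List.mem_cons, List.not_mem_nil, or_false] at hf
      rcases hf with rfl | rfl
      · exact ledk_errCF_ok hX.sys hX.b_le hE₁ hr (by omega) (by omega) (by omega)
      · exact ledk_errCF_ok hX.sys hX.b_le hE₂ hr (by omega) (by omega) (by omega)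
    · simp only [List.map_cons, List.map_nil, List.sum_cons, List.sum_nil]
      rw [hw2]
      have : 0 < 1 / (r : ℝ) := by positivity
      linarith
    · intro τ'
      simp only [List.map_cons, List.map_nil, List.prod_cons, List.prod_nil, hg]
      ring_nf
  · obtain ⟨A, rfl⟩ := List.length_eq_one_iff.1 hAs
    refine key [⟨q, q + 1, A, 1 / ((2 * r : ℕ) : ℝ), fun _ => X.om⟩,
      ⟨q + 2, q + 2 + 1, E₁, (1 - 1 / (r : ℝ)) / 2, fun j => 2 * Cb * (e j * X.Y.D j ^ (1 - 1 / (r : ℝ)))⟩,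
      ⟨q + 2 + 2, q + 2 + 2 + 1, E₂, (1 - 1 / (r : ℝ)) / 2, fun j => 2 * Cb * (e j * X.Y.D j ^ (1 - 1 / (r : ℝ)))⟩] rfl (by simp) ?_ ?_ ?_
    · intro f hf
      simp only [List.mem_cons, List.not_mem_nil, or_false] at hf
      rcases hf with rfl | rfl | rfl
      · exact ledk_lowCF_ok hX.sys hom (hA A (by simp)) (by omega) (by omega) (by omega) (by omega)
      · exact ledk_errCF_ok hX.sys hX.b_le hE₁ hr (by omega) (by omega) (by omega)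
      · exact ledk_errCF_ok hX.sys hX.b_le hE₂ hr (by omega) (by omega) (by omega)
    · simp only [List.map_cons, List.map_nil, List.sum_cons, List.sum_nil]
      rw [hw2]
      linarith
    · intro τ'
      simp only [List.map_cons, List.map_nil, List.prod_cons, List.prod_nil, hg]
      ring_nf

theorem ledk_par_eqns_cite : True := by
  have := @ledFl.eq_1
  have := @LedCtx.cost1.eq_1
  have := @ledkLowCF.eq_1
  trivial

end Claimed.Agent.R286
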