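import Claimed.Agent.R286.Cav.LedTerms
import Claimed.Agent.R286.Cav.LedCalc
import Claimed.Agent.R286.Fd.TrA2

/-!
# Row 286 (S0533), unit Cav, file LedTay      (owner: helper201; head of `Led*`: helper204; prefix `ledy_`, exits `led_taylor*`, `led_tm_*`)

Tasks T1, T2 of origin/helper204:notes/R286/LED_PLAN_204.md.
* T1 `led_taylor1/2/3` : Taylor on `[0,1]` for a chain of derivatives, remainder bounded by a supremum (no integral in the statement);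
* T2 derivative rules of the general term `LedSys.tm`: a derivative APPENDS one factor on the two NEW LAST labels `(q+k, q+k+1)`:
     `led_tm_derivL`, `led_tm_contL` (segment of profiles), `led_tm_derivT`, `led_tm_contT` (mixing parameter; the diagonal of the error kernel is dropped: `ledy_diag`).
-/

set_option autoImplicit false

namespace Claimed.Agent.R286

open Finset MeasureTheory

/-! ## T1. Taylor on `[0,1]` for a chain of derivatives -/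

theorem ledy_ftc {f f' : ℝ → ℝ} (hc : ContinuousOn f (Set.Icc 0 1)) (hd : ∀ x ∈ Set.Ioo (0 : ℝ) 1, HasDerivAt f (f' x) x)
    (hc' : ContinuousOn f' (Set.Icc 0 1)) : f 1 = f 0 + ∫ x in (0 : ℝ)..1, f' x := by
  have h := intervalIntegral.integral_eq_sub_of_hasDerivAt_of_le (zero_le_one' ℝ) hc hd
    (hc'.intervalIntegrable_of_Icc zero_le_one)
  linarith

theorem ledy_tay2 {f f1 f2 : ℝ → ℝ} (hc : ContinuousOn f (Set.Icc 0 1)) (hc1 : ContinuousOn f1 (Set.Icc 0 1))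
    (hc2 : ContinuousOn f2 (Set.Icc 0 1)) (hd : ∀ x ∈ Set.Ioo (0 : ℝ) 1, HasDerivAt f (f1 x) x)
    (hd1 : ∀ x ∈ Set.Ioo (0 : ℝ) 1, HasDerivAt f1 (f2 x) x) :
    f 1 = f 0 + f1 0 + ∫ x in (0 : ℝ)..1, (1 - x) * f2 x := by
  have h := ledy_ftc (f := fun x => f x + (1 - x) * f1 x) (f' := fun x => (1 - x) * f2 x)
    (hc.add ((continuousOn_const.sub continuousOn_id).mul hc1))
    (fun x hx => by
      have a := (hd x hx).fun_add ((((hasDerivAt_id' x).const_sub 1)).fun_mul (hd1 x hx))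
      exact a.congr_deriv (by ring))
    ((continuousOn_const.sub continuousOn_id).mul hc2)
  simp only [sub_self, zero_mul, add_zero, sub_zero, one_mul] at h
  linarith

theorem ledy_tay3 {f f1 f2 f3 : ℝ → ℝ} (hc : ContinuousOn f (Set.Icc 0 1)) (hc1 : ContinuousOn f1 (Set.Icc 0 1))
    (hc2 : ContinuousOn f2 (Set.Icc 0 1)) (hc3 : ContinuousOn f3 (Set.Icc 0 1))
    (hd : ∀ x ∈ Set.Ioo (0 : ℝ) 1, HasDerivAt f (f1 x) x) (hd1 : ∀ x ∈ Set.Ioo (0 : ℝ) 1, HasDerivAt f1 (f2 x) x)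
    (hd2 : ∀ x ∈ Set.Ioo (0 : ℝ) 1, HasDerivAt f2 (f3 x) x) :
    f 1 = f 0 + f1 0 + f2 0 / 2 + 1 / 2 * ∫ x in (0 : ℝ)..1, (1 - x) ^ 2 * f3 x := by
  have h := ledy_ftc (f := fun x => f x + (1 - x) * f1 x + (1 - x) ^ 2 / 2 * f2 x) (f' := fun x => 1 / 2 * ((1 - x) ^ 2 * f3 x))
    ((hc.add ((continuousOn_const.sub continuousOn_id).mul hc1)).add
      ((((continuousOn_const.sub continuousOn_id).pow 2).div_const 2).mul hc2))
    (fun x hx => by
      have a := ((hd x hx).fun_add ((((hasDerivAt_id' x).const_sub 1)).fun_mul (hd1 x hx))).fun_add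
        ((((((hasDerivAt_id' x).const_sub 1)).fun_pow 2).div_const 2).fun_mul (hd2 x hx))
      exact a.congr_deriv (by simp only [Nat.cast_ofNat]; ring))
    (continuousOn_const.mul (((continuousOn_const.sub continuousOn_id).pow 2).mul hc3))
  rw [intervalIntegral.integral_const_mul] at h
  simp only [sub_self, zero_mul, add_zero, sub_zero, one_mul] at h
  norm_num at h
  linarith

/-- weighted integral bound -/
theorem ledy_int_le {g : ℝ → ℝ} {M : ℝ} (hg : ContinuousOn g (Set.Icc 0 1)) (hM : ∀ x ∈ Set.Ioo (0 : ℝ) 1, |g x| ≤ M) (n : ℕ) :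
    |∫ x in (0 : ℝ)..1, (1 - x) ^ n * g x| ≤ M / (n + 1) := by
  have hM' : ∀ x ∈ Set.Icc (0 : ℝ) 1, |g x| ≤ M := by
    intro x hx
    have hcl : closure (Set.Ioo (0 : ℝ) 1) = Set.Icc 0 1 := closure_Ioo zero_ne_one
    refine le_on_closure (f := fun x => |g x|) (g := fun _ => M) hM ?_ continuousOn_const (by rw [hcl]; exact hx)
    rw [hcl]; exact hg.abs
  have hw : ContinuousOn (fun x : ℝ => (1 - x) ^ n) (Set.Icc 0 1) := (continuousOn_const.sub continuousOn_id).pow n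
  have h1 : |∫ x in (0 : ℝ)..1, (1 - x) ^ n * g x| ≤ ∫ x in (0 : ℝ)..1, (1 - x) ^ n * M := by
    rw [← Real.norm_eq_abs]
    refine intervalIntegral.norm_integral_le_of_norm_le zero_le_one (Filter.Eventually.of_forall fun x hx => ?_)
      ((hw.mul continuousOn_const).intervalIntegrable_of_Icc zero_le_one)
    have hx' : x ∈ Set.Icc (0 : ℝ) 1 := ⟨hx.1.le, hx.2⟩
    have h0 : (0 : ℝ) ≤ (1 - x) ^ n := pow_nonneg (by linarith [hx.2]) n
    rw [Real.norm_eq_abs, abs_mul, abs_of_nonneg h0]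
    exact mul_le_mul_of_nonneg_left (hM' x hx') h0
  refine h1.trans (le_of_eq ?_)
  rw [intervalIntegral.integral_mul_const]
  have : ∫ x in (0 : ℝ)..1, (1 - x) ^ n = 1 / (n + 1) := by
    rw [intervalIntegral.integral_comp_sub_left (fun y => y ^ n) 1]
    simp
  rw [this]; ring

/-- **Taylor, order 1** -/
theorem led_taylor1 {f f1 : ℝ → ℝ} {M : ℝ} (hc : ContinuousOn f (Set.Icc 0 1)) (hc1 : ContinuousOn f1 (Set.Icc 0 1))
    (hd : ∀ x ∈ Set.Ioo (0 : ℝ) 1, HasDerivAt f (f1 x) x) (hM : ∀ x ∈ Set.Ioo (0 : ℝ) 1, |f1 x| ≤ M) :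
    |f 1 - f 0| ≤ M := by
  have h := ledy_ftc hc hd hc1
  have b := ledy_int_le hc1 hM 0
  simp only [pow_zero, one_mul, Nat.cast_zero, zero_add, div_one] at b
  rw [h]; simpa using b

/-- **Taylor, order 2** -/
theorem led_taylor2 {f f1 f2 : ℝ → ℝ} {M : ℝ} (hc : ContinuousOn f (Set.Icc 0 1)) (hc1 : ContinuousOn f1 (Set.Icc 0 1))
    (hc2 : ContinuousOn f2 (Set.Icc 0 1)) (hd : ∀ x ∈ Set.Ioo (0 : ℝ) 1, HasDerivAt f (f1 x) x)
    (hd1 : ∀ x ∈ Set.Ioo (0 : ℝ) 1, HasDerivAt f1 (f2 x) x) (hM : ∀ x ∈ Set.Ioo (0 : ℝ) 1, |f2 x| ≤ M) :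
    |f 1 - f 0 - f1 0| ≤ M / 2 := by
  have h := ledy_tay2 hc hc1 hc2 hd hd1
  have b := ledy_int_le hc2 hM 1
  simp only [pow_one, Nat.cast_one] at b
  have e : f 1 - f 0 - f1 0 = ∫ x in (0 : ℝ)..1, (1 - x) * f2 x := by rw [h]; ring
  rw [e]; refine b.trans (le_of_eq ?_); norm_num

/-- **Taylor, order 3** -/
theorem led_taylor3 {f f1 f2 f3 : ℝ → ℝ} {M : ℝ} (hc : ContinuousOn f (Set.Icc 0 1)) (hc1 : ContinuousOn f1 (Set.Icc 0 1))
    (hc2 : ContinuousOn f2 (Set.Icc 0 1)) (hc3 : ContinuousOn f3 (Set.Icc 0 1))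
    (hd : ∀ x ∈ Set.Ioo (0 : ℝ) 1, HasDerivAt f (f1 x) x) (hd1 : ∀ x ∈ Set.Ioo (0 : ℝ) 1, HasDerivAt f1 (f2 x) x)
    (hd2 : ∀ x ∈ Set.Ioo (0 : ℝ) 1, HasDerivAt f2 (f3 x) x) (hM : ∀ x ∈ Set.Ioo (0 : ℝ) 1, |f3 x| ≤ M) :
    |f 1 - f 0 - f1 0 - f2 0 / 2| ≤ M / 6 := by
  have h := ledy_tay3 hc hc1 hc2 hc3 hd hd1 hd2
  have b := ledy_int_le hc3 hM 2
  have e : f 1 - f 0 - f1 0 - f2 0 / 2 = 1 / 2 * ∫ x in (0 : ℝ)..1, (1 - x) ^ 2 * f3 x := by rw [h]; ring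
  rw [e, abs_mul, abs_of_nonneg (by norm_num : (0 : ℝ) ≤ 1 / 2)]
  push_cast at b
  linarith

/-- a chain which vanishes identically: all its members vanish on `[0,1]` -/
theorem led_chain_zero {f f1 : ℝ → ℝ} (hc1 : ContinuousOn f1 (Set.Icc 0 1)) (hd : ∀ x ∈ Set.Ioo (0 : ℝ) 1, HasDerivAt f (f1 x) x)
    (h0 : ∀ x ∈ Set.Icc (0 : ℝ) 1, f x = 0) : ∀ x ∈ Set.Icc (0 : ℝ) 1, f1 x = 0 := by
  have hI : ∀ x ∈ Set.Ioo (0 : ℝ) 1, f1 x = 0 := by
    intro x hx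
    have h1 : HasDerivAt f 0 x := by
      refine (hasDerivAt_const x (0 : ℝ)).congr_of_eventuallyEq ?_
      filter_upwards [Ioo_mem_nhds hx.1 hx.2] with y hy
      exact h0 y ⟨hy.1.le, hy.2.le⟩
    exact (hd x hx).unique h1
  intro x hx
  have hcl : closure (Set.Ioo (0 : ℝ) 1) = Set.Icc 0 1 := closure_Ioo zero_ne_one
  have a := le_on_closure (f := f1) (g := fun _ => (0 : ℝ)) (fun y hy => (hI y hy).le) (by rw [hcl]; exact hc1) continuousOn_const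
    (by rw [hcl]; exact hx)
  have b := le_on_closure (f := fun _ => (0 : ℝ)) (g := f1) (fun y hy => (hI y hy).ge) continuousOn_const (by rw [hcl]; exact hc1)
    (by rw [hcl]; exact hx)
  exact le_antisymm a b

/-! ## T2. Rules for the general term -/

/-! ### finite signed sums -/

/-- the total signed mass of one attachment vanishes -/
theorem ledy_sum_const {N q : ℕ} {τ : ℕ → ℕ → ℕ} {ms : ℕ → ℝ} (hτ : IsTr N q τ) (c : ℝ) :
    trSum ms N q τ (fun _ => c) = 0 := by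
  unfold trSum
  rcases Nat.eq_zero_or_pos q with rfl | hq
  · simp
  · have h := tr_row_sum (ms := ms) hτ (x := 0) (j0 := 0) hq (Nat.zero_le _)
    have e1 : (Finset.range q).filter (fun y => 0 ≤ τ 0 y) = Finset.range q := Finset.filter_true_of_mem fun _ _ => Nat.zero_le _
    have e2 : Finset.Icc 0 (N + 1) = Finset.range (N + 2) := by
      ext j; simp only [Finset.mem_Icc, Finset.mem_range]; omega
    rw [e1, e2] at h
    simp only [← Finset.sum_mul, h]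
    simp [trPm]

/-- the signed mass of the coincidences with a given label -/
theorem ledy_sum_coinc {N q : ℕ} {τ : ℕ → ℕ → ℕ} {ms : ℕ → ℝ} (hτ : IsTr N q τ) {c : ℕ} (hc : c < q) :
    trSum ms N q τ (fun τ' => if τ' c q = N + 1 then 1 else 0) = ms N := by
  have h := tr_row_sum (ms := ms) hτ (x := c) (j0 := N + 1) hc le_rfl
  rw [tra2_pm_succ] at h
  rw [← h]
  unfold trSum
  rw [Finset.sum_filter]
  refine Finset.sum_congr rfl fun y hy => ?_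
  have hy' := Finset.mem_range.1 hy
  have hatt : ∀ j, trAtt N q τ y j c q = min j (τ c y) := by
    intro j; unfold trAtt; rw [if_neg (by omega), if_pos rfl]
  have hle := hτ.le c y hc hy'
  simp only [hatt, Finset.Icc_self, Finset.sum_singleton]
  by_cases hcy : N + 1 ≤ τ c y
  · rw [if_pos hcy, Finset.sum_eq_single (N + 1)]
    · rw [if_pos (by omega), mul_one]
    · intro j hj hne
      have := Finset.mem_range.1 hj
      rw [if_neg (by omega), mul_zero]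
    · intro hn; exact absurd (Finset.mem_range.2 (by omega)) hn
  · rw [if_neg hcy]
    refine Finset.sum_eq_zero fun j _ => ?_
    rw [if_neg (by omega), mul_zero]

/-- the signed mass of the pairs of new labels which coincide vanishes -/
theorem ledy_sum2_coinc {N q : ℕ} {τ : ℕ → ℕ → ℕ} {ms : ℕ → ℝ} (hτ : IsTr N q τ) :
    trSumK ms N 2 q τ (fun τ' => if τ' q (q + 1) = N + 1 then 1 else 0) = 0 := by
  simp only [trSumK]
  have : trSum ms N q τ (fun τ' => trSum ms N (q + 1) τ' fun τ'' => if τ'' q (q + 1) = N + 1 then 1 else 0)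
      = trSum ms N q τ fun _ => ms N := by
    unfold trSum
    refine Finset.sum_congr rfl fun x hx => Finset.sum_congr rfl fun j hj => ?_
    have h1 := tr_att_isTr hτ (Finset.mem_range.1 hx) (j := j) (by have := Finset.mem_range.1 hj; omega)
    have h2 := ledy_sum_coinc (ms := ms) h1 (c := q) (by omega)
    unfold trSum at h2
    exact congrArg _ h2
  rw [this, ledy_sum_const hτ]

/-! ### profiles, factors -/

variable {Ω : Type} {Y : LedSys Ω}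

theorem ledy_prof_seg {lam0 lam1 : ℕ → ℝ} (h0 : LedProf lam0) (h1 : LedProf lam1) {θ : ℝ} (hθ : θ ∈ Set.Icc (0 : ℝ) 1) :
    LedProf (ledSeg lam0 lam1 θ) := by
  have e : ∀ r, ledSeg lam0 lam1 θ r = (1 - θ) * lam0 r + θ * lam1 r := fun r => by unfold ledSeg; ring
  have a : 0 ≤ 1 - θ := by linarith [hθ.2]
  refine ⟨fun r => ?_, fun r => ?_, fun r s hrs => ?_⟩
  · rw [e]; exact add_nonneg (mul_nonneg a (h0.nonneg r)) (mul_nonneg hθ.1 (h1.nonneg r))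
  · rw [e]
    have := mul_le_mul_of_nonneg_left (h0.le_one r) a
    have := mul_le_mul_of_nonneg_left (h1.le_one r) hθ.1
    linarith
  · rw [e, e]
    have := mul_le_mul_of_nonneg_left (h0.mono hrs) a
    have := mul_le_mul_of_nonneg_left (h1.mono hrs) hθ.1
    linarith

theorem ledy_facs_nil (τ : ℕ → ℕ → ℕ) (σ : ℕ → Bool × Ω) : ledFacs ([] : List (LedFac Ω)) τ σ = 1 := rfl

theorem ledy_facs_cons (f : LedFac Ω) (fs : List (LedFac Ω)) (τ : ℕ → ℕ → ℕ) (σ : ℕ → Bool × Ω) :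
    ledFacs (f :: fs) τ σ = f.2.2 (τ f.1 f.2.1) (σ f.1) (σ f.2.1) * ledFacs fs τ σ := by
  unfold ledFacs; rw [List.map_cons, List.prod_cons]

theorem ledy_facs_append (fs gs : List (LedFac Ω)) (τ : ℕ → ℕ → ℕ) (σ : ℕ → Bool × Ω) :
    ledFacs (fs ++ gs) τ σ = ledFacs fs τ σ * ledFacs gs τ σ := by
  unfold ledFacs; rw [List.map_append, List.prod_append]

theorem ledy_facs_single (f : LedFac Ω) (τ : ℕ → ℕ → ℕ) (σ : ℕ → Bool × Ω) :
    ledFacs [f] τ σ = f.2.2 (τ f.1 f.2.1) (σ f.1) (σ f.2.1) := by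
  rw [ledy_facs_cons, ledy_facs_nil, mul_one]

theorem ledy_facs_congr {p : ℕ} {fs : List (LedFac Ω)} (hfs : ∀ f ∈ fs, f.1 < p ∧ f.2.1 < p) {τ τ' : ℕ → ℕ → ℕ}
    (hτ : ∀ y z, y < p → z < p → τ y z = τ' y z) {σ σ' : ℕ → Bool × Ω} (hσ : ∀ i, i < p → σ i = σ' i) :
    ledFacs fs τ σ = ledFacs fs τ' σ' := by
  induction fs with
  | nil => rfl
  | cons f fs ih =>
    have hf := hfs f (List.mem_cons_self ..)
    rw [ledy_facs_cons, ledy_facs_cons, ih fun g hg => hfs g (List.mem_cons_of_mem _ hg), hτ _ _ hf.1 hf.2, hσ _ hf.1, hσ _ hf.2]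

theorem ledy_uses_facs {p : ℕ} {J : (ℕ → Bool × Ω) → ℝ} (hJ : TrUses p J) {fs : List (LedFac Ω)}
    (hfs : ∀ f ∈ fs, f.1 < p ∧ f.2.1 < p) (τ : ℕ → ℕ → ℕ) : TrUses p fun σ => J σ * ledFacs fs τ σ := by
  intro σ σ' h
  show J σ * ledFacs fs τ σ = J σ' * ledFacs fs τ σ'
  rw [hJ σ σ' h, ledy_facs_congr hfs (fun _ _ _ _ => rfl) h]

theorem ledy_uses_mono {X : Type} {p p' : ℕ} (h : p ≤ p') {P : (ℕ → X) → ℝ} (hP : TrUses p P) : TrUses p' P :=
  fun σ σ' hs => hP σ σ' fun i hi => hs i (by omega)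

/-- a factor `1/2 V` on the two new last labels -/
theorem ledy_tm_append (hY : Y.Ok) {lam : ℕ → ℝ} {t : ℝ} (hl : LedProf lam) (ht : t ∈ Set.Icc (0 : ℝ) 1) {q : ℕ}
    {τ : ℕ → ℕ → ℕ} (hτ : IsTr Y.N q τ) (k : ℕ) {κ : (ℕ → ℕ → ℕ) → ℝ}
    (hκ : ∀ τ₁ τ₂ : ℕ → ℕ → ℕ, (∀ y z, y < q + k → z < q + k → τ₁ y z = τ₂ y z) → κ τ₁ = κ τ₂)
    (J : (ℕ → Bool × Ω) → ℝ) {fs : List (LedFac Ω)} (hfs : ∀ f ∈ fs, f.1 < q + k ∧ f.2.1 < q + k) (V : LedKer Ω) :
    Y.tm lam t q τ (k + 2) κ J (fs ++ [(q + k, q + k + 1, fun r x y => 1 / 2 * V r x y)])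
      = trSumK Y.ms Y.N k q τ fun τ₁ => κ τ₁ * (1 / 2 * trSumK Y.ms Y.N 2 (q + k) τ₁ fun τ' =>
          Y.nu lam t (q + k + 2) τ' fun σ => (J σ * ledFacs fs τ₁ σ) * V (τ' (q + k) (q + k + 1)) (σ (q + k)) (σ (q + k + 1))) := by
  unfold LedSys.tm
  rw [tr_sumK_add]
  refine tr_sumK_congr hτ k _ _ fun τ₁ hτ₁ _ => ?_
  rw [← ledt_sumK_smul, ← ledt_sumK_smul]
  refine tr_sumK_congr hτ₁ 2 _ _ fun τ' hτ' hag => ?_
  rw [hκ τ' τ₁ hag, ← (hY.mean lam t (q + k + 2) τ' hl ht hτ').smul]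
  congr 2
  funext σ
  rw [ledy_facs_append, ledy_facs_single, ledy_facs_congr hfs hag fun _ _ => rfl]
  ring

/-! ### the rules -/

/-- **derivative of a term along a segment of profiles** -/
theorem led_tm_derivL (hY : Y.Ok) {lam0 lam1 : ℕ → ℝ} {t : ℝ} (h0 : LedProf lam0) (h1 : LedProf lam1)
    (ht : t ∈ Set.Icc (0 : ℝ) 1) {q : ℕ} {τ : ℕ → ℕ → ℕ} (hτ : IsTr Y.N q τ) (k : ℕ) {κ : (ℕ → ℕ → ℕ) → ℝ}
    (hκ : ∀ τ₁ τ₂ : ℕ → ℕ → ℕ, (∀ y z, y < q + k → z < q + k → τ₁ y z = τ₂ y z) → κ τ₁ = κ τ₂)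
    {J : (ℕ → Bool × Ω) → ℝ} (hJ : TrUses (q + k) J) {fs : List (LedFac Ω)} (hfs : ∀ f ∈ fs, f.1 < q + k ∧ f.2.1 < q + k)
    {θ : ℝ} (hθ : θ ∈ Set.Ioo (0 : ℝ) 1) :
    HasDerivAt (fun θ => Y.tm (ledSeg lam0 lam1 θ) t q τ k κ J fs)
      (Y.tm (ledSeg lam0 lam1 θ) t q τ (k + 2) κ J
        (fs ++ [(q + k, q + k + 1, fun r x y => 1 / 2 * ((lam1 r - lam0 r) * Y.kRow t r x y))])) θ := by
  rw [ledy_tm_append hY (ledy_prof_seg h0 h1 ⟨hθ.1.le, hθ.2.le⟩) ht hτ k hκ J hfs fun r x y => (lam1 r - lam0 r) * Y.kRow t r x y]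
  unfold LedSys.tm
  refine ledt_sumK_hasDerivAt k hτ _ _ θ fun τ₁ hτ₁ _ => HasDerivAt.const_mul _ ?_
  exact hY.derivL lam0 lam1 t (q + k) τ₁ _ θ h0 h1 ht hτ₁ (ledy_uses_facs hJ hfs τ₁) hθ

theorem led_tm_contL (hY : Y.Ok) {lam0 lam1 : ℕ → ℝ} {t : ℝ} (h0 : LedProf lam0) (h1 : LedProf lam1)
    (ht : t ∈ Set.Icc (0 : ℝ) 1) {q : ℕ} {τ : ℕ → ℕ → ℕ} (hτ : IsTr Y.N q τ) (k : ℕ) (κ : (ℕ → ℕ → ℕ) → ℝ)
    {J : (ℕ → Bool × Ω) → ℝ} (hJ : TrUses (q + k) J) {fs : List (LedFac Ω)} (hfs : ∀ f ∈ fs, f.1 < q + k ∧ f.2.1 < q + k) :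
    ContinuousOn (fun θ => Y.tm (ledSeg lam0 lam1 θ) t q τ k κ J fs) (Set.Icc 0 1) := by
  unfold LedSys.tm
  refine ledt_sumK_continuousOn k hτ _ _ fun τ₁ hτ₁ _ => ContinuousOn.mul continuousOn_const ?_
  exact hY.contL lam0 lam1 t (q + k) τ₁ _ h0 h1 ht hτ₁ (ledy_uses_facs hJ hfs τ₁)

/-- **the diagonal of the error kernel drops** when its pair is the last one -/
theorem ledy_diag (hY : Y.Ok) {lam : ℕ → ℝ} {t : ℝ} (hl : LedProf lam) (ht : t ∈ Set.Icc (0 : ℝ) 1) {q : ℕ}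
    {τ : ℕ → ℕ → ℕ} (hτ : IsTr Y.N q τ) {P : (ℕ → Bool × Ω) → ℝ} (hP : TrUses q P) :
    (trSumK Y.ms Y.N 2 q τ fun τ' => Y.nu lam t (q + 2) τ' fun σ =>
        P σ * (lam (τ' q (q + 1)) * Y.kErr (τ' q (q + 1)) (σ q) (σ (q + 1))))
      = trSumK Y.ms Y.N 2 q τ fun τ' => Y.nu lam t (q + 2) τ' fun σ =>
        P σ * (if τ' q (q + 1) ≤ Y.N then lam (τ' q (q + 1)) * Y.kErr (τ' q (q + 1)) (σ q) (σ (q + 1)) else 0) := by
  by_cases hΩ : Nonempty Ω
  · obtain ⟨ω0⟩ := hΩ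
    obtain ⟨C, hC⟩ : ∃ C : ℝ, C = lam (Y.N + 1) * (Y.b (Y.N + 1) * (Y.R ω0 ω0 - Y.S (Y.N + 1))) * Y.nu lam t q τ P := ⟨_, rfl⟩
    have key : (trSumK Y.ms Y.N 2 q τ fun τ' => Y.nu lam t (q + 2) τ' fun σ =>
        P σ * (lam (τ' q (q + 1)) * Y.kErr (τ' q (q + 1)) (σ q) (σ (q + 1))))
      = trSumK Y.ms Y.N 2 q τ fun τ' => (Y.nu lam t (q + 2) τ' fun σ =>
        P σ * (if τ' q (q + 1) ≤ Y.N then lam (τ' q (q + 1)) * Y.kErr (τ' q (q + 1)) (σ q) (σ (q + 1)) else 0))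
          + C * (if τ' q (q + 1) = Y.N + 1 then 1 else 0) := by
      refine tr_sumK_congr hτ 2 _ _ fun τ' hτ' hag => ?_
      by_cases hd : τ' q (q + 1) ≤ Y.N
      · simp only [if_pos hd]
        rw [if_neg (by omega), mul_zero, add_zero]
      · have hd' : τ' q (q + 1) = Y.N + 1 := by
          have := hτ'.le q (q + 1) (by omega) (by omega); omega
        have hn : ¬ (Y.N + 1 ≤ Y.N) := by omega
        simp only [hd', if_neg hn, if_true, mul_zero, mul_one]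
        have hz : (Y.nu lam t (q + 2) τ' fun _ => (0 : ℝ)) = 0 := by
          have := (hY.mean lam t (q + 2) τ' hl ht hτ').smul 0 fun _ => 0
          simpa using this
        rw [hz, zero_add, hY.coinc lam t (q + 2) τ' _ q (q + 1) hl ht hτ' (by omega) (by omega) hd']
        have e : (fun σ : ℕ → Bool × Ω => P (Function.update σ (q + 1) (σ q)) * (lam (Y.N + 1) *
              Y.kErr (Y.N + 1) (Function.update σ (q + 1) (σ q) q) (Function.update σ (q + 1) (σ q) (q + 1))))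
            = fun σ => (lam (Y.N + 1) * (Y.b (Y.N + 1) * (Y.R ω0 ω0 - Y.S (Y.N + 1)))) * P σ := by
          funext σ
          rw [hP (Function.update σ (q + 1) (σ q)) σ fun i hi => Function.update_of_ne (by omega) _ _,
            Function.update_self, Function.update_of_ne (by omega)]
          unfold LedSys.kErr LedSys.dl
          rw [ledt_sg_sq, hY.R_diag (σ q).2 ω0]
          ring
        rw [e, (hY.mean lam t (q + 2) τ' hl ht hτ').smul, hC,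
          hY.prune lam t (q + 1) τ' P hl ht hτ' (ledy_uses_mono (by omega) hP),
          hY.prune lam t q τ' P hl ht (tr_isTr_mono hτ' (by omega)) hP, hY.congr lam t q τ' τ P hag]
    rw [key, ledt_sumK_add, ledt_sumK_smul, ledy_sum2_coinc hτ, mul_zero, add_zero]
  · congr 1
    funext τ'
    congr 1
    funext σ
    exact absurd ⟨(σ 0).2⟩ hΩ

/-- **derivative of a term in the mixing parameter** -/
theorem led_tm_derivT (hY : Y.Ok) {lam : ℕ → ℝ} (hl : LedProf lam) {q : ℕ} {τ : ℕ → ℕ → ℕ} (hτ : IsTr Y.N q τ) (k : ℕ)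
    {κ : (ℕ → ℕ → ℕ) → ℝ}
    (hκ : ∀ τ₁ τ₂ : ℕ → ℕ → ℕ, (∀ y z, y < q + k → z < q + k → τ₁ y z = τ₂ y z) → κ τ₁ = κ τ₂)
    {J : (ℕ → Bool × Ω) → ℝ} (hJ : TrUses (q + k) J) {fs : List (LedFac Ω)} (hfs : ∀ f ∈ fs, f.1 < q + k ∧ f.2.1 < q + k)
    {t : ℝ} (ht : t ∈ Set.Ioo (0 : ℝ) 1) :
    HasDerivAt (fun t => Y.tm lam t q τ k κ J fs)
      (Y.tm lam t q τ (k + 2) κ J
        (fs ++ [(q + k, q + k + 1, fun r x y => if r ≤ Y.N then 1 / 2 * (lam r * Y.kErr r x y) else 0)])) t := by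
  have ht' : t ∈ Set.Icc (0 : ℝ) 1 := ⟨ht.1.le, ht.2.le⟩
  have eV : (fun (r : ℕ) (x y : Bool × Ω) => if r ≤ Y.N then 1 / 2 * (lam r * Y.kErr r x y) else 0)
      = fun r x y => 1 / 2 * (if r ≤ Y.N then lam r * Y.kErr r x y else 0) := by
    funext r x y; split_ifs <;> simp
  rw [eV, ledy_tm_append hY hl ht' hτ k hκ J hfs fun r x y => if r ≤ Y.N then lam r * Y.kErr r x y else 0]
  unfold LedSys.tm
  refine ledt_sumK_hasDerivAt k hτ _ _ t fun τ₁ hτ₁ _ => HasDerivAt.const_mul _ ?_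
  rw [← ledy_diag hY hl ht' hτ₁ (ledy_uses_facs hJ hfs τ₁)]
  exact hY.derivT lam (q + k) τ₁ _ t hl hτ₁ (ledy_uses_facs hJ hfs τ₁) ht

theorem led_tm_contT (hY : Y.Ok) {lam : ℕ → ℝ} (hl : LedProf lam) {q : ℕ} {τ : ℕ → ℕ → ℕ} (hτ : IsTr Y.N q τ) (k : ℕ)
    (κ : (ℕ → ℕ → ℕ) → ℝ) {J : (ℕ → Bool × Ω) → ℝ} (hJ : TrUses (q + k) J) {fs : List (LedFac Ω)}
    (hfs : ∀ f ∈ fs, f.1 < q + k ∧ f.2.1 < q + k) :
    ContinuousOn (fun t => Y.tm lam t q τ k κ J fs) (Set.Icc 0 1) := by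
  unfold LedSys.tm
  refine ledt_sumK_continuousOn k hτ _ _ fun τ₁ hτ₁ _ => ContinuousOn.mul continuousOn_const ?_
  exact hY.contT lam (q + k) τ₁ _ hl hτ₁ (ledy_uses_facs hJ hfs τ₁)

end Claimed.Agent.R286
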