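import Claimed.Agent.R286.Cav.LedExit

/-!
# Row 286 (S0533), unit Cav, file LedTerms      (owner: helper204)      DEFINITIONS ONLY

The objects of the PROOF of `led_main` (PE cavity.tex l.434-698).   Design decisions (binding for all `Led*` files):
 1. every quantity is a `LedSys.tm` : signed sum over `k` new labels of  `κ τ' * nu lam t (q+k) τ' [J * ∏ factors]`,  a factor = a kernel on a pair of labels;
 2. the factor `1/2` of formula (2) sits INSIDE the inserted kernels (`kLow`, `kE`, `kDl`, `kLV`);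
 3. NO kernel depends on the differentiation variable: the `l`-chain is used only at `t = s ∈ {0, 1}` (`s` = mixing parameter of the kernel `L_s`), the `t`-chain at fixed `s`;
    the mixed derivative of the paper is replaced by   `FF 3 0 l 1 1 = (FF 3 0 l 1 1 - FF 3 0 l 1 0) + (FF 3 0 l 1 0 - FF 3 0 l 0 0) + 0`  (telescoping of kernels + mean value in `t`);
 4. NO integrals: Taylor remainders are bounded by suprema (`led_taylor`);
 5. the diagonal of an error kernel is dropped when the pair is the LAST one (`kE` vanishes on coincident labels).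
-/

set_option autoImplicit false

namespace Claimed.Agent.R286

open Finset

/-- a factor: a kernel on a pair of labels -/
abbrev LedFac (Ω : Type) : Type := ℕ × ℕ × LedKer Ω

/-- product of the factors -/
def ledFacs {Ω : Type} (fs : List (LedFac Ω)) (τ : ℕ → ℕ → ℕ) (σ : ℕ → Bool × Ω) : ℝ :=
  (fs.map fun f => f.2.2 (τ f.1 f.2.1) (σ f.1) (σ f.2.1)).prod

/-- the kernels of the list sit on the consecutive pairs of labels `(q0, q0+1), (q0+2, q0+3), ...` -/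
def ledPairs {Ω : Type} : ℕ → List (LedKer Ω) → List (LedFac Ω)
  | _, [] => []
  | q0, V :: Vs => (q0, q0 + 1, V) :: ledPairs (q0 + 2) Vs

namespace LedSys

variable {Ω : Type} (Y : LedSys Ω)

/-- **the general term** -/
def tm (lam : ℕ → ℝ) (t : ℝ) (q : ℕ) (τ : ℕ → ℕ → ℕ) (k : ℕ) (κ : (ℕ → ℕ → ℕ) → ℝ) (J : (ℕ → Bool × Ω) → ℝ)
    (fs : List (LedFac Ω)) : ℝ :=
  trSumK Y.ms Y.N k q τ fun τ' => κ τ' * Y.nu lam t (q + k) τ' fun σ => J σ * ledFacs fs τ' σ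

/-- signed insertions `𝓘[J; V_1, .., V_k]` (the `2^{-k}` is in the kernels) -/
def ins (lam : ℕ → ℝ) (t : ℝ) (q : ℕ) (τ : ℕ → ℕ → ℕ) (J : (ℕ → Bool × Ω) → ℝ) (Vs : List (LedKer Ω)) : ℝ :=
  Y.tm lam t q τ (2 * Vs.length) (fun _ => 1) J (ledPairs q Vs)

/-- `(1/2) L_s` : the low kernel `s s' (K + s δ)` on pairs of different blocks -/
noncomputable def kLow (kU : ℕ) (s : ℝ) : LedKer Ω := fun r x y => if r < kU then 1 / 2 * Y.kRow s r x y else 0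

/-- `(1/2) E_l` without its diagonal: `s s' δ` on noncoincident pairs, multiplied by `l` on pairs of different blocks -/
noncomputable def kE (kU : ℕ) (l : ℝ) : LedKer Ω := fun r x y => if r ≤ Y.N then 1 / 2 * (ledLam kU l r * Y.kErr r x y) else 0

/-- `(1/2) δ_low = kLow kU 1 - kLow kU 0` -/
noncomputable def kDl (kU : ℕ) : LedKer Ω := fun r x y => if r < kU then 1 / 2 * Y.kErr r x y else 0

/-- derivative of the row kernel in the parity parameter: `(1/2) l L_s` on the pairs which split below the smaller cut -/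
noncomputable def kLV (kV : ℕ) (l s : ℝ) : LedKer Ω := fun r x y => if r < kV then 1 / 2 * (l * Y.kRow s r x y) else 0

/-- rest kernels (no site spins) -/
def kQ : LedKer Ω := fun r x y => Y.Q r x.2 y.2
def kK : LedKer Ω := fun r _ _ => Y.K r
def kD : LedKer Ω := fun r x y => Y.dl r x.2 y.2

/-- `i`-th derivative of `g(l) = ν^s_l[s_a s_b]` -/
noncomputable def gD (kU kS i : ℕ) (l : ℝ) : ℝ :=
  Y.ins (ledLam kU l) 0 2 (ledPair Y.N kS) (fun σ => ledSg (σ 0).1 * ledSg (σ 1).1) (List.replicate i (Y.kLow kU 0))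

/-- the coefficient `γ_{ac} γ_{bd} 1[c ∈ A, d ∈ B']`, `c = q`, `d = q + 1` -/
def kapC (kU q a b : ℕ) (τ' : ℕ → ℕ → ℕ) : ℝ :=
  if kU ≤ τ' a q ∧ kU ≤ τ' b (q + 1) then Y.gam kU (τ' a q) * Y.gam kU (τ' b (q + 1)) else 0

/-- the coefficient of the path `A - D - B'`: `f = q ∈ A`, `c = q + 1`, `e = q + 2` in a third block `D`, `d = q + 3 ∈ B'` -/
def kapT (kU q a b : ℕ) (τ' : ℕ → ℕ → ℕ) : ℝ :=
  if kU ≤ τ' a q ∧ kU ≤ τ' b (q + 3) ∧ kU ≤ τ' (q + 1) (q + 2) ∧ τ' (q + 1) a < kU ∧ τ' (q + 1) b < kU then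
    Y.gam kU (τ' a q) * Y.gam kU (τ' (q + 1) (q + 2)) * Y.gam kU (τ' (q + 3) b) else 0

end LedSys

/-- the data of the ledger lemma -/
structure LedCtx (Ω : Type) where
  Y : LedSys Ω
  kV : ℕ
  kS : ℕ
  kU : ℕ
  q : ℕ
  τ : ℕ → ℕ → ℕ
  a : ℕ
  b : ℕ
  P : (ℕ → Ω) → ℝ
  om : ℝ
  xi : ℝ
  pi : ℝ
  be : ℝ
  p0 : ℝ
  Pi : ℕ → ℝ

namespace LedCtx

variable {Ω : Type} (X : LedCtx Ω)

/-- the hypotheses of `led_main` -/
structure Ok (r : ℕ) (Cb : ℝ) : Prop where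
  sys : X.Y.Ok
  b_le : ∀ j, X.Y.b j ≤ Cb
  h_le : ∀ j, X.Y.h j ≤ Cb
  tr : IsTr X.Y.N X.q X.τ
  a_lt : X.a < X.q
  b_lt : X.b < X.q
  split : X.τ X.a X.b = X.kS
  kV_le : X.kV ≤ X.kS
  kS_lt : X.kS < X.kU
  kU_le : X.kU ≤ X.Y.N
  alone : ∀ o, o < X.q → o ≠ X.b → X.τ X.b o < X.kU
  uses : TrUses X.q X.P
  free : LedFree X.b X.P
  xi_le : X.xi ≤ X.om
  om_le : X.om ≤ 1
  xi_nonneg : 0 ≤ X.xi
  pi_nonneg : 0 ≤ X.pi
  be_nonneg : 0 ≤ X.be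
  p0_nonneg : 0 ≤ X.p0
  low : ∀ j, j < X.kU → X.Y.mQ (2 * r) j ≤ X.om ^ (2 * r) ∧ X.Y.K j ≤ X.om
  lowV : ∀ j, j < X.kV → X.Y.mQ (2 * r) j ≤ X.xi ^ (2 * r) ∧ X.Y.K j ≤ X.xi
  test : (X.Y.act X.q X.τ fun σ => X.P (ledRs σ) ^ (2 * r)) ≤ X.p0 ^ (2 * r)
  Pi_nonneg : ∀ j, 0 ≤ X.Pi j
  gamPi : ∀ j, X.kU ≤ j → j ≤ X.Y.N → |X.Y.gam X.kU j| * X.Pi j ≤ X.pi
  proj : ∀ (τ' : ℕ → ℕ → ℕ) (Φ : (ℕ → Ω) → ℝ), IsTr X.Y.N (X.q + 3) τ' → (∀ x y, x < X.q → y < X.q → τ' x y = X.τ x y) →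
    X.kU ≤ τ' X.a X.q → τ' (X.q + 1) X.a < X.kU → τ' (X.q + 1) X.b < X.kU → (∃ o, o < X.q ∧ X.kU ≤ τ' o (X.q + 1)) →
    X.kU ≤ τ' (X.q + 1) (X.q + 2) → τ' (X.q + 1) (X.q + 2) ≤ X.Y.N → TrUses (X.q + 3) Φ → LedFree X.b Φ →
    |X.Y.nuR (X.q + 3) τ' fun ω => Φ ω * (X.Y.R (ω (X.q + 2)) (ω X.b) - X.Y.R (ω (X.q + 1)) (ω X.b))|
      ≤ Real.sqrt (X.Y.nuR (X.q + 3) τ' fun ω => Φ ω ^ 2) * X.Pi (τ' (X.q + 1) (X.q + 2))
  bdry : ∀ (τ₁ : ℕ → ℕ → ℕ) (o : ℕ), IsTr X.Y.N (X.q + 1) τ₁ → (∀ x y, x < X.q → y < X.q → τ₁ x y = X.τ x y) →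
    X.kU ≤ τ₁ X.a X.q → o < X.q → X.τ o X.a < X.kU → X.τ o X.b < X.kU →
    |trSumK X.Y.ms X.Y.N 1 (X.q + 1) τ₁ fun τ' => if X.kU ≤ τ' o (X.q + 1) then
        X.Y.nuR (X.q + 2) τ' (fun ω => X.P ω * X.Y.Q (X.τ X.a o) (ω X.q) (ω (X.q + 1)) * X.Y.Q (X.τ o X.b) (ω (X.q + 1)) (ω X.b))
          - X.Y.nuR (X.q + 2) (trAtt X.Y.N (X.q + 1) τ₁ o X.kU)
              (fun ω => X.P ω * X.Y.Q (X.τ X.a o) (ω X.q) (ω (X.q + 1)) * X.Y.Q (X.τ o X.b) (ω (X.q + 1)) (ω X.b))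
      else 0| ≤ X.be * X.p0

/-- `J₀ = P` -/
def J0 (σ : ℕ → Bool × Ω) : ℝ := X.P (ledRs σ)

/-- `J₁ = s_a s_b P` -/
def J1 (σ : ℕ → Bool × Ω) : ℝ := ledSg (σ X.a).1 * ledSg (σ X.b).1 * X.P (ledRs σ)

/-- **the family `F`**: `n` low insertions `L_s`, `m` error insertions `E_l`, law `ν_{l,t}`, with the Leibniz terms of `g(l) ν_{l,t}[P]`.
`FF 0 0 l t s = F(l,t)`;  `∂_l FF n 0 l t t = FF (n+1) 0 l t t` (`t ∈ {0,1}`);  `∂_t FF n m l t s = FF n (m+1) l t s`;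
`A(t) = FF 1 0 0 t 1`, `B(t) = FF 2 0 0 t 1`. -/
noncomputable def FF (n m : ℕ) (l t s : ℝ) : ℝ :=
  X.Y.ins (ledLam X.kU l) t X.q X.τ X.J1 (List.replicate n (X.Y.kLow X.kU s) ++ List.replicate m (X.Y.kE X.kU l))
    - ∑ i ∈ Finset.range (n + 1), (n.choose i : ℝ) * X.Y.gD X.kU X.kS i l *
        X.Y.ins (ledLam X.kU l) t X.q X.τ X.J0 (List.replicate (n - i) (X.Y.kLow X.kU s) ++ List.replicate m (X.Y.kE X.kU l))

/-- **the family `C`**: `b_* ∑_{c ∈ A, d ∈ B'} γ γ ν_{l,t}[Δ⁻_{cd} P]` with `m` error insertions and `n` low insertions `L_1`.   `main1 = CC 0 0 1 1`. -/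
noncomputable def CC (m n : ℕ) (l t : ℝ) : ℝ :=
  X.Y.tm (ledLam X.kU l) t X.q X.τ (2 + 2 * (m + n)) (X.Y.kapC X.kU X.q X.a X.b) X.J0
    ((X.q, X.q + 1, fun _ x y => X.Y.dl X.kS x.2 y.2) ::
      ledPairs (X.q + 2) (List.replicate m (X.Y.kE X.kU l) ++ List.replicate n (X.Y.kLow X.kU 1)))

/-- **the family `H`**: the connected high insertion, with `m` error insertions and `n` low insertions `L_1`.   `main2 = HH 0 0 1 1`. -/
noncomputable def HH (m n : ℕ) (l t : ℝ) : ℝ :=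
  X.Y.tm (ledLam X.kU l) t X.q X.τ (4 + 2 * (m + n)) (X.Y.coef2 X.kU X.q X.a X.b) X.J0
    ((X.q + 2, X.q + 3, X.Y.kD) :: (X.q, X.q + 1, fun _ x y => X.Y.Q X.kS x.2 y.2) ::
      ledPairs (X.q + 4) (List.replicate m (X.Y.kE X.kU l) ++ List.replicate n (X.Y.kLow X.kU 1)))

/-- **the third block sum** `∑_{D ≠ A, B'} ∑ γ_{af} γ_{ce} γ_{db} μ_0[P (Q_{fc} Q_{ed} - K_{fc} K_{ed})]` -/
noncomputable def TB : ℝ :=
  X.Y.tm (ledLam X.kU 0) 0 X.q X.τ 4 (X.Y.kapT X.kU X.q X.a X.b) X.J0 [(X.q, X.q + 1, X.Y.kQ), (X.q + 2, X.q + 3, X.Y.kQ)]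
    - X.Y.tm (ledLam X.kU 0) 0 X.q X.τ 4 (X.Y.kapT X.kU X.q X.a X.b) X.J0 [(X.q, X.q + 1, X.Y.kK), (X.q + 2, X.q + 3, X.Y.kK)]

/-! ### the pieces of the ledger -/

/-- mass of a block -/
def U : ℝ := trPm X.Y.ms X.kU

/-- one high error -/
noncomputable def EH1 : ℝ := X.Y.tot X.q X.τ X.kU (X.Y.N + 1) X.Y.D

/-- two high errors -/
noncomputable def EH2 (r : ℕ) : ℝ :=
  (X.Y.tot X.q X.τ X.kU (X.Y.N + 1) fun j => X.Y.D j ^ (1 - 1 / (r : ℝ))) ^ 2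
    + X.Y.tot X.q X.τ X.kU (X.Y.N + 1) fun j => X.Y.D j ^ (2 * (1 - 1 / (r : ℝ)))

/-- one error above the smaller cut -/
noncomputable def EL : ℝ := X.Y.intM 0 X.kU X.Y.D + ledAt X.q X.τ X.kV X.kU X.Y.D

/-- atoms below the smaller cut -/
noncomputable def EV : ℝ := ledAt X.q X.τ 0 X.kV X.Y.D

/-- the ledger -/
noncomputable def led (r : ℕ) : ℝ := X.Y.ledger r X.kV X.kU X.q X.τ X.om X.xi X.pi X.be

end LedCtx

/-- the equation lemmas of the definitions of this file are generated HERE (no on-demand copies downstream) -/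
theorem led_terms_eqns_cite : True := by
  have := @ledFacs.eq_1
  have := @ledPairs.eq_1
  have := @ledPairs.eq_def
  have := @ledPairs.eq_2
  have := @LedSys.tm.eq_1
  have := @LedSys.ins.eq_1
  have := @LedSys.kLow.eq_1
  have := @LedSys.kE.eq_1
  have := @LedSys.kDl.eq_1
  have := @LedSys.kLV.eq_1
  have := @LedSys.kQ.eq_1
  have := @LedSys.kK.eq_1
  have := @LedSys.kD.eq_1
  have := @LedSys.gD.eq_1
  have := @LedSys.kapC.eq_1
  have := @LedSys.kapT.eq_1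
  have := @LedCtx.J0.eq_1
  have := @LedCtx.J1.eq_1
  have := @LedCtx.FF.eq_1
  have := @LedCtx.CC.eq_1
  have := @LedCtx.HH.eq_1
  have := @LedCtx.TB.eq_1
  have := @LedCtx.U.eq_1
  have := @LedCtx.EH1.eq_1
  have := @LedCtx.EH2.eq_1
  have := @LedCtx.EL.eq_1
  have := @LedCtx.EV.eq_1
  have := @LedCtx.led.eq_1
  trivial

end Claimed.Agent.R286
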