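import Claimed.Agent.R286.Cav.LedTbBd
import Claimed.Agent.R286.Cav.LedCalc
import Claimed.Agent.R286.Cav.LedTerms

/-!
# Row 286 (S0533), unit Cav, file LedTbR      (owner: helper191; prefix `ledr_`)

Leaf Bd9 of `led_main` (third block, PE cavity.tex l.608-651), part 1: THE REST-ONLY LAW `nuR` and the moment bounds.
* `ledr_mean`, `ledr_prune_ext`, `ledr_perm`, `ledr_coinc`, `ledr_congr`, `ledr_transfer` : the exports of `LedSys.Ok` read on `nuR`;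
* `ledr_h3`, `ledr_h2`, `ledr_l2` : the three Hoelder inequalities which the third block uses (exponents `2r, 2, 2r`);
* `ledr_mom_P`, `ledr_mom_dl`, `ledr_mom_Q` : moments under the actual law on an extended table;
* **`ledr_diff`** : `|nuR[P (Q Q' - K K')]| ≤ C p₀ (D_j c_{j'} + c_j D_{j'})`;   **`ledr_sqrt`** : `√ nuR[(P Q)²] ≤ C p₀ c_j`.
-/

set_option autoImplicit false

namespace Claimed.Agent.R286

open Finset

section hol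

variable {X : Type} {μ : (X → ℝ) → ℝ}

/-- Hoelder with the exponents `2r, 2, 2r` -/
theorem ledr_h3 (h : LedMean μ) (f g k : X → ℝ) {r : ℕ} (hr : 2 ≤ r) {A B C : ℝ} (hA : 0 ≤ A) (hB : 0 ≤ B) (hC : 0 ≤ C)
    (hf : μ (fun x => f x ^ (2 * r)) ≤ A ^ (2 * r)) (hg : μ (fun x => g x ^ 2) ≤ B ^ 2)
    (hk : μ (fun x => k x ^ (2 * r)) ≤ C ^ (2 * r)) : |μ fun x => f x * g x * k x| ≤ A * B * C := by
  have hr0 : (0 : ℝ) < r := by exact_mod_cast (by omega : 0 < r)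
  have hr2 : (2 : ℝ) ≤ r := by exact_mod_cast hr
  have e1 : ∀ y : ℝ, |y| ^ (((2 * r : ℕ) : ℝ)) = y ^ (2 * r) := fun y => by
    rw [Real.rpow_natCast, pow_mul, pow_mul, sq_abs]
  have e2 : ∀ y : ℝ, |y| ^ (((2 : ℕ) : ℝ)) = y ^ 2 := fun y => by
    rw [Real.rpow_natCast, sq_abs]
  have H := ledi_holder_prod h (Finset.univ : Finset (Fin 3)) ![f, g, k] ![((2 * r : ℕ) : ℝ), ((2 : ℕ) : ℝ), ((2 * r : ℕ) : ℝ)]
    ![A, B, C]
    (by
      intro i _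
      fin_cases i <;> simp <;> positivity)
    (by
      rw [Fin.sum_univ_three]
      simp only [Matrix.cons_val_zero, Matrix.cons_val_one, Matrix.cons_val_two, Matrix.head_cons, Matrix.tail_cons]
      push_cast
      have : 1 / (2 * (r : ℝ)) ≤ 1 / 4 := by
        apply one_div_le_one_div_of_le (by norm_num)
        linarith
      linarith)
    (by
      intro i _
      fin_cases i <;> simp [hA, hB, hC])
    (by
      intro i _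
      fin_cases i
      · show μ (fun x => |f x| ^ (((2 * r : ℕ) : ℝ))) ≤ A ^ (((2 * r : ℕ) : ℝ))
        simp only [e1, Real.rpow_natCast]
        exact hf
      · show μ (fun x => |g x| ^ (((2 : ℕ) : ℝ))) ≤ B ^ (((2 : ℕ) : ℝ))
        simp only [e2, Real.rpow_natCast]
        exact hg
      · show μ (fun x => |k x| ^ (((2 * r : ℕ) : ℝ))) ≤ C ^ (((2 * r : ℕ) : ℝ))
        simp only [e1, Real.rpow_natCast]
        exact hk)
  simpa [Fin.prod_univ_three] using H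

/-- Hoelder with the exponents `2r, 2` -/
theorem ledr_h2 (h : LedMean μ) (f g : X → ℝ) {r : ℕ} (hr : 2 ≤ r) {A B : ℝ} (hA : 0 ≤ A) (hB : 0 ≤ B)
    (hf : μ (fun x => f x ^ (2 * r)) ≤ A ^ (2 * r)) (hg : μ (fun x => g x ^ 2) ≤ B ^ 2) :
    |μ fun x => f x * g x| ≤ A * B := by
  have H := ledr_h3 h f g (fun _ => 1) hr hA hB zero_le_one hf hg (by simp [ledi_const h])
  simpa using H

/-- the second moment of a product of two factors with `2r`-th moments -/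
theorem ledr_l2 (h : LedMean μ) (f k : X → ℝ) {r : ℕ} (hr : 2 ≤ r) {A C : ℝ} (hA : 0 ≤ A) (hC : 0 ≤ C)
    (hf : μ (fun x => f x ^ (2 * r)) ≤ A ^ (2 * r)) (hk : μ (fun x => k x ^ (2 * r)) ≤ C ^ (2 * r)) :
    μ (fun x => (f x * k x) ^ 2) ≤ (A * C) ^ 2 := by
  have hr0 : (0 : ℝ) < r := by exact_mod_cast (by omega : 0 < r)
  have hr2 : (2 : ℝ) ≤ r := by exact_mod_cast hr
  have e1 : ∀ y : ℝ, |y ^ 2| ^ ((r : ℕ) : ℝ) = y ^ (2 * r) := fun y => by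
    rw [Real.rpow_natCast, abs_of_nonneg (sq_nonneg y), pow_mul]
  have e3 : ∀ y : ℝ, (y ^ 2) ^ ((r : ℕ) : ℝ) = y ^ (2 * r) := fun y => by
    rw [Real.rpow_natCast, pow_mul]
  have H := ledi_holder_prod h (Finset.univ : Finset (Fin 2)) ![fun x => f x ^ 2, fun x => k x ^ 2] ![((r : ℕ) : ℝ), ((r : ℕ) : ℝ)]
    ![A ^ 2, C ^ 2]
    (by
      intro i _
      fin_cases i <;> simp <;> positivity)
    (by
      rw [Fin.sum_univ_two]
      simp only [Matrix.cons_val_zero, Matrix.cons_val_one, Matrix.head_cons]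
      have : 1 / (r : ℝ) ≤ 1 / 2 := one_div_le_one_div_of_le (by norm_num) hr2
      linarith)
    (by
      intro i _
      fin_cases i <;> simp <;> positivity)
    (by
      intro i _
      fin_cases i
      · show μ (fun x => |f x ^ 2| ^ ((r : ℕ) : ℝ)) ≤ (A ^ 2) ^ ((r : ℕ) : ℝ)
        simp only [e1, e3]
        exact hf
      · show μ (fun x => |k x ^ 2| ^ ((r : ℕ) : ℝ)) ≤ (C ^ 2) ^ ((r : ℕ) : ℝ)
        simp only [e1, e3]
        exact hk)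
  have H2 := (le_abs_self _).trans H
  simp only [Fin.prod_univ_two, Matrix.cons_val_zero, Matrix.cons_val_one, Matrix.head_cons] at H2
  have e : (fun x => (f x * k x) ^ 2) = fun x => f x ^ 2 * k x ^ 2 := by
    funext x
    ring
  rw [e, mul_pow]
  exact H2

end hol

/-! ### the rest-only law -/

section rest

variable {Ω : Type} {Y : LedSys Ω}

theorem ledr_zero_mem : (0 : ℝ) ∈ Set.Icc (0 : ℝ) 1 := ⟨le_rfl, zero_le_one⟩

theorem ledr_one_mem : (1 : ℝ) ∈ Set.Icc (0 : ℝ) 1 := ⟨zero_le_one, le_rfl⟩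

theorem ledr_uses {Q : ℕ} {g : (ℕ → Ω) → ℝ} (hg : TrUses Q g) : TrUses Q fun σ : ℕ → Bool × Ω => g (ledRs σ) :=
  fun σ σ' h => hg _ _ fun i hi => by
    show (σ i).2 = (σ' i).2
    rw [h i hi]

theorem ledr_mean (hY : Y.Ok) {Q : ℕ} {τ' : ℕ → ℕ → ℕ} (hτ' : IsTr Y.N Q τ') : LedMean (Y.nuR Q τ') :=
  have M := hY.mean (fun _ => 1) 0 Q τ' ledi_prof_one ledr_zero_mem hτ'
  ⟨fun f g => M.add _ _, fun c f => M.smul c _, fun f hf => M.nonneg _ fun σ => hf _, M.one⟩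

theorem ledr_act_mean (hY : Y.Ok) {Q : ℕ} {τ' : ℕ → ℕ → ℕ} (hτ' : IsTr Y.N Q τ') : LedMean (Y.act Q τ') :=
  hY.mean (fun _ => 1) 1 Q τ' ledi_prof_one ledr_one_mem hτ'

/-- at `t = 0` the rest marginal of any profile is `nuR` -/
theorem ledr_of_nu (hY : Y.Ok) {lam : ℕ → ℝ} (hl : LedProf lam) {Q : ℕ} {τ' : ℕ → ℕ → ℕ} (hτ' : IsTr Y.N Q τ')
    (g : (ℕ → Ω) → ℝ) : Y.nu lam 0 Q τ' (fun σ => g (ledRs σ)) = Y.nuR Q τ' g :=
  hY.rest lam (fun _ => 1) Q τ' g hl ledi_prof_one hτ'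

theorem ledr_congr (hY : Y.Ok) {Q : ℕ} {τ₁ τ₂ : ℕ → ℕ → ℕ} (h : ∀ x y, x < Q → y < Q → τ₁ x y = τ₂ x y) (g : (ℕ → Ω) → ℝ) :
    Y.nuR Q τ₁ g = Y.nuR Q τ₂ g :=
  hY.congr _ 0 Q τ₁ τ₂ _ h

theorem ledr_prune_ext (hY : Y.Ok) {Q : ℕ} (k : ℕ) {τ₁ τ₂ : ℕ → ℕ → ℕ} (h : LediExt Y.N Q (Q + k) τ₁ τ₂) {g : (ℕ → Ω) → ℝ}
    (hg : TrUses Q g) : Y.nuR (Q + k) τ₂ g = Y.nuR Q τ₁ g :=
  ledb_prune_ext hY ledi_prof_one ledr_zero_mem k h (ledr_uses hg)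

theorem ledr_perm (hY : Y.Ok) {Q : ℕ} {τ' : ℕ → ℕ → ℕ} (hτ' : IsTr Y.N Q τ') {g : (ℕ → Ω) → ℝ} (hg : TrUses Q g)
    (e : Equiv.Perm ℕ) (he : ∀ x, Q ≤ x → e x = x) :
    Y.nuR Q (fun x y => τ' (e x) (e y)) (fun ω => g fun i => ω (e.symm i)) = Y.nuR Q τ' g :=
  hY.perm _ 0 Q τ' (fun σ => g (ledRs σ)) e ledi_prof_one ledr_zero_mem hτ' (ledr_uses hg) he

theorem ledr_coinc (hY : Y.Ok) {Q : ℕ} {τ' : ℕ → ℕ → ℕ} (hτ' : IsTr Y.N Q τ') (g : (ℕ → Ω) → ℝ) {x y : ℕ} (hx : x < Q)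
    (hy : y < Q) (hxy : τ' x y = Y.N + 1) : Y.nuR Q τ' g = Y.nuR Q τ' fun ω => g (Function.update ω y (ω x)) := by
  have h := hY.coinc _ 0 Q τ' (fun σ => g (ledRs σ)) x y ledi_prof_one ledr_zero_mem hτ' hx hy hxy
  refine h.trans ?_
  unfold LedSys.nuR
  congr 1
  funext σ
  congr 1
  funext i
  by_cases hi : i = y
  · subst hi
    simp [ledRs]
  · simp [ledRs, Function.update_of_ne hi]

variable {Cb : ℝ}

/-- nonnegative rest tests: the rest-only law is dominated by the actual law -/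
theorem ledr_transfer (H : LedbHyp Y Cb) {Q : ℕ} {τ' : ℕ → ℕ → ℕ} (hτ' : IsTr Y.N Q τ') {g : (ℕ → Ω) → ℝ} (hg : TrUses Q g)
    (hg0 : ∀ ω, 0 ≤ g ω) : Y.nuR Q τ' g ≤ ledbC Cb Q * Y.act Q τ' fun σ => g (ledRs σ) :=
  ledb_transfer H ledi_prof_one ledi_prof_one ledr_zero_mem ledr_one_mem hτ' (ledr_uses hg) fun σ => hg0 _

theorem ledr_abs_le_act (H : LedbHyp Y Cb) {Q : ℕ} {τ' : ℕ → ℕ → ℕ} (hτ' : IsTr Y.N Q τ') {g : (ℕ → Ω) → ℝ} (hg : TrUses Q g) :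
    |Y.nuR Q τ' g| ≤ ledbC Cb Q * Y.act Q τ' fun σ => |g (ledRs σ)| :=
  ledb_abs_le_act H ledi_prof_one ledr_zero_mem hτ' (ledr_uses hg)

/-- second moment of the centred overlap of a pair of labels of an extended table -/
theorem ledr_mom_dl (H : LedbHyp Y Cb) {Q : ℕ} {τ' : ℕ → ℕ → ℕ} (hτ' : IsTr Y.N Q τ') {x y j : ℕ} (hx : x < Q) (hy : y < Q)
    (hxy : x ≠ y) (hj : τ' x y = j) : Y.act Q τ' (fun σ => Y.dl j (σ x).2 (σ y).2 ^ 2) ≤ (Cb * Y.D j) ^ 2 := by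
  have h1 := ledt_marg2 H.ok ledi_prof_one ledr_one_mem hτ' hx hy hxy fun u v => Y.dl j u.2 v.2 ^ 2
  have hjN : j ≤ Y.N + 1 := hj ▸ hτ'.le x y hx hy
  have M := ledr_act_mean H.ok (ledt_pair_isTr hjN 2)
  have h0 : 0 ≤ Y.act 2 (ledPair Y.N j) fun σ => (Y.R (σ 0).2 (σ 1).2 - Y.S j) ^ 2 := M.nonneg _ fun σ => sq_nonneg _
  have h2 : Y.act Q τ' (fun σ => Y.dl j (σ x).2 (σ y).2 ^ 2)
      = Y.b j ^ 2 * Y.act 2 (ledPair Y.N j) fun σ => (Y.R (σ 0).2 (σ 1).2 - Y.S j) ^ 2 := by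
    unfold LedSys.act at h1 ⊢
    rw [h1, hj]
    have := M.smul (Y.b j ^ 2) fun σ => (Y.R (σ 0).2 (σ 1).2 - Y.S j) ^ 2
    unfold LedSys.act at this
    rw [← this]
    congr 1
    funext σ
    unfold LedSys.dl
    ring
  rw [h2, mul_pow]
  have h3 : Y.D j ^ 2 = Y.act 2 (ledPair Y.N j) fun σ => (Y.R (σ 0).2 (σ 1).2 - Y.S j) ^ 2 := by
    unfold LedSys.D
    exact Real.sq_sqrt h0
  rw [h3]
  exact mul_le_mul_of_nonneg_right (pow_le_pow_left₀ (ledb_b_nonneg H j) (H.b_le j) 2) h0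

theorem ledr_D_nonneg (j : ℕ) : 0 ≤ Y.D j := Real.sqrt_nonneg _

/-- moment of the low factor of a pair of labels of an extended table -/
theorem ledr_mom_Q (hY : Y.Ok) {Q : ℕ} {τ' : ℕ → ℕ → ℕ} (hτ' : IsTr Y.N Q τ') {x y j : ℕ} (hx : x < Q) (hy : y < Q)
    (hxy : x ≠ y) (hj : τ' x y = j) (p : ℕ) : Y.act Q τ' (fun σ => Y.Q j (σ x).2 (σ y).2 ^ p) = Y.mQ p j := by
  have h1 := ledt_marg2 hY ledi_prof_one ledr_one_mem hτ' hx hy hxy fun u v => Y.Q j u.2 v.2 ^ p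
  unfold LedSys.mQ LedSys.act at *
  rw [h1, hj]

end rest

/-! ### the costs of the ledger context -/

/-- cost of a low factor which splits at the depth `j` -/
def LedCtx.cst {Ω : Type} (X : LedCtx Ω) (j : ℕ) : ℝ := if j < X.kV then X.xi else X.om

/-- cost of an error at the depth `j` times a low factor which splits at the same side of the smaller cut -/
noncomputable def LedCtx.fA {Ω : Type} (X : LedCtx Ω) (j : ℕ) : ℝ := X.Y.D j * X.cst j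

theorem ledr_defs_eqns_cite : True := by
  have := @LedCtx.cst.eq_1
  have := @LedCtx.fA.eq_1
  trivial

section hol2

variable {X : Type} {μ : (X → ℝ) → ℝ}

theorem ledr_h3_abs (h : LedMean μ) (f g k : X → ℝ) {r : ℕ} (hr : 2 ≤ r) {A B C : ℝ} (hA : 0 ≤ A) (hB : 0 ≤ B) (hC : 0 ≤ C)
    (hf : μ (fun x => f x ^ (2 * r)) ≤ A ^ (2 * r)) (hg : μ (fun x => g x ^ 2) ≤ B ^ 2)
    (hk : μ (fun x => k x ^ (2 * r)) ≤ C ^ (2 * r)) : μ (fun x => |f x * g x * k x|) ≤ A * B * C := by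
  have e1 : ∀ y : ℝ, |y| ^ (2 * r) = y ^ (2 * r) := fun y => by rw [pow_mul, pow_mul, sq_abs]
  have H := ledr_h3 h (fun x => |f x|) (fun x => |g x|) (fun x => |k x|) hr hA hB hC (by simpa only [e1] using hf)
    (by simpa only [sq_abs] using hg) (by simpa only [e1] using hk)
  refine le_trans (le_of_eq ?_) ((le_abs_self _).trans H)
  congr 1
  funext x
  rw [abs_mul, abs_mul]

theorem ledr_h2_abs (h : LedMean μ) (f g : X → ℝ) {r : ℕ} (hr : 2 ≤ r) {A B : ℝ} (hA : 0 ≤ A) (hB : 0 ≤ B)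
    (hf : μ (fun x => f x ^ (2 * r)) ≤ A ^ (2 * r)) (hg : μ (fun x => g x ^ 2) ≤ B ^ 2) :
    μ (fun x => |f x * g x|) ≤ A * B := by
  have H := ledr_h3_abs h f g (fun _ => 1) hr hA hB zero_le_one hf hg (by simp [ledi_const h])
  simpa using H

end hol2

section ctx

variable {Ω : Type} {X : LedCtx Ω} {r : ℕ} {Cb : ℝ}

theorem ledr_hyp (h : X.Ok r Cb) : LedbHyp X.Y Cb := ⟨h.sys, h.b_le, h.h_le, h.sys.ms_top.le⟩

theorem ledr_om_nonneg (h : X.Ok r Cb) : 0 ≤ X.om := h.xi_nonneg.trans h.xi_le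

theorem ledr_cst_nonneg (h : X.Ok r Cb) (j : ℕ) : 0 ≤ X.cst j := by
  unfold LedCtx.cst
  split_ifs
  · exact h.xi_nonneg
  · exact ledr_om_nonneg h

theorem ledr_cst_le (h : X.Ok r Cb) (j : ℕ) : X.cst j ≤ X.om := by
  unfold LedCtx.cst
  split_ifs
  · exact h.xi_le
  · exact le_rfl

theorem ledr_cst_mQ (h : X.Ok r Cb) {j : ℕ} (hj : j < X.kU) : X.Y.mQ (2 * r) j ≤ X.cst j ^ (2 * r) := by
  unfold LedCtx.cst
  split_ifs with h1
  · exact (h.lowV j h1).1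
  · exact (h.low j hj).1

theorem ledr_cst_K (h : X.Ok r Cb) {j : ℕ} (hj : j < X.kU) : X.Y.K j ≤ X.cst j := by
  unfold LedCtx.cst
  split_ifs with h1
  · exact (h.lowV j h1).2
  · exact (h.low j hj).2

theorem ledr_fA_nonneg (h : X.Ok r Cb) (j : ℕ) : 0 ≤ X.fA j := mul_nonneg (ledr_D_nonneg j) (ledr_cst_nonneg h j)

theorem ledr_mom_P (h : X.Ok r Cb) {k : ℕ} {τ' : ℕ → ℕ → ℕ} (hτ' : LediExt X.Y.N X.q (X.q + k) X.τ τ') :
    X.Y.act (X.q + k) τ' (fun σ => X.P (ledRs σ) ^ (2 * r)) ≤ X.p0 ^ (2 * r) := by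
  have hu : TrUses X.q fun σ : ℕ → Bool × Ω => X.P (ledRs σ) ^ (2 * r) := fun σ σ' hσ => by
    have e : X.P (ledRs σ) = X.P (ledRs σ') := ledr_uses h.uses σ σ' hσ
    show X.P (ledRs σ) ^ (2 * r) = X.P (ledRs σ') ^ (2 * r)
    rw [e]
  have := ledb_prune_ext h.sys ledi_prof_one ledr_one_mem k hτ' hu
  unfold LedSys.act
  rw [this]
  exact h.test

theorem ledr_Q_eq (Y : LedSys Ω) (j : ℕ) (ω ω' : Ω) : Y.Q j ω ω' = Y.K j + Y.dl j ω ω' := by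
  unfold LedSys.Q LedSys.K LedSys.dl
  ring

/-- **the product difference** `|nuR[P (Q Q' - K K')]| ≤ C p₀ (D_j c_{j'} + c_j D_{j'})` -/
theorem ledr_diff (h : X.Ok r Cb) (hr : 2 ≤ r) {k : ℕ} {τ' : ℕ → ℕ → ℕ} (hτ' : LediExt X.Y.N X.q (X.q + k) X.τ τ')
    {x y z w j1 j2 : ℕ} (hx : x < X.q + k) (hy : y < X.q + k) (hz : z < X.q + k) (hw : w < X.q + k) (hxy : x ≠ y) (hzw : z ≠ w)
    (h1 : τ' x y = j1) (h2 : τ' z w = j2) (hj1 : j1 < X.kU) (hj2 : j2 < X.kU) :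
    |X.Y.nuR (X.q + k) τ' fun ω => X.P ω * (X.Y.Q j1 (ω x) (ω y) * X.Y.Q j2 (ω z) (ω w) - X.Y.K j1 * X.Y.K j2)|
      ≤ ledbC Cb (X.q + k) * (X.p0 * Cb * (X.Y.D j1 * X.cst j2 + X.cst j1 * X.Y.D j2)) := by
  have H := ledr_hyp h
  have hCb := ledb_Cb_nonneg H
  have M := ledr_act_mean h.sys hτ'.tr
  have hu : TrUses (X.q + k) fun ω : ℕ → Ω =>
      X.P ω * (X.Y.Q j1 (ω x) (ω y) * X.Y.Q j2 (ω z) (ω w) - X.Y.K j1 * X.Y.K j2) := fun ω ω' hω => by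
    show X.P ω * (X.Y.Q j1 (ω x) (ω y) * X.Y.Q j2 (ω z) (ω w) - X.Y.K j1 * X.Y.K j2)
      = X.P ω' * (X.Y.Q j1 (ω' x) (ω' y) * X.Y.Q j2 (ω' z) (ω' w) - X.Y.K j1 * X.Y.K j2)
    rw [h.uses ω ω' fun i hi => hω i (by omega), hω x hx, hω y hy, hω z hz, hω w hw]
  refine (ledr_abs_le_act H hτ'.tr hu).trans (mul_le_mul_of_nonneg_left ?_ (ledb_C_pos _ _).le)
  have hP := ledr_mom_P h hτ'
  have a1 := ledr_h3_abs M (fun σ => X.P (ledRs σ)) (fun σ => X.Y.dl j1 (σ x).2 (σ y).2) (fun σ => X.Y.Q j2 (σ z).2 (σ w).2) hr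
    h.p0_nonneg (mul_nonneg hCb (ledr_D_nonneg j1)) (ledr_cst_nonneg h j2) hP (ledr_mom_dl H hτ'.tr hx hy hxy h1)
    (by rw [ledr_mom_Q h.sys hτ'.tr hz hw hzw h2]; exact ledr_cst_mQ h hj2)
  have a2 := ledr_h2_abs M (fun σ => X.P (ledRs σ)) (fun σ => X.Y.dl j2 (σ z).2 (σ w).2) hr
    h.p0_nonneg (mul_nonneg hCb (ledr_D_nonneg j2)) hP (ledr_mom_dl H hτ'.tr hz hw hzw h2)
  have hK0 := ledb_K_nonneg H j1
  have hK1 := ledr_cst_K h hj1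
  have b1 : X.Y.act (X.q + k) τ' (fun σ => |X.P (ledRs σ) * (X.Y.Q j1 (ledRs σ x) (ledRs σ y) * X.Y.Q j2 (ledRs σ z) (ledRs σ w)
        - X.Y.K j1 * X.Y.K j2)|)
      ≤ X.Y.act (X.q + k) τ' (fun σ => |X.P (ledRs σ) * X.Y.dl j1 (σ x).2 (σ y).2 * X.Y.Q j2 (σ z).2 (σ w).2|)
        + X.Y.K j1 * X.Y.act (X.q + k) τ' (fun σ => |X.P (ledRs σ) * X.Y.dl j2 (σ z).2 (σ w).2|) := by
    rw [← M.smul, ← M.add]
    refine ledi_mono M fun σ => ?_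
    have e : X.P (ledRs σ) * (X.Y.Q j1 (ledRs σ x) (ledRs σ y) * X.Y.Q j2 (ledRs σ z) (ledRs σ w) - X.Y.K j1 * X.Y.K j2)
        = X.P (ledRs σ) * X.Y.dl j1 (σ x).2 (σ y).2 * X.Y.Q j2 (σ z).2 (σ w).2
          + X.Y.K j1 * (X.P (ledRs σ) * X.Y.dl j2 (σ z).2 (σ w).2) := by
      show X.P (ledRs σ) * (X.Y.Q j1 (σ x).2 (σ y).2 * X.Y.Q j2 (σ z).2 (σ w).2 - X.Y.K j1 * X.Y.K j2) = _
      rw [ledr_Q_eq X.Y j1, ledr_Q_eq X.Y j2]
      ring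
    rw [e]
    refine (abs_add_le _ _).trans ?_
    rw [abs_mul (X.Y.K j1), abs_of_nonneg hK0]
  refine b1.trans ?_
  have c2 : X.Y.K j1 * X.Y.act (X.q + k) τ' (fun σ => |X.P (ledRs σ) * X.Y.dl j2 (σ z).2 (σ w).2|)
      ≤ X.cst j1 * (X.p0 * (Cb * X.Y.D j2)) :=
    mul_le_mul hK1 a2 (M.nonneg _ fun σ => abs_nonneg _) (ledr_cst_nonneg h j1)
  calc _ ≤ X.p0 * (Cb * X.Y.D j1) * X.cst j2 + X.cst j1 * (X.p0 * (Cb * X.Y.D j2)) := add_le_add a1 c2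
    _ = _ := by ring

/-- `√ nuR[(P Q)²] ≤ C p₀ c_j` -/
theorem ledr_sqrt (h : X.Ok r Cb) (hr : 2 ≤ r) {k : ℕ} {τ' : ℕ → ℕ → ℕ} (hτ' : LediExt X.Y.N X.q (X.q + k) X.τ τ')
    {x y j : ℕ} (hx : x < X.q + k) (hy : y < X.q + k) (hxy : x ≠ y) (h1 : τ' x y = j) (hj : j < X.kU) :
    Real.sqrt (X.Y.nuR (X.q + k) τ' fun ω => (X.P ω * X.Y.Q j (ω x) (ω y)) ^ 2) ≤ ledbC Cb (X.q + k) * (X.p0 * X.cst j) := by
  have H := ledr_hyp h
  have hCb := ledb_Cb_nonneg H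
  have M := ledr_act_mean h.sys hτ'.tr
  have hC1 := ledb_C_one_le hCb (X.q + k)
  have hu : TrUses (X.q + k) fun ω : ℕ → Ω => (X.P ω * X.Y.Q j (ω x) (ω y)) ^ 2 := fun ω ω' hω => by
    show (X.P ω * X.Y.Q j (ω x) (ω y)) ^ 2 = (X.P ω' * X.Y.Q j (ω' x) (ω' y)) ^ 2
    rw [h.uses ω ω' fun i hi => hω i (by omega), hω x hx, hω y hy]
  have a1 := ledr_transfer H hτ'.tr hu fun ω => sq_nonneg _
  have a2 := ledr_l2 M (fun σ => X.P (ledRs σ)) (fun σ => X.Y.Q j (σ x).2 (σ y).2) hr h.p0_nonneg (ledr_cst_nonneg h j)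
    (ledr_mom_P h hτ') (by rw [ledr_mom_Q h.sys hτ'.tr hx hy hxy h1]; exact ledr_cst_mQ h hj)
  have hpc : 0 ≤ X.p0 * X.cst j := mul_nonneg h.p0_nonneg (ledr_cst_nonneg h j)
  apply Real.sqrt_le_iff.2
  refine ⟨by positivity, a1.trans ?_⟩
  calc ledbC Cb (X.q + k) * _ ≤ ledbC Cb (X.q + k) * (X.p0 * X.cst j) ^ 2 := mul_le_mul_of_nonneg_left a2 (by linarith)
    _ ≤ ledbC Cb (X.q + k) ^ 2 * (X.p0 * X.cst j) ^ 2 := by
        refine mul_le_mul_of_nonneg_right ?_ (sq_nonneg _)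
        nlinarith
    _ = _ := by ring

end ctx

end Claimed.Agent.R286
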