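import Claimed.Agent.R286.Cav.LedTbR
import Claimed.Agent.R286.Cav.LedRet
import Claimed.Agent.R286.Cav.LedComb9
import Claimed.Agent.R286.Fd.TrKit9c

/-!
# Row 286 (S0533), unit Cav, file LedTbS      (owner: helper191; prefix `leds_`)

Leaf Bd9 of `led_main` (third block, PE cavity.tex l.608-651), part 2: THE EXACT REDUCTIONS of the four-label sum `TB`.
Labels: `f = q ∈ A`, `c = q + 1`, `e = q + 2` in the third block `D`, `d = q + 3 ∈ B'`.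
* `leds_TB`    : `TB = ∑_{f,c,e,d} kapT * G4`, `G4 = nuR[P (Q_{fc} Q_{ed} - K K)]`;
* `leds_stepD` : the sum over `d` (PE l.628-630 "average the fresh endpoint `d`, sum its scalar row to `χ`"): `d` is replaced by `b`, factor `chiR`;
* `leds_stepE` : the sum over `e` (PE l.630-640 "evaluate the factor depending on `e` at `c`"): `G3 = G2 + b Er`, factor `chiR`.
-/

set_option autoImplicit false

namespace Claimed.Agent.R286

open Finset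

/-! ### tables -/

section tables

variable {N Q : ℕ} {τ : ℕ → ℕ → ℕ}

/-- two labels which share `k` stages see a third label, which leaves one of them before the depth `k`, at the same depth -/
theorem leds_iso (hτ : IsTr N Q τ) {x y z k : ℕ} (hx : x < Q) (hy : y < Q) (hz : z < Q) (h1 : k ≤ τ x y) (h2 : τ x z < k) :
    τ y z = τ x z := by
  have u1 := hτ.ultra y x z hy hx hz
  have u2 := hτ.ultra x y z hx hy hz
  have s1 := hτ.symm x y hx hy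
  omega

theorem leds_trans (hτ : IsTr N Q τ) {x y z k : ℕ} (hx : x < Q) (hy : y < Q) (hz : z < Q) (h1 : k ≤ τ x y) (h2 : k ≤ τ y z) :
    k ≤ τ x z := by
  have u1 := hτ.ultra x y z hx hy hz
  omega

end tables

/-! ### the objects -/

namespace LedCtx

variable {Ω : Type} (X : LedCtx Ω)

/-- the scalar coefficient `γ` restricted to a block -/
def gB (j : ℕ) : ℝ := if X.kU ≤ j then X.Y.gam X.kU j else 0

/-- the scalar row sum `χ` in radial form -/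
def chiR : ℝ :=
  ∑ j ∈ Finset.range (X.Y.N + 1), (trPm X.Y.ms j - X.Y.ms j) * X.gB j + X.Y.ms X.Y.N * X.gB (X.Y.N + 1)

/-- `nuR[P (Q_{fc} Q_{ed} - K K)]` -/
def G4 (τ' : ℕ → ℕ → ℕ) : ℝ :=
  X.Y.nuR (X.q + 4) τ' fun ω => X.P ω * (X.Y.Q (τ' X.q (X.q + 1)) (ω X.q) (ω (X.q + 1))
    * X.Y.Q (τ' (X.q + 2) (X.q + 3)) (ω (X.q + 2)) (ω (X.q + 3)) - X.Y.K (τ' X.q (X.q + 1)) * X.Y.K (τ' (X.q + 2) (X.q + 3)))

/-- `nuR[P (Q_{fc} Q_{eb} - K K)]` -/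
def G3 (τ' : ℕ → ℕ → ℕ) : ℝ :=
  X.Y.nuR (X.q + 3) τ' fun ω => X.P ω * (X.Y.Q (τ' X.q (X.q + 1)) (ω X.q) (ω (X.q + 1))
    * X.Y.Q (τ' (X.q + 2) X.b) (ω (X.q + 2)) (ω X.b) - X.Y.K (τ' X.q (X.q + 1)) * X.Y.K (τ' (X.q + 2) X.b))

/-- `nuR[P (Q_{fc} Q_{cb} - K K)]` -/
def G2 (τ' : ℕ → ℕ → ℕ) : ℝ :=
  X.Y.nuR (X.q + 2) τ' fun ω => X.P ω * (X.Y.Q (τ' X.q (X.q + 1)) (ω X.q) (ω (X.q + 1))
    * X.Y.Q (τ' (X.q + 1) X.b) (ω (X.q + 1)) (ω X.b) - X.Y.K (τ' X.q (X.q + 1)) * X.Y.K (τ' (X.q + 1) X.b))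

/-- `nuR[P Q_{fc} (R_{eb} - R_{cb})]` -/
def Er (τ' : ℕ → ℕ → ℕ) : ℝ :=
  X.Y.nuR (X.q + 3) τ' fun ω => X.P ω * X.Y.Q (τ' X.q (X.q + 1)) (ω X.q) (ω (X.q + 1))
    * (X.Y.R (ω (X.q + 2)) (ω X.b) - X.Y.R (ω (X.q + 1)) (ω X.b))

/-- `f ∈ A`, `c ∉ A ∪ B'` -/
def c2 (τ' : ℕ → ℕ → ℕ) : Prop := X.kU ≤ τ' X.a X.q ∧ τ' (X.q + 1) X.a < X.kU ∧ τ' (X.q + 1) X.b < X.kU

instance c2_dec (τ' : ℕ → ℕ → ℕ) : Decidable (X.c2 τ') := by
  unfold c2; infer_instance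

/-- the coefficient after the sum over `d` -/
def k3 (τ' : ℕ → ℕ → ℕ) : ℝ := (if X.c2 τ' then X.Y.gam X.kU (τ' X.a X.q) else 0) * X.gB (τ' (X.q + 1) (X.q + 2))

/-- the coefficient after the sums over `d`, `e` -/
def k2 (τ' : ℕ → ℕ → ℕ) : ℝ := if X.c2 τ' then X.Y.gam X.kU (τ' X.a X.q) else 0

/-- the error of the evaluation of `e` at `c`, summed over `e` -/
def ErS (τ' : ℕ → ℕ → ℕ) : ℝ := trSum X.Y.ms X.Y.N (X.q + 2) τ' fun τ3 => X.gB (τ3 (X.q + 1) (X.q + 2)) * X.Er τ3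

end LedCtx

theorem leds_defs_eqns_cite : True := by
  have := @LedCtx.k2.eq_1
  have := @LedCtx.ErS.eq_1
  have := @LedCtx.gB.eq_1
  have := @LedCtx.chiR.eq_1
  have := @LedCtx.G4.eq_1
  have := @LedCtx.G3.eq_1
  have := @LedCtx.G2.eq_1
  have := @LedCtx.Er.eq_1
  have := @LedCtx.c2.eq_1
  have := @LedCtx.k3.eq_1
  trivial

section steps

variable {Ω : Type} {X : LedCtx Ω} {r : ℕ} {Cb : ℝ}

/-- `trSum` only sees the extensions -/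
theorem leds_sum_congr {N Q : ℕ} {ms : ℕ → ℝ} {τ : ℕ → ℕ → ℕ} (hτ : IsTr N Q τ) (Φ Ψ : (ℕ → ℕ → ℕ) → ℝ)
    (h : ∀ τ', LediExt N Q (Q + 1) τ τ' → Φ τ' = Ψ τ') : trSum ms N Q τ Φ = trSum ms N Q τ Ψ :=
  ledi_sumK_congr hτ 1 Φ Ψ h

theorem leds_sum_smul {N Q : ℕ} {ms : ℕ → ℝ} {τ : ℕ → ℕ → ℕ} (c : ℝ) (Φ : (ℕ → ℕ → ℕ) → ℝ) :
    trSum ms N Q τ (fun τ' => c * Φ τ') = c * trSum ms N Q τ Φ :=
  ledi_sumK_smul 1 Q τ c Φ

theorem leds_sum_add {N Q : ℕ} {ms : ℕ → ℝ} {τ : ℕ → ℕ → ℕ} (Φ Ψ : (ℕ → ℕ → ℕ) → ℝ) :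
    trSum ms N Q τ (fun τ' => Φ τ' + Ψ τ') = trSum ms N Q τ Φ + trSum ms N Q τ Ψ :=
  ledi_sumK_add 1 Q τ Φ Ψ

/-- **the third block sum as one signed sum** -/
theorem leds_TB (h : X.Ok r Cb) :
    X.TB = trSumK X.Y.ms X.Y.N 4 X.q X.τ fun τ' => X.Y.kapT X.kU X.q X.a X.b τ' * X.G4 τ' := by
  unfold LedCtx.TB LedSys.tm
  rw [← ledi_sumK_sub]
  refine ledi_sumK_congr h.tr 4 _ _ fun τ' hτ' => ?_
  rw [← mul_sub]
  congr 1
  have hl := ledi_lam_prof X.kU ledr_zero_mem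
  have e1 := ledr_of_nu h.sys hl hτ'.tr fun ω => X.P ω * (X.Y.Q (τ' X.q (X.q + 1)) (ω X.q) (ω (X.q + 1))
    * X.Y.Q (τ' (X.q + 2) (X.q + 3)) (ω (X.q + 2)) (ω (X.q + 3)))
  have e2 := ledr_of_nu h.sys hl hτ'.tr fun ω => X.P ω * (X.Y.K (τ' X.q (X.q + 1)) * X.Y.K (τ' (X.q + 2) (X.q + 3)))
  have f1 : (fun σ : ℕ → Bool × Ω => X.J0 σ * ledFacs [(X.q, X.q + 1, X.Y.kQ), (X.q + 2, X.q + 3, X.Y.kQ)] τ' σ)
      = fun σ => (fun ω : ℕ → Ω => X.P ω * (X.Y.Q (τ' X.q (X.q + 1)) (ω X.q) (ω (X.q + 1))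
          * X.Y.Q (τ' (X.q + 2) (X.q + 3)) (ω (X.q + 2)) (ω (X.q + 3)))) (ledRs σ) := by
    funext σ
    simp [ledFacs, LedCtx.J0, LedSys.kQ, ledRs]
  have f2 : (fun σ : ℕ → Bool × Ω => X.J0 σ * ledFacs [(X.q, X.q + 1, X.Y.kK), (X.q + 2, X.q + 3, X.Y.kK)] τ' σ)
      = fun σ => (fun ω : ℕ → Ω => X.P ω * (X.Y.K (τ' X.q (X.q + 1)) * X.Y.K (τ' (X.q + 2) (X.q + 3)))) (ledRs σ) := by
    funext σ
    simp [ledFacs, LedCtx.J0, LedSys.kK]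
  rw [f1, f2, e1, e2, ← ledi_sub (ledr_mean h.sys hτ'.tr)]
  unfold LedCtx.G4
  congr 1
  funext ω
  ring

/-- with `f ∈ A` and `c, e` in a third block, `b` is still alone in its block -/
theorem leds_b_low (h : X.Ok r Cb) {τ3 : ℕ → ℕ → ℕ} (h3 : LediExt X.Y.N X.q (X.q + 3) X.τ τ3) (hc : X.c2 τ3)
    (he : X.kU ≤ τ3 (X.q + 1) (X.q + 2)) : ∀ y, y < X.q + 3 → y ≠ X.b → τ3 X.b y < X.kU := by
  intro y hy hyb
  have hb := h.b_lt
  have ha := h.a_lt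
  have hb3 : X.b < X.q + 3 := by omega
  have ha3 : X.a < X.q + 3 := by omega
  obtain ⟨c1, c2, c3⟩ := hc
  have hcases : y < X.q ∨ y = X.q ∨ y = X.q + 1 ∨ y = X.q + 2 := by omega
  rcases hcases with hy' | rfl | rfl | rfl
  · rw [h3.old X.b y hb hy']
    exact h.alone y hy' hyb
  · by_contra hcon
    have h1 : X.kU ≤ τ3 X.b X.q := not_lt.1 hcon
    have h2 : X.kU ≤ τ3 X.q X.a := by rw [h3.tr.symm X.q X.a (by omega) ha3]; exact c1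
    have h4 := leds_trans h3.tr hb3 (by omega) ha3 h1 h2
    rw [h3.old X.b X.a hb ha, h.tr.symm X.b X.a hb ha, h.split] at h4
    have := h.kS_lt
    omega
  · rw [h3.tr.symm X.b (X.q + 1) hb3 (by omega)]
    exact c3
  · by_contra hcon
    have h1 : X.kU ≤ τ3 X.b (X.q + 2) := not_lt.1 hcon
    have h2 : X.kU ≤ τ3 (X.q + 2) (X.q + 1) := by rw [h3.tr.symm (X.q + 2) (X.q + 1) (by omega) (by omega)]; exact he
    have h4 := leds_trans h3.tr hb3 (by omega) (by omega : X.q + 1 < X.q + 3) h1 h2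
    rw [h3.tr.symm X.b (X.q + 1) hb3 (by omega)] at h4
    omega

/-- PE l.628: the fresh endpoint `d ∈ B'` is replaced by `b` -/
theorem leds_swap (h : X.Ok r Cb) {τ3 τ4 : ℕ → ℕ → ℕ} (h3 : LediExt X.Y.N X.q (X.q + 3) X.τ τ3)
    (h4 : LediExt X.Y.N (X.q + 3) (X.q + 3 + 1) τ3 τ4) (hc : X.c2 τ3) (he : X.kU ≤ τ3 (X.q + 1) (X.q + 2))
    (hd : X.kU ≤ τ4 X.b (X.q + 3)) : X.G4 τ4 = X.G3 τ3 := by
  have hb := h.b_lt
  have hb3 : X.b < X.q + 3 := by omega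
  have hb4 : X.b < X.q + 3 + 1 := by omega
  have hlow := leds_b_low h h3 hc he
  have hlow4 : ∀ y, y < X.q + 3 → y ≠ X.b → τ4 X.b y < X.kU := fun y hy hyb => by
    rw [h4.old X.b y hb3 hy]
    exact hlow y hy hyb
  have htw : ∀ y, y < X.q + 3 → y ≠ X.b → τ4 (X.q + 3) y = τ3 X.b y := fun y hy hyb => by
    rw [leds_iso h4.tr hb4 (by omega) (by omega) hd (hlow4 y hy hyb), h4.old X.b y hb3 hy]
  obtain ⟨φ, hφ⟩ : ∃ φ : ℕ → ℕ, φ = fun i => if i = X.b then X.q + 3 else i := ⟨_, rfl⟩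
  have φb : φ X.b = X.q + 3 := by rw [hφ]; simp
  have φn : ∀ i, i ≠ X.b → φ i = i := fun i hi => by rw [hφ]; simp [hi]
  obtain ⟨g3, hg3⟩ : ∃ g3 : (ℕ → Ω) → ℝ, g3 = fun ω => X.P ω * (X.Y.Q (τ3 X.q (X.q + 1)) (ω X.q) (ω (X.q + 1))
    * X.Y.Q (τ3 (X.q + 2) X.b) (ω (X.q + 2)) (ω X.b) - X.Y.K (τ3 X.q (X.q + 1)) * X.Y.K (τ3 (X.q + 2) X.b)) := ⟨_, rfl⟩
  have hu : TrUses (X.q + 3) g3 := fun ω ω' hω => by
    rw [hg3]
    show X.P ω * _ = X.P ω' * _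
    rw [h.uses ω ω' fun i hi => hω i (by omega), hω X.q (by omega), hω (X.q + 1) (by omega), hω (X.q + 2) (by omega), hω X.b hb3]
  have hcm := lrt_comap X.Y h.sys ledi_prof_one ledr_zero_mem (q := X.q + 3 + 1) (k := X.q + 3) h4.tr φ
    (fun i hi => by
      by_cases hi' : i = X.b
      · rw [hi', φb]; omega
      · rw [φn i hi']; omega)
    (fun i j hi hj hij => by
      by_cases hi' : i = X.b <;> by_cases hj' : j = X.b
      · rw [hi', hj']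
      · rw [hi', φb, φn j hj'] at hij; omega
      · rw [hj', φb, φn i hi'] at hij; omega
      · rwa [φn i hi', φn j hj'] at hij)
    (P := fun σ => g3 (ledRs σ)) (ledr_uses hu)
  have hR : X.Y.nu (fun _ => 1) 0 (X.q + 3) (fun x y => τ4 (φ x) (φ y)) (fun σ => g3 (ledRs σ)) = X.G3 τ3 := by
    have e1 : X.G3 τ3 = X.Y.nuR (X.q + 3) τ3 g3 := by rw [hg3]; rfl
    rw [e1]
    refine ledr_congr h.sys (fun x y hx hy => ?_) g3
    by_cases hx' : x = X.b <;> by_cases hy' : y = X.b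
    · rw [hx', hy', φb, h4.tr.diag _ (by omega), h3.tr.diag _ hb3]
    · rw [hx', φb, φn y hy', htw y hy hy']
    · rw [hy', φb, φn x hx', h4.tr.symm x (X.q + 3) (by omega) (by omega), htw x hx hx', h3.tr.symm X.b x hb3 hx]
    · rw [φn x hx', φn y hy', h4.old x y hx hy]
  rw [← hR, ← hcm]
  unfold LedCtx.G4 LedSys.nuR
  congr 1
  funext σ
  have eP : X.P (ledRs fun i => σ (φ i)) = X.P (ledRs σ) := by
    have : (ledRs fun i => σ (φ i)) = Function.update (ledRs σ) X.b (ledRs σ (X.q + 3)) := by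
      funext i
      by_cases hi : i = X.b
      · subst hi
        simp [ledRs, φb]
      · simp [ledRs, φn i hi, Function.update_of_ne hi]
    rw [this, h.free]
  have j1 : τ4 X.q (X.q + 1) = τ3 X.q (X.q + 1) := h4.old _ _ (by omega) (by omega)
  have j2 : τ4 (X.q + 2) (X.q + 3) = τ3 (X.q + 2) X.b := by
    rw [h4.tr.symm (X.q + 2) (X.q + 3) (by omega) (by omega), htw (X.q + 2) (by omega) (by omega),
      h3.tr.symm X.b (X.q + 2) hb3 (by omega)]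
  rw [hg3]
  show _ = X.P (ledRs fun i => σ (φ i)) * (X.Y.Q (τ3 X.q (X.q + 1)) (σ (φ X.q)).2 (σ (φ (X.q + 1))).2
    * X.Y.Q (τ3 (X.q + 2) X.b) (σ (φ (X.q + 2))).2 (σ (φ X.b)).2 - X.Y.K (τ3 X.q (X.q + 1)) * X.Y.K (τ3 (X.q + 2) X.b))
  rw [eP, φb, φn X.q (by omega), φn (X.q + 1) (by omega), φn (X.q + 2) (by omega), j1, j2]
  rfl

/-- **the sum over `d`** -/
theorem leds_stepD (h : X.Ok r Cb) {τ3 : ℕ → ℕ → ℕ} (h3 : LediExt X.Y.N X.q (X.q + 3) X.τ τ3) :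
    trSum X.Y.ms X.Y.N (X.q + 3) τ3 (fun τ4 => X.Y.kapT X.kU X.q X.a X.b τ4 * X.G4 τ4) = X.k3 τ3 * X.chiR * X.G3 τ3 := by
  have hb := h.b_lt
  have ha := h.a_lt
  have key : ∀ τ4, LediExt X.Y.N (X.q + 3) (X.q + 3 + 1) τ3 τ4 →
      X.Y.kapT X.kU X.q X.a X.b τ4 * X.G4 τ4 = (X.k3 τ3 * X.G3 τ3) * X.gB (τ4 X.b (X.q + 3)) := by
    intro τ4 h4
    have o1 : τ4 X.a X.q = τ3 X.a X.q := h4.old _ _ (by omega) (by omega)
    have o2 : τ4 (X.q + 1) (X.q + 2) = τ3 (X.q + 1) (X.q + 2) := h4.old _ _ (by omega) (by omega)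
    have o3 : τ4 (X.q + 1) X.a = τ3 (X.q + 1) X.a := h4.old _ _ (by omega) (by omega)
    have o4 : τ4 (X.q + 1) X.b = τ3 (X.q + 1) X.b := h4.old _ _ (by omega) (by omega)
    have o5 : τ4 (X.q + 3) X.b = τ4 X.b (X.q + 3) := h4.tr.symm _ _ (by omega) (by omega)
    unfold LedSys.kapT LedCtx.k3 LedCtx.gB
    rw [o1, o2, o3, o4, o5]
    by_cases hc : X.c2 τ3
    · by_cases he : X.kU ≤ τ3 (X.q + 1) (X.q + 2)
      · by_cases hd : X.kU ≤ τ4 X.b (X.q + 3)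
        · rw [if_pos ⟨hc.1, hd, he, hc.2.1, hc.2.2⟩, if_pos hc, if_pos he, if_pos hd, leds_swap h h3 h4 hc he hd]
          ring
        · rw [if_neg (fun hh => hd hh.2.1), if_neg hd]
          ring
      · rw [if_neg (fun hh => he hh.2.2.1), if_neg he]
        ring
    · rw [if_neg (fun hh => hc ⟨hh.1, hh.2.2.2.1, hh.2.2.2.2⟩), if_neg hc]
      ring
  rw [leds_sum_congr h3.tr _ _ key, leds_sum_smul, tk9_led_push h3.tr (a := X.b) (by omega) X.gB]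
  unfold LedCtx.chiR
  ring

/-- PE l.630: the factor which depends on `e` is evaluated at `c` -/
theorem leds_G3 (h : X.Ok r Cb) {τ2 τ3 : ℕ → ℕ → ℕ} (h2 : LediExt X.Y.N X.q (X.q + 2) X.τ τ2)
    (h3 : LediExt X.Y.N (X.q + 2) (X.q + 2 + 1) τ2 τ3) (hc : X.c2 τ2) (he : X.kU ≤ τ3 (X.q + 1) (X.q + 2)) :
    X.G3 τ3 = X.G2 τ2 + X.Y.b (τ2 (X.q + 1) X.b) * X.Er τ3 := by
  have hb := h.b_lt
  have M := ledr_mean h.sys h3.tr
  have j1 : τ3 X.q (X.q + 1) = τ2 X.q (X.q + 1) := h3.old _ _ (by omega) (by omega)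
  have j0 : τ3 (X.q + 1) X.b = τ2 (X.q + 1) X.b := h3.old _ _ (by omega) (by omega)
  have j2 : τ3 (X.q + 2) X.b = τ2 (X.q + 1) X.b := by
    rw [leds_iso h3.tr (by omega : X.q + 1 < X.q + 2 + 1) (by omega) (by omega) he (by rw [j0]; exact hc.2.2), j0]
  have hu : TrUses (X.q + 2) fun ω : ℕ → Ω => X.P ω * (X.Y.Q (τ2 X.q (X.q + 1)) (ω X.q) (ω (X.q + 1))
      * X.Y.Q (τ2 (X.q + 1) X.b) (ω (X.q + 1)) (ω X.b) - X.Y.K (τ2 X.q (X.q + 1)) * X.Y.K (τ2 (X.q + 1) X.b)) :=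
    fun ω ω' hω => by
      show X.P ω * _ = X.P ω' * _
      rw [h.uses ω ω' fun i hi => hω i (by omega), hω X.q (by omega), hω (X.q + 1) (by omega), hω X.b (by omega)]
  have e1 := ledr_prune_ext h.sys 1 h3 hu
  unfold LedCtx.G3 LedCtx.G2 LedCtx.Er
  rw [j1, j2, ← e1, ← M.smul, ← M.add]
  congr 1
  funext ω
  unfold LedSys.Q
  ring

theorem leds_c2_congr {Q : ℕ} (h : X.Ok r Cb) {τ2 τ3 : ℕ → ℕ → ℕ} (hQ : X.q + 2 ≤ Q) (h3 : ∀ y z, y < Q → z < Q → τ3 y z = τ2 y z) :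
    X.c2 τ3 ↔ X.c2 τ2 := by
  have hb := h.b_lt
  have ha := h.a_lt
  unfold LedCtx.c2
  rw [h3 X.a X.q (by omega) (by omega), h3 (X.q + 1) X.a (by omega) (by omega), h3 (X.q + 1) X.b (by omega) (by omega)]

/-- **the sum over `e`** -/
theorem leds_stepE (h : X.Ok r Cb) {τ2 : ℕ → ℕ → ℕ} (h2 : LediExt X.Y.N X.q (X.q + 2) X.τ τ2) :
    trSum X.Y.ms X.Y.N (X.q + 2) τ2 (fun τ3 => X.k3 τ3 * X.chiR * X.G3 τ3)
      = X.k2 τ2 * X.chiR * (X.chiR * X.G2 τ2 + X.Y.b (τ2 (X.q + 1) X.b) * X.ErS τ2) := by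
  have hb := h.b_lt
  have ha := h.a_lt
  have key : ∀ τ3, LediExt X.Y.N (X.q + 2) (X.q + 2 + 1) τ2 τ3 → X.k3 τ3 * X.chiR * X.G3 τ3
      = (X.k2 τ2 * X.chiR * X.G2 τ2) * X.gB (τ3 (X.q + 1) (X.q + 2))
        + (X.k2 τ2 * X.chiR * X.Y.b (τ2 (X.q + 1) X.b)) * (X.gB (τ3 (X.q + 1) (X.q + 2)) * X.Er τ3) := by
    intro τ3 h3
    have o1 : τ3 X.a X.q = τ2 X.a X.q := h3.old _ _ (by omega) (by omega)
    have hcc := leds_c2_congr h le_rfl h3.old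
    unfold LedCtx.k3 LedCtx.k2
    rw [o1]
    by_cases hc : X.c2 τ2
    · rw [if_pos hc, if_pos (hcc.2 hc)]
      by_cases he : X.kU ≤ τ3 (X.q + 1) (X.q + 2)
      · rw [leds_G3 h h2 h3 hc he]
        ring
      · have : X.gB (τ3 (X.q + 1) (X.q + 2)) = 0 := by unfold LedCtx.gB; rw [if_neg he]
        rw [this]
        ring
    · rw [if_neg hc, if_neg (fun hh => hc (hcc.1 hh))]
      ring
  rw [leds_sum_congr h2.tr _ _ key, leds_sum_add, leds_sum_smul, leds_sum_smul,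
    tk9_led_push h2.tr (a := X.q + 1) (by omega) X.gB]
  unfold LedCtx.chiR LedCtx.ErS
  ring

/-! ### bounds of the scalar coefficients -/

theorem leds_gam_le (h : X.Ok r Cb) {j : ℕ} (hj : j ≤ X.Y.N + 1) : |X.Y.gam X.kU j| ≤ 1 := by
  have M := h.sys.mean (ledLam X.kU 0) 0 2 (ledPair X.Y.N j) (ledi_lam_prof X.kU ledr_zero_mem) ledr_zero_mem (ledt_pair_isTr hj 2)
  unfold LedSys.gam LedSys.gS LedSys.nuS
  refine (ledi_abs_le M _).trans (le_of_eq ?_)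
  rw [← M.one]
  congr 1
  funext σ
  rw [abs_mul, ledb_sg_abs, ledb_sg_abs, one_mul]

theorem leds_gB_le (h : X.Ok r Cb) {j : ℕ} (hj : j ≤ X.Y.N + 1) : |X.gB j| ≤ 1 := by
  unfold LedCtx.gB
  split_ifs
  · exact leds_gam_le h hj
  · simp

/-- total variation of one label -/
theorem leds_sum_le (h : X.Ok r Cb) {Q : ℕ} {τ' : ℕ → ℕ → ℕ} (hτ' : IsTr X.Y.N Q τ') (Φ : (ℕ → ℕ → ℕ) → ℝ) {M : ℝ} (hM : 0 ≤ M)
    (hΦ : ∀ τ'', LediExt X.Y.N Q (Q + 1) τ' τ'' → |Φ τ''| ≤ M) : |trSum X.Y.ms X.Y.N Q τ' Φ| ≤ 2 * Q * M := by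
  have h1 := ledi_sumK_le_const hτ' h.sys.ms_ok 1 Φ M hM hΦ
  rw [h.sys.ms_top] at h1
  have h2 : |trSumK X.Y.ms X.Y.N 1 Q τ' Φ| ≤ 2 * Q * M := by simpa using h1
  exact h2

theorem leds_chiR_le (h : X.Ok r Cb) : |X.chiR| ≤ 2 := by
  have e : X.chiR = trSum X.Y.ms X.Y.N 1 (fun _ _ => X.Y.N + 1) fun τ' => X.gB (τ' 0 1) := by
    rw [tk9_led_push (tk9_const_isTr X.Y.N 1) (a := 0) (by omega) X.gB]
    rfl
  rw [e]
  have := leds_sum_le h (tk9_const_isTr X.Y.N 1) (fun τ' => X.gB (τ' 0 1)) zero_le_one fun τ'' hτ'' =>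
    leds_gB_le h (hτ''.tr.le 0 1 (by omega) (by omega))
  simpa using this

end steps

/-!
### HANDOVER (helper191, drafted to row 291 at 04:08Z): what remains for `led_Bd9`

Everything above (and all of `LedTbR`, `LedTbBd`, `LedTbIns`) is proved.  Remaining = the ESTIMATES, about 500 lines, new file `Cav/LedTb.lean`
(must not import `LedLeaves`; then patch the leaf `led_Bd9` there by `exact`).
Labels `f = q` (in `A`), `c = q+1`, `e = q+2`, `d = q+3`.  Put `Φ2 τ2 := trSum (q+2) τ2 (k3 * chiR * G3)`, `new τ2 := ∀ o < q+1, τ2 o (q+1) < kU`,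
`At := ledAt q τ 0 kU fA`, `In := ∑ j ∈ range kU, (ms j - trPm ms j) * fA j`  (`fA j = D j * cst j`, `cst j = if j < kV then xi else om`, in `LedTbR`).
1. `cst (τ' a c) = cst (τ' b c)` on every table extending `τ` (since `τ a b = kS ≥ kV`: `leds_iso`), so `D j1 * cst j2 + cst j1 * D j2 = fA j1 + fA j2`.
2. `|Φ2 τ2| ≤ 2 (q+2) * (2 * ledbC Cb (q+3) * (p0 * Cb * (fA (τ2 a (q+1)) + fA (τ2 b (q+1)))))`: `leds_sum_le` + `leds_chiR_le` + `ledr_diff`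
   (`k = 3, x = q, y = q+1, z = q+2, w = b`; `τ3 q (q+1) = τ2 a (q+1)`, `τ3 (q+2) b = τ2 (q+1) b` by `leds_iso`).
3. NEW part: `|trSum (q+1) τ1 (if new then Φ2 else 0)|`: `tr_sumK_le` / `ledi_absK_mono` (`k = 1`) + `tk9_led_entry (q+1)` (LedComb9, proved; once with `a`, once with `b`)
   + `ledAt (q+1) τ1 0 kU fA ≤ At` (forks below `kU` do not change when `f ∈ A` is added).  Gives `C p0 (In + U * At)`.
4. `|ErS τ2| ≤ 2 (q+2) * (ledbC Cb (q+3) * (p0 * om) * pi)`: `gB = 0` below `kU`; `Er = 0` at a coincidence (`ledr_coinc`, `x = q+1, y = q+2`);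
   else `h.proj` with `Φ = P * Q j1 (ω q) (ω (q+1))`, `ledr_sqrt`, `h.gamPi`.
5. OBSERVED part: `obs := (range q).filter (trIsMin τ kU o ∧ τ o a < kU ∧ τ o b < kU)`;
   `(if new then 0 else Φ2) = ∑ o ∈ obs, if kU ≤ τ2 o (q+1) then Φ2 else 0` (block minimum `tra2Rp`, `tra2_rp_spec`); for each `o`: `leds_stepE`;
   `G2 τ2 - G2 τb` with `τb := trAtt N (q+1) τ1 o kU` is the expression of `h.bdry` (`≤ be * p0`); `∑_c w [kU ≤ τ2 o (q+1)] = trPm ms kU`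
   (`tk9_led_push` + `tk9_abel`); `|G2 τb| ≤ ledbC Cb (q+2) * p0 * Cb * (fA (τ a o) + fA (τ o b)) ≤ … 2 At`; the `ErS` part by 4.
   Entries of `trAtt`: `trw_att_nl/nr/nn` (TrA4), `tr_att_old`, `tr_att_isTr` (TrA1).
6. ASSEMBLY: `TB = trSum q τ (τ1 ↦ trSum (q+1) τ1 Φ2)` (`leds_TB`, `tr_sumK_add` / `simp [trSumK]`, `leds_stepD` under `ledi_sumK_congr`); the summand vanishes unless `kU ≤ τ1 a q`;
   `|TB| ≤ 2 q * sup` (`leds_sum_le`); `In ≤ om * intM 0 kU D` (`trw_step_nonneg`, `cst ≤ om`: `ledr_cst_le`), `At = xi * ledAt 0 kV D + om * ledAt kV kU D` (filter split);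
   constants depend on `q, Cb` and the constant `Ce` of `tk9_led_entry (q+1)` only: obtain `Ce` first, then `subst` the hypothesis `X.q = q`.
-/

end Claimed.Agent.R286
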