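import Claimed.Agent.R286.Cav.PreLay
import Claimed.Agent.R286.Cav.PreLp
import Claimed.Agent.R286.Fd.TrB2

/-!
# Row 286 (S0533), folder Cav, file PreBd : PE Lemma 4.5 (boundary covariance estimate) for MONOMIAL tests, in the shape `hbd` of the ledger lemma `led_main` (helper204)
# (helper18, HEAD P07; ADV helper206; prefix `sk_cvpb_`, defs `cvpPair`, `cvpTri`, `cvpMon`)

ANY hierarchy `(B, ls)` on ANY finite set `S`, ANY symmetric kernel `R : S → S → ℝ` (actual law, row family, rest-only law).      NON-ASYMPTOTIC, mesh free.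
INPUTS = norms on the CANONICAL small tables (even exponents, predicate `CvLe` of `Cav/PreLp`):
* `cvpPair N j`  : two labels which share `j` stages          (raw bounds PE (12), (17))
* `cvpTri N t j` : labels `0, 1` share `t` stages, the label `2` shares `j ≤ t` stages with both   (resampling bound PE (16): `‖R_02 - R_12‖ ≤ ρ t`)
They are transported to the big tables by `sk_cvpb_transfer` (= `tr_nu_comap` twice + `tr_nu_congr`).
EXIT: `sk_cvpb_hbd`.      TEX[PE:lem:cavity-boundary]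
-/

set_option autoImplicit false

namespace Claimed.Agent.R286

open Finset

/-- two labels which share `r` stages -/
def cvpPair (N r : ℕ) : ℕ → ℕ → ℕ := fun x y => if x = y then N + 1 else r

/-- three labels: `0, 1` share `t` stages, `2` shares `j` stages with both -/
def cvpTri (N t j : ℕ) : ℕ → ℕ → ℕ := fun x y => if x = y then N + 1 else if x = 2 ∨ y = 2 then j else t

/-- monomial in the centred edges -/
def cvpMon {S : Type} (R : S → S → ℝ) (cen : ℕ → ℕ → ℝ) (m : List (ℕ × ℕ)) (σ : ℕ → S) : ℝ :=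
  (m.map fun e => R (σ e.1) (σ e.2) - cen e.1 e.2).prod

theorem sk_cvpb_eqns_cite : True := by
  have := @cvpPair.eq_1
  have := @cvpTri.eq_1
  have := @cvpMon.eq_1
  trivial

theorem sk_cvpb_pair_isTr {N r : ℕ} (hr : r ≤ N + 1) : IsTr N 2 (cvpPair N r) := by
  refine ⟨fun x y _ _ => ?_, fun x _ => by simp [cvpPair], fun x y _ _ => ?_, fun x y z _ _ _ => ?_⟩
  · unfold cvpPair; split_ifs <;> omega
  · unfold cvpPair; by_cases h : x = y
    · simp [h]
    · simp [h, Ne.symm h]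
  · unfold cvpPair
    by_cases h1 : x = y <;> by_cases h2 : y = z <;> by_cases h3 : x = z <;> simp [h1, h2, h3] <;> omega

theorem sk_cvpb_tri_isTr {N t j : ℕ} (hjt : j ≤ t) (ht : t ≤ N + 1) : IsTr N 3 (cvpTri N t j) := by
  refine ⟨fun x y _ _ => ?_, fun x _ => by simp [cvpTri], fun x y _ _ => ?_, fun x y z _ _ _ => ?_⟩
  · unfold cvpTri; split_ifs <;> omega
  · unfold cvpTri; by_cases h : x = y
    · simp [h]
    · simp [h, Ne.symm h, or_comm]
  · unfold cvpTri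
    split_ifs <;> simp_all <;> omega

/-- product over a list as a product over `range` -/
theorem sk_cvpb_list_prod {α : Type} (l : List α) (f : α → ℝ) (d : α) :
    (l.map f).prod = ∏ i ∈ range l.length, f (l.getD i d) := by
  induction l with
  | nil => simp
  | cons a l ih =>
    rw [List.map_cons, List.prod_cons, List.length_cons, Finset.prod_range_succ', ih, mul_comm]
    simp

section
variable {S ι : Type} [Fintype S] [Fintype ι] [Inhabited S]

/-- **a tree number of a function of finitely many labels depends only on the table of these labels** -/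
theorem sk_cvpb_transfer {B : GhB S} (hB : B.Ok) {ls : List (GhLv S ι)} (hls : GhAdm B 0 ls) {q q' p : ℕ} {τ τ' : ℕ → ℕ → ℕ}
    (hτ : IsTr ls.length q τ) (hτ' : IsTr ls.length q' τ') (z : S → ℝ) (f f' : ℕ → ℕ) (hf : ∀ x, x < p → f x < q)
    (hf' : ∀ x, x < p → f' x < q') (h : ∀ x y, x < p → y < p → τ (f x) (f y) = τ' (f' x) (f' y))
    (P : (ℕ → S) → ℝ) (hP : TrUses p P) :
    trNu B ls q τ z (fun σ => P fun x => σ (f x)) = trNu B ls q' τ' z (fun σ => P fun x => σ (f' x)) := by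
  rw [tr_nu_comap hB hls hτ z f hf P hP, tr_nu_comap hB hls hτ' z f' hf' P hP]
  exact tr_nu_congr B ls h z P

/-- the same for the norms -/
theorem sk_cvpb_le_transfer {B : GhB S} (hB : B.Ok) {ls : List (GhLv S ι)} (hls : GhAdm B 0 ls) {q q' p : ℕ} {τ τ' : ℕ → ℕ → ℕ}
    (hτ : IsTr ls.length q τ) (hτ' : IsTr ls.length q' τ') (z : S → ℝ) (f f' : ℕ → ℕ) (hf : ∀ x, x < p → f x < q)
    (hf' : ∀ x, x < p → f' x < q') (h : ∀ x y, x < p → y < p → τ (f x) (f y) = τ' (f' x) (f' y))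
    (g : (ℕ → S) → ℝ) (hg : TrUses p g) (k : ℕ) (c : ℝ)
    (hle : CvLe (cvpE hB hls q' τ' z) k (fun σ => g fun x => σ (f' x)) c) :
    CvLe (cvpE hB hls q τ z) k (fun σ => g fun x => σ (f x)) c := by
  refine ⟨hle.1, ?_⟩
  have h2 := hle.2
  rw [sk_cvpl_nu_E] at h2 ⊢
  have hP : TrUses p fun σ : ℕ → S => g σ ^ (2 * k) := fun σ σ' hσ => by
    show g σ ^ (2 * k) = g σ' ^ (2 * k)
    rw [hg σ σ' hσ]
  rw [sk_cvpb_transfer hB hls hτ hτ' z f f' hf hf' h (fun σ => g σ ^ (2 * k)) hP]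
  exact h2

/-- **Lemma 4.5, abstract form, `L²` norms** (`sk_cvpl_boundary_abs` with `p = p' = 2`) -/
theorem sk_cvpb_l2 {B : GhB S} (hB : B.Ok) {ls : List (GhLv S ι)} (hls : GhAdm B 0 ls) {q : ℕ} {τ : ℕ → ℕ → ℕ}
    (hτ : IsTr ls.length q τ) (z : S → ℝ) {a t0 : ℕ} (ha : a < q) (ht0 : t0 ≤ ls.length + 1) (hpos : 0 < trMs B ls t0)
    (F P : (ℕ → S) → ℝ)
    (hF : ∀ σ σ' : ℕ → S, σ q = σ' q → (∀ b, b < q → τ a b < t0 → σ b = σ' b) → F σ = F σ') (hP : TrUses q P)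
    (Av Bv : ℕ → ℝ) (D : ℝ) (hA0 : ∀ t, 0 ≤ Av t) (hB0 : ∀ t, 0 ≤ Bv t)
    (hAv : ∀ t x, t0 ≤ t → t ≤ ls.length → x < q → t0 ≤ τ a x →
      CvLe (cvpE hB hls (q + 2) (trAtt ls.length (q + 1) (trAtt ls.length q τ x t) x t) z) 1
        (fun σ => F σ - F (Function.update σ q (σ (q + 1)))) (Av t))
    (hBv : ∀ t x, t0 ≤ t → t ≤ ls.length → x < q → t0 ≤ τ a x →
      CvLe (cvpE hB hls (2 * q) (trDup q τ x t) z) 1 (fun σ => P σ - P fun b => σ (q + b)) (Bv t))
    (hD : ∀ t, t0 ≤ t → t ≤ ls.length → trMs B ls t * (Av t * Bv t) ≤ D) :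
    |trSum (trMs B ls) ls.length q τ (cvpBlk q a t0 fun τ' => trNu B ls (q + 1) τ' z fun σ => F σ * P σ)
        - trPm (trMs B ls) t0 * trNu B ls (q + 1) (trAtt ls.length q τ a t0) z (fun σ => F σ * P σ)|
      ≤ 6 * q * D * cvpLay ls.length (trMs B ls) t0 := by
  have conv : ∀ (ν : CvExp (ℕ → S)) (f : (ℕ → S) → ℝ) (c : ℝ), CvLe ν 1 f c →
      (ν.E fun σ => |f σ| ^ (2 : ℝ)) ^ (1 / (2 : ℝ)) ≤ c := by
    intro ν f c h
    have h1 : (fun σ => |f σ| ^ (2 : ℝ)) = fun σ => f σ ^ (2 * 1) := by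
      funext σ
      rw [Real.rpow_two, sq_abs, mul_one]
    rw [h1, ← Real.sqrt_eq_rpow]
    have h2 := h.2
    rw [mul_one] at h2 ⊢
    exact Real.sqrt_le_iff.2 ⟨h.1, h2⟩
  exact sk_cvpl_boundary_abs hB hls hτ z ha ht0 hpos F P hF hP 2 2 Real.HolderConjugate.two_two Av Bv D hA0 hB0
    (fun t x h1 h2 h3 h4 => conv _ _ _ (hAv t x h1 h2 h3 h4)) (fun t x h1 h2 h3 h4 => conv _ _ _ (hBv t x h1 h2 h3 h4)) hD

/-! ### values of the tables -/

theorem sk_cvpb_att2 {N q : ℕ} (τ : ℕ → ℕ → ℕ) (x t : ℕ) (hx : x < q) :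
    (∀ y z, y < q → z < q → trAtt N (q + 1) (trAtt N q τ x t) x t y z = τ y z) ∧
    (∀ z, z < q → trAtt N (q + 1) (trAtt N q τ x t) x t q z = min t (τ x z)) ∧
    (∀ z, z < q → trAtt N (q + 1) (trAtt N q τ x t) x t z q = min t (τ z x)) ∧
    (∀ z, z < q → trAtt N (q + 1) (trAtt N q τ x t) x t (q + 1) z = min t (τ x z)) ∧
    (∀ z, z < q → trAtt N (q + 1) (trAtt N q τ x t) x t z (q + 1) = min t (τ z x)) ∧
    trAtt N (q + 1) (trAtt N q τ x t) x t q (q + 1) = min t (min t (τ x x)) ∧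
    trAtt N (q + 1) (trAtt N q τ x t) x t (q + 1) q = min t (min t (τ x x)) ∧
    trAtt N (q + 1) (trAtt N q τ x t) x t q q = N + 1 ∧
    trAtt N (q + 1) (trAtt N q τ x t) x t (q + 1) (q + 1) = N + 1 := by
  have hxq : x ≠ q := hx.ne
  refine ⟨fun y z hy hz => ?_, fun z hz => ?_, fun z hz => ?_, fun z hz => ?_, fun z hz => ?_, ?_, ?_, ?_, ?_⟩
  · have h1 : y ≠ q := hy.ne
    have h2 : z ≠ q := hz.ne
    have h3 : y ≠ q + 1 := by omega
    have h4 : z ≠ q + 1 := by omega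
    simp [trAtt, h1, h2, h3, h4]
  · have h2 : z ≠ q := hz.ne
    have h4 : z ≠ q + 1 := by omega
    simp [trAtt, h2, h4]
  · have h2 : z ≠ q := hz.ne
    have h4 : z ≠ q + 1 := by omega
    simp [trAtt, h2, h4]
  · have h2 : z ≠ q := hz.ne
    have h4 : z ≠ q + 1 := by omega
    simp [trAtt, h2, h4, hxq]
  · have h2 : z ≠ q := hz.ne
    have h4 : z ≠ q + 1 := by omega
    simp [trAtt, h2, h4, hxq]
  · simp [trAtt, hxq]
  · simp [trAtt, hxq]
  · simp [trAtt]
  · simp [trAtt]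

theorem sk_cvpb_dup {q : ℕ} (τ : ℕ → ℕ → ℕ) (x t : ℕ) {u v : ℕ} (hu : u < q) (hv : v < q) :
    trDup q τ x t u v = τ u v ∧ trDup q τ x t (q + u) (q + v) = τ u v ∧
    trDup q τ x t u (q + v) = (if t < τ x u ∧ t < τ x v then t else τ u v) ∧
    trDup q τ x t (q + u) v = (if t < τ x u ∧ t < τ x v then t else τ u v) := by
  have h1 : u % q = u := Nat.mod_eq_of_lt hu
  have h2 : v % q = v := Nat.mod_eq_of_lt hv
  have h3 : (q + u) % q = u := by rw [Nat.add_mod_left, h1]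
  have h4 : (q + v) % q = v := by rw [Nat.add_mod_left, h2]
  have h5 : ¬ (q + u < q) := by omega
  have h6 : ¬ (q + v < q) := by omega
  refine ⟨?_, ?_, ?_, ?_⟩
  · simp [trDup, hu, hv, h1, h2]
  · simp [trDup, h5, h6, h3, h4]
  · simp [trDup, hu, h6, h1, h4]
  · simp [trDup, hv, h5, h2, h3]

/-- a function of two labels: norm on the canonical pair table -/
theorem sk_cvpb_pair_le {B : GhB S} (hB : B.Ok) {ls : List (GhLv S ι)} (hls : GhAdm B 0 ls) {q : ℕ} {τ : ℕ → ℕ → ℕ}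
    (hτ : IsTr ls.length q τ) (z : S → ℝ) {y1 y2 r : ℕ} (hy1 : y1 < q) (hy2 : y2 < q) (hr : τ y1 y2 = r)
    (G : S → S → ℝ) (k : ℕ) (c : ℝ)
    (h : CvLe (cvpE hB hls 2 (cvpPair ls.length r) z) k (fun σ => G (σ 0) (σ 1)) c) :
    CvLe (cvpE hB hls q τ z) k (fun σ => G (σ y1) (σ y2)) c := by
  have hr' : r ≤ ls.length + 1 := hr ▸ hτ.le y1 y2 hy1 hy2
  have := sk_cvpb_le_transfer hB hls hτ (sk_cvpb_pair_isTr hr') z (fun i => if i = 0 then y1 else y2) id
    (p := 2) (fun i _ => by split_ifs <;> assumption) (fun i hi => hi)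
    (by
      intro i j hi hj
      have hd1 := hτ.diag y1 hy1
      have hd2 := hτ.diag y2 hy2
      have hs := hτ.symm y1 y2 hy1 hy2
      interval_cases i <;> interval_cases j <;> simp [cvpPair, hd1, hd2, hr, ← hs])
    (fun σ => G (σ 0) (σ 1)) (fun σ σ' hσ => by
      show G (σ 0) (σ 1) = G (σ' 0) (σ' 1)
      rw [hσ 0 (by norm_num), hσ 1 (by norm_num)]) k c (by simpa using h)
  simpa using this

/-- a function of three labels: norm on the canonical triple table -/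
theorem sk_cvpb_tri_le {B : GhB S} (hB : B.Ok) {ls : List (GhLv S ι)} (hls : GhAdm B 0 ls) {q : ℕ} {τ : ℕ → ℕ → ℕ}
    (hτ : IsTr ls.length q τ) (z : S → ℝ) {y0 y1 y2 t j : ℕ} (hy0 : y0 < q) (hy1 : y1 < q) (hy2 : y2 < q)
    (h01 : τ y0 y1 = t) (h02 : τ y0 y2 = j) (h12 : τ y1 y2 = j) (hjt : j ≤ t)
    (G : S → S → S → ℝ) (k : ℕ) (c : ℝ)
    (h : CvLe (cvpE hB hls 3 (cvpTri ls.length t j) z) k (fun σ => G (σ 0) (σ 1) (σ 2)) c) :
    CvLe (cvpE hB hls q τ z) k (fun σ => G (σ y0) (σ y1) (σ y2)) c := by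
  have ht' : t ≤ ls.length + 1 := h01 ▸ hτ.le y0 y1 hy0 hy1
  have := sk_cvpb_le_transfer hB hls hτ (sk_cvpb_tri_isTr hjt ht') z (fun i => if i = 0 then y0 else if i = 1 then y1 else y2) id
    (p := 3) (fun i _ => by split_ifs <;> assumption) (fun i hi => hi)
    (by
      intro i j hi hj
      have hd0 := hτ.diag y0 hy0
      have hd1 := hτ.diag y1 hy1
      have hd2 := hτ.diag y2 hy2
      have hs01 := hτ.symm y0 y1 hy0 hy1
      have hs02 := hτ.symm y0 y2 hy0 hy2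
      have hs12 := hτ.symm y1 y2 hy1 hy2
      interval_cases i <;> interval_cases j <;> simp [cvpTri, hd0, hd1, hd2, h01, h02, h12, ← hs01, ← hs02, ← hs12])
    (fun σ => G (σ 0) (σ 1) (σ 2))
    (fun σ σ' hσ => by
      show G (σ 0) (σ 1) (σ 2) = G (σ' 0) (σ' 1) (σ' 2)
      rw [hσ 0 (by norm_num), hσ 1 (by norm_num), hσ 2 (by norm_num)]) k c (by simpa using h)
  simpa using this

/-- **variation of `F_c`** (PE l.262: `‖F_c - F_c'‖ ≤ C W z_v`): `F` = product of two factors `h + b R(new label, exterior leaf)` -/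
theorem sk_cvpb_F_var {B : GhB S} (hB : B.Ok) {ls : List (GhLv S ι)} (hls : GhAdm B 0 ls) {q : ℕ} {τ : ℕ → ℕ → ℕ}
    (hτ : IsTr ls.length q τ) (z : S → ℝ) (R : S → S → ℝ) (hR : ∀ s s', R s s' = R s' s) {x c b t : ℕ} (hx : x < q) (hc : c < q)
    (hb : b < q) (ht : t ≤ ls.length) (hxc : τ x c ≤ t) (hxb : τ x b ≤ t) (h1 b1 h2 b2 om ρ : ℝ)
    (hQ1 : CvLe (cvpE hB hls 2 (cvpPair ls.length (τ x c)) z) 2 (fun σ => h1 + b1 * R (σ 0) (σ 1)) om)
    (hQ2 : CvLe (cvpE hB hls 2 (cvpPair ls.length (τ x b)) z) 2 (fun σ => h2 + b2 * R (σ 0) (σ 1)) om)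
    (hρ1 : CvLe (cvpE hB hls 3 (cvpTri ls.length t (τ x c)) z) 2 (fun σ => R (σ 0) (σ 2) - R (σ 1) (σ 2)) ρ)
    (hρ2 : CvLe (cvpE hB hls 3 (cvpTri ls.length t (τ x b)) z) 2 (fun σ => R (σ 0) (σ 2) - R (σ 1) (σ 2)) ρ) :
    CvLe (cvpE hB hls (q + 2) (trAtt ls.length (q + 1) (trAtt ls.length q τ x t) x t) z) 1
      (fun σ => (h1 + b1 * R (σ c) (σ q)) * (h2 + b2 * R (σ q) (σ b))
        - (h1 + b1 * R (σ c) (σ (q + 1))) * (h2 + b2 * R (σ (q + 1)) (σ b))) ((|b1| + |b2|) * om * ρ) := by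
  have hT1 : IsTr ls.length (q + 1) (trAtt ls.length q τ x t) := tr_att_isTr hτ hx (by omega)
  have hT2 : IsTr ls.length (q + 2) (trAtt ls.length (q + 1) (trAtt ls.length q τ x t) x t) :=
    tr_att_isTr hT1 (by omega) (by omega)
  obtain ⟨-, v2, v3, v4, v5, v6, -, -, -⟩ := sk_cvpb_att2 (N := ls.length) τ x t hx
  have hdx := hτ.diag x hx
  have e6 : trAtt ls.length (q + 1) (trAtt ls.length q τ x t) x t q (q + 1) = t := by
    rw [v6, hdx]; omega
  have sxc := hτ.symm x c hx hc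
  have sxb := hτ.symm x b hx hb
  -- the four factors
  have A1 : CvLe (cvpE hB hls (q + 2) (trAtt ls.length (q + 1) (trAtt ls.length q τ x t) x t) z) (1 * 2)
      (fun σ => h2 + b2 * R (σ q) (σ b)) om :=
    sk_cvpb_pair_le hB hls hT2 z (by omega) (by omega) (by rw [v2 b hb]; omega) (fun s s' => h2 + b2 * R s s') _ _ hQ2
  have B0 : CvLe (cvpE hB hls (q + 2) (trAtt ls.length (q + 1) (trAtt ls.length q τ x t) x t) z) (1 * 2)
      (fun σ => h1 + b1 * R (σ c) (σ (q + 1))) om :=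
    sk_cvpb_pair_le hB hls hT2 z (by omega) (by omega) (by rw [v5 c hc, ← sxc]; omega) (fun s s' => h1 + b1 * R s s') _ _ hQ1
  have D0 : CvLe (cvpE hB hls (q + 2) (trAtt ls.length (q + 1) (trAtt ls.length q τ x t) x t) z) (1 * 2)
      (fun σ => b1 * (R (σ q) (σ c) - R (σ (q + 1)) (σ c))) (|b1| * ρ) :=
    (sk_cvpb_tri_le hB hls hT2 z (y0 := q) (y1 := q + 1) (y2 := c) (by omega) (by omega) (by omega) e6
      (by rw [v2 c hc]; omega) (by rw [v4 c hc]; omega) hxc (fun s s' s'' => R s s'' - R s' s'') _ _ hρ1).smul b1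
  have D1 : CvLe (cvpE hB hls (q + 2) (trAtt ls.length (q + 1) (trAtt ls.length q τ x t) x t) z) (1 * 2)
      (fun σ => b2 * (R (σ q) (σ b) - R (σ (q + 1)) (σ b))) (|b2| * ρ) :=
    (sk_cvpb_tri_le hB hls hT2 z (y0 := q) (y1 := q + 1) (y2 := b) (by omega) (by omega) (by omega) e6
      (by rw [v2 b hb]; omega) (by rw [v4 b hb]; omega) hxb (fun s s' s'' => R s s'' - R s' s'') _ _ hρ2).smul b2
  have key := (D0.mul A1).add (B0.mul D1)
  have e1 : (fun σ : ℕ → S => (h1 + b1 * R (σ c) (σ q)) * (h2 + b2 * R (σ q) (σ b))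
        - (h1 + b1 * R (σ c) (σ (q + 1))) * (h2 + b2 * R (σ (q + 1)) (σ b)))
      = fun σ => b1 * (R (σ q) (σ c) - R (σ (q + 1)) (σ c)) * (h2 + b2 * R (σ q) (σ b))
          + (h1 + b1 * R (σ c) (σ (q + 1))) * (b2 * (R (σ q) (σ b) - R (σ (q + 1)) (σ b))) := by
    funext σ
    rw [hR (σ c) (σ q), hR (σ c) (σ (q + 1))]
    ring
  rw [e1]
  have e2 : (|b1| + |b2|) * om * ρ = |b1| * ρ * om + om * (|b2| * ρ) := by ring
  rw [e2]
  exact key

/-- **variation of one boundary edge** when the subtree `{b : t < τ x b}` is resampled after the depth `t` -/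
theorem sk_cvpb_edge_var {B : GhB S} (hB : B.Ok) {ls : List (GhLv S ι)} (hls : GhAdm B 0 ls) {q : ℕ} {τ : ℕ → ℕ → ℕ}
    (hτ : IsTr ls.length q τ) (z : S → ℝ) (R : S → S → ℝ) (hR : ∀ s s', R s s' = R s' s) {x u v t : ℕ} (hx : x < q) (hu : u < q)
    (hv : v < q) (ht : t ≤ ls.length) (huv : τ u v ≤ t) (c0 ρ : ℝ) (k : ℕ)
    (hρ : CvLe (cvpE hB hls 3 (cvpTri ls.length t (τ u v)) z) k (fun σ => R (σ 0) (σ 2) - R (σ 1) (σ 2)) ρ) :
    CvLe (cvpE hB hls (2 * q) (trDup q τ x t) z) k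
      (fun σ => (R (σ u) (σ v) - c0) - (R (σ (q + u)) (σ (q + v)) - c0)) ρ := by
  have hTD : IsTr ls.length (2 * q) (trDup q τ x t) := tr_dup_isTr hτ hx ht
  obtain ⟨a1, a2, a3, a4⟩ := sk_cvpb_dup τ x t hu hv
  obtain ⟨b1, b2, b3, b4⟩ := sk_cvpb_dup τ x t hv hu
  obtain ⟨c1, c2, c3, c4⟩ := sk_cvpb_dup τ x t hu hu
  obtain ⟨d1, d2, d3, d4⟩ := sk_cvpb_dup τ x t hv hv
  have hdu := hτ.diag u hu
  have hdv := hτ.diag v hv
  have hs := hτ.symm u v hu hv
  have hnot : ¬ (t < τ x u ∧ t < τ x v) := by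
    rintro ⟨h1, h2⟩
    have h3 := hτ.ultra u x v hu hx hv
    rw [hτ.symm u x hu hx] at h3
    have : t < min (τ x u) (τ x v) := lt_min h1 h2
    omega
  have hnot' : ¬ (t < τ x v ∧ t < τ x u) := fun h => hnot ⟨h.2, h.1⟩
  have hgU : TrUses 4 fun σ : ℕ → S => (R (σ 0) (σ 1) - c0) - (R (σ 2) (σ 3) - c0) := fun σ σ' hσ => by
    show (R (σ 0) (σ 1) - c0) - (R (σ 2) (σ 3) - c0) = (R (σ' 0) (σ' 1) - c0) - (R (σ' 2) (σ' 3) - c0)
    rw [hσ 0 (by norm_num), hσ 1 (by norm_num), hσ 2 (by norm_num), hσ 3 (by norm_num)]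
  have hf : ∀ i, i < 4 → (fun i => if i = 0 then u else if i = 1 then v else if i = 2 then q + u else q + v) i < 2 * q := by
    intro i _
    show (if i = 0 then u else if i = 1 then v else if i = 2 then q + u else q + v) < 2 * q
    split_ifs <;> omega
  have htri : IsTr ls.length 3 (cvpTri ls.length t (τ u v)) := sk_cvpb_tri_isTr huv (by omega)
  by_cases hu' : t < τ x u
  · have hv' : ¬ t < τ x v := fun h => hnot ⟨hu', h⟩
    have := sk_cvpb_le_transfer hB hls hTD htri z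
      (fun i => if i = 0 then u else if i = 1 then v else if i = 2 then q + u else q + v)
      (fun i => if i = 0 then 0 else if i = 1 then 2 else if i = 2 then 1 else 2) (p := 4) hf
      (fun i _ => by
        show (if i = 0 then 0 else if i = 1 then 2 else if i = 2 then 1 else 2) < 3
        split_ifs <;> omega)
      (by
        intro i j hi hj
        interval_cases i <;> interval_cases j <;>
          simp [cvpTri, a1, a2, a3, a4, b1, b2, b3, b4, c1, c2, c3, c4, d1, d2, d3, d4, hdu, hdv, hu', hv', ← hs])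
      _ hgU k ρ (by simpa using hρ)
    simpa using this
  · by_cases hv' : t < τ x v
    · have := sk_cvpb_le_transfer hB hls hTD htri z
        (fun i => if i = 0 then u else if i = 1 then v else if i = 2 then q + u else q + v)
        (fun i => if i = 0 then 2 else if i = 1 then 0 else if i = 2 then 2 else 1) (p := 4) hf
        (fun i _ => by
          show (if i = 0 then 2 else if i = 1 then 0 else if i = 2 then 2 else 1) < 3
          split_ifs <;> omega)
        (by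
          intro i j hi hj
          interval_cases i <;> interval_cases j <;>
            simp [cvpTri, a1, a2, a3, a4, b1, b2, b3, b4, c1, c2, c3, c4, d1, d2, d3, d4, hdu, hdv, hu', hv', ← hs])
        _ hgU k ρ (by
          have e : (fun σ : ℕ → S => R (σ 0) (σ 2) - R (σ 1) (σ 2)) = fun σ => R (σ 2) (σ 0) - R (σ 2) (σ 1) := by
            funext σ; rw [hR (σ 0), hR (σ 1)]
          rw [e] at hρ
          simpa using hρ)
      simpa using this
    · have := sk_cvpb_le_transfer hB hls hTD htri z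
        (fun i => if i = 0 then u else if i = 1 then v else if i = 2 then q + u else q + v)
        (fun i => if i = 0 then 0 else if i = 1 then 2 else if i = 2 then 0 else 2) (p := 4) hf
        (fun i _ => by
          show (if i = 0 then 0 else if i = 1 then 2 else if i = 2 then 0 else 2) < 3
          split_ifs <;> omega)
        (by
          intro i j hi hj
          interval_cases i <;> interval_cases j <;>
            simp [cvpTri, a1, a2, a3, a4, b1, b2, b3, b4, c1, c2, c3, c4, d1, d2, d3, d4, hdu, hdv, hu', hv', ← hs])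
        _ hgU k ρ (by
          have h0 := (CvLe.const (cvpE hB hls 3 (cvpTri ls.length t (τ u v)) z) k 0).weaken (c' := ρ) (by simpa using hρ.1)
          simpa using h0)
      simpa using this

/-- **variation of a monomial test** (PE l.263: `‖P - P'‖ ≤ C (z_v/x) p₀`; PE Lemma 2.13): every edge joins two different blocks of the cut `t0 ≤ t` -/
theorem sk_cvpb_mon_var {B : GhB S} (hB : B.Ok) {ls : List (GhLv S ι)} (hls : GhAdm B 0 ls) {q : ℕ} {τ : ℕ → ℕ → ℕ}
    (hτ : IsTr ls.length q τ) (z : S → ℝ) (R : S → S → ℝ) (hR : ∀ s s', R s s' = R s' s) (cen : ℕ → ℕ → ℝ) (m : List (ℕ × ℕ))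
    {x t : ℕ} (hx : x < q) (ht : t ≤ ls.length) (hm : ∀ e ∈ m, e.1 < q ∧ e.2 < q ∧ τ e.1 e.2 ≤ t) (sc : ℕ × ℕ → ℝ) (ρ : ℝ)
    (hsc : ∀ e ∈ m, CvLe (cvpE hB hls 2 (cvpPair ls.length (τ e.1 e.2)) z) m.length
      (fun σ => R (σ 0) (σ 1) - cen e.1 e.2) (sc e))
    (hρ : ∀ e ∈ m, CvLe (cvpE hB hls 3 (cvpTri ls.length t (τ e.1 e.2)) z) m.length
      (fun σ => R (σ 0) (σ 2) - R (σ 1) (σ 2)) ρ) :
    CvLe (cvpE hB hls (2 * q) (trDup q τ x t) z) 1
      (fun σ => cvpMon R cen m σ - cvpMon R cen m fun b => σ (q + b))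
      (∑ j ∈ range m.length, ∏ i ∈ range m.length, if i = j then ρ else sc (m.getD i (0, 0))) := by
  have hTD : IsTr ls.length (2 * q) (trDup q τ x t) := tr_dup_isTr hτ hx ht
  have hmem : ∀ i, i < m.length → m.getD i (0, 0) ∈ m := by
    intro i hi
    rw [List.getD_eq_getElem _ _ hi]
    exact List.getElem_mem hi
  have e0 : (fun σ : ℕ → S => cvpMon R cen m σ - cvpMon R cen m fun b => σ (q + b))
      = fun σ => (∏ i ∈ range m.length,
            (fun (i : ℕ) (σ : ℕ → S) => R (σ (m.getD i (0, 0)).1) (σ (m.getD i (0, 0)).2) - cen (m.getD i (0, 0)).1 (m.getD i (0, 0)).2) i σ)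
          - ∏ i ∈ range m.length,
            (fun (i : ℕ) (σ : ℕ → S) => R (σ (q + (m.getD i (0, 0)).1)) (σ (q + (m.getD i (0, 0)).2))
              - cen (m.getD i (0, 0)).1 (m.getD i (0, 0)).2) i σ := by
    funext σ
    unfold cvpMon
    rw [sk_cvpb_list_prod m _ (0, 0), sk_cvpb_list_prod m _ (0, 0)]
  rw [e0]
  refine sk_cvlp_prod_sub_prod_le m.length 1 _ _ (fun i => sc (m.getD i (0, 0))) (fun _ => ρ) ?_ ?_ ?_
  · intro i hi
    obtain ⟨h1, h2, -⟩ := hm _ (hmem i hi)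
    rw [one_mul]
    exact sk_cvpb_pair_le hB hls hTD z (by omega) (by omega) (sk_cvpb_dup τ x t h1 h2).1
      (fun s s' => R s s' - cen (m.getD i (0, 0)).1 (m.getD i (0, 0)).2) _ _ (hsc _ (hmem i hi))
  · intro i hi
    obtain ⟨h1, h2, -⟩ := hm _ (hmem i hi)
    rw [one_mul]
    exact sk_cvpb_pair_le hB hls hTD z (by omega) (by omega) (sk_cvpb_dup τ x t h1 h2).2.1
      (fun s s' => R s s' - cen (m.getD i (0, 0)).1 (m.getD i (0, 0)).2) _ _ (hsc _ (hmem i hi))
  · intro i hi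
    obtain ⟨h1, h2, h3⟩ := hm _ (hmem i hi)
    rw [one_mul]
    exact sk_cvpb_edge_var hB hls hτ z R hR hx h1 h2 ht h3 _ ρ _ (hρ _ (hmem i hi))

/-- arithmetic: `∑_j ρ ∏_{i ≠ j} c_i ≤ d (ρ / xm) ∏ c_i` if all `c_i ≥ xm > 0` -/
theorem sk_cvpb_sum_prod_le (d : ℕ) (c : ℕ → ℝ) (ρ xm : ℝ) (hρ : 0 ≤ ρ) (hxm : 0 < xm) (hc : ∀ i, i < d → xm ≤ c i) :
    ∑ j ∈ range d, ∏ i ∈ range d, (if i = j then ρ else c i) ≤ d * (ρ / xm) * ∏ i ∈ range d, c i := by
  have hterm : ∀ j ∈ range d, ∏ i ∈ range d, (if i = j then ρ else c i) ≤ (ρ / xm) * ∏ i ∈ range d, c i := by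
    intro j hj
    have hjd : j < d := mem_range.1 hj
    have h1 : ∏ i ∈ range d, (if i = j then ρ else c i) = ρ * ∏ i ∈ (range d).erase j, c i := by
      rw [← Finset.mul_prod_erase _ _ hj, if_pos rfl]
      congr 1
      exact Finset.prod_congr rfl fun i hi => by rw [if_neg (Finset.ne_of_mem_erase hi)]
    have h2 : ∏ i ∈ range d, c i = c j * ∏ i ∈ (range d).erase j, c i := (Finset.mul_prod_erase _ _ hj).symm
    have h3 : 0 ≤ ∏ i ∈ (range d).erase j, c i :=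
      Finset.prod_nonneg fun i hi => le_trans hxm.le (hc i (mem_range.1 (Finset.mem_of_mem_erase hi)))
    rw [h1, h2, ← mul_assoc]
    apply mul_le_mul_of_nonneg_right _ h3
    rw [div_mul_eq_mul_div, le_div_iff₀ hxm]
    exact mul_le_mul_of_nonneg_left (hc j hjd) hρ
  calc _ ≤ ∑ _j ∈ range d, (ρ / xm) * ∏ i ∈ range d, c i := Finset.sum_le_sum hterm
    _ = _ := by rw [Finset.sum_const, card_range, nsmul_eq_mul]; ring

/-- leaves of one block have the same split from an exterior leaf -/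
theorem sk_cvpb_block_split {N q : ℕ} {τ : ℕ → ℕ → ℕ} (hτ : IsTr N q τ) {o x c k : ℕ} (ho : o < q) (hx : x < q) (hc : c < q)
    (hox : k ≤ τ o x) (hoc : τ o c < k) : τ x c = τ o c := by
  have h1 := hτ.ultra x o c hx ho hc
  have h2 := hτ.ultra o x c ho hx hc
  rw [hτ.symm x o hx ho] at h1
  simp only [min_le_iff] at h1 h2
  omega

/-- subtraction of the fresh-at-cut baseline inside the signed sum -/
theorem sk_cvpb_sub_base {N q : ℕ} {τ : ℕ → ℕ → ℕ} {ms : ℕ → ℝ} (hτ : IsTr N q τ) {o k : ℕ} (ho : o < q) (hk : k ≤ N + 1)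
    (Φ : (ℕ → ℕ → ℕ) → ℝ) (c0 : ℝ) :
    trSumK ms N 1 q τ (fun τ' => if k ≤ τ' o q then Φ τ' - c0 else 0)
      = trSum ms N q τ (cvpBlk q o k Φ) - trPm ms k * c0 := by
  have e1 : trSumK ms N 1 q τ (fun τ' => if k ≤ τ' o q then Φ τ' - c0 else 0)
      = trSum ms N q τ (cvpBlk q o k fun τ' => Φ τ' - c0) := rfl
  rw [e1, sk_cvpl_sum_blk τ ms ho, sk_cvpl_sum_blk τ ms ho, ← sk_cvpl_wt_ge (ms := ms) hτ ho hk, Finset.sum_mul,
    ← Finset.sum_sub_distrib]
  refine Finset.sum_congr rfl fun y _ => ?_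
  rw [Finset.sum_mul, ← Finset.sum_sub_distrib]
  refine Finset.sum_congr rfl fun j _ => ?_
  split_ifs <;> ring

theorem sk_cvpb_mon_uses {S : Type} (R : S → S → ℝ) (cen : ℕ → ℕ → ℝ) (m : List (ℕ × ℕ)) {q : ℕ}
    (hm : ∀ e ∈ m, e.1 < q ∧ e.2 < q) : TrUses q (cvpMon R cen m) := by
  intro σ σ' hσ
  unfold cvpMon
  congr 1
  refine List.map_congr_left fun e he => ?_
  rw [hσ _ (hm e he).1, hσ _ (hm e he).2]

/-- **PE Lemma 4.5 (boundary covariance estimate) for a monomial test, shape `hbd` of `led_main`.**   TEX[PE:lem:cavity-boundary]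
Old table `τ` on `q` labels; the new label `q` is allocated in the block of `o` at the cut of depth `kU`; `c`, `b` = exterior leaves;
`G = P (h₁ + b₁ R_{c,new}) (h₂ + b₂ R_{new,b})`, `P` = monomial in centred edges which join different blocks.
`om` = size of the two factors, `sc e ≥ xm` = sizes of the edges, `ρ t` = resampling bound after the depth `t` (PE (16)), `ms t * ρ t² ≤ D`. -/
theorem sk_cvpb_hbd {B : GhB S} (hB : B.Ok) {ls : List (GhLv S ι)} (hls : GhAdm B 0 ls) {q : ℕ} {τ : ℕ → ℕ → ℕ}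
    (hτ : IsTr ls.length q τ) (z : S → ℝ) (R : S → S → ℝ) (hR : ∀ s s', R s s' = R s' s) (cen : ℕ → ℕ → ℝ) (m : List (ℕ × ℕ))
    {o c b kU : ℕ} (ho : o < q) (hc : c < q) (hb : b < q) (hkU : kU ≤ ls.length) (hoc : τ o c < kU) (hob : τ o b < kU)
    (hpos : 0 < trMs B ls kU) (hm : ∀ e ∈ m, e.1 < q ∧ e.2 < q ∧ τ e.1 e.2 < kU)
    (h1 b1 h2 b2 om xm D : ℝ) (sc : ℕ × ℕ → ℝ) (ρ : ℕ → ℝ)
    (hQ1 : CvLe (cvpE hB hls 2 (cvpPair ls.length (τ o c)) z) 2 (fun σ => h1 + b1 * R (σ 0) (σ 1)) om)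
    (hQ2 : CvLe (cvpE hB hls 2 (cvpPair ls.length (τ o b)) z) 2 (fun σ => h2 + b2 * R (σ 0) (σ 1)) om)
    (hsc : ∀ e ∈ m, CvLe (cvpE hB hls 2 (cvpPair ls.length (τ e.1 e.2)) z) m.length
      (fun σ => R (σ 0) (σ 1) - cen e.1 e.2) (sc e))
    (hxm : 0 < xm) (hscx : ∀ e ∈ m, xm ≤ sc e)
    (hρ : ∀ t j, kU ≤ t → t ≤ ls.length → (j = τ o c ∨ j = τ o b ∨ ∃ e ∈ m, j = τ e.1 e.2) →
      CvLe (cvpE hB hls 3 (cvpTri ls.length t j) z) (max 2 m.length) (fun σ => R (σ 0) (σ 2) - R (σ 1) (σ 2)) (ρ t))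
    (hD : ∀ t, kU ≤ t → t ≤ ls.length → trMs B ls t * ρ t ^ 2 ≤ D) :
    |trSumK (trMs B ls) ls.length 1 q τ fun τ' => if kU ≤ τ' o q then
        trNu B ls (q + 1) τ' z (fun σ => cvpMon R cen m σ * (h1 + b1 * R (σ c) (σ q)) * (h2 + b2 * R (σ q) (σ b)))
          - trNu B ls (q + 1) (trAtt ls.length q τ o kU) z
              (fun σ => cvpMon R cen m σ * (h1 + b1 * R (σ c) (σ q)) * (h2 + b2 * R (σ q) (σ b)))
      else 0|
      ≤ 6 * q * ((|b1| + |b2|) * om * (m.length / xm) * D) * cvpLay ls.length (trMs B ls) kU * (m.map sc).prod := by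
  rw [sk_cvpb_sub_base hτ ho (by omega)]
  have eG : (fun σ : ℕ → S => cvpMon R cen m σ * (h1 + b1 * R (σ c) (σ q)) * (h2 + b2 * R (σ q) (σ b)))
      = fun σ => (fun σ : ℕ → S => (h1 + b1 * R (σ c) (σ q)) * (h2 + b2 * R (σ q) (σ b))) σ * cvpMon R cen m σ := by
    funext σ; ring
  rw [eG]
  have hom : 0 ≤ om := hQ1.1
  have hρ0 : ∀ t, kU ≤ t → t ≤ ls.length → 0 ≤ ρ t := fun t h1 h2 => (hρ t _ h1 h2 (Or.inl rfl)).1
  have hprod : (m.map sc).prod = ∏ i ∈ range m.length, sc (m.getD i (0, 0)) := sk_cvpb_list_prod m sc (0, 0)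
  have hmem : ∀ i, i < m.length → m.getD i (0, 0) ∈ m := by
    intro i hi
    rw [List.getD_eq_getElem _ _ hi]
    exact List.getElem_mem hi
  have hprod0 : 0 ≤ (m.map sc).prod := by
    rw [hprod]
    exact Finset.prod_nonneg fun i hi => le_trans hxm.le (hscx _ (hmem i (mem_range.1 hi)))
  have hlen0 : (0 : ℝ) ≤ (m.length : ℝ) / xm := by positivity
  have hmain := sk_cvpb_l2 hB hls hτ z ho (show kU ≤ ls.length + 1 by omega) hpos
    (fun σ : ℕ → S => (h1 + b1 * R (σ c) (σ q)) * (h2 + b2 * R (σ q) (σ b))) (cvpMon R cen m)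
    (by
      intro σ σ' hq hσ
      show (h1 + b1 * R (σ c) (σ q)) * (h2 + b2 * R (σ q) (σ b)) = (h1 + b1 * R (σ' c) (σ' q)) * (h2 + b2 * R (σ' q) (σ' b))
      rw [hq, hσ c hc hoc, hσ b hb hob])
    (sk_cvpb_mon_uses R cen m fun e he => ⟨(hm e he).1, (hm e he).2.1⟩)
    (fun t => (|b1| + |b2|) * om * max (ρ t) 0) (fun t => m.length * (max (ρ t) 0 / xm) * (m.map sc).prod)
    ((|b1| + |b2|) * om * (m.length / xm) * D * (m.map sc).prod)
    (fun t => by positivity) (fun t => by positivity)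
    (by
      intro t x h0t htN hx hox
      have hxc := sk_cvpb_block_split hτ ho hx hc hox hoc
      have hxb := sk_cvpb_block_split hτ ho hx hb hox hob
      have hmx : max (ρ t) 0 = ρ t := max_eq_left (hρ0 t h0t htN)
      rw [hmx]
      have := sk_cvpb_F_var hB hls hτ z R hR hx hc hb htN (by omega) (by omega) h1 b1 h2 b2 om (ρ t)
        (by rw [hxc]; exact hQ1) (by rw [hxb]; exact hQ2)
        (by rw [hxc]; exact (hρ t _ h0t htN (Or.inl rfl)).mono_exp (le_max_left _ _))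
        (by rw [hxb]; exact (hρ t _ h0t htN (Or.inr (Or.inl rfl))).mono_exp (le_max_left _ _))
      have e : (fun σ : ℕ → S => (fun σ : ℕ → S => (h1 + b1 * R (σ c) (σ q)) * (h2 + b2 * R (σ q) (σ b))) σ
            - (fun σ : ℕ → S => (h1 + b1 * R (σ c) (σ q)) * (h2 + b2 * R (σ q) (σ b))) (Function.update σ q (σ (q + 1))))
          = fun σ => (h1 + b1 * R (σ c) (σ q)) * (h2 + b2 * R (σ q) (σ b))
              - (h1 + b1 * R (σ c) (σ (q + 1))) * (h2 + b2 * R (σ (q + 1)) (σ b)) := by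
        funext σ
        simp [Function.update, hc.ne, hb.ne]
      rw [e]
      exact this)
    (by
      intro t x h0t htN hx hox
      have hmx : max (ρ t) 0 = ρ t := max_eq_left (hρ0 t h0t htN)
      rw [hmx, hprod]
      refine (sk_cvpb_mon_var hB hls hτ z R hR cen m hx htN (fun e he => ⟨(hm e he).1, (hm e he).2.1, by have := (hm e he).2.2; omega⟩)
        sc (ρ t) hsc (fun e he => (hρ t _ h0t htN (Or.inr (Or.inr ⟨e, he, rfl⟩))).mono_exp (le_max_right _ _))).weaken ?_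
      exact sk_cvpb_sum_prod_le m.length _ (ρ t) xm (hρ0 t h0t htN) hxm fun i hi => hscx _ (hmem i hi))
    (by
      intro t h0t htN
      have hmx : max (ρ t) 0 = ρ t := max_eq_left (hρ0 t h0t htN)
      rw [hmx]
      have h3 : trMs B ls t * ((|b1| + |b2|) * om * ρ t * (m.length * (ρ t / xm) * (m.map sc).prod))
          = ((|b1| + |b2|) * om * (m.length / xm) * (m.map sc).prod) * (trMs B ls t * ρ t ^ 2) := by
        field_simp
      rw [h3]
      have h4 : (|b1| + |b2|) * om * (m.length / xm) * D * (m.map sc).prod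
          = ((|b1| + |b2|) * om * (m.length / xm) * (m.map sc).prod) * D := by ring
      rw [h4]
      exact mul_le_mul_of_nonneg_left (hD t h0t htN) (by positivity))
  refine le_trans hmain (le_of_eq ?_)
  ring

end

end Claimed.Agent.R286
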