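import Claimed.Agent.R286.Cmp.DefsSk
import Claimed.Agent.R286.Cmp.Num
import Claimed.Agent.R286.Brg.Osc

/-!
# Row 286 (S0533), PE Section 4, Cav/PreClk : block CLK of the INSTANCE `exit_cav_inst_s/l`      (owner helper240; prefix `cvi_clk_`; head helper18)      0 sorry

The CLOCK fields of `CavP.Ok`, `CavP.Star` (`Cav/Lim.lean`) for the changed clocks `I.b = b0 - e(r(u))`, `I.h = h0 + e(r) r` of a comparison instance `I : CmI`, at MASSES and at POSITIONS.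
Deterministic real analysis (monotone clocks: a value at a position lies between the values at a smaller and at a larger mass).      source: PE cavity.tex l.84-133.
* `cvi_clk_at_le`, `cvi_clk_le_at`      sandwich of `ghAt a c p`
* `cvi_clk_adm0`, `cvi_clk_tot`          fields `clk`, `totB`, `totH`
* `cvi_clk_hHi`                         field `hHi`:  `h(p) ≤ C p.u` for `p.u ≥ C0 x`
* `cvi_clk_bst`, `cvi_clk_hst`          fields `bst`, `hst`: `|b(p) - T| ≤ C W²`, `h(p) ≤ C W³` for `p.u ∈ [G0 x, K W]`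
* `cvi_clk_len`                         FIELD LENGTH: `c₂ W³ ≤ Λ (h(p) - h(p.u/G))` for `p.u ≥ cU W`, `p.u ≥ G C0 x`
* `cvi_clk_fld`                         field `fld` (literal shape) from `cvi_clk_len` and `G² Λ ≤ c₂ sv² n x⁶`
* `cvi_clk_big`                         `K Λ ≤ (N^(-th))² N x⁶` for `n ≥ n0`, `th ≤ m`
-/

set_option autoImplicit false

namespace Claimed.Agent.R286

open Set Filter Function

variable {cE D0 Tm ca ce c C C0 cd C4 : ℝ}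

theorem cvi_clk_clamp {a : ℝ} (k : ℝ → ℝ) {v : ℝ} (hv0 : 0 ≤ v) (hva : v ≤ a) : ghClamp a k v = k v := by
  unfold ghClamp
  rw [if_neg (not_lt.2 hv0), min_eq_left hva]

/-- a clock value at a position is at most the value at a larger mass -/
theorem cvi_clk_at_le {a : ℝ} {k : ℝ → ℝ} (ha : 0 ≤ a) (hk : GhClk1 a k) {p : GhPos} (h1 : p.lam ≤ 1) {v : ℝ} (hv : p.u < v)
    (hv0 : 0 ≤ v) (hva : v ≤ a) : ghAt a k p ≤ k v := by
  rw [← cvi_clk_clamp k hv0 hva]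
  exact (gh_os_at_le_right ha hk h1).trans ((gh_os_clamp_mono ha hk).rightLim_le hv)

/-- a clock value at a position is at least the value at a smaller mass -/
theorem cvi_clk_le_at {a : ℝ} {k : ℝ → ℝ} (ha : 0 ≤ a) (hk : GhClk1 a k) {p : GhPos} (h0 : 0 ≤ p.lam) {v : ℝ} (hv : v < p.u)
    (hv0 : 0 ≤ v) (hva : v ≤ a) : k v ≤ ghAt a k p := by
  rw [← cvi_clk_clamp k hv0 hva]
  exact ((gh_os_clamp_mono ha hk).le_leftLim hv).trans (gh_os_at_ge_left ha hk h0)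

theorem cvi_clk_adm0 {I : CmI} (h : I.Std cE D0 Tm) : CkAdm 1 I.b I.h := h.adm I.q

theorem cvi_clk_tot {I : CmI} (h : I.Std cE D0 Tm) : ghAt 1 I.b (ghPosA 1) ≤ Tm ∧ ghAt 1 I.h (ghPosA 1) ≤ Tm := by
  rw [gh_os_at_top 1 _ zero_le_one, gh_os_at_top 1 _ zero_le_one]
  exact ⟨h.bT, h.hT⟩

theorem cvi_clk_b_eq (I : CmI) {u : ℝ} (h : I.P.u0 ≤ u) : I.b u = I.b0 u - I.P.e I.lam (I.q.r u) := by
  simp [CmI.b, CmQ.bq, h]

theorem cvi_clk_h_eq (I : CmI) {u : ℝ} (h : I.P.u0 ≤ u) : I.h u = I.h0 u + I.P.e I.lam (I.q.r u) * I.q.r u := by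
  simp [CmI.h, CmQ.hq, h]

theorem cvi_clk_x_le_W (P : CmCall) (lam x : ℝ) : x ≤ cmW P lam x := le_max_left _ _

theorem cvi_clk_e_le_W (P : CmCall) {lam : ℝ} (hl : 0 ≤ lam) (x : ℝ) : P.e lam x ≤ cmW P lam x ^ 2 := by
  have h0 : 0 ≤ P.e lam x := cm_e_nonneg P hl x
  have h1 : Real.sqrt (P.e lam x) ≤ cmW P lam x := le_max_right _ _
  calc P.e lam x = Real.sqrt (P.e lam x) ^ 2 := (Real.sq_sqrt h0).symm
    _ ≤ cmW P lam x ^ 2 := pow_le_pow_left₀ (Real.sqrt_nonneg _) h1 2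

/-- an intermediate mass `u < v < 1`, `v ≤ 2u` -/
theorem cvi_clk_mid {u : ℝ} (h0 : 0 < u) (h1 : u < 1) : ∃ v : ℝ, u < v ∧ v < 1 ∧ v ≤ 2 * u :=
  ⟨min (2 * u) ((u + 1) / 2), lt_min (by linarith) (by linarith), lt_of_le_of_lt (min_le_right _ _) (by linarith), min_le_left _ _⟩

theorem cvi_clk_Tm_nonneg {I : CmI} (h : I.Std cE D0 Tm) : 0 ≤ Tm := by
  have hk := (cvi_clk_adm0 h).2
  have : I.h 0 ≤ I.h 1 := hk.1 (by simp) (by simp) zero_le_one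
  linarith [hk.2, h.hT]

theorem cvi_clk_e_le_D0 {I : CmI} (h : I.Std cE D0 Tm) (r : ℝ) : I.P.e I.lam r ≤ D0 ^ 2 :=
  (cm_e_le I.P h.lam0.le r).trans (h.lam1.trans (pow_le_pow_left₀ h.ok.d0.le h.ok.d1 2))

theorem cvi_clk_r_nonneg {I : CmI} (h : I.Std cE D0 Tm) {u : ℝ} (h0 : I.P.u0 ≤ u) (h1 : u ≤ 1) : 0 ≤ I.q.r u :=
  h.ok.r0.trans (I.q.r_mem u ⟨h0, h1⟩).1

/-- field `hHi` -/
theorem cvi_clk_hHi (hC : 0 ≤ C) (hC4 : 0 ≤ C4) {I : CmI} {x T : ℝ} (hS : I.Std cE D0 Tm) (hR : I.q.Reg c C C0 x)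
    (h4 : ∀ u : ℝ, C0 * x ≤ u → I.P.u0 < u → u < 1 → |I.b0 u - T| ≤ C4 * u ^ 2 ∧ |I.h0 u| ≤ C4 * u ^ 3)
    {p : GhPos} (hp : p.Ok 1) (hp0 : 0 < p.u) (h1 : C0 * x ≤ p.u) (h2 : I.P.u0 ≤ p.u) :
    ghAt 1 I.h p ≤ (Tm + 2 * (C4 + D0 ^ 2 * C)) * p.u := by
  have hk := (cvi_clk_adm0 hS).2
  have hT := cvi_clk_Tm_nonneg hS
  have hD : 0 ≤ D0 ^ 2 * C := mul_nonneg (sq_nonneg _) hC
  rcases hp.2.1.eq_or_lt with he | hlt
  · have := (gh_os_at_le_top zero_le_one hk hp).trans (cvi_clk_tot hS).2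
    rw [he]; linarith
  · obtain ⟨v, hv1, hv2, hv3⟩ := cvi_clk_mid hp0 hlt
    have hv0 : 0 < v := hp0.trans hv1
    have hu0 : I.P.u0 < v := h2.trans_lt hv1
    have a1 := cvi_clk_at_le zero_le_one hk hp.2.2.2 hv1 hv0.le hv2.le
    have a2 := (h4 v (h1.trans hv1.le) hu0 hv2).2
    have a3 := (hR v (h1.trans hv1.le) hv2.le hu0.le).2
    have a4 := cvi_clk_r_nonneg hS hu0.le hv2.le
    have a5 : I.P.e I.lam (I.q.r v) * I.q.r v ≤ D0 ^ 2 * (C * v) :=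
      mul_le_mul (cvi_clk_e_le_D0 hS _) a3 a4 (sq_nonneg _)
    have a6 : v ^ 3 ≤ v := by
      have : v ^ 2 ≤ 1 := by nlinarith
      nlinarith
    have a7 : I.h0 v ≤ C4 * v := (le_abs_self _).trans (a2.trans (mul_le_mul_of_nonneg_left a6 hC4))
    rw [cvi_clk_h_eq I hu0.le] at a1
    have a8 : (C4 + D0 ^ 2 * C) * v ≤ (C4 + D0 ^ 2 * C) * (2 * p.u) := mul_le_mul_of_nonneg_left hv3 (by linarith)
    nlinarith

/-- `e(r(v)) ≤ W²` as soon as `x ≤ c v` -/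
theorem cvi_clk_er_le {I : CmI} {x v : ℝ} (hS : I.Std cE D0 Tm) (hR : I.q.Reg c C C0 x) (h1 : C0 * x ≤ v) (h2 : I.P.u0 ≤ v) (h3 : v ≤ 1)
    (h4 : x ≤ c * v) : I.P.e I.lam (I.q.r v) ≤ cmW I.P I.lam x ^ 2 :=
  (cm_e_anti I.P hS.ok.d0 hS.lam0.le (h4.trans (hR v h1 h3 h2).1)).trans (cvi_clk_e_le_W I.P hS.lam0.le x)

/-- field `bst` -/
theorem cvi_clk_bst (hC4 : 0 ≤ C4) {I : CmI} {x T K : ℝ} (hS : I.Std cE D0 Tm) (hR : I.q.Reg c C C0 x)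
    (h4 : ∀ u : ℝ, C0 * x ≤ u → I.P.u0 < u → u < 1 → |I.b0 u - T| ≤ C4 * u ^ 2 ∧ |I.h0 u| ≤ C4 * u ^ 3)
    {p : GhPos} (hp : p.Ok 1) (hp1 : p.u < 1) (h1 : 2 * (C0 * x) ≤ p.u) (h2 : 2 * I.P.u0 < p.u) (h3 : 2 * x ≤ c * p.u) (hc : 0 ≤ c)
    (h5 : p.u ≤ K * cmW I.P I.lam x) :
    |ghAt 1 I.b p - T| ≤ (4 * C4 * K ^ 2 + 1) * cmW I.P I.lam x ^ 2 := by
  have hk := (cvi_clk_adm0 hS).1
  have hu00 := hS.ok.u00
  have hp0 : 0 < p.u := by linarith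
  set W := cmW I.P I.lam x with hW
  obtain ⟨v, hv1, hv2, hv3⟩ := cvi_clk_mid hp0 hp1
  have key : ∀ w : ℝ, p.u / 2 ≤ w → w ≤ 2 * p.u → w < 1 → |I.b w - T| ≤ (4 * C4 * K ^ 2 + 1) * W ^ 2 := by
    intro w hw1 hw2 hw3
    have hw0 : 0 < w := by linarith
    have b1 : C0 * x ≤ w := by linarith
    have b2 : I.P.u0 < w := by linarith
    have b3 := (h4 w b1 b2 hw3).1
    have b0 : x ≤ c * w := by
      have := mul_le_mul_of_nonneg_left hw1 hc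
      linarith
    have b4 := cvi_clk_er_le hS hR b1 b2.le hw3.le b0
    have b5 := cm_e_nonneg I.P hS.lam0.le (I.q.r w)
    have b6 : w ^ 2 ≤ (2 * (K * W)) ^ 2 := pow_le_pow_left₀ hw0.le (by linarith) 2
    have b7 : C4 * w ^ 2 ≤ 4 * C4 * K ^ 2 * W ^ 2 := by
      calc C4 * w ^ 2 ≤ C4 * (2 * (K * W)) ^ 2 := mul_le_mul_of_nonneg_left b6 hC4
        _ = 4 * C4 * K ^ 2 * W ^ 2 := by ring
    rw [cvi_clk_b_eq I b2.le, abs_le]
    rw [abs_le] at b3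
    constructor <;> nlinarith [b3.1, b3.2]
  have lo := cvi_clk_le_at zero_le_one hk hp.2.2.1 (show p.u / 2 < p.u by linarith) (by linarith) (by linarith)
  have hi := cvi_clk_at_le zero_le_one hk hp.2.2.2 hv1 (hp0.trans hv1).le hv2.le
  have k1 := abs_le.1 (key (p.u / 2) le_rfl (by linarith) (by linarith))
  have k2 := abs_le.1 (key v (by linarith) hv3 hv2)
  rw [abs_le]
  constructor <;> linarith [k1.1, k2.2]

/-- field `hst` -/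
theorem cvi_clk_hst (hC : 0 ≤ C) (hC4 : 0 ≤ C4) {I : CmI} {x T K : ℝ} (hS : I.Std cE D0 Tm) (hR : I.q.Reg c C C0 x)
    (h4 : ∀ u : ℝ, C0 * x ≤ u → I.P.u0 < u → u < 1 → |I.b0 u - T| ≤ C4 * u ^ 2 ∧ |I.h0 u| ≤ C4 * u ^ 3)
    {p : GhPos} (hp : p.Ok 1) (hp0 : 0 < p.u) (hp1 : p.u < 1) (h1 : C0 * x ≤ p.u) (h2 : I.P.u0 ≤ p.u) (h3 : x ≤ c * p.u) (hc : 0 ≤ c)
    (h5 : p.u ≤ K * cmW I.P I.lam x) :
    ghAt 1 I.h p ≤ (8 * C4 * K ^ 3 + 2 * C * K) * cmW I.P I.lam x ^ 3 := by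
  have hk := (cvi_clk_adm0 hS).2
  set W := cmW I.P I.lam x with hW
  obtain ⟨v, hv1, hv2, hv3⟩ := cvi_clk_mid hp0 hp1
  have hv0 : 0 < v := hp0.trans hv1
  have hu0 : I.P.u0 < v := h2.trans_lt hv1
  have b1 : C0 * x ≤ v := h1.trans hv1.le
  have a1 := cvi_clk_at_le zero_le_one hk hp.2.2.2 hv1 hv0.le hv2.le
  have a2 := (h4 v b1 hu0 hv2).2
  have a3 := (hR v b1 hv2.le hu0.le).2
  have a4 := cvi_clk_r_nonneg hS hu0.le hv2.le
  have a5 := cvi_clk_er_le hS hR b1 hu0.le hv2.le (h3.trans (mul_le_mul_of_nonneg_left hv1.le hc))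
  have hv4 : v ≤ 2 * (K * W) := by linarith
  have a6 : v ^ 3 ≤ (2 * (K * W)) ^ 3 := pow_le_pow_left₀ hv0.le hv4 3
  have a7 : I.h0 v ≤ 8 * C4 * K ^ 3 * W ^ 3 := by
    calc I.h0 v ≤ C4 * v ^ 3 := (le_abs_self _).trans a2
      _ ≤ C4 * (2 * (K * W)) ^ 3 := mul_le_mul_of_nonneg_left a6 hC4
      _ = 8 * C4 * K ^ 3 * W ^ 3 := by ring
  have a8 : I.P.e I.lam (I.q.r v) * I.q.r v ≤ W ^ 2 * (C * (2 * (K * W))) :=
    mul_le_mul a5 (a3.trans (mul_le_mul_of_nonneg_left hv4 hC)) a4 (sq_nonneg _)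
  rw [cvi_clk_h_eq I hu0.le] at a1
  nlinarith



theorem cvi_clk_posA_u (v : ℝ) : (ghPosA v).u = v := rfl

theorem cvi_clk_posA_lam (v : ℝ) : (ghPosA v).lam = 1 := rfl

/-- FIELD LENGTH: constants `G` (ratio of the masses), `c₂` FIRST -/
theorem cvi_clk_len {cU : ℝ} (hcE : 0 < cE) (hc : 0 < c) (hcC : c ≤ C) (hcd : 0 < cd) (hcU : 0 < cU) :
    ∃ G c₂ : ℝ, 4 < G ∧ 0 < c₂ ∧ ∀ (I : CmI) (x : ℝ), I.Std cE D0 Tm → MonotoneOn I.h0 (Icc I.P.u0 1) → 0 < x → I.q.Reg c C C0 x →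
      cd * x ^ 2 ≤ I.P.e I.lam x → I.P.u0 ≤ C0 * x → 0 ≤ C0 → ∀ p : GhPos, p.Ok 1 → cU * cmW I.P I.lam x ≤ p.u → G * (C0 * x) ≤ p.u →
        c₂ * cmW I.P I.lam x ^ 3 ≤ I.P.Lam * (ghAt 1 I.h p - ghAt 1 I.h (ghPosA (p.u / G))) := by
  obtain ⟨Cs, hCs, hslope⟩ := cm_q_h_slope (D0 := D0) hcE
  have hg : 0 < c * cU / 2 := by positivity
  obtain ⟨c', hc', hge⟩ := cm_dt_e_ge (D0 := D0) hcE hcd (le_max_left 1 (c * cU / 2))
  have hC : 0 < C := hc.trans_le hcC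
  have hG4 : 4 < 8 * C / c + 5 := by
    have : 0 < 8 * C / c := by positivity
    linarith
  refine ⟨8 * C / c + 5, c * cU / 2 * c' / (2 * Cs), hG4, by positivity, ?_⟩
  intro I x hS hm hx hR hex hu0 hC0 p hp h1 h2
  set G := 8 * C / c + 5 with hGdef
  set W := cmW I.P I.lam x with hW
  set u := p.u with hu
  have hG0 : 0 < G := by linarith
  have hWx : x ≤ W := cvi_clk_x_le_W _ _ _
  have hW0 : 0 < W := hx.trans_le hWx
  have hu1 : u ≤ 1 := hp.2.1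
  have hupos : 0 < u := (mul_pos hcU hW0).trans_le h1
  have hk := (cvi_clk_adm0 hS).2
  have hC0x : 0 ≤ C0 * x := mul_nonneg hC0 hx.le
  -- the two masses
  have e1 : u / G < 2 * u / G := by
    apply div_lt_div_of_pos_right _ hG0; linarith
  have e2 : 2 * u / G < u / 2 := by
    rw [div_lt_div_iff₀ hG0 two_pos]
    have := mul_lt_mul_of_pos_left hG4 hupos
    linarith
  have e3 : C0 * x ≤ u / G := by
    rw [le_div_iff₀ hG0]; linarith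
  have e4 : C0 * x ≤ 2 * u / G := e3.trans e1.le
  have e5 : u / 2 ≤ 1 := by linarith
  have e6 : 2 * u / G ≤ 1 := e2.le.trans e5
  have e7 : I.P.u0 ≤ 2 * u / G := hu0.trans e4
  have e8 : I.P.u0 ≤ u / 2 := e7.trans e2.le
  have a1 : ghAt 1 I.h (ghPosA (u / G)) ≤ I.h (2 * u / G) :=
    cvi_clk_at_le zero_le_one hk (p := ghPosA (u / G)) (cvi_clk_posA_lam _).le (by rw [cvi_clk_posA_u]; exact e1)
      (hC0x.trans e4) e6
  have a2 : I.h (u / 2) ≤ ghAt 1 I.h p :=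
    cvi_clk_le_at zero_le_one hk hp.2.2.1 (show u / 2 < p.u by rw [← hu]; linarith) (by linarith) e5
  -- radii
  have m1 := I.q.r_mem (2 * u / G) ⟨e7, e6⟩
  have m2 := I.q.r_mem (u / 2) ⟨e8, e5⟩
  have r12 : I.q.r (2 * u / G) ≤ I.q.r (u / 2) :=
    (cm_q_r_strictMono hcE hS.ok I.q).monotoneOn ⟨e7, e6⟩ ⟨e8, e5⟩ e2.le
  have sl := hslope I.P hS.ok I.q I.lam I.h0 hS.lam0.le hS.lam1 hm _ _ m1.1 r12 m2.2
  rw [I.q.al_r _ ⟨e7, e6⟩, I.q.al_r _ ⟨e8, e5⟩] at sl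
  have il : (I.q.r (u / 2) - I.q.r (2 * u / G)) * I.P.e I.lam (I.q.r (u / 2))
      ≤ ∫ r in I.q.r (2 * u / G)..I.q.r (u / 2), I.P.e I.lam r := by
    have := intervalIntegral.integral_mono_on (μ := MeasureTheory.volume) r12
      (intervalIntegrable_const (c := I.P.e I.lam (I.q.r (u / 2))))
      ((cm_e_cont I.P I.lam).intervalIntegrable _ _) fun r hr => cm_e_anti I.P hS.ok.d0 hS.lam0.le hr.2
    rwa [intervalIntegral.integral_const, smul_eq_mul] at this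
  have g1 := (hR (u / 2) (e4.trans e2.le) e5 e8).1
  have g2 := (hR (2 * u / G) e4 e6 e7).2
  have g3 : C * (2 * u / G) ≤ c * (u / 2) / 2 := by
    have : 8 * C / c ≤ G := by linarith
    have h8 : 8 * C ≤ G * c := by rwa [div_le_iff₀ hc] at this
    rw [show C * (2 * u / G) = 2 * C * u / G by ring, div_le_iff₀ hG0]
    have := mul_le_mul_of_nonneg_right h8 (by positivity : 0 ≤ u / 4)
    linarith
  have g4 : I.q.r (u / 2) / 2 ≤ I.q.r (u / 2) - I.q.r (2 * u / G) := by linarith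
  have he0 := cm_e_nonneg I.P hS.lam0.le (I.q.r (u / 2))
  have g5 : I.q.r (u / 2) / 2 * I.P.e I.lam (I.q.r (u / 2))
      ≤ (I.q.r (u / 2) - I.q.r (2 * u / G)) * I.P.e I.lam (I.q.r (u / 2)) := mul_le_mul_of_nonneg_right g4 he0
  -- the reference radius
  have w0 : 0 ≤ c * cU / 2 * W := by positivity
  have w1 : c * cU / 2 * W ≤ I.q.r (u / 2) := by
    have : c * cU / 2 * W = c * (cU * W) / 2 := by ring
    rw [this]
    have := mul_le_mul_of_nonneg_left h1 hc.le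
    linarith
  have g6 : c * cU / 2 * W * I.P.e I.lam (c * cU / 2 * W) ≤ I.q.r (u / 2) * I.P.e I.lam (I.q.r (u / 2)) :=
    cm_re_mono I.P hS.ok.d0 hS.lam0.le (mem_Ici.2 w0) (mem_Ici.2 (w0.trans w1)) w1
  have g7 : c' * W ^ 2 ≤ I.P.e I.lam (c * cU / 2 * W) :=
    hge I.P hS.ok I.lam x _ hS.lam0.le hS.lam1 hx hex w0 (mul_le_mul_of_nonneg_right (le_max_right _ _) hW0.le)
  have g8 : c * cU / 2 * W * (c' * W ^ 2) ≤ c * cU / 2 * W * I.P.e I.lam (c * cU / 2 * W) := mul_le_mul_of_nonneg_left g7 w0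
  have hL : 0 < I.P.Lam := lt_of_lt_of_le one_pos (cm_Lam_ge_one hS.ok)
  have hh : I.q.hq I.lam I.h0 (u / 2) - I.q.hq I.lam I.h0 (2 * u / G) ≤ ghAt 1 I.h p - ghAt 1 I.h (ghPosA (u / G)) := by
    have b1 : I.q.hq I.lam I.h0 (u / 2) = I.h (u / 2) := rfl
    have b2 : I.q.hq I.lam I.h0 (2 * u / G) = I.h (2 * u / G) := rfl
    rw [b1, b2]; linarith
  have fin : c * cU / 2 * c' * W ^ 3 / 2 ≤ Cs * I.P.Lam * (ghAt 1 I.h p - ghAt 1 I.h (ghPosA (u / G))) := by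
    have := mul_le_mul_of_nonneg_left hh (mul_pos hCs hL).le
    linarith
  rw [div_mul_eq_mul_div, div_le_iff₀ (by positivity)]
  linarith

/-- field `fld`, literal shape -/
theorem cvi_clk_fld {cU : ℝ} (hcE : 0 < cE) (hc : 0 < c) (hcC : c ≤ C) (hcd : 0 < cd) (hcU : 0 < cU) :
    ∃ G c₂ : ℝ, 4 < G ∧ 0 < c₂ ∧ ∀ (I : CmI) (x sv : ℝ), I.Std cE D0 Tm → MonotoneOn I.h0 (Icc I.P.u0 1) → 0 < x → I.q.Reg c C C0 x →
      cd * x ^ 2 ≤ I.P.e I.lam x → I.P.u0 ≤ C0 * x → 0 ≤ C0 → G ^ 2 * I.P.Lam ≤ c₂ * (sv ^ 2 * I.P.N * x ^ 6) →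
      ∀ ps p : GhPos, ps.lam ≤ 1 → p.Ok 1 → cU * cmW I.P I.lam x ≤ p.u → G * (C0 * x) ≤ p.u → G * ps.u ≤ p.u →
        ∃ p' : GhPos, p'.Ok 1 ∧ ps ≤ p' ∧ p' < p ∧
          (cmW I.P I.lam x * Real.sqrt (cmW I.P I.lam x) * p.u) ^ 2
            ≤ (sv * x ^ 3) ^ 2 * (p'.u ^ 2 * (I.P.n * (ghAt 1 I.h p - ghAt 1 I.h p'))) := by
  obtain ⟨G, c₂, hG, hc₂, H⟩ := cvi_clk_len (D0 := D0) (Tm := Tm) (C0 := C0) hcE hc hcC hcd hcU
  refine ⟨G, c₂, hG, hc₂, ?_⟩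
  intro I x sv hS hm hx hR hex hu0 hC0 hbig ps p hps hp h1 h2 h3
  have key := H I x hS hm hx hR hex hu0 hC0 p hp h1 h2
  set W := cmW I.P I.lam x with hW
  have hG0 : 0 < G := by linarith
  have hW0 : 0 < W := hx.trans_le (cvi_clk_x_le_W _ _ _)
  have hupos : 0 < p.u := (mul_pos hcU hW0).trans_le h1
  have hL : 0 < I.P.Lam := lt_of_lt_of_le one_pos (cm_Lam_ge_one hS.ok)
  have hpu : (ghPosA (p.u / G)).u = p.u / G := rfl
  have hlt : p.u / G < p.u := div_lt_self hupos (by linarith)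
  refine ⟨ghPosA (p.u / G), gh_os_posA_ok (by positivity) (hlt.le.trans hp.2.1), ?_, ?_, ?_⟩
  · rw [gh_os_pos_le_iff, hpu]
    have : ps.u ≤ p.u / G := by rw [le_div_iff₀ hG0]; linarith
    rcases this.lt_or_eq with h | h
    · exact Or.inl h
    · exact Or.inr ⟨h, hps⟩
  · rw [gh_os_pos_lt_iff, hpu]; exact Or.inl hlt
  · rw [hpu]
    set Δ := ghAt 1 I.h p - ghAt 1 I.h (ghPosA (p.u / G)) with hΔ
    have hN : (I.P.n : ℝ) = I.P.N := rfl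
    rw [hN]
    have e1 : (W * Real.sqrt W * p.u) ^ 2 = W ^ 3 * p.u ^ 2 := by
      have := Real.sq_sqrt hW0.le
      calc (W * Real.sqrt W * p.u) ^ 2 = W ^ 2 * Real.sqrt W ^ 2 * p.u ^ 2 := by ring
        _ = W ^ 3 * p.u ^ 2 := by rw [this]; ring
    have e2 : (sv * x ^ 3) ^ 2 * ((p.u / G) ^ 2 * (I.P.N * Δ)) = (sv ^ 2 * I.P.N * x ^ 6) * Δ * p.u ^ 2 / G ^ 2 := by
      field_simp
    rw [e1, e2, le_div_iff₀ (by positivity)]
    -- G² W³ ≤ (sv² N x⁶) Δ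
    have hΔ0 : 0 ≤ Δ := by
      have : 0 < c₂ * W ^ 3 := by positivity
      by_contra hneg
      have := mul_neg_of_pos_of_neg hL (not_le.1 hneg)
      linarith
    have k1 : G ^ 2 * I.P.Lam * (c₂ * W ^ 3) ≤ c₂ * (sv ^ 2 * I.P.N * x ^ 6) * (I.P.Lam * Δ) :=
      mul_le_mul hbig key (by positivity) ((by positivity : (0:ℝ) ≤ G ^ 2 * I.P.Lam).trans hbig)
    have k2 : G ^ 2 * W ^ 3 ≤ sv ^ 2 * I.P.N * x ^ 6 * Δ := by
      have hpos : 0 < c₂ * I.P.Lam := mul_pos hc₂ hL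
      have : (c₂ * I.P.Lam) * (G ^ 2 * W ^ 3) ≤ (c₂ * I.P.Lam) * (sv ^ 2 * I.P.N * x ^ 6 * Δ) := by nlinarith
      exact le_of_mul_le_mul_left this hpos
    have := mul_le_mul_of_nonneg_right k2 (sq_nonneg p.u)
    nlinarith

/-- the saving beats any constant times `log n` -/
theorem cvi_clk_big {mm th K : ℝ} (hmm : 0 < mm) (hcE : 0 < cE) (hca : 0 < ca) (hth : th ≤ mm) :
    ∃ n0 : ℕ, ∀ P : CmCall, P.Ok cE D0 → P.m = mm → n0 ≤ P.n → ∀ x : ℝ, ca * P.a ≤ x →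
      K * P.Lam ≤ (P.N ^ (-th)) ^ 2 * P.N * x ^ 6 := by
  obtain ⟨CL, hCL, hlog⟩ := cm_log_pow 1 hmm
  set B := (ca * cE)⁻¹ ^ 3 with hB
  have hB0 : 0 < B := by positivity
  set M := |K| * CL * B ^ 2 with hM
  have hM0 : 0 ≤ M := by positivity
  refine ⟨⌈(M + 1) ^ (1 / mm)⌉₊, ?_⟩
  intro P hP hm hn x hx
  have hN3 := cm_N_ge hP
  have hN0 : 0 < P.N := by linarith
  have hN1 : 1 ≤ P.N := by linarith
  set y := P.N ^ mm with hy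
  have hy0 : 0 < y := Real.rpow_pos_of_pos hN0 _
  have hy1 : 1 ≤ y := Real.one_le_rpow hN1 hmm.le
  have hyM : M + 1 ≤ y := by
    have h1 : (M + 1) ^ (1 / mm) ≤ P.N := (Nat.le_ceil _).trans (by
      show ((⌈(M + 1) ^ (1 / mm)⌉₊ : ℕ) : ℝ) ≤ (P.n : ℝ)
      exact_mod_cast hn)
    have h2 := Real.rpow_le_rpow (by positivity) h1 hmm.le
    rwa [← Real.rpow_mul (by linarith), one_div_mul_cancel hmm.ne', Real.rpow_one] at h2
  have hx0 : 0 < x := (mul_pos hca (cm_a_pos hcE hP)).trans_le hx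
  have d := (cm_dt_x hcE hP hca hx).2
  rw [hm] at d
  set s := P.N ^ (-(1 / 2 : ℝ)) with hs
  have hs0 : 0 < s := Real.rpow_pos_of_pos hN0 _
  have hsN : s ^ 2 * P.N = 1 := by
    rw [hs, ← Real.rpow_natCast, ← Real.rpow_mul hN0.le]
    norm_num
    rw [Real.rpow_neg_one, inv_mul_cancel₀ hN0.ne']
  have hz : P.N ^ (-(3 * mm)) = 1 / y ^ 3 := by
    rw [hy, ← Real.rpow_natCast, ← Real.rpow_mul hN0.le, Real.rpow_neg hN0.le, one_div]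
    congr 2; push_cast; ring
  rw [hz] at d
  have d2 : s * y ^ 3 ≤ B * x ^ 3 := by
    have : B * (1 / y ^ 3) * x ^ 3 = B * x ^ 3 / y ^ 3 := by ring
    rw [this, le_div_iff₀ (by positivity)] at d
    exact d
  have d3 : (s * y ^ 3) ^ 2 ≤ (B * x ^ 3) ^ 2 := pow_le_pow_left₀ (by positivity) d2 2
  have d4 : y ^ 6 ≤ B ^ 2 * (P.N * x ^ 6) := by
    have : (s * y ^ 3) ^ 2 * P.N = y ^ 6 := by
      calc (s * y ^ 3) ^ 2 * P.N = (s ^ 2 * P.N) * y ^ 6 := by ring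
        _ = y ^ 6 := by rw [hsN, one_mul]
    have h5 := mul_le_mul_of_nonneg_right d3 hN0.le
    rw [this] at h5
    nlinarith
  set t := P.N ^ (-th) with ht
  have ht0 : 0 < t := Real.rpow_pos_of_pos hN0 _
  have hty : 1 ≤ t * y := by
    rw [ht, hy, ← Real.rpow_add hN0]
    exact Real.one_le_rpow hN1 (by linarith)
  have hLam : P.Lam ≤ CL * y := by
    have := hlog P.N hN1
    simpa [CmCall.Lam] using this
  have hLam0 : 0 ≤ P.Lam := le_trans zero_le_one (cm_Lam_ge_one hP)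
  -- assemble
  have f1 : K * P.Lam ≤ |K| * CL * y := by
    calc K * P.Lam ≤ |K| * P.Lam := mul_le_mul_of_nonneg_right (le_abs_self K) hLam0
      _ ≤ |K| * (CL * y) := mul_le_mul_of_nonneg_left hLam (abs_nonneg K)
      _ = |K| * CL * y := by ring
  have f2 : M ≤ y ^ 3 := by
    have : y ≤ y ^ 3 := by nlinarith [mul_le_mul hy1 hy1 zero_le_one hy0.le]
    linarith
  -- |K| CL y B² ≤ y⁴ ≤ (t y)² y⁴ ≤ t² B² N x⁶
  have f3 : |K| * CL * y * B ^ 2 ≤ y ^ 4 := by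
    have := mul_le_mul_of_nonneg_right f2 hy0.le
    calc |K| * CL * y * B ^ 2 = M * y := by rw [hM]; ring
      _ ≤ y ^ 3 * y := this
      _ = y ^ 4 := by ring
  have f4 : y ^ 4 ≤ t ^ 2 * y ^ 6 := by
    have h1 : 1 ≤ (t * y) ^ 2 := one_le_pow₀ hty
    have : t ^ 2 * y ^ 6 = (t * y) ^ 2 * y ^ 4 := by ring
    rw [this]
    exact le_mul_of_one_le_left (by positivity) h1
  have f5 : t ^ 2 * y ^ 6 ≤ t ^ 2 * (B ^ 2 * (P.N * x ^ 6)) := mul_le_mul_of_nonneg_left d4 (by positivity)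
  have f6 : |K| * CL * y * B ^ 2 ≤ (t ^ 2 * P.N * x ^ 6) * B ^ 2 := by
    calc |K| * CL * y * B ^ 2 ≤ t ^ 2 * (B ^ 2 * (P.N * x ^ 6)) := f3.trans (f4.trans f5)
      _ = (t ^ 2 * P.N * x ^ 6) * B ^ 2 := by ring
  exact f1.trans (le_of_mul_le_mul_right f6 (by positivity))

/-! ### the same at MASSES (for `Cav/PreInst.lean`) -/

/-- `b` at a mass -/
theorem cvi_clk_b_mass (hC4 : 0 ≤ C4) {I : CmI} {x T K : ℝ} (hS : I.Std cE D0 Tm) (hR : I.q.Reg c C C0 x)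
    (h4 : ∀ u : ℝ, C0 * x ≤ u → I.P.u0 < u → u < 1 → |I.b0 u - T| ≤ C4 * u ^ 2 ∧ |I.h0 u| ≤ C4 * u ^ 3)
    {w : ℝ} (b1 : C0 * x ≤ w) (b2 : I.P.u0 < w) (hw3 : w < 1) (b0 : x ≤ c * w) (hw0 : 0 ≤ w) (hwK : w ≤ K * cmW I.P I.lam x) :
    |I.b w - T| ≤ (C4 * K ^ 2 + 1) * cmW I.P I.lam x ^ 2 := by
  set W := cmW I.P I.lam x with hW
  have b3 := (h4 w b1 b2 hw3).1
  have b4 := cvi_clk_er_le hS hR b1 b2.le hw3.le b0
  have b5 := cm_e_nonneg I.P hS.lam0.le (I.q.r w)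
  have b6 : w ^ 2 ≤ (K * W) ^ 2 := pow_le_pow_left₀ hw0 hwK 2
  have b7 : C4 * w ^ 2 ≤ C4 * K ^ 2 * W ^ 2 := by
    calc C4 * w ^ 2 ≤ C4 * (K * W) ^ 2 := mul_le_mul_of_nonneg_left b6 hC4
      _ = C4 * K ^ 2 * W ^ 2 := by ring
  rw [cvi_clk_b_eq I b2.le, abs_le]
  rw [abs_le] at b3
  constructor <;> nlinarith [b3.1, b3.2]

/-- `h` at a mass -/
theorem cvi_clk_h_mass (hC : 0 ≤ C) (hC4 : 0 ≤ C4) {I : CmI} {x T K : ℝ} (hS : I.Std cE D0 Tm) (hR : I.q.Reg c C C0 x)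
    (h4 : ∀ u : ℝ, C0 * x ≤ u → I.P.u0 < u → u < 1 → |I.b0 u - T| ≤ C4 * u ^ 2 ∧ |I.h0 u| ≤ C4 * u ^ 3)
    {w : ℝ} (b1 : C0 * x ≤ w) (b2 : I.P.u0 < w) (hw3 : w < 1) (b0 : x ≤ c * w) (hw0 : 0 ≤ w) (hwK : w ≤ K * cmW I.P I.lam x) :
    I.h w ≤ (C4 * K ^ 3 + C * K) * cmW I.P I.lam x ^ 3 := by
  set W := cmW I.P I.lam x with hW
  have a2 := (h4 w b1 b2 hw3).2
  have a3 := (hR w b1 hw3.le b2.le).2
  have a4 := cvi_clk_r_nonneg hS b2.le hw3.le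
  have a5 := cvi_clk_er_le hS hR b1 b2.le hw3.le b0
  have a6 : w ^ 3 ≤ (K * W) ^ 3 := pow_le_pow_left₀ hw0 hwK 3
  have a7 : I.h0 w ≤ C4 * K ^ 3 * W ^ 3 := by
    calc I.h0 w ≤ C4 * w ^ 3 := (le_abs_self _).trans a2
      _ ≤ C4 * (K * W) ^ 3 := mul_le_mul_of_nonneg_left a6 hC4
      _ = C4 * K ^ 3 * W ^ 3 := by ring
  have a8 : I.P.e I.lam (I.q.r w) * I.q.r w ≤ W ^ 2 * (C * (K * W)) :=
    mul_le_mul a5 (a3.trans (mul_le_mul_of_nonneg_left hwK hC)) a4 (sq_nonneg _)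
  rw [cvi_clk_h_eq I b2.le]
  nlinarith

/-- outer regularity forces `c ≤ 1` -/
theorem cvi_clk_c_le_one {I : CmI} {x : ℝ} (hS : I.Std cE D0 Tm) (hR : I.q.Reg c C C0 x) (h : C0 * x ≤ 1) : c ≤ 1 := by
  have hu : I.P.u0 ≤ 1 := hS.ok.u01.trans (by norm_num)
  have h1 := (hR 1 h le_rfl hu).1
  have h2 := (I.q.r_mem 1 ⟨hu, le_rfl⟩).2
  linarith

/-- FIELD LENGTH between two MASSES `u1 ≤ u2`, `u2 ≥ (2C/c) u1` -/
theorem cvi_clk_len_m {cU : ℝ} (hcE : 0 < cE) (hc : 0 < c) (hcC : c ≤ C) (hcd : 0 < cd) (hcU : 0 < cU) :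
    ∃ c₂ : ℝ, 0 < c₂ ∧ ∀ (I : CmI) (x : ℝ), I.Std cE D0 Tm → MonotoneOn I.h0 (Icc I.P.u0 1) → 0 < x → I.q.Reg c C C0 x →
      cd * x ^ 2 ≤ I.P.e I.lam x → ∀ u1 u2 : ℝ, C0 * x ≤ u1 → I.P.u0 ≤ u1 → 0 ≤ u1 → 2 * C / c * u1 ≤ u2 → cU * cmW I.P I.lam x ≤ u2 → u2 ≤ 1 →
        c₂ * cmW I.P I.lam x ^ 3 ≤ I.P.Lam * (I.h u2 - I.h u1) := by
  obtain ⟨Cs, hCs, hslope⟩ := cm_q_h_slope (D0 := D0) hcE
  have hg : 0 < c * cU := by positivity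
  obtain ⟨c', hc', hge⟩ := cm_dt_e_ge (D0 := D0) hcE hcd (le_max_left 1 (c * cU))
  have hC : 0 < C := hc.trans_le hcC
  refine ⟨c * cU * c' / (2 * Cs), by positivity, ?_⟩
  intro I x hS hm hx hR hex u1 u2 e4 e7 h0 hG h1 e5
  set W := cmW I.P I.lam x with hW
  have hW0 : 0 < W := hx.trans_le (cvi_clk_x_le_W _ _ _)
  have hG2 : 2 ≤ 2 * C / c := by
    rw [le_div_iff₀ hc]; linarith
  have e2 : u1 ≤ u2 := by
    have := mul_le_mul_of_nonneg_right hG2 h0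
    linarith
  have e6 : u1 ≤ 1 := e2.trans e5
  have e8 : I.P.u0 ≤ u2 := e7.trans e2
  have m1 := I.q.r_mem u1 ⟨e7, e6⟩
  have m2 := I.q.r_mem u2 ⟨e8, e5⟩
  have r12 : I.q.r u1 ≤ I.q.r u2 := (cm_q_r_strictMono hcE hS.ok I.q).monotoneOn ⟨e7, e6⟩ ⟨e8, e5⟩ e2
  have sl := hslope I.P hS.ok I.q I.lam I.h0 hS.lam0.le hS.lam1 hm _ _ m1.1 r12 m2.2
  rw [I.q.al_r _ ⟨e7, e6⟩, I.q.al_r _ ⟨e8, e5⟩] at sl
  have il : (I.q.r u2 - I.q.r u1) * I.P.e I.lam (I.q.r u2) ≤ ∫ r in I.q.r u1..I.q.r u2, I.P.e I.lam r := by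
    have := intervalIntegral.integral_mono_on (μ := MeasureTheory.volume) r12
      (intervalIntegrable_const (c := I.P.e I.lam (I.q.r u2)))
      ((cm_e_cont I.P I.lam).intervalIntegrable _ _) fun r hr => cm_e_anti I.P hS.ok.d0 hS.lam0.le hr.2
    rwa [intervalIntegral.integral_const, smul_eq_mul] at this
  have g1 := (hR u2 (e4.trans e2) e5 e8).1
  have g2 := (hR u1 e4 e6 e7).2
  have g3 : C * u1 ≤ c * u2 / 2 := by
    have := mul_le_mul_of_nonneg_left hG (by positivity : 0 ≤ c / 2)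
    have e : c / 2 * (2 * C / c * u1) = C * u1 := by field_simp
    rw [e] at this
    linarith
  have g4 : I.q.r u2 / 2 ≤ I.q.r u2 - I.q.r u1 := by linarith
  have he0 := cm_e_nonneg I.P hS.lam0.le (I.q.r u2)
  have g5 : I.q.r u2 / 2 * I.P.e I.lam (I.q.r u2) ≤ (I.q.r u2 - I.q.r u1) * I.P.e I.lam (I.q.r u2) :=
    mul_le_mul_of_nonneg_right g4 he0
  have w0 : 0 ≤ c * cU * W := by positivity
  have w1 : c * cU * W ≤ I.q.r u2 := by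
    have := mul_le_mul_of_nonneg_left h1 hc.le
    linarith
  have g6 : c * cU * W * I.P.e I.lam (c * cU * W) ≤ I.q.r u2 * I.P.e I.lam (I.q.r u2) :=
    cm_re_mono I.P hS.ok.d0 hS.lam0.le (mem_Ici.2 w0) (mem_Ici.2 (w0.trans w1)) w1
  have g7 : c' * W ^ 2 ≤ I.P.e I.lam (c * cU * W) :=
    hge I.P hS.ok I.lam x _ hS.lam0.le hS.lam1 hx hex w0 (mul_le_mul_of_nonneg_right (le_max_right _ _) hW0.le)
  have g8 : c * cU * W * (c' * W ^ 2) ≤ c * cU * W * I.P.e I.lam (c * cU * W) := mul_le_mul_of_nonneg_left g7 w0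
  have b1 : I.q.hq I.lam I.h0 u2 = I.h u2 := rfl
  have b2 : I.q.hq I.lam I.h0 u1 = I.h u1 := rfl
  rw [b1, b2] at sl
  rw [div_mul_eq_mul_div, div_le_iff₀ (by positivity)]
  linarith

end Claimed.Agent.R286
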