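import Claimed.Agent.R286.Exit.CmpRaw
import Claimed.Agent.R286.Exit.CmpRes
import Claimed.Agent.R286.Exit.CmpDir
import Claimed.Agent.R286.Cmp.P6Out
import Claimed.Agent.R286.Cmp.Num
import Claimed.Agent.R286.Brg.Osc
import Claimed.Agent.R286.Cav.Contract
import Claimed.Agent.R286.Cav.PreClk

/-!
# Row 286 (S0533), PE Section 4, Cav/PreInst : THE INSTANCE OF THE CAVITY INPUTS AT A MINIMISER OF (6), PATH LEVEL      (owner helper18; ADV helper206; prefix `cvi_`, types `Cvi*`)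
source: PE cavity.tex l.84-133 ("We record the preceding estimates that will be used"), l.1058-1072.

TARGET: `exit_cav_inst_s`, `exit_cav_inst_l` (`R286/Exit/CavInstS.lean`, `CavInstL.lean`).      The passage PATH -> FINE CHAINS is typed ONCE by 76 (`Cav/Lim.lean`: `CavP.Ok/.Star` => eventually `cvInC .. Ok/Star`).
THIS FILE = the PATH-LEVEL facts for a comparison instance `I : CmI` from the exits of PE Sec 3 (`Exit/Cmp*`) + the arithmetic of the scales (`Cmp/Num`, `Cmp/Prof`: 0 sorry).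
All statements: CONSTANTS FIRST (`K : CviK`), thresholds `n0` after everything fixed.      THE SAVING: `sv = cviSv I θ = n^(-θ)`; logarithms and constants are absorbed by `n ≥ n0`.
BLOCKS (claim286 key = theorem name; prove IN PLACE)
* SV   (238)  `cvi_sv`, `cvi_W`                                   (11): `n^{-1/2} ≤ sv x³`, `sv ≤ x^ρ`
* RES  (238)  `cvi_res_arith_W`, `cvi_pow_abs`                     (16) against `z_v = x³/(W^{3/2}√v)`      (`resX` was deleted from the contract, v4)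
* INT  (232)  `cvi_int_x`, `cvi_int_W`                             (18) PER DYAD in cumulative form (contract v4)
* CLK  (240)  `cvi_clk_adm`, `cvi_at_le`, `cvi_at_ge`, `cvi_clk_star`, `cvi_clk_hi`      the changed clocks at positions, (4) in O-form
* LEN  (240)  `cvi_len`                                           length of the field clock on an innovation interval, for (13)
-/

set_option autoImplicit false

namespace Claimed.Agent.R286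

open MeasureTheory Set Filter

/-- the fixed constants of the instance -/
structure CviK where
  mm : ℝ
  cE : ℝ
  D0 : ℝ
  Tm : ℝ
  ca : ℝ
  ce : ℝ
  c : ℝ
  C : ℝ
  C0 : ℝ
  cd : ℝ
  C4 : ℝ

structure CviK.Ok (K : CviK) : Prop where
  mm : 0 < K.mm
  cE : 0 < K.cE
  D0 : 0 < K.D0
  Tm : 0 < K.Tm
  ca : 0 < K.ca
  ce : 0 < K.ce
  c : 0 < K.c
  cC : K.c ≤ K.C
  C0 : 0 < K.C0
  cd : 0 < K.cd
  C4 : 0 < K.C4

/-- the hypotheses of PE Sec 4 on the instance `I` at the scale `x` (direct test) -/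
structure CviH (K : CviK) (I : CmI) (x : ℝ) : Prop where
  std : I.Std K.cE K.D0 K.Tm
  mono : MonotoneOn I.h0 (Icc I.P.u0 1)
  m : I.P.m = K.mm
  loc : I.Loc K.ca K.ce K.c K.C K.C0 x
  dir : K.cd * x ^ 2 ≤ I.P.e I.lam x
  u0 : I.P.u0 ≤ x

/-- the endpoint hypothesis (4), O-form, on the regular outer region -/
def CviE (K : CviK) (I : CmI) (x T : ℝ) : Prop :=
  ∀ u : ℝ, K.C0 * x ≤ u → I.P.u0 < u → u < 1 → |I.b0 u - T| ≤ K.C4 * u ^ 2 ∧ |I.h0 u| ≤ K.C4 * u ^ 3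

/-- **the saving** `n^(-θ)` -/
noncomputable def cviSv (I : CmI) (θ : ℝ) : ℝ := I.P.N ^ (-θ)

theorem cvi_eqns_cite : True := by
  have := @CviE.eq_1
  have := @cviSv.eq_1
  trivial

/-! ## SV : the saving and the scales -/

/-- a negative power of `n` is small for large `n` -/
theorem cvi_rpow_small {a ε : ℝ} (ha : 0 < a) (hε : 0 < ε) : ∃ n0 : ℕ, 1 ≤ n0 ∧ ∀ n : ℕ, n0 ≤ n → (n : ℝ) ^ (-a) ≤ ε := by
  refine ⟨max 1 ⌈ε ^ (-(1 / a))⌉₊, le_max_left _ _, fun n hn => ?_⟩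
  have h0 : 0 < ε ^ (-(1 / a)) := Real.rpow_pos_of_pos hε _
  have h1 : ε ^ (-(1 / a)) ≤ n := (Nat.le_ceil _).trans (by exact_mod_cast (le_max_right _ _).trans hn)
  have h2 : (n : ℝ) ^ (-a) ≤ (ε ^ (-(1 / a))) ^ (-a) := Real.rpow_le_rpow_of_nonpos h0 h1 (by linarith)
  refine h2.trans (le_of_eq ?_)
  rw [← Real.rpow_mul hε.le]
  have : -(1 / a) * -a = 1 := by field_simp
  rw [this, Real.rpow_one]

/-- (11).   PLAN: `cm_dt_x` (`n^(-1/2) ≤ A n^(-3m) x³`, square it: `1 ≤ A² n^(1-6m) x⁶`, `n^(4m) ≥ A²`);   `cm_a_ge`: `x ≥ ca cE n^(-1/6)`, so `x^(3θ) ≥ (ca cE)^(3θ) n^(-θ/2) ≥ n^(-θ)` as soon as `n ≥ (ca cE)^(-6)`;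
`n^(-θ) ≤ δ` for `n ≥ δ^(-1/θ)`. -/
theorem cvi_sv (K : CviK) (hK : K.Ok) {θ δ : ℝ} (h0 : 0 < θ) (h1 : θ ≤ K.mm) (hδ : 0 < δ) :
    ∃ n0 : ℕ, ∀ (I : CmI) (x : ℝ), CviH K I x → n0 ≤ I.P.n →
      0 < cviSv I θ ∧ cviSv I θ ≤ δ ∧ cviSv I θ ≤ x ^ (3 * θ) ∧ 1 ≤ cviSv I θ ^ 2 * I.P.n * x ^ 6 := by
  have hca := hK.ca
  have hcE := hK.cE
  have hmm := hK.mm
  have hcc : 0 < K.ca * K.cE := by positivity
  obtain ⟨n1, -, e1⟩ := cvi_rpow_small h0 hδ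
  obtain ⟨n2, -, e2⟩ := cvi_rpow_small (a := 1 / 6) (by norm_num) hcc
  obtain ⟨n3, -, e3⟩ := cvi_rpow_small (a := 4 * K.mm) (ε := (K.ca * K.cE) ^ 6) (by positivity) (by positivity)
  refine ⟨max n1 (max n2 n3), fun I x h hn => ?_⟩
  have hn1 : n1 ≤ I.P.n := (le_max_left _ _).trans hn
  have hn2 : n2 ≤ I.P.n := (le_max_left _ _).trans ((le_max_right _ _).trans hn)
  have hn3 : n3 ≤ I.P.n := (le_max_right _ _).trans ((le_max_right _ _).trans hn)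
  have hok := h.std.ok
  have hN := cm_N_pos hok
  have hN1 : 1 ≤ I.P.N := by have := cm_N_ge hok; linarith
  have hNn : (I.P.n : ℝ) = I.P.N := rfl
  have hx := h.loc.x0
  have hm : I.P.m = K.mm := h.m
  refine ⟨Real.rpow_pos_of_pos hN _, e1 _ hn1, ?_, ?_⟩
  · -- `n^(-1/3) ≤ x`
    have a1 : K.ca * K.cE * I.P.N ^ (-(1 / 6 : ℝ) + I.P.m) ≤ x := by
      calc K.ca * K.cE * I.P.N ^ (-(1 / 6 : ℝ) + I.P.m) = K.ca * (K.cE * I.P.N ^ (-(1 / 6 : ℝ) + I.P.m)) := by ring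
        _ ≤ K.ca * I.P.a := mul_le_mul_of_nonneg_left (cm_a_ge hcE hok) hca.le
        _ ≤ x := h.loc.xa
    have a2 : I.P.N ^ (-(1 / 3 : ℝ)) ≤ x := by
      refine le_trans ?_ a1
      have b1 : I.P.N ^ (-(1 / 6 : ℝ)) ≤ K.ca * K.cE := e2 _ hn2
      have b2 : I.P.N ^ (-(1 / 6 : ℝ)) ≤ I.P.N ^ (-(1 / 6 : ℝ) + I.P.m) :=
        Real.rpow_le_rpow_of_exponent_le hN1 (by rw [hm]; linarith)
      calc I.P.N ^ (-(1 / 3 : ℝ)) = I.P.N ^ (-(1 / 6 : ℝ)) * I.P.N ^ (-(1 / 6 : ℝ)) := by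
            rw [← Real.rpow_add hN]; norm_num
        _ ≤ K.ca * K.cE * I.P.N ^ (-(1 / 6 : ℝ) + I.P.m) :=
            mul_le_mul b1 b2 (Real.rpow_nonneg hN.le _) hcc.le
    unfold cviSv
    calc I.P.N ^ (-θ) = (I.P.N ^ (-(1 / 3 : ℝ))) ^ (3 * θ) := by
          rw [← Real.rpow_mul hN.le]; congr 1; ring
      _ ≤ x ^ (3 * θ) := Real.rpow_le_rpow (Real.rpow_nonneg hN.le _) a2 (by positivity)
  · have c1 := (cm_dt_x hcE hok hca h.loc.xa).2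
    have c2 := pow_le_pow_left₀ (Real.rpow_nonneg hN.le _) c1 2
    have c3 : (I.P.N ^ (-(1 / 2 : ℝ))) ^ 2 = I.P.N⁻¹ := by
      rw [← Real.rpow_natCast, ← Real.rpow_mul hN.le, ← Real.rpow_neg_one]; norm_num
    have c4 : ((K.ca * K.cE)⁻¹ ^ 3 * I.P.N ^ (-(3 * I.P.m)) * x ^ 3) ^ 2
        = ((K.ca * K.cE) ^ 6)⁻¹ * I.P.N ^ (-(6 * K.mm)) * x ^ 6 := by
      rw [mul_pow, mul_pow, ← Real.rpow_natCast (I.P.N ^ (-(3 * I.P.m))) 2, ← Real.rpow_mul hN.le, hm]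
      have : -(3 * K.mm) * ((2 : ℕ) : ℝ) = -(6 * K.mm) := by push_cast; ring
      rw [this, inv_pow, inv_pow]
      ring
    rw [c3, c4] at c2
    have c5 : I.P.N ^ (-(4 * K.mm)) ≤ (K.ca * K.cE) ^ 6 := e3 _ hn3
    have c6 : ((K.ca * K.cE) ^ 6)⁻¹ * I.P.N ^ (-(6 * K.mm)) ≤ I.P.N ^ (-(2 * θ)) := by
      rw [inv_mul_le_iff₀ (by positivity)]
      calc I.P.N ^ (-(6 * K.mm)) = I.P.N ^ (-(4 * K.mm)) * I.P.N ^ (-(2 * K.mm)) := by
            rw [← Real.rpow_add hN]; congr 1; ring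
        _ ≤ (K.ca * K.cE) ^ 6 * I.P.N ^ (-(2 * θ)) :=
            mul_le_mul c5 (Real.rpow_le_rpow_of_exponent_le hN1 (by linarith)) (Real.rpow_nonneg hN.le _)
              (by positivity)
    have c7 : cviSv I θ ^ 2 = I.P.N ^ (-(2 * θ)) := by
      unfold cviSv
      rw [← Real.rpow_natCast, ← Real.rpow_mul hN.le]; congr 1; push_cast; ring
    rw [c7, hNn]
    have c8 : I.P.N⁻¹ ≤ I.P.N ^ (-(2 * θ)) * x ^ 6 :=
      c2.trans (mul_le_mul_of_nonneg_right c6 (by positivity))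
    calc (1 : ℝ) = I.P.N⁻¹ * I.P.N := by field_simp
      _ ≤ I.P.N ^ (-(2 * θ)) * x ^ 6 * I.P.N := mul_le_mul_of_nonneg_right c8 hN.le
      _ = I.P.N ^ (-(2 * θ)) * I.P.N * x ^ 6 := by ring

/-- `x ≤ W ≤ C`.   PLAN: `cm_dt_W_le`, `d ≤ D0`. -/
theorem cvi_W (K : CviK) (hK : K.Ok) (I : CmI) (x : ℝ) (h : CviH K I x) :
    0 < x ∧ x ≤ cmW I.P I.lam x ∧ cmW I.P I.lam x ≤ max 1 (1 / Real.sqrt K.cd) * K.D0 := by
  refine ⟨h.loc.x0, le_max_left _ _, ?_⟩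
  have h1 := (cm_dt_W_le hK.cE h.std.ok h.std.lam0.le h.std.lam1 hK.cd h.loc.x0 h.dir).2
  refine h1.trans (mul_le_mul_of_nonneg_left h.std.ok.d1 ?_)
  exact zero_le_one.trans (le_max_left _ _)

/-! ## RES : the right side of (16) -/

/-- constants are absorbed by a power.   PLAN: `n^(θ'-θ) > A` for `n ≥ n0` (`Real.rpow` monotone, `tendsto_rpow_atTop`). -/
theorem cvi_pow_abs {A θ θ' : ℝ} (hθ : θ < θ') : ∃ n0 : ℕ, ∀ n : ℕ, n0 ≤ n → A * (n : ℝ) ^ (-θ') < (n : ℝ) ^ (-θ) := by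
  obtain ⟨n0, h1, h⟩ := cvi_rpow_small (a := θ' - θ) (ε := 1 / (|A| + 1)) (by linarith) (by positivity)
  refine ⟨n0, fun n hn => ?_⟩
  have hn0 : (0 : ℝ) < n := by exact_mod_cast (lt_of_lt_of_le Nat.one_pos (h1.trans hn))
  have h2 := h n hn
  have hp := Real.rpow_pos_of_pos hn0 (-θ)
  have e : (n : ℝ) ^ (-θ') = (n : ℝ) ^ (-(θ' - θ)) * (n : ℝ) ^ (-θ) := by
    rw [← Real.rpow_add hn0]; congr 1; ring
  have h3 : A * (n : ℝ) ^ (-(θ' - θ)) < 1 := by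
    have hA : 0 < |A| + 1 := by positivity
    calc A * (n : ℝ) ^ (-(θ' - θ)) ≤ |A| * (n : ℝ) ^ (-(θ' - θ)) :=
          mul_le_mul_of_nonneg_right (le_abs_self A) (Real.rpow_nonneg hn0.le _)
      _ ≤ |A| * (1 / (|A| + 1)) := mul_le_mul_of_nonneg_left h2 (abs_nonneg A)
      _ < 1 := by rw [mul_one_div, div_lt_one hA]; linarith
  calc A * (n : ℝ) ^ (-θ') = A * (n : ℝ) ^ (-(θ' - θ)) * (n : ℝ) ^ (-θ) := by rw [e]; ring
    _ < 1 * (n : ℝ) ^ (-θ) := mul_lt_mul_of_pos_right h3 hp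
    _ = (n : ℝ) ^ (-θ) := one_mul _

/-- (16) at the scale `W`: `z_v = x³/(W^{3/2}√v)`.   PLAN: `cm_dt_e_ge` (`G = max c' 1`): `e(c'W) ≥ c1 W²`; `cm_re_mono`: `v e(v) ≥ c' W e(c' W) ≥ c' c1 W³`; `cm_dt_x`: `n^(-1/2) ≤ A' n^(-3m) x³`;   `cm_log_pow 5`: `Λ⁵ ≤ C n^m`;   `n^(-m) A A' C/√(c' c1) ≤ 1` for `n ≥ n0`. -/
theorem cvi_res_arith_W (K : CviK) (hK : K.Ok) {A c' : ℝ} (hA : 0 < A) (hc' : 0 < c') :
    ∃ n0 : ℕ, ∀ (I : CmI) (x : ℝ), CviH K I x → n0 ≤ I.P.n → ∀ v : ℝ, c' * cmW I.P I.lam x ≤ v → v ≤ 1 →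
      A * I.P.Lam ^ 5 / Real.sqrt (I.P.N * I.P.e I.lam v * v ^ 2)
        ≤ cviSv I K.mm * (x ^ 3 / (cmW I.P I.lam x * Real.sqrt (cmW I.P I.lam x) * Real.sqrt v)) := by
  have hca := hK.ca
  have hcE := hK.cE
  have hmm := hK.mm
  obtain ⟨c1, hc1, hge⟩ := cm_dt_e_ge (D0 := K.D0) hcE (c := K.cd) (G := max c' 1) hK.cd (le_max_right _ _)
  obtain ⟨CL, hCL, hlog⟩ := cm_log_pow 5 (ε := K.mm) hmm
  set B := (K.ca * K.cE)⁻¹ with hB
  have hB0 : 0 < B := by positivity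
  have hs0 : 0 < Real.sqrt (c' * c1) := Real.sqrt_pos.2 (by positivity)
  set M := A * CL * B ^ 3 / Real.sqrt (c' * c1) with hM
  have hM0 : 0 < M := by positivity
  obtain ⟨n0, -, hn0⟩ := cvi_rpow_small (a := K.mm) (ε := 1 / M) hmm (by positivity)
  refine ⟨n0, fun I x h hn v hv hv1 => ?_⟩
  have hok := h.std.ok
  have hN := cm_N_pos hok
  have hN1 : 1 ≤ I.P.N := by have := cm_N_ge hok; linarith
  have hx := h.loc.x0
  have hm : I.P.m = K.mm := h.m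
  have hl := h.std.lam0
  set W := cmW I.P I.lam x with hW
  have hW0 : 0 < W := lt_of_lt_of_le hx (le_max_left _ _)
  have hv0 : 0 < v := lt_of_lt_of_le (by positivity) hv
  have g1 : c1 * W ^ 2 ≤ I.P.e I.lam (c' * W) :=
    hge I.P hok I.lam x (c' * W) hl.le h.std.lam1 hx h.dir (by positivity)
      (mul_le_mul_of_nonneg_right (le_max_left _ _) hW0.le)
  have g2 : c' * W * I.P.e I.lam (c' * W) ≤ v * I.P.e I.lam v :=
    cm_re_mono I.P hok.d0 hl.le (mem_Ici.2 (by positivity)) (mem_Ici.2 hv0.le) hv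
  have g3 : c' * c1 * W ^ 3 ≤ v * I.P.e I.lam v := by
    refine le_trans ?_ g2
    calc c' * c1 * W ^ 3 = c' * W * (c1 * W ^ 2) := by ring
      _ ≤ c' * W * I.P.e I.lam (c' * W) := mul_le_mul_of_nonneg_left g1 (by positivity)
  set R := Real.sqrt I.P.N * Real.sqrt (c' * c1) * (W * Real.sqrt W * Real.sqrt v) with hR
  have hR0 : 0 < R := by
    have := Real.sqrt_pos.2 hN
    have := Real.sqrt_pos.2 hW0
    have := Real.sqrt_pos.2 hv0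
    positivity
  have g4 : R ≤ Real.sqrt (I.P.N * I.P.e I.lam v * v ^ 2) := by
    refine Real.le_sqrt_of_sq_le ?_
    have e : R ^ 2 = I.P.N * v * (c' * c1 * W ^ 3) := by
      rw [hR, mul_pow, mul_pow, mul_pow, mul_pow, Real.sq_sqrt hN.le, Real.sq_sqrt (by positivity : 0 ≤ c' * c1),
        Real.sq_sqrt hW0.le, Real.sq_sqrt hv0.le]
      ring
    rw [e]
    calc I.P.N * v * (c' * c1 * W ^ 3) ≤ I.P.N * v * (v * I.P.e I.lam v) :=
          mul_le_mul_of_nonneg_left g3 (by positivity)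
      _ = I.P.N * I.P.e I.lam v * v ^ 2 := by ring
  have hLam0 : 0 ≤ I.P.Lam := Real.log_nonneg hN1
  have g5 : I.P.Lam ^ 5 ≤ CL * I.P.N ^ K.mm := hlog _ hN1
  have g6 : I.P.N ^ (-(1 / 2 : ℝ)) ≤ B ^ 3 * I.P.N ^ (-(3 * K.mm)) * x ^ 3 := by
    have := (cm_dt_x hcE hok hca h.loc.xa).2
    rwa [hm] at this
  have g7 : (Real.sqrt I.P.N)⁻¹ = I.P.N ^ (-(1 / 2 : ℝ)) := by
    rw [Real.sqrt_eq_rpow, Real.rpow_neg hN.le]
  have g8 : M * I.P.N ^ (-K.mm) ≤ 1 := by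
    have := hn0 _ hn
    calc M * I.P.N ^ (-K.mm) ≤ M * (1 / M) := mul_le_mul_of_nonneg_left this hM0.le
      _ = 1 := by field_simp
  set Z := W * Real.sqrt W * Real.sqrt v with hZ
  have hZ0 : 0 < Z := by
    have := Real.sqrt_pos.2 hW0
    have := Real.sqrt_pos.2 hv0
    positivity
  calc A * I.P.Lam ^ 5 / Real.sqrt (I.P.N * I.P.e I.lam v * v ^ 2) ≤ A * I.P.Lam ^ 5 / R :=
        div_le_div_of_nonneg_left (by positivity) hR0 g4
    _ = A * I.P.Lam ^ 5 * (Real.sqrt I.P.N)⁻¹ / (Real.sqrt (c' * c1) * Z) := by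
        rw [hR]
        have := Real.sqrt_pos.2 hN
        field_simp
    _ ≤ A * (CL * I.P.N ^ K.mm) * (B ^ 3 * I.P.N ^ (-(3 * K.mm)) * x ^ 3) / (Real.sqrt (c' * c1) * Z) := by
        rw [g7]
        gcongr
    _ = M * (I.P.N ^ K.mm * I.P.N ^ (-(3 * K.mm))) * (x ^ 3 / Z) := by
        rw [hM]; field_simp
    _ = (M * I.P.N ^ (-K.mm)) * I.P.N ^ (-K.mm) * (x ^ 3 / Z) := by
        have : I.P.N ^ K.mm * I.P.N ^ (-(3 * K.mm)) = I.P.N ^ (-K.mm) * I.P.N ^ (-K.mm) := by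
          rw [← Real.rpow_add hN, ← Real.rpow_add hN]; congr 1; ring
        rw [this]; ring
    _ ≤ 1 * I.P.N ^ (-K.mm) * (x ^ 3 / Z) := by gcongr
    _ = cviSv I K.mm * (x ^ 3 / Z) := by rw [one_mul]; rfl

/-! ## INT : (18) summed on dyads -/

/-- summation over dyads, cumulative form -/
theorem cvi_dyad {f : ℝ → ℝ} {U c T : ℝ} (hU : 0 < U) (hc : 0 ≤ c) (hf : IntegrableOn f (Icc U T))
    (h : ∀ a v, U ≤ a → v / 2 ≤ a → a ≤ v → v ≤ T → ∫ u in a..v, f u ≤ c * v) :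
    ∀ (k : ℕ) (U2 : ℝ), U ≤ U2 → U2 ≤ T → U2 ≤ 2 ^ k * U → ∫ u in U..U2, f u ≤ 2 * c * U2 := by
  have hii : ∀ a b, U ≤ a → a ≤ b → b ≤ T → IntervalIntegrable f volume a b := by
    intro a b ha hab hb
    rw [intervalIntegrable_iff_integrableOn_Icc_of_le hab]
    exact hf.mono_set (Icc_subset_Icc ha hb)
  intro k
  induction k with
  | zero =>
    intro U2 h1 _ h3
    have : U2 = U := le_antisymm (by simpa using h3) h1
    rw [this, intervalIntegral.integral_same]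
    positivity
  | succ k ih =>
    intro U2 h1 h2 h3
    have hU2 : 0 < U2 := lt_of_lt_of_le hU h1
    by_cases hh : U ≤ U2 / 2
    · rw [← intervalIntegral.integral_add_adjacent_intervals (hii U (U2 / 2) le_rfl hh (by linarith))
        (hii (U2 / 2) U2 hh (by linarith) h2)]
      have i1 := ih (U2 / 2) hh (by linarith) (by rw [pow_succ] at h3; linarith)
      have i2 := h (U2 / 2) U2 hh le_rfl (by linarith) h2
      nlinarith
    · have i2 := h U U2 le_rfl (by linarith) h1 h2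
      nlinarith [mul_nonneg hc hU2.le]

/-- (18) summed over the dyads of `[U, U2]`, for any uniform bound of the bracket `R18` -/
theorem cvi_int_gen (K : CviK) (hK : K.Ok) :
    ∃ (G A : ℝ) (n0 : ℕ), 1 ≤ G ∧ 0 < A ∧ ∀ (I : CmI) (x : ℝ), CviH K I x → n0 ≤ I.P.n → ∀ (Kb y U U2 : ℝ), 0 ≤ Kb → 0 ≤ y →
      G * x ≤ U → U ≤ U2 → U2 ≤ 1 → (∀ v, U ≤ v → v ≤ 1 → I.P.R18 I.lam v ≤ Kb * I.P.N ^ (-(3 * I.P.m / 2)) * y) →
      ∫ u in U..U2, I.num.D u ^ 2 ≤ A * Kb ^ 2 * I.P.N ^ (-(2 * K.mm)) * U2 * y ^ 2 := by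
  obtain ⟨K1, C1, n0, hK1, hC1, h18⟩ := exit_cmp_dir18 hK.mm hK.cE hK.D0 hK.Tm hK.ca hK.ce hK.c hK.cC hK.C0
    (ε := K.mm / 2) (by have := hK.mm; positivity) (Gam := 2) (by norm_num)
  refine ⟨C1, 2 * K1, n0, hC1, by positivity, ?_⟩
  intro I x hH hn Kb y U U2 hKb hy hGU hUU2 hU21 hR
  have hx := hH.loc.x0
  have hP := hH.std.ok
  have hN := cm_N_pos hP
  have hU : 0 < U := lt_of_lt_of_le (by positivity) hGU
  have hxU : x ≤ U := le_trans (by nlinarith) hGU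
  have hnum : I.num.Ok := cmk_num_ok I.P.n (by have := hP.n3; omega) (hH.std.adm I.q)
  have hint : IntegrableOn (fun u => I.num.D u ^ 2) (Icc 0 1) := by
    refine Measure.integrableOn_of_bounded (M := 1) (by simp) (hnum.D_meas.pow_const 2).aestronglyMeasurable ?_
    filter_upwards [ae_restrict_mem measurableSet_Icc] with u hu
    rw [Real.norm_eq_abs, abs_of_nonneg (sq_nonneg _)]
    have h1 := hnum.D_nn u hu
    have h2 := hnum.D_le u hu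
    nlinarith
  have hdy : ∀ a v, U ≤ a → v / 2 ≤ a → a ≤ v → v ≤ 1 →
      ∫ u in a..v, I.num.D u ^ 2 ≤ (K1 * Kb ^ 2 * I.P.N ^ (-(2 * K.mm)) * y ^ 2) * v := by
    intro a v ha hva hav hv1
    have hUv : U ≤ v := ha.trans hav
    have h1 := h18 I x hH.std hH.mono hH.m hH.loc hH.u0 hn v (hGU.trans hUv) hv1
    rw [intervalIntegral.integral_of_le hav]
    have hsub : Ioc a v ⊆ Icc (v / 2) (2 * v) ∩ Icc I.P.u0 1 := by
      intro u hu
      exact ⟨⟨by linarith [hu.1], by linarith [hu.2]⟩, ⟨by linarith [hu.1, hH.u0], by linarith [hu.2]⟩⟩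
    have h2 : ∫ u in Ioc a v, I.num.D u ^ 2 ≤ ∫ u in Icc (v / 2) (2 * v) ∩ Icc I.P.u0 1, I.num.D u ^ 2 := by
      refine setIntegral_mono_set (hint.mono_set ?_) (Eventually.of_forall fun u => sq_nonneg _) (LE.le.eventuallyLE hsub)
      intro u hu
      exact ⟨hP.u00.trans hu.2.1, hu.2.2⟩
    refine h2.trans (h1.trans ?_)
    have hR0 := cm6o_R18_nonneg hK.cE hP hH.std.lam0 (by linarith : 0 ≤ v)
    have hR2 : I.P.R18 I.lam v ^ 2 ≤ (Kb * I.P.N ^ (-(3 * I.P.m / 2)) * y) ^ 2 := pow_le_pow_left₀ hR0 (hR v hUv hv1) 2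
    have hpw : I.P.N ^ (2 * (K.mm / 2)) * (I.P.N ^ (-(3 * I.P.m / 2))) ^ 2 = I.P.N ^ (-(2 * K.mm)) := by
      rw [hH.m, ← Real.rpow_natCast, ← Real.rpow_mul hN.le, ← Real.rpow_add hN]
      congr 1
      push_cast
      ring
    calc K1 * I.P.N ^ (2 * (K.mm / 2)) * v * I.P.R18 I.lam v ^ 2
        ≤ K1 * I.P.N ^ (2 * (K.mm / 2)) * v * (Kb * I.P.N ^ (-(3 * I.P.m / 2)) * y) ^ 2 :=
          mul_le_mul_of_nonneg_left hR2 (by have : 0 ≤ v := by linarith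
                                            positivity)
      _ = K1 * Kb ^ 2 * (I.P.N ^ (2 * (K.mm / 2)) * (I.P.N ^ (-(3 * I.P.m / 2))) ^ 2) * y ^ 2 * v := by ring
      _ = _ := by rw [hpw]
  obtain ⟨k, hk⟩ := pow_unbounded_of_one_lt (U2 / U) (one_lt_two : (1:ℝ) < 2)
  have hfin := cvi_dyad (f := fun u => I.num.D u ^ 2) (T := 1) hU (by positivity : 0 ≤ K1 * Kb ^ 2 * I.P.N ^ (-(2 * K.mm)) * y ^ 2)
    (hint.mono_set (Icc_subset_Icc hU.le le_rfl)) hdy k U2 hUU2 hU21 (by rw [div_lt_iff₀ hU] at hk; exact hk.le)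
  refine hfin.trans (le_of_eq ?_)
  ring

/-- (18) above `U_x = G x`, cumulative: `∫_U^{U2} D² ≤ A n^(-2m) U2 x²`.   PLAN: `exit_cmp_dir18` (`ε = mm/2`, `Gam = 2`; `G := 2 C1`), dyads `v = 2^(-k) U2 ≥ U/2`: `[U,U2] ⊆ ⋃ [v/2, 2v]`;
`v ≤ W`: `cm_x_dt1_lo`: `R18² ≤ K n^(-3m) x⁴/(W² v)^(2/3) ≤ K n^(-3m) x²` (`W, v ≥ x`);   `v ≥ W`: `cm_x_dt1_hi`: `R18² ≤ K n^(-3m) x⁴/W² ≤ K n^(-3m) x²`;   `∑ v ≤ 2 U2`. -/
theorem cvi_int_x (K : CviK) (hK : K.Ok) :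
    ∃ (G A : ℝ) (n0 : ℕ), 1 ≤ G ∧ 0 < A ∧ ∀ (I : CmI) (x : ℝ), CviH K I x → n0 ≤ I.P.n → ∀ U U2 : ℝ, G * x ≤ U → U ≤ U2 → U2 ≤ 1 →
      ∫ u in U..U2, I.num.D u ^ 2 ≤ A * I.P.N ^ (-(2 * K.mm)) * U2 * x ^ 2 := by
  obtain ⟨G, A, n0, hG, hA, hgen⟩ := cvi_int_gen K hK
  obtain ⟨Kh, hKh, hhi⟩ := cm_x_dt1_hi hK.cE hK.D0 hK.ca hK.cd (c' := 1) one_pos
  obtain ⟨Kl, hKl, hlo⟩ := cm_x_dt1_lo hK.cE hK.D0 hK.ca hK.cd (c' := 1) (G := 1) one_pos le_rfl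
  refine ⟨G, A * (max Kh Kl) ^ 2, n0, hG, by positivity, ?_⟩
  intro I x hH hn U U2 hGU hUU2 hU21
  have hx := hH.loc.x0
  have hP := hH.std.ok
  have hN := cm_N_pos hP
  have hxU : x ≤ U := le_trans (by nlinarith) hGU
  have hW : 0 < cmW I.P I.lam x := lt_of_lt_of_le hx (le_max_left _ _)
  have hWx : x ≤ cmW I.P I.lam x := le_max_left _ _
  have key := hgen I x hH hn (max Kh Kl) x U U2 (by positivity) hx.le hGU hUU2 hU21 (by
    intro v hv hv1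
    have hxv : x ≤ v := hxU.trans hv
    have hv0 : 0 < v := lt_of_lt_of_le hx hxv
    by_cases hvW : v ≤ cmW I.P I.lam x
    · have h1 := hlo I.P I.lam x v hP hH.std.lam0 hH.std.lam1 hx hH.loc.xa hH.dir (by linarith) (by linarith) hv1
      refine h1.trans ?_
      have h2 : x ≤ (cmW I.P I.lam x ^ 2 * v) ^ (1 / 3 : ℝ) := by
        have h3 : x ^ 3 ≤ cmW I.P I.lam x ^ 2 * v := by
          calc x ^ 3 = x ^ 2 * x := by ring
            _ ≤ cmW I.P I.lam x ^ 2 * v := mul_le_mul (pow_le_pow_left₀ hx.le hWx 2) hxv hx.le (by positivity)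
        calc x = (x ^ 3) ^ (1 / 3 : ℝ) := by
              rw [← Real.rpow_natCast, ← Real.rpow_mul hx.le]; norm_num
          _ ≤ _ := Real.rpow_le_rpow (by positivity) h3 (by norm_num)
      have h4 : x ^ 2 / (cmW I.P I.lam x ^ 2 * v) ^ (1 / 3 : ℝ) ≤ x := by
        rw [div_le_iff₀ (lt_of_lt_of_le hx h2)]
        nlinarith
      exact mul_le_mul (mul_le_mul_of_nonneg_right (le_max_right _ _) (by positivity)) h4 (by positivity) (by positivity)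
    · have h1 := hhi I.P I.lam x v hP hH.std.lam0 hH.std.lam1 hx hH.loc.xa hH.dir (by linarith) hv1
      refine h1.trans ?_
      have h4 : x ^ 2 / cmW I.P I.lam x ≤ x := by
        rw [div_le_iff₀ hW]
        nlinarith
      exact mul_le_mul (mul_le_mul_of_nonneg_right (le_max_left _ _) (by positivity)) h4 (by positivity) (by positivity))
  exact key

/-- (18) above `U ≥ c' W`, cumulative: `∫_U^{U2} D² ≤ A n^(-2m) U2 (x²/W)²`      (same proof, `cm_x_dt1_hi` only) -/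
theorem cvi_int_W (K : CviK) (hK : K.Ok) {c' : ℝ} (hc' : 0 < c') :
    ∃ (G A : ℝ) (n0 : ℕ), 1 ≤ G ∧ 0 < A ∧ ∀ (I : CmI) (x : ℝ), CviH K I x → n0 ≤ I.P.n → ∀ U U2 : ℝ, G * x ≤ U → c' * cmW I.P I.lam x ≤ U → U ≤ U2 → U2 ≤ 1 →
      ∫ u in U..U2, I.num.D u ^ 2 ≤ A * I.P.N ^ (-(2 * K.mm)) * U2 * (x ^ 2 / cmW I.P I.lam x) ^ 2 := by
  obtain ⟨G, A, n0, hG, hA, hgen⟩ := cvi_int_gen K hK
  obtain ⟨Kh, hKh, hhi⟩ := cm_x_dt1_hi hK.cE hK.D0 hK.ca hK.cd hc'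
  refine ⟨G, A * Kh ^ 2, n0, hG, by positivity, ?_⟩
  intro I x hH hn U U2 hGU hWU hUU2 hU21
  have hx := hH.loc.x0
  have hW : 0 < cmW I.P I.lam x := lt_of_lt_of_le hx (le_max_left _ _)
  exact hgen I x hH hn Kh (x ^ 2 / cmW I.P I.lam x) U U2 hKh.le (by positivity) hGU hUU2 hU21 fun v hv hv1 =>
    hhi I.P I.lam x v hH.std.ok hH.std.lam0 hH.std.lam1 hx hH.loc.xa hH.dir (hWU.trans hv) hv1

/-! ## CLK : the changed clocks at positions -/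

theorem cvi_clk_adm (K : CviK) (I : CmI) (x : ℝ) (h : CviH K I x) : CkAdm 1 I.b I.h := h.std.adm I.q

/-- a monotone clock at a position is below its values at the later masses -/
theorem cvi_at_le {c : ℝ → ℝ} (hc : GhClk1 1 c) {p : GhPos} (hp : p.Ok 1) {u : ℝ} (hu : p.u < u) (hu1 : u ≤ 1) : ghAt 1 c p ≤ c u := by
  exact cvi_clk_at_le zero_le_one hc hp.2.2.2 hu (hp.1.trans hu.le) hu1

/-- a monotone clock at a position is above its values at the earlier masses -/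
theorem cvi_at_ge {c : ℝ → ℝ} (hc : GhClk1 1 c) {p : GhPos} (hp : p.Ok 1) {u : ℝ} (hu0 : 0 ≤ u) (hu : u < p.u) : c u ≤ ghAt 1 c p := by
  exact cvi_clk_le_at zero_le_one hc hp.2.2.1 hu hu0 (hu.le.trans hp.2.1)

/-- (4) at the calibration scale: `b = T + O(W²)`, `h = O(W³)` at every position of mass in `(G0 x, G1 W]`, `G0 = max C0 (1/c)`.
PLAN: `b = b0 - e(r(u))`, `h = h0 + e(r(u)) r(u)` for `u ≥ u0`; `Reg`: `x ≤ c u ≤ r(u) ≤ C u`; `cm_e_anti`: `e(r) ≤ e(x) ≤ W²`; `CviE`; pass to the position by `cvi_at_le`, `cvi_at_ge` and `u' → p.u`. -/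
theorem cvi_clk_star (K : CviK) (hK : K.Ok) {G1 : ℝ} (hG1 : 0 < G1) :
    ∃ A : ℝ, 0 < A ∧ ∀ (I : CmI) (x T : ℝ), CviH K I x → CviE K I x T → ∀ p : GhPos, p.Ok 1 → max K.C0 (1 / K.c) * x < p.u → p.u ≤ G1 * cmW I.P I.lam x → p.u < 1 →
      |ghAt 1 I.b p - T| ≤ A * cmW I.P I.lam x ^ 2 ∧ ghAt 1 I.h p ≤ A * cmW I.P I.lam x ^ 3 := by
  have hC : 0 < K.C := hK.c.trans_le hK.cC
  have hA1 : 0 < K.C4 * (2 * G1) ^ 2 + 1 := by have := hK.C4; positivity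
  have hA2 : 0 < K.C4 * (2 * G1) ^ 3 + K.C * (2 * G1) := by have := hK.C4; positivity
  refine ⟨(K.C4 * (2 * G1) ^ 2 + 1) + (K.C4 * (2 * G1) ^ 3 + K.C * (2 * G1)), by linarith, ?_⟩
  intro I x T h hE p hp h1 h2 h3
  have hx := h.loc.x0
  set W := cmW I.P I.lam x with hW
  have hW0 : 0 < W := hx.trans_le (cvi_clk_x_le_W _ _ _)
  have hadm : CkAdm 1 I.b I.h := h.std.adm I.q
  have hG0 : 0 < max K.C0 (1 / K.c) * x := mul_pos (lt_max_of_lt_left hK.C0) hx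
  have hp0 : 0 < p.u := hG0.trans h1
  have hC0x : K.C0 * x ≤ max K.C0 (1 / K.c) * x := mul_le_mul_of_nonneg_right (le_max_left _ _) hx.le
  have hcx : 1 / K.c * x ≤ max K.C0 (1 / K.c) * x := mul_le_mul_of_nonneg_right (le_max_right _ _) hx.le
  have hc1 : K.c ≤ 1 := cvi_clk_c_le_one h.std h.loc.reg (by linarith)
  obtain ⟨v, hv1, hv2, hv3⟩ := cvi_clk_mid hp0 h3
  -- every mass `w > G0 x`, `w ≤ 2 p.u`, `w < 1` is good
  have good : ∀ w : ℝ, max K.C0 (1 / K.c) * x < w → w ≤ 2 * p.u → w < 1 →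
      |I.b w - T| ≤ (K.C4 * (2 * G1) ^ 2 + 1) * W ^ 2 ∧ I.h w ≤ (K.C4 * (2 * G1) ^ 3 + K.C * (2 * G1)) * W ^ 3 := by
    intro w hw1 hw2 hw3
    have hw0 : 0 < w := hG0.trans hw1
    have b1 : K.C0 * x ≤ w := hC0x.trans hw1.le
    have b0 : x < K.c * w := by
      have : 1 / K.c * x < w := hcx.trans_lt hw1
      rw [one_div, inv_mul_lt_iff₀ hK.c] at this
      exact this
    have b2 : I.P.u0 < w := by
      have : K.c * w ≤ 1 * w := mul_le_mul_of_nonneg_right hc1 hw0.le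
      linarith [h.u0]
    have hwK : w ≤ 2 * G1 * W := by linarith
    exact ⟨cvi_clk_b_mass hK.C4.le h.std h.loc.reg hE b1 b2 hw3 b0.le hw0.le hwK,
      cvi_clk_h_mass hC.le hK.C4.le h.std h.loc.reg hE b1 b2 hw3 b0.le hw0.le hwK⟩
  have gl := good ((max K.C0 (1 / K.c) * x + p.u) / 2) (by linarith) (by linarith) (by linarith)
  have gr := good v (h1.trans hv1) hv3 hv2
  have lo := cvi_clk_le_at zero_le_one hadm.1 hp.2.2.1 (show (max K.C0 (1 / K.c) * x + p.u) / 2 < p.u by linarith) (by linarith)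
    (by linarith)
  have hi := cvi_clk_at_le zero_le_one hadm.1 hp.2.2.2 hv1 (hp0.trans hv1).le hv2.le
  have hih := cvi_clk_at_le zero_le_one hadm.2 hp.2.2.2 hv1 (hp0.trans hv1).le hv2.le
  have k1 := abs_le.1 gl.1
  have k2 := abs_le.1 gr.1
  have hW2 : 0 < W ^ 2 := by positivity
  have hW3 : 0 < W ^ 3 := by positivity
  constructor
  · rw [abs_le]
    constructor <;> nlinarith [k1.1, k2.2, mul_pos hA2 hW2]
  · nlinarith [gr.2, mul_pos hA1 hW3]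

/-- `h ≤ A u` above `C0 x` (mass `1` included: `h 1 ≤ Tm`) -/
theorem cvi_clk_hi (K : CviK) (hK : K.Ok) :
    ∃ A : ℝ, 0 < A ∧ ∀ (I : CmI) (x T : ℝ), CviH K I x → CviE K I x T → ∀ p : GhPos, p.Ok 1 → K.C0 * x ≤ p.u → x ≤ p.u → ghAt 1 I.h p ≤ A * p.u := by
  have hC : 0 < K.C := hK.c.trans_le hK.cC
  refine ⟨K.Tm + 2 * (K.C4 + K.D0 ^ 2 * K.C), by have := hK.Tm; have := hK.C4; have := hK.D0; positivity, ?_⟩
  intro I x T h hE p hp h1 h2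
  exact cvi_clk_hHi hC.le hK.C4.le h.std h.loc.reg hE hp (h.loc.x0.trans_le h2) h1 (h.u0.trans h2)

/-! ## LEN : the field clock on an innovation interval -/

/-- **field length**: on `[u1,u2]`, `u2 ≥ G u1`, `u1 ≥ C0 x`, `u2 ≥ W`: `n (h(u2) - h(u1)) ≥ A W³/(sv² x⁶)`.
PLAN: `r_i = r(u_i)`, `Reg`: `r1 ≤ C u1`, `r2 ≥ c u2 ≥ 2 r1` (`G = 2C/c`);   `cm_q_h_slope`: `∫_{r1}^{r2} e ≤ C Λ (h(u2) - h(u1))`;   `e` antitone: `∫ ≥ (r2/2) e(r2)`;   `cm_re_mono` + `cm_dt_e_ge`: `r2 e(r2) ≥ c W e(cW) ≥ c1 W³`;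
`cm_dt_x`: `n ≥ n^(6m)/(A'² x⁶)`. -/
theorem cvi_len (K : CviK) (hK : K.Ok) :
    ∃ G : ℝ, 1 < G ∧ ∀ A : ℝ, 0 < A → ∃ n0 : ℕ, ∀ (I : CmI) (x : ℝ), CviH K I x → n0 ≤ I.P.n →
      ∀ u1 u2 : ℝ, K.C0 * x ≤ u1 → x ≤ u1 → G * u1 ≤ u2 → cmW I.P I.lam x ≤ u2 → u2 ≤ 1 →
        A * cmW I.P I.lam x ^ 3 ≤ cviSv I K.mm ^ 2 * x ^ 6 * (I.P.N * (I.h u2 - I.h u1)) := by
  obtain ⟨c₂, hc₂, H⟩ := cvi_clk_len_m (D0 := K.D0) (Tm := K.Tm) (C0 := K.C0) (cU := 1) hK.cE hK.c hK.cC hK.cd one_pos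
  have hG : 1 < 2 * K.C / K.c := by
    rw [lt_div_iff₀ hK.c]; linarith [hK.cC, hK.c]
  refine ⟨2 * K.C / K.c, hG, fun A hA => ?_⟩
  obtain ⟨n0, hn0⟩ := cvi_clk_big (D0 := K.D0) (K := A / c₂) hK.mm hK.cE hK.ca (le_refl K.mm)
  refine ⟨n0, ?_⟩
  intro I x h hn u1 u2 h1 h2 h3 h4 h5
  have hx := h.loc.x0
  have key := H I x h.std h.mono hx h.loc.reg h.dir u1 u2 h1 (h.u0.trans h2) (hx.le.trans h2) h3 (by linarith) h5
  have big := hn0 I.P h.std.ok h.m hn x h.loc.xa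
  set W := cmW I.P I.lam x with hW
  have hW0 : 0 < W := hx.trans_le (cvi_clk_x_le_W _ _ _)
  have hL : 0 < I.P.Lam := lt_of_lt_of_le one_pos (cm_Lam_ge_one h.std.ok)
  set Δ := I.h u2 - I.h u1 with hΔ
  have hΔ0 : 0 ≤ Δ := by
    have : 0 < c₂ * W ^ 3 := by positivity
    by_contra hneg
    have := mul_neg_of_pos_of_neg hL (not_le.1 hneg)
    linarith
  have e1 : A * W ^ 3 = A / c₂ * (c₂ * W ^ 3) := by field_simp
  have hsv : cviSv I K.mm = I.P.N ^ (-K.mm) := rfl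
  rw [e1, hsv]
  calc A / c₂ * (c₂ * W ^ 3) ≤ A / c₂ * (I.P.Lam * Δ) := mul_le_mul_of_nonneg_left key (by positivity)
    _ = (A / c₂ * I.P.Lam) * Δ := by ring
    _ ≤ ((I.P.N ^ (-K.mm)) ^ 2 * I.P.N * x ^ 6) * Δ := mul_le_mul_of_nonneg_right big hΔ0
    _ = (I.P.N ^ (-K.mm)) ^ 2 * x ^ 6 * (I.P.N * Δ) := by ring

end Claimed.Agent.R286
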