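import Claimed.Agent.R286.Fd.TrA2
import Claimed.Agent.R286.Fd.TrA3
import Claimed.Agent.R286.Fd.TrB6
import Claimed.Agent.R286.Cav.Hol

/-!
# Row 286 (S0533), folder Cav, file PreLay : PE Lemma 4.4 (truncation inside an observed block) and the ABSTRACT form of Lemma 4.5 (boundary covariance estimate)
# (helper18, HEAD P07; prefix `sk_cvpl_`, defs `cvpBlk`, `cvpLay`)

On the discrete vocabulary of `Defs/Tr` (helper150).
* block of the old leaf `a` at the cut of depth `t` = node of depth `t` above `a` = `{y | t ≤ τ a y}`, mass `trPm ms t`;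
* `cvpBlk q a t Φ` restricts a functional of the enlarged tree to the placements of the new label `q` in that block;
* `sk_cvpl_row_radial` : row of a functional which sees only `τ'(a, q)` (PE l.318-327: `χ = 1 - ∫_U^1 γ`, "independent of other observed labels");
* `sk_cvpl_row_blk` : exact collapse TEX[PE:lem:cavity-truncation];
* `sk_cvpl_layer_chain` : sum over the layers.  Steps of a finite hierarchy may multiply the mass by more than 2, so the "dyadic layers" are chosen through the
  UPPER masses `ms t` (a pair which shares exactly `t` stages has split mass anywhere in `[trPm ms t, ms t)`): hypothesis `ms t * E t ≤ D`;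
* `sk_cvpl_boundary_abs` : TEX[PE:lem:cavity-boundary], abstract form, for ANY hierarchy (actual law, row-interpolated laws, rest-only law).
0 sorry in this file (it stands on the contracts `tr_cut_layer`, `tr_coupling`, `tr_att_congr`, `tr_row_top`, `tr_ms_isMs`, `tr_nu_congr`).
-/

set_option autoImplicit false

namespace Claimed.Agent.R286

open Finset

/-- restriction to the placements of the new label `q` inside the block (node of depth `t`) of the old leaf `a` -/
def cvpBlk (q a t : ℕ) (Φ : (ℕ → ℕ → ℕ) → ℝ) : (ℕ → ℕ → ℕ) → ℝ :=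
  fun τ' => if t ≤ τ' a q then Φ τ' else 0

theorem sk_cvpl_att_aq {N q : ℕ} (τ : ℕ → ℕ → ℕ) {a : ℕ} (ha : a < q) (y j : ℕ) :
    trAtt N q τ y j a q = min j (τ a y) := by
  simp [trAtt, ha.ne]

/-- total signed weight of the placements which share at least `k` stages with `a` -/
theorem sk_cvpl_wt_ge {N q : ℕ} {τ : ℕ → ℕ → ℕ} {ms : ℕ → ℝ} (hτ : IsTr N q τ) {a k : ℕ}
    (ha : a < q) (hk : k ≤ N + 1) :
    ∑ y ∈ range q, ∑ j ∈ range (N + 2), (if k ≤ min j (τ a y) then trWt ms N q τ y j else 0) = trPm ms k := by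
  rw [← tr_row_sum (ms := ms) hτ ha hk, Finset.sum_filter]
  refine Finset.sum_congr rfl fun y _ => ?_
  by_cases h : k ≤ τ a y
  · have hI : Icc k (N + 1) = (range (N + 2)).filter (fun j => k ≤ j) := by
      ext j; simp only [mem_Icc, mem_filter, mem_range]; omega
    rw [if_pos h, hI, Finset.sum_filter]
    refine Finset.sum_congr rfl fun j _ => ?_
    simp [h]
  · rw [if_neg h]
    refine Finset.sum_eq_zero fun j _ => ?_
    rw [if_neg]; intro h'; exact h (le_trans h' (min_le_right _ _))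

/-- total signed weight of the placements which share exactly `k ≤ N` stages with `a` -/
theorem sk_cvpl_wt_eq {N q : ℕ} {τ : ℕ → ℕ → ℕ} {ms : ℕ → ℝ} (hτ : IsTr N q τ) {a k : ℕ}
    (ha : a < q) (hk : k ≤ N) :
    ∑ y ∈ range q, ∑ j ∈ range (N + 2), (if min j (τ a y) = k then trWt ms N q τ y j else 0)
      = trPm ms k - trPm ms (k + 1) := by
  rw [← sk_cvpl_wt_ge (ms := ms) hτ ha (show k ≤ N + 1 by omega), ← sk_cvpl_wt_ge (ms := ms) hτ ha (show k + 1 ≤ N + 1 by omega),
    ← Finset.sum_sub_distrib]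
  refine Finset.sum_congr rfl fun y _ => ?_
  rw [← Finset.sum_sub_distrib]
  refine Finset.sum_congr rfl fun j _ => ?_
  by_cases h1 : min j (τ a y) = k
  · rw [if_pos h1, if_pos h1.ge, if_neg (by omega)]; ring
  · by_cases h2 : k ≤ min j (τ a y)
    · rw [if_neg h1, if_pos h2, if_pos (by omega)]; ring
    · rw [if_neg h1, if_neg h2, if_neg (by omega)]; ring

/-- **Row of a functional which sees only the number of stages shared with `a`** (PE l.318-327: "the scalar row sum is independent of other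
observed labels").  `φ k` = value when the new label shares `k` stages with `a`. -/
theorem sk_cvpl_row_radial {N q : ℕ} {τ : ℕ → ℕ → ℕ} {ms : ℕ → ℝ} (hτ : IsTr N q τ) {a t : ℕ}
    (ha : a < q) (ht : t ≤ N + 1) (φ : ℕ → ℝ) :
    ∑ y ∈ range q, ∑ j ∈ range (N + 2), (if t ≤ min j (τ a y) then trWt ms N q τ y j * φ (min j (τ a y)) else 0)
      = ms N * φ (N + 1) + ∑ k ∈ Ico t (N + 1), (trPm ms k - trPm ms (k + 1)) * φ k := by
  obtain ⟨r, hr⟩ : ∃ r, t + r = N + 1 := ⟨N + 1 - t, by omega⟩
  induction r generalizing t with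
  | zero =>
    have htN : t = N + 1 := by omega
    subst htN
    rw [Finset.Ico_self, Finset.sum_empty, add_zero]
    have h := sk_cvpl_wt_ge (ms := ms) hτ ha (le_refl (N + 1))
    have h1 : trPm ms (N + 1) = ms N := by simp [trPm]
    rw [h1] at h
    calc _ = ∑ y ∈ range q, ∑ j ∈ range (N + 2),
            (if N + 1 ≤ min j (τ a y) then trWt ms N q τ y j else 0) * φ (N + 1) := by
          refine Finset.sum_congr rfl fun y hy => Finset.sum_congr rfl fun j hj => ?_
          have hj' : j < N + 2 := mem_range.1 hj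
          by_cases h2 : N + 1 ≤ min j (τ a y)
          · have : min j (τ a y) = N + 1 := by
              have := min_le_left j (τ a y); omega
            rw [if_pos h2, if_pos h2, this]
          · rw [if_neg h2, if_neg h2, zero_mul]
      _ = ms N * φ (N + 1) := by
          simp_rw [← Finset.sum_mul]; rw [h]
  | succ r ih =>
    have htN : t ≤ N := by omega
    have ih' := ih (t := t + 1) (by omega) (by omega)
    have hI : Ico t (N + 1) = insert t (Ico (t + 1) (N + 1)) := by
      ext k; simp only [mem_Ico, mem_insert]; omega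
    rw [hI, Finset.sum_insert (by simp), ← add_assoc, add_comm (ms N * φ (N + 1)), add_assoc, ← ih',
      ← sk_cvpl_wt_eq (ms := ms) hτ ha htN, Finset.sum_mul, ← Finset.sum_add_distrib]
    refine Finset.sum_congr rfl fun y _ => ?_
    rw [Finset.sum_mul, ← Finset.sum_add_distrib]
    refine Finset.sum_congr rfl fun j _ => ?_
    by_cases h1 : min j (τ a y) = t
    · rw [if_pos h1.ge, if_pos h1, if_neg (by omega), h1]; ring
    · by_cases h2 : t ≤ min j (τ a y)
      · rw [if_pos h2, if_neg h1, if_pos (by omega)]; ring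
      · rw [if_neg h2, if_neg h1, if_neg (by omega)]; ring

/-- the signed sum over the placements in the block of `a`, written out -/
theorem sk_cvpl_sum_blk {N q : ℕ} (τ : ℕ → ℕ → ℕ) (ms : ℕ → ℝ) {a : ℕ} (ha : a < q) (t : ℕ) (Φ : (ℕ → ℕ → ℕ) → ℝ) :
    trSum ms N q τ (cvpBlk q a t Φ)
      = ∑ y ∈ range q, ∑ j ∈ range (N + 2),
          (if t ≤ min j (τ a y) then trWt ms N q τ y j * Φ (trAtt N q τ y j) else 0) := by
  unfold trSum cvpBlk
  refine Finset.sum_congr rfl fun y _ => Finset.sum_congr rfl fun j _ => ?_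
  rw [sk_cvpl_att_aq τ ha]
  split_ifs <;> simp

/-- **Lemma 4.4, exact collapse**: the row of the block of `a`, truncated at the cut of the block, is (mass of the block) x (fresh-at-cut value). -/
theorem sk_cvpl_row_blk {N q : ℕ} {τ : ℕ → ℕ → ℕ} {ms : ℕ → ℝ} (hτ : IsTr N q τ) {a t : ℕ}
    (ha : a < q) (ht : t ≤ N + 1) (Φ : (ℕ → ℕ → ℕ) → ℝ)
    (hΦ : ∀ τ₁ τ₂ : ℕ → ℕ → ℕ, (∀ y z, y < q + 1 → z < q + 1 → τ₁ y z = τ₂ y z) → Φ τ₁ = Φ τ₂) :
    trRow ms N q τ t (cvpBlk q a t Φ) = trPm ms t * Φ (trAtt N q τ a t) := by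
  rw [← sk_cvpl_wt_ge (ms := ms) hτ ha ht, Finset.sum_mul]
  unfold trRow cvpBlk
  refine Finset.sum_congr rfl fun y hy => ?_
  rw [Finset.sum_mul]
  refine Finset.sum_congr rfl fun j _ => ?_
  rw [sk_cvpl_att_aq τ ha]
  have hy' : y < q := mem_range.1 hy
  by_cases h : t ≤ min j (τ a y)
  · have h1 : t ≤ j := le_trans h (min_le_left _ _)
    have h2 : t ≤ τ a y := le_trans h (min_le_right _ _)
    rw [if_pos h, min_eq_right h1, if_pos (le_min le_rfl h2)]
    congr 1
    exact hΦ _ _ fun u v hu hv => tr_att_congr hτ hy' ha (by rw [hτ.symm y a hy' ha]; exact h2) u v hu hv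
  · rw [if_neg h, if_neg, mul_zero, zero_mul]
    intro h'
    apply h
    have h3 : t ≤ min j t := le_trans h' (min_le_left _ _)
    exact le_min (le_trans h3 (min_le_left _ _)) (le_trans h' (min_le_right _ _))

/-- the restricted functional still depends on the labels `≤ q` only -/
theorem sk_cvpl_blk_congr {q a t : ℕ} (ha : a < q) {Φ : (ℕ → ℕ → ℕ) → ℝ}
    (hΦ : ∀ τ₁ τ₂ : ℕ → ℕ → ℕ, (∀ y z, y < q + 1 → z < q + 1 → τ₁ y z = τ₂ y z) → Φ τ₁ = Φ τ₂) :
    ∀ τ₁ τ₂ : ℕ → ℕ → ℕ, (∀ y z, y < q + 1 → z < q + 1 → τ₁ y z = τ₂ y z) → cvpBlk q a t Φ τ₁ = cvpBlk q a t Φ τ₂ := by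
  intro τ₁ τ₂ h
  unfold cvpBlk
  rw [h a q (by omega) (by omega), hΦ τ₁ τ₂ h]

/-- next cut of the chain of layers: the last depth whose incoming mass is at most twice the UPPER mass of the depth `t` -/
theorem sk_cvpl_next_cut {N : ℕ} {ms : ℕ → ℝ} (hms : IsMs N ms) {t : ℕ} (ht : t ≤ N) :
    ∃ t', t < t' ∧ t' ≤ N + 1 ∧ trPm ms t' ≤ 2 * ms t ∧ (t' = N + 1 ∨ (t' ≤ N ∧ 2 * ms t < ms t')) := by
  classical
  have hs : ∃ s : Finset ℕ, ∀ u, u ∈ s ↔ (u < N + 2 ∧ t < u ∧ trPm ms u ≤ 2 * ms t) :=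
    ⟨(range (N + 2)).filter fun s => t < s ∧ trPm ms s ≤ 2 * ms t, fun u => by simp⟩
  obtain ⟨s, hs⟩ := hs
  have h0 : t + 1 ∈ s := by
    rw [hs]
    refine ⟨by omega, by omega, ?_⟩
    have : trPm ms (t + 1) = ms t := by simp [trPm]
    rw [this]; linarith [hms.nonneg t]
  have hne : s.Nonempty := ⟨_, h0⟩
  obtain ⟨m, hm⟩ : ∃ m, m = s.max' hne := ⟨_, rfl⟩
  have hmem : m ∈ s := hm ▸ Finset.max'_mem s hne
  have hmax : ∀ u ∈ s, u ≤ m := fun u hu => hm ▸ Finset.le_max' s u hu
  have hmem' := (hs m).1 hmem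
  refine ⟨m, hmem'.2.1, by omega, hmem'.2.2, ?_⟩
  by_cases hN : m = N + 1
  · exact Or.inl hN
  · right
    refine ⟨by omega, ?_⟩
    by_contra hcon
    have h1 : m + 1 ∈ s := by
      rw [hs]
      refine ⟨by omega, by omega, ?_⟩
      have : trPm ms (m + 1) = ms m := by simp [trPm]
      rw [this]; exact not_lt.1 hcon
    have := hmax _ h1
    omega

/-- number of layers above the depth `t` -/
noncomputable def cvpLay (N : ℕ) (ms : ℕ → ℝ) (t : ℕ) : ℝ :=
  if t = N + 1 then 0 else Real.logb 2 (ms N / ms t) + 1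

/-- **Chain of layers** (Lemma 4.4, second half, summed).  `E t` bounds the change of `Φ` when a placement deeper than the depth `t` is replaced by
the independent continuation from depth `t`;  `ms t * E t ≤ D` on all depths above the cut `t0`. -/
theorem sk_cvpl_layer_chain {N q : ℕ} {τ : ℕ → ℕ → ℕ} {ms : ℕ → ℝ} (hτ : IsTr N q τ) (hms : IsMs N ms) {t0 : ℕ}
    (ht0 : t0 ≤ N + 1) (hpos : 0 < ms t0) (Φ : (ℕ → ℕ → ℕ) → ℝ)
    (hΦ : ∀ τ₁ τ₂ : ℕ → ℕ → ℕ, (∀ y z, y < q + 1 → z < q + 1 → τ₁ y z = τ₂ y z) → Φ τ₁ = Φ τ₂)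
    (E : ℕ → ℝ) (D : ℝ) (hE0 : ∀ t, 0 ≤ E t)
    (hE : ∀ t x j, t0 ≤ t → x < q → t < j → j ≤ N + 1 → |Φ (trAtt N q τ x j) - Φ (trAtt N q τ x t)| ≤ E t)
    (hED : ∀ t, t0 ≤ t → t ≤ N → ms t * E t ≤ D) :
    |trSum ms N q τ Φ - trRow ms N q τ t0 Φ| ≤ 6 * q * D * cvpLay N ms t0 := by
  have key : ∀ r t, t + r = N + 1 → t0 ≤ t →
      |trSum ms N q τ Φ - trRow ms N q τ t Φ| ≤ 6 * q * D * cvpLay N ms t := by
    intro r
    induction r using Nat.strong_induction_on with
    | _ r ih =>
      intro t htr h0t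
      by_cases htop : t = N + 1
      · subst htop
        rw [tr_row_top, sub_self, abs_zero]
        simp [cvpLay]
      · have htN : t ≤ N := by omega
        obtain ⟨t', h1, h2, h3, h4⟩ := sk_cvpl_next_cut hms htN
        have hmt : 0 < ms t := lt_of_lt_of_le hpos (hms.mono _ _ h0t htN)
        have hmt1 : ms t ≤ ms N := hms.mono _ _ htN le_rfl
        have hD0 : 0 ≤ D := le_trans (mul_nonneg hmt.le (hE0 t)) (hED t h0t htN)
        have hq0 : (0 : ℝ) ≤ q := Nat.cast_nonneg q
        have hlayer : |trRow ms N q τ t' Φ - trRow ms N q τ t Φ| ≤ 6 * q * D := by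
          have h5 := tr_cut_layer hτ hms h1.le h2 Φ hΦ (E t) (hE0 t)
            (fun x j hx hj1 hj2 => hE t x j h0t hx hj1 (le_trans hj2 h2))
          have hpm : 0 ≤ trPm ms t := by
            unfold trPm; split_ifs
            · exact le_rfl
            · exact hms.nonneg _
          have h6 : (q : ℝ) * (3 * trPm ms t' - trPm ms t) * E t ≤ q * (6 * ms t) * E t := by
            apply mul_le_mul_of_nonneg_right _ (hE0 t)
            apply mul_le_mul_of_nonneg_left _ hq0
            linarith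
          have h7 : (q : ℝ) * (6 * ms t) * E t = 6 * q * (ms t * E t) := by ring
          have h8 : 6 * (q : ℝ) * (ms t * E t) ≤ 6 * q * D :=
            mul_le_mul_of_nonneg_left (hED t h0t htN) (by positivity)
          linarith
        have hlog0 : 0 ≤ Real.logb 2 (ms N / ms t) := by
          apply Real.logb_nonneg (by norm_num)
          rw [le_div_iff₀ hmt]; linarith
        have hLt : cvpLay N ms t = Real.logb 2 (ms N / ms t) + 1 := by simp [cvpLay, htop]
        have hrec := ih (N + 1 - t') (by omega) t' (by omega) (by omega)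
        have htri : |trSum ms N q τ Φ - trRow ms N q τ t Φ|
            ≤ |trSum ms N q τ Φ - trRow ms N q τ t' Φ| + |trRow ms N q τ t' Φ - trRow ms N q τ t Φ| := by
          have := abs_add_le (trSum ms N q τ Φ - trRow ms N q τ t' Φ) (trRow ms N q τ t' Φ - trRow ms N q τ t Φ)
          simpa using this
        have hLt' : cvpLay N ms t' ≤ Real.logb 2 (ms N / ms t) := by
          rcases h4 with h4 | ⟨h4N, h4⟩
          · simp [cvpLay, h4]; simpa using hlog0
          · have hne : t' ≠ N + 1 := by omega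
            have hmt' : 0 < ms t' := by linarith
            have hmN : 0 < ms N := lt_of_lt_of_le hmt hmt1
            have h9 : cvpLay N ms t' = Real.logb 2 (ms N / ms t') + 1 := by simp [cvpLay, hne]
            rw [h9]
            have h10 : Real.logb 2 (ms N / ms t') ≤ Real.logb 2 (ms N / (2 * ms t)) := by
              apply Real.logb_le_logb_of_le (by norm_num) (by positivity)
              exact div_le_div_of_nonneg_left hmN.le (by positivity) h4.le
            have h11 : Real.logb 2 (ms N / (2 * ms t)) = Real.logb 2 (ms N / ms t) - 1 := by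
              have : ms N / (2 * ms t) = (ms N / ms t) / 2 := by field_simp
              rw [this, Real.logb_div (by positivity) (by norm_num), Real.logb_self_eq_one (by norm_num)]
            linarith
        have hmul : 6 * (q : ℝ) * D * cvpLay N ms t' ≤ 6 * q * D * Real.logb 2 (ms N / ms t) :=
          mul_le_mul_of_nonneg_left hLt' (by positivity)
        rw [hLt]
        nlinarith
  exact key (N + 1 - t0) t0 (by omega) le_rfl

section boundary
variable {S ι : Type} [Fintype S] [Fintype ι] [Inhabited S]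

/-- **every tree number is a positive normalised functional** (bridge from `Defs/Tr` to the Hoelder kits `Cav/Hol`, `Cav/PreLp`) -/
noncomputable def cvpE {B : GhB S} (hB : B.Ok) {ls : List (GhLv S ι)} (hls : GhAdm B 0 ls) (q : ℕ) (τ : ℕ → ℕ → ℕ) (z : S → ℝ) :
    CvExp (ℕ → S) where
  E := trNu B ls q τ z
  add := fun f g => by
    classical
    rw [tr_nu_eq_sum hB hls, tr_nu_eq_sum hB hls, tr_nu_eq_sum hB hls, ← Finset.sum_add_distrib]
    exact Finset.sum_congr rfl fun σ _ => by ring
  smul := fun c f => by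
    classical
    rw [tr_nu_eq_sum hB hls, tr_nu_eq_sum hB hls, Finset.mul_sum]
    exact Finset.sum_congr rfl fun σ _ => by ring
  mono := fun f g h => by
    classical
    rw [tr_nu_eq_sum hB hls, tr_nu_eq_sum hB hls]
    exact Finset.sum_le_sum fun σ _ => mul_le_mul_of_nonneg_left (h _) (tr_pr_nonneg hB hls q τ z σ)
  one := by
    classical
    rw [tr_nu_eq_sum hB hls]
    simpa using tr_pr_sum hB hls q τ z

theorem sk_cvpl_nu_E {B : GhB S} (hB : B.Ok) {ls : List (GhLv S ι)} (hls : GhAdm B 0 ls) (q : ℕ) (τ : ℕ → ℕ → ℕ) (z : S → ℝ)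
    (P : (ℕ → S) → ℝ) : (cvpE hB hls q τ z).E P = trNu B ls q τ z P := rfl

/-- **Lemma 4.5 (boundary covariance estimate), abstract form.**   Old tree `τ` on `q` leaves, block of `a` at the cut of depth `t0` (mass `trPm ms t0`).
`F` = function of the new label `q` and of old leaves OUTSIDE the block; `P` = function of the old leaves.
`Av t`, `Bv t` = norms of the changes of `F`, `P` under continuation resampling after the depth `t` (new label, resp. affected old subtree).
The signed sum over the placements of the new label in the block, minus the fresh-at-cut baseline, is at most `6 q D (log₂ (a/ms t0) + 1)`. -/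
theorem sk_cvpl_boundary_abs {B : GhB S} (hB : B.Ok) {ls : List (GhLv S ι)} (hls : GhAdm B 0 ls) {q : ℕ} {τ : ℕ → ℕ → ℕ}
    (hτ : IsTr ls.length q τ) (z : S → ℝ) {a t0 : ℕ} (ha : a < q) (ht0 : t0 ≤ ls.length + 1) (hpos : 0 < trMs B ls t0)
    (F P : (ℕ → S) → ℝ)
    (hF : ∀ σ σ' : ℕ → S, σ q = σ' q → (∀ b, b < q → τ a b < t0 → σ b = σ' b) → F σ = F σ') (hP : TrUses q P)
    (p p' : ℝ) (hpp : p.HolderConjugate p') (Av Bv : ℕ → ℝ) (D : ℝ) (hA0 : ∀ t, 0 ≤ Av t) (hB0 : ∀ t, 0 ≤ Bv t)
    (hAv : ∀ t x, t0 ≤ t → t ≤ ls.length → x < q → t0 ≤ τ a x →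
      (trNu B ls (q + 2) (trAtt ls.length (q + 1) (trAtt ls.length q τ x t) x t) z
            fun σ => |F σ - F (Function.update σ q (σ (q + 1)))| ^ p) ^ (1 / p) ≤ Av t)
    (hBv : ∀ t x, t0 ≤ t → t ≤ ls.length → x < q → t0 ≤ τ a x →
      (trNu B ls (2 * q) (trDup q τ x t) z fun σ => |P σ - P fun b => σ (q + b)| ^ p') ^ (1 / p') ≤ Bv t)
    (hD : ∀ t, t0 ≤ t → t ≤ ls.length → trMs B ls t * (Av t * Bv t) ≤ D) :
    |trSum (trMs B ls) ls.length q τ (cvpBlk q a t0 fun τ' => trNu B ls (q + 1) τ' z fun σ => F σ * P σ)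
        - trPm (trMs B ls) t0 * trNu B ls (q + 1) (trAtt ls.length q τ a t0) z (fun σ => F σ * P σ)|
      ≤ 6 * q * D * cvpLay ls.length (trMs B ls) t0 := by
  have hms := (tr_ms_isMs hB hls).1
  have hΦ : ∀ τ₁ τ₂ : ℕ → ℕ → ℕ, (∀ y z, y < q + 1 → z < q + 1 → τ₁ y z = τ₂ y z) →
      (trNu B ls (q + 1) τ₁ z fun σ => F σ * P σ) = trNu B ls (q + 1) τ₂ z fun σ => F σ * P σ :=
    fun τ₁ τ₂ h => tr_nu_congr B ls h z _
  rw [← sk_cvpl_row_blk hτ ha ht0 _ hΦ]
  refine sk_cvpl_layer_chain hτ hms ht0 hpos _ (sk_cvpl_blk_congr ha hΦ) (fun t => Av t * Bv t) D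
    (fun t => mul_nonneg (hA0 t) (hB0 t)) ?_ hD
  intro t x j h0t hx htj hj
  have htN : t ≤ ls.length := by omega
  unfold cvpBlk
  rw [sk_cvpl_att_aq τ ha, sk_cvpl_att_aq τ ha]
  by_cases hxa : t0 ≤ τ a x
  · rw [if_pos (le_min (by omega) hxa), if_pos (le_min h0t hxa)]
    have hFx : ∀ σ σ' : ℕ → S, σ q = σ' q → (∀ b, b < q → τ x b ≤ t → σ b = σ' b) → F σ = F σ' := by
      intro σ σ' h1 h2
      refine hF σ σ' h1 fun b hb hab => h2 b hb ?_
      by_contra hcon
      have h3 : t0 ≤ τ x b := by omega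
      have := hτ.ultra a x b ha hx hb
      have h4 : t0 ≤ min (τ a x) (τ x b) := le_min hxa h3
      omega
    refine le_trans (tr_coupling hB hls hτ z hx htj hj F P hFx hP p p' hpp) ?_
    refine mul_le_mul (hAv t x h0t htN hx hxa) (hBv t x h0t htN hx hxa) ?_ (hA0 t)
    have hnn : 0 ≤ trNu B ls (2 * q) (trDup q τ x t) z fun σ => |P σ - P fun b => σ (q + b)| ^ p' := by
      rw [← sk_cvpl_nu_E hB hls]
      exact CvExp.nonneg _ fun σ => Real.rpow_nonneg (abs_nonneg _) _
    exact Real.rpow_nonneg hnn _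
  · rw [if_neg, if_neg, sub_self, abs_zero]
    · exact mul_nonneg (hA0 t) (hB0 t)
    · intro h; exact hxa (le_trans h (min_le_right _ _))
    · intro h; exact hxa (le_trans h (min_le_right _ _))

end boundary

theorem sk_cvpl_eqns_cite : True := by
  have := @cvpBlk.eq_1
  have := @cvpLay.eq_1
  have := @cvpE.eq_1
  trivial

end Claimed.Agent.R286
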