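import Claimed.Agent.R286.Defs.Gh
import Claimed.Agent.R286.Tst.Step

/-!
# Row 286 (S0533), Cav/Prod : REGULARITY LINK + PRODUCT HIERARCHIES      (owner helper193; prefix `cvp_`, defs `cvpB cvpLv cvpLs cvpZ CvpM`; 0 sorry)

Part 0 (link `Defs/Gh` <-> `Tst/Step` of helper131; usable by everybody)
* `cvp_noise l : TstNoise (ghStd ι) l.inc`, `cvp_regF0`, **`cvp_regF B hB ls : RegF (ghF B ls)`**, `cvp_F_cons : ghF B (l :: ls) = tstT (ghStd ι) l.inc l.m (ghF B ls)`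
* `cvp_int_exp`, `cvp_int_F`, `cvp_int_exp_pos`; Gibbs weights `cvp_Gw_nonneg / _sum / _le_one / _hasFDerivAt / _bReg`, `cvp_F0_hasFDerivAt`
* transition density: `cvp_D_pos`, `cvp_D_eq`, `cvp_D_integrable`, **`cvp_D_integral : ∫ ghD = 1`**

Part 1 (PE Sec. 4.2, l.300-310 "site and rest factor at t = 0"; R4 of notes/R286/P07_helper18.md)      TEX[PE:cavity:row-setup]
product of two hierarchies with the same masses, on `S₁ × S₂`, drivers `ι₁ ⊕ ι₂`, field `z₁ s₁ + z₂ s₂`: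
* **`cvp_F_prod`  : `ghF` is additive**, `cvp_D_prod`, `cvp_DT_prod` : densities are products, `cvp_cov` : covariance is the sum
* **`cvp_nu_prod` : `ghNu[P₁ ⊗ P₂] = ghNu₁[P₁] * ghNu₂[P₂]`** for every family of representatives (every tree), every pair of tests (no integrability needed)
-/

set_option autoImplicit false
set_option linter.unusedSectionVars false

namespace Claimed.Agent.R286

open MeasureTheory ProbabilityTheory
open scoped ENNReal NNReal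

section reg
variable {S ι : Type} [Fintype S] [Fintype ι]

instance cvp_std_prob : IsProbabilityMeasure (ghStd ι) := by
  unfold ghStd; infer_instance

theorem cvp_inc_meas (l : GhLv S ι) : Measurable l.inc := by
  unfold GhLv.inc
  fun_prop

theorem cvp_exp_abs_int (c : ℝ) : Integrable (fun x : ℝ => Real.exp (c * |x|)) (gaussianReal 0 1) := by
  have h1 := integrable_exp_mul_gaussianReal (μ := 0) (v := 1) c
  have h2 := integrable_exp_mul_gaussianReal (μ := 0) (v := 1) (-c)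
  refine Integrable.mono' (h1.add h2) (by fun_prop) (Filter.Eventually.of_forall fun x => ?_)
  rw [Real.norm_eq_abs, abs_of_pos (Real.exp_pos _)]
  rcases abs_cases x with ⟨h, _⟩ | ⟨h, _⟩
  · rw [h]; simp only [Pi.add_apply]; linarith [Real.exp_pos (-c * x)]
  · rw [h]; simp only [Pi.add_apply]
    have : c * -x = -c * x := by ring
    rw [this]; linarith [Real.exp_pos (c * x)]

theorem cvp_noise (l : GhLv S ι) : TstNoise (ghStd ι) l.inc := by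
  refine ⟨(cvp_inc_meas l).aestronglyMeasurable, fun c => ?_⟩
  obtain ⟨K, hK0, hK⟩ : ∃ K : ℝ, 0 ≤ K ∧ ∀ s i, |l.A s i| ≤ K := by
    refine ⟨∑ s, ∑ i, |l.A s i|, by positivity, fun s i => ?_⟩
    calc |l.A s i| ≤ ∑ i, |l.A s i| := Finset.single_le_sum (f := fun i => |l.A s i|) (fun _ _ => abs_nonneg _) (Finset.mem_univ i)
      _ ≤ _ := Finset.single_le_sum (f := fun s => ∑ i, |l.A s i|) (fun _ _ => by positivity) (Finset.mem_univ s)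
  have hb : ∀ ξ : ι → ℝ, ‖l.inc ξ‖ ≤ K * ∑ i, |ξ i| := by
    intro ξ
    rw [pi_norm_le_iff_of_nonneg (by positivity)]
    intro s
    rw [Real.norm_eq_abs, GhLv.inc, Finset.mul_sum]
    refine (Finset.abs_sum_le_sum_abs _ _).trans (Finset.sum_le_sum fun i _ => ?_)
    rw [abs_mul]
    exact mul_le_mul_of_nonneg_right (hK s i) (abs_nonneg _)
  have hint : Integrable (fun ξ : ι → ℝ => ∏ i, Real.exp (|c| * K * |ξ i|)) (ghStd ι) := by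
    unfold ghStd
    exact Integrable.fintype_prod (f := fun _ x => Real.exp (|c| * K * |x|)) fun _ => cvp_exp_abs_int _
  refine Integrable.mono' hint ?_ (Filter.Eventually.of_forall fun ξ => ?_)
  · exact (Real.measurable_exp.comp (measurable_const.mul (cvp_inc_meas l).norm)).aestronglyMeasurable
  · rw [Real.norm_eq_abs, abs_of_pos (Real.exp_pos _), ← Real.exp_sum]
    refine Real.exp_le_exp.2 ?_
    calc c * ‖l.inc ξ‖ ≤ |c| * ‖l.inc ξ‖ := mul_le_mul_of_nonneg_right (le_abs_self c) (norm_nonneg _)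
      _ ≤ |c| * (K * ∑ i, |ξ i|) := mul_le_mul_of_nonneg_left (hb ξ) (abs_nonneg _)
      _ = ∑ i, |c| * K * |ξ i| := by rw [Finset.mul_sum, Finset.mul_sum]; refine Finset.sum_congr rfl fun i _ => by ring

end reg

section reg
variable {S ι : Type} [Fintype S] [Fintype ι]

theorem cvp_bReg_sum {E G : Type*} [NormedAddCommGroup E] [NormedSpace ℝ E] [NormedAddCommGroup G] [NormedSpace ℝ G]
    {α : Type*} (s : Finset α) (k : ℕ) (f : α → E → G) (h : ∀ i ∈ s, BRegN k (f i)) :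
    BRegN k (fun x => ∑ i ∈ s, f i x) := by
  classical
  induction s using Finset.induction_on with
  | empty => simpa using bRegN_const (E := E) k (0 : G)
  | insert a s ha ih =>
    simp only [Finset.sum_insert ha]
    exact (h a (Finset.mem_insert_self a s)).add (ih fun i hi => h i (Finset.mem_insert_of_mem hi))

/-- the partition function of the terminal draw -/
theorem cvp_Z_pos (B : GhB S) (hB : B.Ok) (z : S → ℝ) : 0 < ∑ s, B.w s * Real.exp (B.a * z s) := by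
  have h0 : ∀ s ∈ Finset.univ, 0 ≤ B.w s * Real.exp (B.a * z s) := fun s _ => mul_nonneg (hB.nonneg s) (Real.exp_pos _).le
  refine lt_of_le_of_ne (Finset.sum_nonneg h0) fun h => ?_
  have h1 := (Finset.sum_eq_zero_iff_of_nonneg h0).1 h.symm
  have h2 : ∑ s, B.w s = 0 := Finset.sum_eq_zero fun s hs => by
    have := h1 s hs
    rcases mul_eq_zero.1 this with h | h
    · exact h
    · exact absurd h (Real.exp_pos _).ne'
  rw [hB.sum] at h2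
  exact one_ne_zero h2

theorem cvp_Gw_nonneg (B : GhB S) (hB : B.Ok) (z : S → ℝ) (s : S) : 0 ≤ ghGw B z s :=
  div_nonneg (mul_nonneg (hB.nonneg s) (Real.exp_pos _).le) (cvp_Z_pos B hB z).le

theorem cvp_Gw_sum (B : GhB S) (hB : B.Ok) (z : S → ℝ) : ∑ s, ghGw B z s = 1 := by
  unfold ghGw
  rw [← Finset.sum_div]
  exact div_self (cvp_Z_pos B hB z).ne'

theorem cvp_Gw_le_one (B : GhB S) (hB : B.Ok) (z : S → ℝ) (s : S) : ghGw B z s ≤ 1 := by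
  rw [← cvp_Gw_sum B hB z]
  exact Finset.single_le_sum (f := fun s => ghGw B z s) (fun t _ => cvp_Gw_nonneg B hB z t) (Finset.mem_univ s)

theorem cvp_Z_hasFDerivAt (B : GhB S) (z : S → ℝ) :
    HasFDerivAt (fun z : S → ℝ => ∑ s, B.w s * Real.exp (B.a * z s))
      (∑ s, (B.w s * (Real.exp (B.a * z s) * B.a)) • (ContinuousLinearMap.proj s : (S → ℝ) →L[ℝ] ℝ)) z := by
  refine HasFDerivAt.fun_sum fun s _ => ?_
  have h1 : HasFDerivAt (fun z : S → ℝ => z s) (ContinuousLinearMap.proj s : (S → ℝ) →L[ℝ] ℝ) z :=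
    (ContinuousLinearMap.proj s : (S → ℝ) →L[ℝ] ℝ).hasFDerivAt
  have h2 := ((h1.const_mul B.a).exp).const_mul (B.w s)
  refine h2.congr_fderiv ?_
  ext v
  simp
  ring

theorem cvp_F0_hasFDerivAt (B : GhB S) (hB : B.Ok) (z : S → ℝ) :
    HasFDerivAt (ghF0 B) (∑ t, ghGw B z t • (ContinuousLinearMap.proj t : (S → ℝ) →L[ℝ] ℝ)) z := by
  have hZ := cvp_Z_pos B hB z
  have h3 := ((cvp_Z_hasFDerivAt B z).log hZ.ne').const_mul B.a⁻¹
  unfold ghF0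
  refine h3.congr_fderiv ?_
  rw [Finset.smul_sum, Finset.smul_sum]
  refine Finset.sum_congr rfl fun t _ => ?_
  rw [smul_smul, smul_smul, ghGw]
  congr 1
  have := hB.pos.ne'
  field_simp

theorem cvp_Gw_eq (B : GhB S) (hB : B.Ok) (z : S → ℝ) (s : S) :
    ghGw B z s = B.w s * Real.exp (B.a * z s - B.a * ghF0 B z) := by
  have hZ := cvp_Z_pos B hB z
  rw [ghGw, ghF0, ← mul_assoc, mul_inv_cancel₀ hB.pos.ne', one_mul, Real.exp_sub, Real.exp_log hZ]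
  ring

theorem cvp_Gw_hasFDerivAt (B : GhB S) (hB : B.Ok) (z : S → ℝ) (s : S) :
    HasFDerivAt (fun z : S → ℝ => ghGw B z s)
      (B.a • (ghGw B z s • ((ContinuousLinearMap.proj s : (S → ℝ) →L[ℝ] ℝ)
        - ∑ t, ghGw B z t • (ContinuousLinearMap.proj t : (S → ℝ) →L[ℝ] ℝ)))) z := by
  have h1 : HasFDerivAt (fun z : S → ℝ => z s) (ContinuousLinearMap.proj s : (S → ℝ) →L[ℝ] ℝ) z :=
    (ContinuousLinearMap.proj s : (S → ℝ) →L[ℝ] ℝ).hasFDerivAt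
  have h2 := (((h1.const_mul B.a).sub ((cvp_F0_hasFDerivAt B hB z).const_mul B.a)).exp).const_mul (B.w s)
  have he : (fun z : S → ℝ => ghGw B z s) = fun z => B.w s * Real.exp (B.a * z s - B.a * ghF0 B z) := by
    funext z; exact cvp_Gw_eq B hB z s
  rw [he]
  refine h2.congr_fderiv ?_
  rw [cvp_Gw_eq B hB z s, smul_smul, smul_smul, ← smul_sub, smul_smul]
  congr 1
  simp only [Pi.sub_apply]
  ring

theorem cvp_Gw_bReg (B : GhB S) (hB : B.Ok) (k : ℕ) : ∀ s, BRegN k (fun z : S → ℝ => ghGw B z s) := by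
  induction k with
  | zero =>
    intro s
    rw [bRegN_zero_iff]
    refine ⟨continuous_iff_continuousAt.2 fun z => (cvp_Gw_hasFDerivAt B hB z s).continuousAt, 1, fun z => ?_⟩
    rw [Real.norm_eq_abs, abs_of_nonneg (cvp_Gw_nonneg B hB z s)]
    exact cvp_Gw_le_one B hB z s
  | succ k ih =>
    intro s
    rw [bRegN_succ_iff]
    refine ⟨⟨1, fun z => ?_⟩, fun z => (cvp_Gw_hasFDerivAt B hB z s).differentiableAt, ?_⟩
    · rw [Real.norm_eq_abs, abs_of_nonneg (cvp_Gw_nonneg B hB z s)]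
      exact cvp_Gw_le_one B hB z s
    · have he : fderiv ℝ (fun z : S → ℝ => ghGw B z s) = fun z => B.a • (ghGw B z s • ((ContinuousLinearMap.proj s : (S → ℝ) →L[ℝ] ℝ)
        - ∑ t, ghGw B z t • (ContinuousLinearMap.proj t : (S → ℝ) →L[ℝ] ℝ))) := by
        funext z; exact (cvp_Gw_hasFDerivAt B hB z s).fderiv
      rw [he]
      refine BRegN.const_smul _ ((ih s).smul ((bRegN_const k _).sub ?_))
      exact cvp_bReg_sum _ k _ fun t _ => (ih t).smul (bRegN_const k _)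

theorem cvp_regF0 (B : GhB S) (hB : B.Ok) : RegF (ghF0 B) := by
  refine ⟨fun z => (cvp_F0_hasFDerivAt B hB z).differentiableAt, fun k => ?_⟩
  have he : fderiv ℝ (ghF0 B) = fun z => ∑ t, ghGw B z t • (ContinuousLinearMap.proj t : (S → ℝ) →L[ℝ] ℝ) := by
    funext z; exact (cvp_F0_hasFDerivAt B hB z).fderiv
  rw [he]
  exact cvp_bReg_sum _ k _ fun t _ => (cvp_Gw_bReg B hB k t).smul (bRegN_const k _)

end reg

section reg
variable {S ι : Type} [Fintype S] [Fintype ι]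

theorem cvp_F_cons (B : GhB S) (l : GhLv S ι) (ls : List (GhLv S ι)) :
    ghF B (l :: ls) = tstT (ghStd ι) l.inc l.m (ghF B ls) := by
  funext z
  rfl

theorem cvp_regF (B : GhB S) (hB : B.Ok) (ls : List (GhLv S ι)) : RegF (ghF B ls) := by
  induction ls with
  | nil => exact cvp_regF0 B hB
  | cons l ls ih =>
    rw [cvp_F_cons]
    exact tstT_regF (cvp_noise l) ih l.m

theorem cvp_F_cont (B : GhB S) (hB : B.Ok) (ls : List (GhLv S ι)) : Continuous (ghF B ls) :=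
  (cvp_regF B hB ls).1.continuous

theorem cvp_int_exp (B : GhB S) (hB : B.Ok) (l : GhLv S ι) (ls : List (GhLv S ι)) (m : ℝ) (z : S → ℝ) :
    Integrable (fun ξ => Real.exp (m * ghF B ls (z + l.inc ξ))) (ghStd ι) :=
  tstZ_integrable (cvp_noise l) (cvp_regF B hB ls) m z

theorem cvp_int_F (B : GhB S) (hB : B.Ok) (l : GhLv S ι) (ls : List (GhLv S ι)) (z : S → ℝ) :
    Integrable (fun ξ => ghF B ls (z + l.inc ξ)) (ghStd ι) :=
  (cvp_noise l).integrable (cvp_F_cont B hB ls) (cvp_regF B hB ls).expGr z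

theorem cvp_int_exp_pos (B : GhB S) (hB : B.Ok) (l : GhLv S ι) (ls : List (GhLv S ι)) (m : ℝ) (z : S → ℝ) :
    0 < ∫ ξ, Real.exp (m * ghF B ls (z + l.inc ξ)) ∂ghStd ι :=
  integral_exp_pos (cvp_int_exp B hB l ls m z)

theorem cvp_D_pos (B : GhB S) (l : GhLv S ι) (ls : List (GhLv S ι)) (z : S → ℝ) (ξ : ι → ℝ) : 0 < ghD B l ls z ξ :=
  Real.exp_pos _

theorem cvp_D_eq (B : GhB S) (hB : B.Ok) (l : GhLv S ι) (ls : List (GhLv S ι)) (z : S → ℝ) (ξ : ι → ℝ) :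
    ghD B l ls z ξ = Real.exp (l.m * ghF B ls (z + l.inc ξ)) / ∫ ξ, Real.exp (l.m * ghF B ls (z + l.inc ξ)) ∂ghStd ι := by
  have hZ := cvp_int_exp_pos B hB l ls l.m z
  rw [ghD, mul_sub, Real.exp_sub]
  congr 1
  by_cases hm : l.m = 0
  · simp [hm]
  · simp only [ghF, ghT, if_neg hm]
    rw [← mul_assoc, mul_inv_cancel₀ hm, one_mul, Real.exp_log hZ]

theorem cvp_D_integrable (B : GhB S) (hB : B.Ok) (l : GhLv S ι) (ls : List (GhLv S ι)) (z : S → ℝ) :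
    Integrable (ghD B l ls z) (ghStd ι) := by
  have : ghD B l ls z = fun ξ => Real.exp (l.m * ghF B ls (z + l.inc ξ)) / ∫ ξ, Real.exp (l.m * ghF B ls (z + l.inc ξ)) ∂ghStd ι := by
    funext ξ; exact cvp_D_eq B hB l ls z ξ
  rw [this]
  exact (cvp_int_exp B hB l ls l.m z).div_const _

theorem cvp_D_integral (B : GhB S) (hB : B.Ok) (l : GhLv S ι) (ls : List (GhLv S ι)) (z : S → ℝ) :
    ∫ ξ, ghD B l ls z ξ ∂ghStd ι = 1 := by
  have : ghD B l ls z = fun ξ => Real.exp (l.m * ghF B ls (z + l.inc ξ)) / ∫ ξ, Real.exp (l.m * ghF B ls (z + l.inc ξ)) ∂ghStd ι := by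
    funext ξ; exact cvp_D_eq B hB l ls z ξ
  rw [this, integral_div]
  exact div_self (cvp_int_exp_pos B hB l ls l.m z).ne'

end reg

section prod
variable {S₁ S₂ ι₁ ι₂ : Type}

/-- product base (terminal mass of the first factor) -/
def cvpB (B₁ : GhB S₁) (B₂ : GhB S₂) : GhB (S₁ × S₂) := ⟨fun s => B₁.w s.1 * B₂.w s.2, B₁.a⟩

/-- product level (mass of the first factor): independent drivers for the two factors -/
def cvpLv (l₁ : GhLv S₁ ι₁) (l₂ : GhLv S₂ ι₂) : GhLv (S₁ × S₂) (ι₁ ⊕ ι₂) :=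
  ⟨l₁.m, fun s => Sum.elim (l₁.A s.1) (l₂.A s.2)⟩

/-- product hierarchy -/
def cvpLs (ls₁ : List (GhLv S₁ ι₁)) (ls₂ : List (GhLv S₂ ι₂)) : List (GhLv (S₁ × S₂) (ι₁ ⊕ ι₂)) :=
  List.zipWith cvpLv ls₁ ls₂

/-- sum field -/
def cvpZ (z₁ : S₁ → ℝ) (z₂ : S₂ → ℝ) : S₁ × S₂ → ℝ := fun s => z₁ s.1 + z₂ s.2

/-- same masses -/
def CvpM (ls₁ : List (GhLv S₁ ι₁)) (ls₂ : List (GhLv S₂ ι₂)) : Prop := List.Forall₂ (fun l₁ l₂ => l₁.m = l₂.m) ls₁ ls₂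

variable [Fintype S₁] [Fintype S₂] [Fintype ι₁] [Fintype ι₂]

theorem cvpB_ok {B₁ : GhB S₁} {B₂ : GhB S₂} (h₁ : B₁.Ok) (h₂ : B₂.Ok) : (cvpB B₁ B₂).Ok := by
  refine ⟨fun s => mul_nonneg (h₁.nonneg _) (h₂.nonneg _), ?_, h₁.pos⟩
  simp only [cvpB]
  rw [Fintype.sum_prod_type]
  simp only [← Finset.mul_sum, h₂.sum, mul_one, h₁.sum]

theorem cvp_inc (l₁ : GhLv S₁ ι₁) (l₂ : GhLv S₂ ι₂) (ξ : ι₁ ⊕ ι₂ → ℝ) :
    (cvpLv l₁ l₂).inc ξ = cvpZ (l₁.inc fun i => ξ (Sum.inl i)) (l₂.inc fun i => ξ (Sum.inr i)) := by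
  funext s
  simp [GhLv.inc, cvpLv, cvpZ, Fintype.sum_sum_type]

theorem cvpZ_add (z₁ w₁ : S₁ → ℝ) (z₂ w₂ : S₂ → ℝ) : cvpZ z₁ z₂ + cvpZ w₁ w₂ = cvpZ (z₁ + w₁) (z₂ + w₂) := by
  funext s
  simp [cvpZ]; ring

theorem cvp_cov (l₁ : GhLv S₁ ι₁) (l₂ : GhLv S₂ ι₂) (s t : S₁ × S₂) :
    (cvpLv l₁ l₂).cov s t = l₁.cov s.1 t.1 + l₂.cov s.2 t.2 := by
  simp [GhLv.cov, cvpLv, Fintype.sum_sum_type]

/-- the standard Gaussian on a sum of index sets is a product -/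
theorem cvp_std_sum {E : Type*} [NormedAddCommGroup E] [NormedSpace ℝ E] (f : (ι₁ → ℝ) × (ι₂ → ℝ) → E) :
    ∫ ξ, f (fun i => ξ (Sum.inl i), fun i => ξ (Sum.inr i)) ∂ghStd (ι₁ ⊕ ι₂) = ∫ p, f p ∂(ghStd ι₁).prod (ghStd ι₂) := by
  have h := measurePreserving_sumPiEquivProdPi (X := fun _ : ι₁ ⊕ ι₂ => ℝ) (fun _ => gaussianReal 0 1)
  exact h.integral_comp' f

theorem cvp_Z_prod (B₁ : GhB S₁) (B₂ : GhB S₂) (ha : B₁.a = B₂.a) (z₁ : S₁ → ℝ) (z₂ : S₂ → ℝ) :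
    ∑ s, (cvpB B₁ B₂).w s * Real.exp ((cvpB B₁ B₂).a * cvpZ z₁ z₂ s)
      = (∑ s, B₁.w s * Real.exp (B₁.a * z₁ s)) * ∑ s, B₂.w s * Real.exp (B₂.a * z₂ s) := by
  rw [Fintype.sum_prod_type, Finset.sum_mul_sum]
  refine Finset.sum_congr rfl fun s _ => Finset.sum_congr rfl fun t _ => ?_
  simp only [cvpB, cvpZ, ← ha]
  rw [mul_add, Real.exp_add]; ring

theorem cvp_F0_prod {B₁ : GhB S₁} {B₂ : GhB S₂} (h₁ : B₁.Ok) (h₂ : B₂.Ok) (ha : B₁.a = B₂.a) (z₁ : S₁ → ℝ) (z₂ : S₂ → ℝ) :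
    ghF0 (cvpB B₁ B₂) (cvpZ z₁ z₂) = ghF0 B₁ z₁ + ghF0 B₂ z₂ := by
  unfold ghF0
  rw [cvp_Z_prod B₁ B₂ ha, Real.log_mul (cvp_Z_pos B₁ h₁ z₁).ne' (cvp_Z_pos B₂ h₂ z₂).ne', ← ha]
  simp only [cvpB]; ring

theorem cvp_Gw_prod (B₁ : GhB S₁) (B₂ : GhB S₂) (ha : B₁.a = B₂.a) (z₁ : S₁ → ℝ) (z₂ : S₂ → ℝ) (s : S₁ × S₂) :
    ghGw (cvpB B₁ B₂) (cvpZ z₁ z₂) s = ghGw B₁ z₁ s.1 * ghGw B₂ z₂ s.2 := by
  unfold ghGw
  rw [cvp_Z_prod B₁ B₂ ha, div_mul_div_comm]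
  congr 1
  simp only [cvpB, cvpZ, ← ha]
  rw [mul_add, Real.exp_add]; ring

/-- **additivity of the continuation** of a product hierarchy -/
theorem cvp_F_prod {B₁ : GhB S₁} {B₂ : GhB S₂} (h₁ : B₁.Ok) (h₂ : B₂.Ok) (ha : B₁.a = B₂.a)
    {ls₁ : List (GhLv S₁ ι₁)} {ls₂ : List (GhLv S₂ ι₂)} (hm : CvpM ls₁ ls₂) (z₁ : S₁ → ℝ) (z₂ : S₂ → ℝ) :
    ghF (cvpB B₁ B₂) (cvpLs ls₁ ls₂) (cvpZ z₁ z₂) = ghF B₁ ls₁ z₁ + ghF B₂ ls₂ z₂ := by
  induction hm generalizing z₁ z₂ with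
  | nil => exact cvp_F0_prod h₁ h₂ ha z₁ z₂
  | @cons l₁ l₂ ls₁ ls₂ hl _ ih =>
    have hstep : ∀ ξ : ι₁ ⊕ ι₂ → ℝ, ghF (cvpB B₁ B₂) (cvpLs ls₁ ls₂) (cvpZ z₁ z₂ + (cvpLv l₁ l₂).inc ξ)
        = ghF B₁ ls₁ (z₁ + l₁.inc fun i => ξ (Sum.inl i)) + ghF B₂ ls₂ (z₂ + l₂.inc fun i => ξ (Sum.inr i)) := by
      intro ξ
      rw [cvp_inc, cvpZ_add, ih]
    have hc : cvpLs (l₁ :: ls₁) (l₂ :: ls₂) = cvpLv l₁ l₂ :: cvpLs ls₁ ls₂ := rfl
    rw [hc]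
    simp only [ghF, ghT, hstep]
    have hm1 : (cvpLv l₁ l₂).m = l₁.m := rfl
    rw [hm1, ← hl]
    by_cases hm0 : l₁.m = 0
    · simp only [if_pos hm0]
      rw [cvp_std_sum (fun p : (ι₁ → ℝ) × (ι₂ → ℝ) => ghF B₁ ls₁ (z₁ + l₁.inc p.1) + ghF B₂ ls₂ (z₂ + l₂.inc p.2))]
      rw [integral_add ((cvp_int_F B₁ h₁ l₁ ls₁ z₁).comp_fst _) ((cvp_int_F B₂ h₂ l₂ ls₂ z₂).comp_snd _)]
      rw [integral_fun_fst (fun x => ghF B₁ ls₁ (z₁ + l₁.inc x)), integral_fun_snd (fun x => ghF B₂ ls₂ (z₂ + l₂.inc x))]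
      simp
    · simp only [if_neg hm0]
      rw [cvp_std_sum (fun p : (ι₁ → ℝ) × (ι₂ → ℝ) => Real.exp (l₁.m * (ghF B₁ ls₁ (z₁ + l₁.inc p.1) + ghF B₂ ls₂ (z₂ + l₂.inc p.2))))]
      simp only [mul_add, Real.exp_add]
      rw [integral_prod_mul (fun x => Real.exp (l₁.m * ghF B₁ ls₁ (z₁ + l₁.inc x))) (fun x => Real.exp (l₁.m * ghF B₂ ls₂ (z₂ + l₂.inc x)))]
      rw [Real.log_mul (cvp_int_exp_pos B₁ h₁ l₁ ls₁ l₁.m z₁).ne' (cvp_int_exp_pos B₂ h₂ l₂ ls₂ l₁.m z₂).ne']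
      ring

/-- the transition density of a product hierarchy is a product -/
theorem cvp_D_prod {B₁ : GhB S₁} {B₂ : GhB S₂} (h₁ : B₁.Ok) (h₂ : B₂.Ok) (ha : B₁.a = B₂.a)
    {l₁ : GhLv S₁ ι₁} {l₂ : GhLv S₂ ι₂} (hl : l₁.m = l₂.m)
    {ls₁ : List (GhLv S₁ ι₁)} {ls₂ : List (GhLv S₂ ι₂)} (hm : CvpM ls₁ ls₂) (z₁ : S₁ → ℝ) (z₂ : S₂ → ℝ) (ξ : ι₁ ⊕ ι₂ → ℝ) :
    ghD (cvpB B₁ B₂) (cvpLv l₁ l₂) (cvpLs ls₁ ls₂) (cvpZ z₁ z₂) ξ
      = ghD B₁ l₁ ls₁ z₁ (fun i => ξ (Sum.inl i)) * ghD B₂ l₂ ls₂ z₂ (fun i => ξ (Sum.inr i)) := by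
  have hc : cvpLv l₁ l₂ :: cvpLs ls₁ ls₂ = cvpLs (l₁ :: ls₁) (l₂ :: ls₂) := rfl
  unfold ghD
  rw [hc, cvp_F_prod h₁ h₂ ha (List.Forall₂.cons hl hm), cvp_inc, cvpZ_add, cvp_F_prod h₁ h₂ ha hm, ← Real.exp_add, ← hl]
  congr 1
  have hm1 : (cvpLv l₁ l₂).m = l₁.m := rfl
  rw [hm1]; ring

end prod

section prod
variable {S₁ S₂ ι₁ ι₂ : Type} [Fintype S₁] [Fintype S₂] [Fintype ι₁] [Fintype ι₂]

theorem cvp_pi_sum {E : Type*} [NormedAddCommGroup E] [NormedSpace ℝ E] {q : ℕ}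
    (f : (Fin q → ι₁ → ℝ) × (Fin q → ι₂ → ℝ) → E) :
    ∫ W, f (fun a i => W a (Sum.inl i), fun a i => W a (Sum.inr i)) ∂(Measure.pi fun _ : Fin q => ghStd (ι₁ ⊕ ι₂))
      = ∫ p, f p ∂((Measure.pi fun _ : Fin q => ghStd ι₁).prod (Measure.pi fun _ : Fin q => ghStd ι₂)) := by
  have h0 := measurePreserving_sumPiEquivProdPi (X := fun _ : ι₁ ⊕ ι₂ => ℝ) (fun _ => gaussianReal 0 1)
  have h1 : MeasurePreserving (MeasurableEquiv.piCongrRight fun _ : Fin q => MeasurableEquiv.sumPiEquivProdPi (fun _ : ι₁ ⊕ ι₂ => ℝ))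
      (Measure.pi fun _ : Fin q => ghStd (ι₁ ⊕ ι₂)) (Measure.pi fun _ : Fin q => (ghStd ι₁).prod (ghStd ι₂)) :=
    measurePreserving_pi (fun _ : Fin q => ghStd (ι₁ ⊕ ι₂)) (fun _ : Fin q => (ghStd ι₁).prod (ghStd ι₂)) (fun _ => h0)
  have h2 := measurePreserving_arrowProdEquivProdArrow (ι₁ → ℝ) (ι₂ → ℝ) (Fin q) (fun _ => ghStd ι₁) (fun _ => ghStd ι₂)
  have h3 := h1.trans h2
  exact h3.integral_comp' (f := (MeasurableEquiv.piCongrRight fun _ : Fin q => MeasurableEquiv.sumPiEquivProdPi (fun _ : ι₁ ⊕ ι₂ => ℝ)).trans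
    (MeasurableEquiv.arrowProdEquivProdArrow (ι₁ → ℝ) (ι₂ → ℝ) (Fin q))) f

theorem cvp_DT_prod {B₁ : GhB S₁} {B₂ : GhB S₂} (h₁ : B₁.Ok) (h₂ : B₂.Ok) (ha : B₁.a = B₂.a)
    {l₁ : GhLv S₁ ι₁} {l₂ : GhLv S₂ ι₂} (hl : l₁.m = l₂.m)
    {ls₁ : List (GhLv S₁ ι₁)} {ls₂ : List (GhLv S₂ ι₂)} (hm : CvpM ls₁ ls₂) {q : ℕ} (r : Fin q → Fin q)
    (G₁ : Fin q → S₁ → ℝ) (G₂ : Fin q → S₂ → ℝ) (W : Fin q → ι₁ ⊕ ι₂ → ℝ) :
    ghDT (cvpB B₁ B₂) (cvpLv l₁ l₂) (cvpLs ls₁ ls₂) r (fun a => cvpZ (G₁ a) (G₂ a)) W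
      = ghDT B₁ l₁ ls₁ r G₁ (fun a i => W a (Sum.inl i)) * ghDT B₂ l₂ ls₂ r G₂ (fun a i => W a (Sum.inr i)) := by
  unfold ghDT
  rw [← Finset.prod_mul_distrib]
  refine Finset.prod_congr rfl fun a _ => ?_
  by_cases h : r a = a
  · simp only [if_pos h]
    exact cvp_D_prod h₁ h₂ ha hl hm _ _ _
  · simp only [if_neg h, mul_one]

theorem cvp_cons_inl {q : ℕ} (x : Fin q → ι₁ ⊕ ι₂ → ℝ) (η : ℕ → Fin q → ι₁ ⊕ ι₂ → ℝ) :
    (fun t a i => ghCons x η t a (Sum.inl i)) = ghCons (fun a i => x a (Sum.inl i)) (fun t a i => η t a (Sum.inl i)) := by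
  funext t
  cases t <;> rfl

theorem cvp_cons_inr {q : ℕ} (x : Fin q → ι₁ ⊕ ι₂ → ℝ) (η : ℕ → Fin q → ι₁ ⊕ ι₂ → ℝ) :
    (fun t a i => ghCons x η t a (Sum.inr i)) = ghCons (fun a i => x a (Sum.inr i)) (fun t a i => η t a (Sum.inr i)) := by
  funext t
  cases t <;> rfl

/-- **factorisation of the tree law** of a product hierarchy on product tests -/
theorem cvp_nu_prod {B₁ : GhB S₁} {B₂ : GhB S₂} (h₁ : B₁.Ok) (h₂ : B₂.Ok) (ha : B₁.a = B₂.a)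
    {ls₁ : List (GhLv S₁ ι₁)} {ls₂ : List (GhLv S₂ ι₂)} (hm : CvpM ls₁ ls₂) {q : ℕ} (rep : ℕ → Fin q → Fin q)
    (G₁ : Fin q → S₁ → ℝ) (G₂ : Fin q → S₂ → ℝ)
    (P₁ : (ℕ → Fin q → ι₁ → ℝ) → (Fin q → S₁) → ℝ) (P₂ : (ℕ → Fin q → ι₂ → ℝ) → (Fin q → S₂) → ℝ) :
    ghNu (cvpB B₁ B₂) (cvpLs ls₁ ls₂) rep (fun a => cvpZ (G₁ a) (G₂ a))
        (fun η σ => P₁ (fun t a i => η t a (Sum.inl i)) (fun a => (σ a).1) * P₂ (fun t a i => η t a (Sum.inr i)) (fun a => (σ a).2))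
      = ghNu B₁ ls₁ rep G₁ P₁ * ghNu B₂ ls₂ rep G₂ P₂ := by
  induction hm generalizing rep G₁ G₂ P₁ P₂ with
  | nil =>
    have hc : cvpLs ([] : List (GhLv S₁ ι₁)) ([] : List (GhLv S₂ ι₂)) = [] := rfl
    rw [hc]
    simp only [ghNu]
    rw [← (Equiv.arrowProdEquivProdArrow (Fin q) (fun _ => S₁) (fun _ => S₂)).symm.sum_comp, Fintype.sum_prod_type, Finset.sum_mul_sum]
    refine Finset.sum_congr rfl fun σ₁ _ => Finset.sum_congr rfl fun σ₂ _ => ?_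
    simp only [Equiv.arrowProdEquivProdArrow, Equiv.coe_fn_symm_mk, cvp_Gw_prod B₁ B₂ ha, Finset.prod_mul_distrib]
    ring
  | @cons l₁ l₂ ls₁ ls₂ hl hm ih =>
    have hc : cvpLs (l₁ :: ls₁) (l₂ :: ls₂) = cvpLv l₁ l₂ :: cvpLs ls₁ ls₂ := rfl
    rw [hc]
    simp only [ghNu]
    have hstep : ∀ W : Fin q → ι₁ ⊕ ι₂ → ℝ,
        ghDT (cvpB B₁ B₂) (cvpLv l₁ l₂) (cvpLs ls₁ ls₂) (rep 0) (fun a => cvpZ (G₁ a) (G₂ a)) W *
          ghNu (cvpB B₁ B₂) (cvpLs ls₁ ls₂) (fun t => rep (t + 1)) (fun a => cvpZ (G₁ a) (G₂ a) + (cvpLv l₁ l₂).inc (W (rep 0 a)))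
            (fun η σ => P₁ (fun t a i => ghCons (fun a => W (rep 0 a)) η t a (Sum.inl i)) (fun a => (σ a).1) *
              P₂ (fun t a i => ghCons (fun a => W (rep 0 a)) η t a (Sum.inr i)) (fun a => (σ a).2))
        = (ghDT B₁ l₁ ls₁ (rep 0) G₁ (fun a i => W a (Sum.inl i)) *
            ghNu B₁ ls₁ (fun t => rep (t + 1)) (fun a => G₁ a + l₁.inc (fun i => W (rep 0 a) (Sum.inl i)))
              (fun η σ => P₁ (ghCons (fun a i => W (rep 0 a) (Sum.inl i)) η) σ)) *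
          (ghDT B₂ l₂ ls₂ (rep 0) G₂ (fun a i => W a (Sum.inr i)) *
            ghNu B₂ ls₂ (fun t => rep (t + 1)) (fun a => G₂ a + l₂.inc (fun i => W (rep 0 a) (Sum.inr i)))
              (fun η σ => P₂ (ghCons (fun a i => W (rep 0 a) (Sum.inr i)) η) σ)) := by
      intro W
      rw [cvp_DT_prod h₁ h₂ ha hl hm]
      simp only [cvp_inc, cvpZ_add, cvp_cons_inl, cvp_cons_inr]
      rw [ih (fun t => rep (t + 1)) (fun a => G₁ a + l₁.inc (fun i => W (rep 0 a) (Sum.inl i)))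
        (fun a => G₂ a + l₂.inc (fun i => W (rep 0 a) (Sum.inr i)))
        (fun η σ => P₁ (ghCons (fun a i => W (rep 0 a) (Sum.inl i)) η) σ)
        (fun η σ => P₂ (ghCons (fun a i => W (rep 0 a) (Sum.inr i)) η) σ)]
      ring
    simp only [hstep]
    rw [cvp_pi_sum (fun p : (Fin q → ι₁ → ℝ) × (Fin q → ι₂ → ℝ) =>
      (ghDT B₁ l₁ ls₁ (rep 0) G₁ p.1 *
            ghNu B₁ ls₁ (fun t => rep (t + 1)) (fun a => G₁ a + l₁.inc (p.1 (rep 0 a)))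
              (fun η σ => P₁ (ghCons (fun a => p.1 (rep 0 a)) η) σ)) *
          (ghDT B₂ l₂ ls₂ (rep 0) G₂ p.2 *
            ghNu B₂ ls₂ (fun t => rep (t + 1)) (fun a => G₂ a + l₂.inc (p.2 (rep 0 a)))
              (fun η σ => P₂ (ghCons (fun a => p.2 (rep 0 a)) η) σ)))]
    exact integral_prod_mul (L := ℝ) (fun p₁ : Fin q → ι₁ → ℝ => ghDT B₁ l₁ ls₁ (rep 0) G₁ p₁ *
            ghNu B₁ ls₁ (fun t => rep (t + 1)) (fun a => G₁ a + l₁.inc (p₁ (rep 0 a)))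
              (fun η σ => P₁ (ghCons (fun a => p₁ (rep 0 a)) η) σ))
      (fun p₂ : Fin q → ι₂ → ℝ => ghDT B₂ l₂ ls₂ (rep 0) G₂ p₂ *
            ghNu B₂ ls₂ (fun t => rep (t + 1)) (fun a => G₂ a + l₂.inc (p₂ (rep 0 a)))
              (fun η σ => P₂ (ghCons (fun a => p₂ (rep 0 a)) η) σ))

end prod

theorem cvp_eqns_cite : True := by
  have := @cvpB.eq_1
  have := @cvpLv.eq_1
  have := @cvpLs.eq_1
  have := @cvpZ.eq_1
  have := @CvpM.eq_1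
  trivial

end Claimed.Agent.R286
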