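import Claimed.Agent.R286.Cav.RepCut

/-!
# Row 286 (S0533), folder Cav (PE Section 4), file RepAn : unit REP (PE Lemma 4.8), analytic leaves R1-R6, replacement (i)      (architect helper185; PROVER helper232, in place)
-/

set_option autoImplicit false

namespace Claimed.Agent.R286

open MeasureTheory ProbabilityTheory

section
variable {n : ℕ} {ι : Type} [Fintype ι]

/-- the masses `cvrV` are nonnegative -/
theorem cvr_V_nonneg {B : GhB (SkCfg n)} (hB : B.Ok) {ls : List (GhLv (SkCfg n) ι)} (hls : GhAdm B 0 ls) (j : ℕ) :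
    0 ≤ cvrV B ls j := by
  unfold cvrV trPm
  split_ifs
  · exact le_rfl
  · exact (tr_ms_isMs hB hls).1.nonneg _

/-- Hoelder for a product over a list -/
theorem cvr_list_prod {Ω α : Type} {ν : CvExp Ω} (es : List α) (k : ℕ) (f : α → Ω → ℝ) (c : α → ℝ)
    (h : ∀ e ∈ es, CvLe ν (k * es.length) (f e) (c e)) :
    CvLe ν k (fun ω => (es.map fun e => f e ω).prod) (es.map c).prod := by
  have h1 := CvLe.prod (ν := ν) (Finset.univ : Finset (Fin es.length)) k (fun i => f es[i.1]) (fun i => c es[i.1])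
    (fun i _ => by
      rw [Finset.card_univ, Fintype.card_fin]
      exact h _ (List.getElem_mem i.2))
  have e1 : (fun ω => ∏ i : Fin es.length, f es[i.1] ω) = fun ω => (es.map fun e => f e ω).prod := by
    funext ω
    exact Fin.prod_univ_fun_getElem es fun e => f e ω
  rw [e1, Fin.prod_univ_fun_getElem es c] at h1
  exact h1

/-- norm of a monomial on ANY table `τ'` whose edges split at `*` or `i`: `CvLe.prod` + `CvLe.mono_exp` + `tr_nu_pair` + raw moments.  `m` bounds the number of edges.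
(In the applications the centres come from the old table `τ`, which agrees with `τ'` on the edges, also after `a ↦ c`.)  LEAF R1 -/
theorem cvr_mon_norm {B : GhB (SkCfg n)} {ls : List (GhLv (SkCfg n) ι)} {tI tS tU : ℕ} {W x A lg : ℝ} {Cr Ca : ℕ → ℝ} {kM : ℕ}
    (hin : CvrIn B ls tI tS tU W x A lg Cr Ca kM) {q' : ℕ} {τ' : ℕ → ℕ → ℕ} (hτ' : IsTr ls.length q' τ') (es : List (ℕ × ℕ))
    (hes : ∀ e ∈ es, e.1 < q' ∧ e.2 < q' ∧ e.1 ≠ e.2 ∧ (τ' e.1 e.2 = tS ∨ τ' e.1 e.2 = tI)) (k m : ℕ) (hm : es.length ≤ m) (hkM : k * m ≤ kM) :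
    CvLe (cvpE hin.okB hin.adm q' τ' 0) k (cvrMon (cvrS B ls) τ' es) ((Cr (k * m)) ^ es.length * cvrSc τ' tS W x es) := by
  have hW : 0 ≤ W := hin.x_pos.le.trans hin.x_le
  have h1 : ∀ e ∈ es, CvLe (cvpE hin.okB hin.adm q' τ' 0) (k * es.length) (fun σ => cvrDl (cvrS B ls) τ' e.1 e.2 σ)
      (Cr (k * m) * if τ' e.1 e.2 = tS then W else x) := by
    intro e he
    obtain ⟨g1, g2, g3, g4⟩ := hes e he
    refine CvLe.mono_exp (Nat.mul_le_mul_left k hm) ?_
    have e0 : (cvpE hin.okB hin.adm q' τ' 0).E (fun σ => cvrDl (cvrS B ls) τ' e.1 e.2 σ ^ (2 * (k * m)))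
        = cvrC B ls (τ' e.1 e.2) (k * m) := by
      rw [sk_cvpl_nu_E]
      exact tr_nu_pair hin.okB hin.adm hτ' 0 g1 g2 g3 fun s s' => (skOv s s' - cvrS B ls (τ' e.1 e.2)) ^ (2 * (k * m))
    by_cases hS : τ' e.1 e.2 = tS
    · rw [if_pos hS]
      refine ⟨mul_nonneg (hin.Cr_nonneg _) hW, ?_⟩
      rw [e0, hS]
      exact hin.cen_star _ hkM
    · rw [if_neg hS]
      have hI : τ' e.1 e.2 = tI := g4.resolve_left hS
      refine ⟨mul_nonneg (hin.Cr_nonneg _) hin.x_pos.le, ?_⟩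
      rw [e0, hI]
      exact hin.cen_ini _ hkM
  have h2 := cvr_list_prod es k (fun e σ => cvrDl (cvrS B ls) τ' e.1 e.2 σ)
    (fun e => Cr (k * m) * if τ' e.1 e.2 = tS then W else x) h1
  have e2 : (es.map fun e => Cr (k * m) * if τ' e.1 e.2 = tS then W else x).prod
      = (Cr (k * m)) ^ es.length * cvrSc τ' tS W x es := by
    unfold cvrSc
    clear h1 h2 hes hm
    induction es with
    | nil => simp
    | cons e es ih =>
      simp only [List.map_cons, List.prod_cons, List.length_cons, pow_succ]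
      rw [ih]
      ring
  rw [e2] at h2
  exact h2

/-- the copies of the leaves outside `E` are folded onto the originals -/
def cvrFold (q : ℕ) (E : ℕ → Prop) [DecidablePred E] (x : ℕ) : ℕ := if E (x % q) then x else x % q

theorem cvr_fold_eqns_cite : True := by
  have := @cvrFold.eq_1
  trivial

theorem cvr_fold_dup (q : ℕ) (τ : ℕ → ℕ → ℕ) (t : ℕ) (E : ℕ → Prop) [DecidablePred E] (hq : 0 < q) (x y : ℕ) :
    trDupK q τ t E (cvrFold q E x) (cvrFold q E y) = trDupK q τ t E x y := by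
  have h0 : ∀ u : ℕ, u % q / q = 0 := fun u => Nat.div_eq_of_lt (Nat.mod_lt _ hq)
  unfold trDupK cvrFold
  by_cases hx : E (x % q) <;> by_cases hy : E (y % q)
  · simp only [hx, hy, if_true]
  · simp only [hx, hy, if_true, if_false, Nat.mod_mod, and_false, ite_self]
  · simp only [hx, hy, if_true, if_false, Nat.mod_mod, false_and, ite_self]
  · simp only [hx, hy, if_false, Nat.mod_mod, h0, if_true, and_self, ite_self]

theorem cvr_fold_in (q : ℕ) (E : ℕ → Prop) [DecidablePred E] {b : ℕ} (hb : b < q) (hE : E b) (i : ℕ) :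
    cvrFold q E (b + i * q) = b + i * q := by
  unfold cvrFold
  rw [Nat.add_mul_mod_self_right, Nat.mod_eq_of_lt hb, if_pos hE]

theorem cvr_fold_out (q : ℕ) (E : ℕ → Prop) [DecidablePred E] {b : ℕ} (hb : b < q) (hE : ¬ E b) (i : ℕ) :
    cvrFold q E (b + i * q) = b := by
  unfold cvrFold
  rw [Nat.add_mul_mod_self_right, Nat.mod_eq_of_lt hb, if_neg hE]

/-- under the law of the tree of copies, the copies of a leaf outside `E` may be read on the original -/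
theorem cvr_dup_fold {S κ : Type} [Fintype S] [Fintype κ] [Inhabited S] {B : GhB S} (hB : B.Ok) {ls : List (GhLv S κ)} (hls : GhAdm B 0 ls) {q : ℕ} {τ : ℕ → ℕ → ℕ}
    (hτ : IsTr ls.length q τ) (z : S → ℝ) {t : ℕ} (E : ℕ → Prop) [DecidablePred E]
    (hE : ∀ x y, x < q → y < q → E x → ¬ E y → τ x y ≤ t) (p : ℕ) (P : (ℕ → S) → ℝ) (hP : TrUses (p * q) P) :
    trNu B ls (p * q) (trDupK q τ t E) z P
      = trNu B ls (p * q) (trDupK q τ t E) z fun σ => P fun x => σ (cvrFold q E x) := by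
  have hf : ∀ x, x < p * q → cvrFold q E x < p * q := by
    intro x hx
    unfold cvrFold
    split_ifs
    · exact hx
    · exact lt_of_le_of_lt (Nat.mod_le _ _) hx
  rw [tr_nu_comap hB hls (tr_dupK_isTr hτ E hE p) z (cvrFold q E) hf P hP]
  refine tr_nu_congr B ls (fun x y hx _ => ?_) z P
  have hq : 0 < q := by
    rcases Nat.eq_zero_or_pos q with h | h
    · subst h; simp at hx
    · exact h
  exact (cvr_fold_dup q τ t E hq x y).symm

/-- a product of shifted tests uses the labels of the copies only -/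
theorem cvr_sh_uses {S : Type} {q : ℕ} {g : (ℕ → S) → ℝ} (hg : TrUses q g) (p : ℕ) :
    TrUses (p * q) fun σ => ∏ i ∈ Finset.range p, trSh q i g σ := by
  intro σ σ' h
  refine Finset.prod_congr rfl fun i hi => ?_
  refine hg _ _ fun b hb => h _ ?_
  have hi' : i + 1 ≤ p := Finset.mem_range.1 hi
  calc b + i * q < q + i * q := by omega
    _ = (i + 1) * q := by ring
    _ ≤ p * q := Nat.mul_le_mul_right q hi'

/-- no leaf is copied: the number of `p` copies is the moment of order `p` -/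
theorem cvr_dup_empty {S κ : Type} [Fintype S] [Fintype κ] [Inhabited S] {B : GhB S} (hB : B.Ok) {ls : List (GhLv S κ)} (hls : GhAdm B 0 ls) {q : ℕ} {τ : ℕ → ℕ → ℕ}
    (hτ : IsTr ls.length q τ) (z : S → ℝ) (t : ℕ) {p : ℕ} (hp : 0 < p) (g : (ℕ → S) → ℝ) (hg : TrUses q g) :
    (trNu B ls (p * q) (trDupK q τ t fun _ => False) z fun σ => ∏ i ∈ Finset.range p, trSh q i g σ)
      = trNu B ls q τ z fun σ => g σ ^ p := by
  have hE : ∀ x y, x < q → y < q → (fun _ : ℕ => False) x → ¬ (fun _ : ℕ => False) y → τ x y ≤ t := fun _ _ _ _ h _ => h.elim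
  rw [cvr_dup_fold hB hls hτ z (fun _ => False) hE p _ (cvr_sh_uses hg p)]
  have e1 : (fun σ : ℕ → S => ∏ i ∈ Finset.range p, trSh q i g fun x => σ (cvrFold q (fun _ => False) x))
      = trSh q 0 fun σ => g σ ^ p := by
    funext σ
    have : ∀ i ∈ Finset.range p, trSh q i g (fun x => σ (cvrFold q (fun _ => False) x)) = g fun b => σ (b + 0 * q) := by
      intro i _
      refine hg _ _ fun b hb => ?_
      show σ (cvrFold q (fun _ => False) (b + i * q)) = σ (b + 0 * q)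
      rw [cvr_fold_out q (fun _ => False) hb (fun h => h) i, zero_mul, add_zero]
    rw [Finset.prod_congr rfl this, Finset.prod_const, Finset.card_range]
    rfl
  rw [e1]
  exact tr_dupK_marg hB hls hτ z (fun _ => False) hE hp (fun σ => g σ ^ p) fun σ σ' h => by show g σ ^ p = g σ' ^ p; rw [hg σ σ' h]

theorem cvr_ip_smul (h : ℝ) (ξ ξ' : Fin n → ℝ) : cvrIp (fun i => h * ξ i) ξ' = h * cvrIp ξ ξ' := by
  unfold cvrIp
  rw [← mul_div_assoc, Finset.mul_sum]
  congr 1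
  exact Finset.sum_congr rfl fun i _ => by ring

/-- **four copies of a projected difference**: `E[(E[(R_ao - R_co) H | fields at *, leaves outside E])⁴] ≤ c_j⁴ ‖H‖₈⁴ (C W)²` -/
theorem cvr_proj4 {B : GhB (SkCfg n)} {ls : List (GhLv (SkCfg n) ι)} {tI tS tU : ℕ} {W x A lg : ℝ} {Cr Ca : ℕ → ℝ} {kM : ℕ}
    (hin : CvrIn B ls tI tS tU W x A lg Cr Ca kM) (hkM : 2 ≤ kM) {q' : ℕ} {τ' : ℕ → ℕ → ℕ} (hτ' : IsTr ls.length q' τ') {a c o j : ℕ}
    (ha : a < q') (hc : c < q') (ho : o < q') (hac : τ' a c = j) (hj : tU ≤ j) (hjN : j ≤ ls.length)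
    (E : ℕ → Prop) [DecidablePred E] (hEo : E o) (hEa : ¬ E a) (hEc : ¬ E c)
    (hE : ∀ u v, u < q' → v < q' → E u → ¬ E v → τ' u v ≤ tS)
    (H : (ℕ → SkCfg n) → ℝ) (hHu : TrUses q' H) (hH : TrFree (fun b => ¬ E b) H)
    {cH : ℝ} (hcH : CvLe (cvpE hin.okB hin.adm q' τ' 0) 4 H cH) :
    (trNu B ls (4 * q') (trDupK q' τ' tS E) 0 fun σ =>
        ∏ i ∈ Finset.range 4, trSh q' i (fun σ => (skOv (σ a) (σ o) - skOv (σ c) (σ o)) * H σ) σ)
      ≤ (Ca 2 * A / cvrV B ls j) ^ 4 * (cH ^ 4 * (Cr 2 * W) ^ 2) := by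
  obtain ⟨-, hSU, hUN⟩ := hin.ord
  have hcst : 0 ≤ Ca 2 * A / cvrV B ls j :=
    div_nonneg (mul_nonneg (hin.Ca_nonneg 2) hin.A_nonneg) (cvr_V_nonneg hin.okB hin.adm j)
  have hW : 0 ≤ W := hin.x_pos.le.trans hin.x_le
  set g : (ℕ → SkCfg n) → ℝ := fun σ => (skOv (σ a) (σ o) - skOv (σ c) (σ o)) * H σ with hg
  set w : (ℕ → SkCfg n) → Fin n → ℝ := fun σ i => H σ * skSp (σ o) i with hw
  have hgu : TrUses q' g := by
    intro σ σ' h
    simp only [hg]
    rw [h a ha, h o ho, h c hc, hHu σ σ' h]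
  rw [cvr_dup_fold hin.okB hin.adm hτ' 0 E hE 4 _ (cvr_sh_uses hgu 4)]
  have e1 : (fun σ : ℕ → SkCfg n => ∏ i ∈ Finset.range 4, trSh q' i g fun x => σ (cvrFold q' E x))
      = fun σ => ∏ i ∈ Finset.range (2 * 2), cvrIp (trSh q' i w σ) (skSp (σ a) - skSp (σ c)) := by
    funext σ
    refine Finset.prod_congr rfl fun i _ => ?_
    have hH1 : H (fun b => σ (cvrFold q' E (b + i * q'))) = H fun b => σ (b + i * q') := by
      have s1 : H (fun b => σ (cvrFold q' E (b + i * q')))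
          = H fun b => if b < q' then σ (cvrFold q' E (b + i * q')) else σ (b + i * q') :=
        hHu _ _ fun b hb => by rw [if_pos hb]
      rw [s1]
      refine hH _ _ fun b hb => ?_
      have hb' : E b := not_not.1 hb
      split_ifs with hbq
      · rw [cvr_fold_in q' E hbq hb' i]
      · rfl
    show (skOv (σ (cvrFold q' E (a + i * q'))) (σ (cvrFold q' E (o + i * q')))
        - skOv (σ (cvrFold q' E (c + i * q'))) (σ (cvrFold q' E (o + i * q')))) * H (fun b => σ (cvrFold q' E (b + i * q')))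
      = cvrIp (fun l => H (fun b => σ (b + i * q')) * skSp (σ (o + i * q')) l) (skSp (σ a) - skSp (σ c))
    rw [hH1, cvr_fold_out q' E ha hEa i, cvr_fold_out q' E hc hEc i, cvr_fold_in q' E ho hEo i, cvr_ip_smul, cvrIp_sub,
      cvrIp_comm _ (skSp (σ a)), cvrIp_comm _ (skSp (σ c)), ← cvr_ov_eq_ip, ← cvr_ov_eq_ip]
    ring
  rw [e1]
  have hwu : ∀ σ σ' : ℕ → SkCfg n, (∀ i, i < q' → σ i = σ' i) → w σ = w σ' := by
    intro σ σ' h
    simp only [hw]
    rw [hHu σ σ' h, h o ho]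
  have hwf : TrFree (fun b => ¬ E b) w := by
    intro σ σ' h
    simp only [hw]
    rw [hH σ σ' h, h o (not_not.2 hEo)]
  have k1 := cvr_anchor_rep hin.okB hin.adm hτ' 0 ha hc hac (by omega : tS < j) hcst (hin.anchor 2 j hkM hj hjN) E hEa hEc hE w hwu hwf
  have k2 := cvr_anchor_size hin.okB hin.adm hτ' (by omega : tS ≤ ls.length) ho (by norm_num : 0 < 2) E hEo hE H hHu
    (cH := cH) (cR := Cr 2 * W) hcH (mul_nonneg (hin.Cr_nonneg 2) hW) (hin.raw_star 2 hkM)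
  exact k1.trans (mul_le_mul_of_nonneg_left k2 (pow_nonneg hcst _))

/-- fourth roots -/
theorem cvr_abs_le_of_pow4 {u v : ℝ} (hv : 0 ≤ v) (h : u ^ 4 ≤ v ^ 4) : |u| ≤ v := by
  have h1 : |u| ^ 4 ≤ v ^ 4 := by
    rw [pow_abs, abs_of_nonneg (by positivity : (0:ℝ) ≤ u ^ 4)]
    exact h
  exact (pow_le_pow_iff_left₀ (abs_nonneg u) hv (by norm_num)).1 h1

/-- **the doubly projected pairing** (PE l.741-830).  `a, c` share `j ≥ tU` stages; `θ` is a leaf seen by no other factor; `E` = the exterior leaves seen by `H`, `y ∈ E`;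
`Z` = all the other factors.   `tr_cut_holder` at the cut `*`, `cvr_anchor_rep` twice, `cvr_anchor_size` twice (`k = 2`).  LEAF R2 -/
theorem cvr_pair_bound {B : GhB (SkCfg n)} {ls : List (GhLv (SkCfg n) ι)} {tI tS tU : ℕ} {W x A lg : ℝ} {Cr Ca : ℕ → ℝ} {kM : ℕ}
    (hin : CvrIn B ls tI tS tU W x A lg Cr Ca kM) (hkM : 2 ≤ kM) {q' : ℕ} {τ' : ℕ → ℕ → ℕ} (hτ' : IsTr ls.length q' τ') {a c θ y j : ℕ}
    (ha : a < q') (hc : c < q') (hθ : θ < q') (hy : y < q') (hac : τ' a c = j) (hj : tU ≤ j) (hjN : j ≤ ls.length)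
    (E : ℕ → Prop) [DecidablePred E] (hEy : E y) (hEa : ¬ E a) (hEc : ¬ E c) (hEθ : ¬ E θ) (hθa : θ ≠ a) (hθc : θ ≠ c)
    (hE : ∀ u v, u < q' → v < q' → E u → ¬ E v → τ' u v ≤ tS) (hθs : ∀ v, v < q' → v ≠ θ → τ' θ v ≤ tS)
    (Z H : (ℕ → SkCfg n) → ℝ) (hZu : TrUses q' Z) (hHu : TrUses q' H) (hZ : TrFree (fun b => E b ∨ b = θ) Z) (hH : TrFree (fun b => ¬ E b) H)
    {cZ cH : ℝ} (hcZ : CvLe (cvpE hin.okB hin.adm q' τ' 0) 1 Z cZ) (hcH : CvLe (cvpE hin.okB hin.adm q' τ' 0) 4 H cH) :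
    |trNu B ls q' τ' 0 fun σ => (skOv (σ c) (σ θ) - skOv (σ a) (σ θ)) * ((skOv (σ a) (σ y) - skOv (σ c) (σ y)) * H σ) * Z σ|
      ≤ (Ca 2 * A / cvrV B ls j) ^ 2 * (Cr 2 * W) * cH * cZ := by
  have hcst : 0 ≤ Ca 2 * A / cvrV B ls j :=
    div_nonneg (mul_nonneg (hin.Ca_nonneg 2) hin.A_nonneg) (cvr_V_nonneg hin.okB hin.adm j)
  have hW : 0 ≤ W := hin.x_pos.le.trans hin.x_le
  have hCW : 0 ≤ Cr 2 * W := mul_nonneg (hin.Cr_nonneg 2) hW
  have hyθ : y ≠ θ := fun h => hEθ (h ▸ hEy)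
  set g₁ : (ℕ → SkCfg n) → ℝ := fun σ => (skOv (σ c) (σ θ) - skOv (σ a) (σ θ)) * (fun _ => (1:ℝ)) σ with hg₁
  set g₂ : (ℕ → SkCfg n) → ℝ := fun σ => (skOv (σ a) (σ y) - skOv (σ c) (σ y)) * H σ with hg₂
  have hE₁ : ∀ u v, u < q' → v < q' → (fun b => b = θ) u → ¬ (fun b => b = θ) v → τ' u v ≤ tS := by
    intro u v _ hv hu hv'
    have hu' : u = θ := hu
    rw [hu']
    exact hθs v hv hv'
  have hg₁u : TrUses q' g₁ := by
    intro σ σ' h
    simp only [hg₁]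
    rw [h c hc, h θ hθ, h a ha]
  have hg₂u : TrUses q' g₂ := by
    intro σ σ' h
    simp only [hg₂]
    rw [h a ha, h y hy, h c hc, hHu σ σ' h]
  have hold := tr_cut_holder hin.okB hin.adm hτ' 0 (t := tS) (fun b => b = θ) E (fun u hu => by rw [show u = θ from hu]; exact hEθ)
    hE₁ hE Z g₁ g₂ hZu hg₁u hg₂u
    (fun σ σ' h => hZ σ σ' fun b hb => h b fun hb' => hb hb'.symm)
    (fun σ σ' h => by
      simp only [hg₁]
      rw [h c hEc, h θ hEθ, h a hEa])
    (fun σ σ' h => by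
      simp only [hg₂]
      rw [h a (Ne.symm hθa), h y hyθ, h c (Ne.symm hθc), hH σ σ' fun b hb => h b fun hb' => hEθ (hb' ▸ not_not.1 hb)])
  have hca : τ' c a = j := by rw [hτ'.symm c a hc ha, hac]
  have T1 := cvr_proj4 hin hkM hτ' hc ha hθ hca hj hjN (fun b => b = θ) rfl (Ne.symm hθc) (Ne.symm hθa) hE₁ (fun _ => (1:ℝ))
    (fun _ _ _ => rfl) (fun _ _ _ => rfl) (cH := 1) (by simpa using CvLe.const (cvpE hin.okB hin.adm q' τ' 0) 4 (1:ℝ))
  have T2 := cvr_proj4 hin hkM hτ' ha hc hy hac hj hjN E hEy hEa hEc hE H hHu hH hcH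
  have N1 := tr_dupK_nonneg hin.okB hin.adm hτ' 0 (t := tS) (fun b => b = θ) hE₁ g₁ hg₁u 2
  have N2 := tr_dupK_nonneg hin.okB hin.adm hτ' 0 (t := tS) E hE g₂ hg₂u 2
  have hZ2 : (trNu B ls q' τ' 0 fun σ => Z σ ^ 2) ≤ cZ ^ 2 := hcZ.2
  have hZ0 : 0 ≤ trNu B ls q' τ' 0 fun σ => Z σ ^ 2 := (cvpE hin.okB hin.adm q' τ' 0).nonneg fun σ => sq_nonneg _
  have e0 : (fun σ : ℕ → SkCfg n => (skOv (σ c) (σ θ) - skOv (σ a) (σ θ)) * ((skOv (σ a) (σ y) - skOv (σ c) (σ y)) * H σ) * Z σ)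
      = fun σ => Z σ * g₁ σ * g₂ σ := by
    funext σ
    simp only [hg₁, hg₂]
    ring
  rw [e0]
  refine cvr_abs_le_of_pow4 (by have := hcH.1; have := hcZ.1; positivity) (hold.trans ?_)
  have b1 : (trNu B ls q' τ' 0 fun σ => Z σ ^ 2) ^ 2 ≤ (cZ ^ 2) ^ 2 := pow_le_pow_left₀ hZ0 hZ2 2
  calc _ ≤ (cZ ^ 2) ^ 2 * ((Ca 2 * A / cvrV B ls j) ^ 4 * (1 ^ 4 * (Cr 2 * W) ^ 2))
        * ((Ca 2 * A / cvrV B ls j) ^ 4 * (cH ^ 4 * (Cr 2 * W) ^ 2)) :=
        mul_le_mul (mul_le_mul b1 T1 N1 (by positivity)) T2 N2 (by positivity)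
    _ = _ := by ring

/-- the singly projected difference `‖X_* · (y_c - y_a)‖_4` against `Z₁ ∈ L²`, `Z₂ ∈ L⁴` (`tr_cut_holder` with `E₂ = ∅`, `g₂ = Z₂`).  LEAF R3 -/
theorem cvr_proj_bound {B : GhB (SkCfg n)} {ls : List (GhLv (SkCfg n) ι)} {tI tS tU : ℕ} {W x A lg : ℝ} {Cr Ca : ℕ → ℝ} {kM : ℕ}
    (hin : CvrIn B ls tI tS tU W x A lg Cr Ca kM) (hkM : 2 ≤ kM) {q' : ℕ} {τ' : ℕ → ℕ → ℕ} (hτ' : IsTr ls.length q' τ') {a c θ j : ℕ}
    (ha : a < q') (hc : c < q') (hθ : θ < q') (hac : τ' a c = j) (hj : tU ≤ j) (hjN : j ≤ ls.length) (hθa : θ ≠ a) (hθc : θ ≠ c)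
    (hθs : ∀ v, v < q' → v ≠ θ → τ' θ v ≤ tS)
    (Z₁ Z₂ : (ℕ → SkCfg n) → ℝ) (hZ₁u : TrUses q' Z₁) (hZ₂u : TrUses q' Z₂) (hZ₁ : TrFree (fun b => b = θ) Z₁) (hZ₂ : TrFree (fun b => b = θ) Z₂)
    {c₁ c₂ : ℝ} (hc₁ : CvLe (cvpE hin.okB hin.adm q' τ' 0) 1 Z₁ c₁) (hc₂ : CvLe (cvpE hin.okB hin.adm q' τ' 0) 2 Z₂ c₂) :
    |trNu B ls q' τ' 0 fun σ => (skOv (σ c) (σ θ) - skOv (σ a) (σ θ)) * Z₁ σ * Z₂ σ|
      ≤ (Ca 2 * A / cvrV B ls j) * Real.sqrt (Cr 2 * W) * c₁ * c₂ := by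
  have hcst : 0 ≤ Ca 2 * A / cvrV B ls j :=
    div_nonneg (mul_nonneg (hin.Ca_nonneg 2) hin.A_nonneg) (cvr_V_nonneg hin.okB hin.adm j)
  have hW : 0 ≤ W := hin.x_pos.le.trans hin.x_le
  have hCW : 0 ≤ Cr 2 * W := mul_nonneg (hin.Cr_nonneg 2) hW
  set g₁ : (ℕ → SkCfg n) → ℝ := fun σ => (skOv (σ c) (σ θ) - skOv (σ a) (σ θ)) * (fun _ => (1:ℝ)) σ with hg₁
  have hE₁ : ∀ u v, u < q' → v < q' → (fun b => b = θ) u → ¬ (fun b => b = θ) v → τ' u v ≤ tS := by
    intro u v _ hv hu hv'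
    have hu' : u = θ := hu
    rw [hu']
    exact hθs v hv hv'
  have hg₁u : TrUses q' g₁ := by
    intro σ σ' h
    simp only [hg₁]
    rw [h c hc, h θ hθ, h a ha]
  have hold := tr_cut_holder hin.okB hin.adm hτ' 0 (t := tS) (fun b => b = θ) (fun _ => False) (fun _ _ h => h)
    hE₁ (fun _ _ _ _ h _ => h.elim) Z₁ g₁ Z₂ hZ₁u hg₁u hZ₂u
    (fun σ σ' h => hZ₁ σ σ' fun b hb => h b fun hb' => hb (hb'.resolve_right fun h => h))
    (fun σ σ' h => by
      have : σ = σ' := funext fun b => h b fun h => h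
      rw [this])
    hZ₂
  have hca : τ' c a = j := by rw [hτ'.symm c a hc ha, hac]
  have T1 := cvr_proj4 hin hkM hτ' hc ha hθ hca hj hjN (fun b => b = θ) rfl (Ne.symm hθc) (Ne.symm hθa) hE₁ (fun _ => (1:ℝ))
    (fun _ _ _ => rfl) (fun _ _ _ => rfl) (cH := 1) (by simpa using CvLe.const (cvpE hin.okB hin.adm q' τ' 0) 4 (1:ℝ))
  have N1 := tr_dupK_nonneg hin.okB hin.adm hτ' 0 (t := tS) (fun b => b = θ) hE₁ g₁ hg₁u 2
  rw [cvr_dup_empty hin.okB hin.adm hτ' 0 tS (by norm_num : 0 < 4) Z₂ hZ₂u] at hold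
  have T2 : (trNu B ls q' τ' 0 fun σ => Z₂ σ ^ 4) ≤ c₂ ^ 4 := hc₂.2
  have N2 : 0 ≤ trNu B ls q' τ' 0 fun σ => Z₂ σ ^ 4 :=
    (cvpE hin.okB hin.adm q' τ' 0).nonneg (f := fun σ => Z₂ σ ^ 4) fun σ => by positivity
  have hZ2 : (trNu B ls q' τ' 0 fun σ => Z₁ σ ^ 2) ≤ c₁ ^ 2 := hc₁.2
  have hZ0 : 0 ≤ trNu B ls q' τ' 0 fun σ => Z₁ σ ^ 2 := (cvpE hin.okB hin.adm q' τ' 0).nonneg fun σ => sq_nonneg _
  have e0 : (fun σ : ℕ → SkCfg n => (skOv (σ c) (σ θ) - skOv (σ a) (σ θ)) * Z₁ σ * Z₂ σ)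
      = fun σ => Z₁ σ * g₁ σ * Z₂ σ := by
    funext σ
    simp only [hg₁]
    ring
  rw [e0]
  refine cvr_abs_le_of_pow4 (by have := hc₁.1; have := hc₂.1; positivity) (hold.trans ?_)
  have b1 : (trNu B ls q' τ' 0 fun σ => Z₁ σ ^ 2) ^ 2 ≤ (c₁ ^ 2) ^ 2 := pow_le_pow_left₀ hZ0 hZ2 2
  have hs : Real.sqrt (Cr 2 * W) ^ 4 = (Cr 2 * W) ^ 2 := by
    rw [show (4:ℕ) = 2 * 2 from rfl, pow_mul, Real.sq_sqrt hCW]
  calc _ ≤ (c₁ ^ 2) ^ 2 * ((Ca 2 * A / cvrV B ls j) ^ 4 * (1 ^ 4 * (Cr 2 * W) ^ 2)) * c₂ ^ 4 :=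
        mul_le_mul (mul_le_mul b1 T1 N1 (by positivity)) T2 N2 (by positivity)
    _ = _ := by
        have e9 : (Ca 2 * A / cvrV B ls j * Real.sqrt (Cr 2 * W) * c₁ * c₂) ^ 4
            = (Ca 2 * A / cvrV B ls j) ^ 4 * Real.sqrt (Cr 2 * W) ^ 4 * c₁ ^ 4 * c₂ ^ 4 := by ring
        rw [e9, hs]; ring

theorem cvr_ip_sp (s s' : SkCfg n) : cvrIp (skSp s) (skSp s') = skOv s s' := rfl

theorem cvr_ip_sub (ξ ξ' ξ'' : Fin n → ℝ) : cvrIp ξ (ξ' - ξ'') = cvrIp ξ ξ' - cvrIp ξ ξ'' := by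
  unfold cvrIp
  rw [← sub_div, ← Finset.sum_sub_distrib]
  congr 1
  exact Finset.sum_congr rfl fun i _ => by simp only [Pi.sub_apply]; ring

theorem cvr_ov_self (hn : 0 < n) (s : SkCfg n) : skOv s s = 1 := by
  unfold skOv
  simp only [sk_d_sp_mul, Finset.sum_const, Finset.card_univ, Fintype.card_fin, nsmul_eq_mul, mul_one]
  exact div_self (by exact_mod_cast hn.ne')

theorem cvr_ov_comm (s s' : SkCfg n) : skOv s s' = skOv s' s := by
  unfold skOv
  congr 1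
  exact Finset.sum_congr rfl fun i _ => mul_comm _ _

/-- the unprojected difference `‖(y_c - y_a) · y_y‖_{2k} ≤ c_j` (anchor of norm one; `cvr_anchor_raw`).  LEAF R4 -/
theorem cvr_raw_bound {B : GhB (SkCfg n)} {ls : List (GhLv (SkCfg n) ι)} {tI tS tU : ℕ} {W x A lg : ℝ} {Cr Ca : ℕ → ℝ} {kM : ℕ}
    (hin : CvrIn B ls tI tS tU W x A lg Cr Ca kM) {q' : ℕ} {τ' : ℕ → ℕ → ℕ} (hτ' : IsTr ls.length q' τ') {a c y j : ℕ}
    (ha : a < q') (hc : c < q') (hy : y < q') (hac : τ' a c = j) (hj : tU ≤ j) (hjN : j ≤ ls.length) (hya : τ' a y ≤ tS) (k : ℕ) (hkM : k ≤ kM) :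
    CvLe (cvpE hin.okB hin.adm q' τ' 0) k (fun σ => skOv (σ c) (σ y) - skOv (σ a) (σ y)) (Ca k * A / cvrV B ls j) := by
  have hcst : 0 ≤ Ca k * A / cvrV B ls j :=
    div_nonneg (mul_nonneg (hin.Ca_nonneg k) hin.A_nonneg) (cvr_V_nonneg hin.okB hin.adm j)
  refine ⟨hcst, ?_⟩
  obtain ⟨-, hSU, hUN⟩ := hin.ord
  have hEy : tS < τ' y y := by rw [hτ'.diag y hy]; omega
  have hEa : ¬ tS < τ' y a := by rw [hτ'.symm y a hy ha]; omega
  have hEc : ¬ tS < τ' y c := by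
    intro h
    have := hτ'.ultra y c a hy hc ha
    rw [hτ'.symm c a hc ha, hac, hτ'.symm y a hy ha] at this
    have h2 : tS < min (τ' y c) j := lt_min h (by omega)
    omega
  have key := cvr_anchor_raw hin.okB hin.adm hτ' 0 ha hc hac (by omega : tS < j) hcst (hin.anchor k j hkM hj hjN)
    (fun b => tS < τ' y b) hEa hEc
    (fun u v hu hv h1 h2 => by
      by_contra h3
      exact h2 (lt_of_lt_of_le (lt_min h1 (not_le.1 h3)) (hτ'.ultra y u v hy hu hv)))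
    (fun σ => skSp (σ y)) (fun σ σ' h => by show skSp (σ y) = skSp (σ' y); rw [h y hy])
    (fun σ σ' h => by show skSp (σ y) = skSp (σ' y); rw [h y (not_not.2 hEy)])
  rw [sk_cvpl_nu_E]
  have e1 : (fun σ : ℕ → SkCfg n => (skOv (σ c) (σ y) - skOv (σ a) (σ y)) ^ (2 * k))
      = fun σ => (cvrIp (skSp (σ y)) (skSp (σ a) - skSp (σ c))) ^ (2 * k) := by
    funext σ
    rw [cvr_ip_sub, cvr_ip_sp, cvr_ip_sp, cvr_ov_comm (σ c), cvr_ov_comm (σ a), ← neg_sub, (even_two_mul k).neg_pow]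
  have e2 : (fun σ : ℕ → SkCfg n => (cvrIp (skSp (σ y)) (skSp (σ y))) ^ k) = fun _ => 1 := by
    funext σ
    rw [cvr_ip_sp, cvr_ov_self hin.hn, one_pow]
  rw [e1]
  refine key.trans (le_of_eq ?_)
  rw [e2]
  have := (cvpE hin.okB hin.adm q' τ' 0).one
  rw [sk_cvpl_nu_E] at this
  rw [this, mul_one]

/-- a monomial only reads the labels of its edges -/
theorem cvr_mon_sig (Sf : ℕ → ℝ) (τ : ℕ → ℕ → ℕ) (es : List (ℕ × ℕ)) (σ σ' : ℕ → SkCfg n)
    (h : ∀ e ∈ es, σ e.1 = σ' e.1 ∧ σ e.2 = σ' e.2) : cvrMon Sf τ es σ = cvrMon Sf τ es σ' := by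
  unfold cvrMon
  congr 1
  refine List.map_congr_left fun e he => ?_
  unfold cvrDl
  rw [(h e he).1, (h e he).2]

/-- a monomial only reads the table on its edges -/
theorem cvr_mon_tab (Sf : ℕ → ℝ) (τ τ' : ℕ → ℕ → ℕ) (es : List (ℕ × ℕ)) (h : ∀ e ∈ es, τ e.1 e.2 = τ' e.1 e.2)
    (σ : ℕ → SkCfg n) : cvrMon Sf τ es σ = cvrMon Sf τ' es σ := by
  unfold cvrMon
  congr 1
  refine List.map_congr_left fun e he => ?_
  unfold cvrDl
  rw [h e he]

theorem cvr_sc_tab (τ τ' : ℕ → ℕ → ℕ) (tS : ℕ) (W x : ℝ) (es : List (ℕ × ℕ)) (h : ∀ e ∈ es, τ e.1 e.2 = τ' e.1 e.2) :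
    cvrSc τ tS W x es = cvrSc τ' tS W x es := by
  unfold cvrSc
  congr 1
  refine List.map_congr_left fun e he => ?_
  rw [h e he]

/-- relabelling of a monomial by a symmetry of the table -/
theorem cvr_mon_relab (Sf : ℕ → ℝ) (τ : ℕ → ℕ → ℕ) (es : List (ℕ × ℕ)) (e : ℕ → ℕ)
    (h : ∀ p ∈ es, τ (e p.1) (e p.2) = τ p.1 p.2) (σ : ℕ → SkCfg n) :
    cvrMon Sf τ es (fun i => σ (e i)) = cvrMon Sf τ (es.map fun p => (e p.1, e p.2)) σ := by
  unfold cvrMon
  rw [List.map_map]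
  congr 1
  refine List.map_congr_left fun p hp => ?_
  simp only [Function.comp, cvrDl]
  rw [h p hp]

/-- a star of edges -/
theorem cvr_mon_star (Sf : ℕ → ℝ) (τ : ℕ → ℕ → ℕ) (r : ℕ) (l : List ℕ) (σ : ℕ → SkCfg n) :
    cvrMon Sf τ (l.map fun θ => (r, θ)) σ = (l.map fun θ => cvrDl Sf τ r θ σ).prod := by
  unfold cvrMon
  rw [List.map_map]
  rfl

theorem cvr_sc_star (τ : ℕ → ℕ → ℕ) (tS : ℕ) (W x : ℝ) (r r' : ℕ) (l : List ℕ) (h : ∀ θ ∈ l, τ r θ = τ r' θ) :
    cvrSc τ tS W x (l.map fun θ => (r, θ)) = cvrSc τ tS W x (l.map fun θ => (r', θ)) := by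
  unfold cvrSc
  rw [List.map_map, List.map_map]
  congr 1
  refine List.map_congr_left fun θ hθ => ?_
  simp only [Function.comp]
  rw [h θ hθ]

/-- telescoping of a difference of two products over a list, with a uniform bound of the terms -/
theorem cvr_tele {Ω : Type} (ν : CvExp Ω) (u w : ℕ → Ω → ℝ) (G : Ω → ℝ) (K : ℝ) (ys : List ℕ)
    (h : ∀ l y l', ys = l ++ y :: l' →
      |ν.E fun ω => G ω * ((l.map fun i => w i ω).prod * (u y ω - w y ω) * (l'.map fun i => u i ω).prod)| ≤ K) :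
    ∀ l₂ l₁ : List ℕ, ys = l₁ ++ l₂ →
      |ν.E fun ω => G ω * ((l₁.map fun i => w i ω).prod * ((l₂.map fun i => u i ω).prod - (l₂.map fun i => w i ω).prod))|
        ≤ l₂.length * K := by
  intro l₂
  induction l₂ with
  | nil => intro l₁ _; simp [ν.zero]
  | cons y l' ih =>
    intro l₁ hys
    have h1 := h l₁ y l' hys
    have h2 := ih (l₁ ++ [y]) (by rw [hys]; simp)
    have e : (fun ω => G ω * ((l₁.map fun i => w i ω).prod
          * (((y :: l').map fun i => u i ω).prod - ((y :: l').map fun i => w i ω).prod)))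
        = fun ω => (G ω * ((l₁.map fun i => w i ω).prod * (u y ω - w y ω) * (l'.map fun i => u i ω).prod))
          + (G ω * (((l₁ ++ [y]).map fun i => w i ω).prod * ((l'.map fun i => u i ω).prod - (l'.map fun i => w i ω).prod))) := by
      funext ω
      simp only [List.map_cons, List.prod_cons, List.map_append, List.prod_append, List.map_nil, List.prod_nil, mul_one]
      ring
    rw [e, ν.add]
    refine (abs_add_le _ _).trans ?_
    push_cast [List.length_cons]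
    linarith

/-- `cvr_pair_bound` with monomials in the roles of `H` and `Z` -/
theorem cvr_pair_mon {B : GhB (SkCfg n)} {ls : List (GhLv (SkCfg n) ι)} {tI tS tU : ℕ} {W x A lg : ℝ} {Cr Ca : ℕ → ℝ} {kM : ℕ}
    (hin : CvrIn B ls tI tS tU W x A lg Cr Ca kM) (hkM : 2 ≤ kM) {q' : ℕ} {τ' : ℕ → ℕ → ℕ} (hτ' : IsTr ls.length q' τ') {a c θ y j : ℕ}
    (ha : a < q') (hc : c < q') (hθ : θ < q') (hy : y < q') (hac : τ' a c = j) (hj : tU ≤ j) (hjN : j ≤ ls.length)
    (hlow : ∀ u v, u < q' → v < q' → u ≠ v → ¬ (u = a ∧ v = c) → ¬ (u = c ∧ v = a) → τ' u v = tS ∨ τ' u v = tI)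
    (E : ℕ → Prop) [DecidablePred E] (hEy : E y) (hEa : ¬ E a) (hEc : ¬ E c) (hEθ : ¬ E θ) (hθa : θ ≠ a) (hθc : θ ≠ c)
    (esH esZ : List (ℕ × ℕ))
    (hH : ∀ e ∈ esH, e.1 < q' ∧ e.2 < q' ∧ e.1 ≠ e.2 ∧ E e.1 ∧ E e.2)
    (hZ : ∀ e ∈ esZ, e.1 < q' ∧ e.2 < q' ∧ e.1 ≠ e.2 ∧ ¬ E e.1 ∧ ¬ E e.2 ∧ e.1 ≠ θ ∧ e.2 ≠ θ ∧ ¬ (e.1 = a ∧ e.2 = c) ∧ ¬ (e.1 = c ∧ e.2 = a))
    (m : ℕ) (hmH : esH.length ≤ m) (hmZ : esZ.length ≤ m) (hm : 4 * m ≤ kM) :
    |trNu B ls q' τ' 0 fun σ => (skOv (σ c) (σ θ) - skOv (σ a) (σ θ))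
        * ((skOv (σ a) (σ y) - skOv (σ c) (σ y)) * cvrMon (cvrS B ls) τ' esH σ) * cvrMon (cvrS B ls) τ' esZ σ|
      ≤ (Ca 2 * A / cvrV B ls j) ^ 2 * (Cr 2 * W) * (Cr (4 * m) ^ esH.length * cvrSc τ' tS W x esH)
        * (Cr (1 * m) ^ esZ.length * cvrSc τ' tS W x esZ) := by
  have hle : ∀ u v, u < q' → v < q' → u ≠ v → ¬ (u = a ∧ v = c) → ¬ (u = c ∧ v = a) → τ' u v ≤ tS := by
    intro u v hu hv h1 h2 h3
    rcases hlow u v hu hv h1 h2 h3 with h | h
    · omega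
    · have := hin.ord.1; omega
  exact cvr_pair_bound hin hkM hτ' ha hc hθ hy hac hj hjN E hEy hEa hEc hEθ hθa hθc
    (fun u v hu hv h1 h2 => hle u v hu hv (fun h => h2 (h ▸ h1)) (fun h => hEa (h.1 ▸ h1)) (fun h => hEc (h.1 ▸ h1)))
    (fun v hv h1 => hle θ v hθ hv (Ne.symm h1) (fun h => hθa h.1) (fun h => hθc h.1))
    (cvrMon (cvrS B ls) τ' esZ) (cvrMon (cvrS B ls) τ' esH)
    (fun σ σ' h => cvr_mon_sig _ _ _ _ _ fun e he => ⟨h _ (hZ e he).1, h _ (hZ e he).2.1⟩)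
    (fun σ σ' h => cvr_mon_sig _ _ _ _ _ fun e he => ⟨h _ (hH e he).1, h _ (hH e he).2.1⟩)
    (fun σ σ' h => cvr_mon_sig _ _ _ _ _ fun e he => by
      obtain ⟨-, -, -, g1, g2, g3, g4, -, -⟩ := hZ e he
      exact ⟨h _ fun hh => hh.elim g1 g3, h _ fun hh => hh.elim g2 g4⟩)
    (fun σ σ' h => cvr_mon_sig _ _ _ _ _ fun e he => by
      obtain ⟨-, -, -, g1, g2⟩ := hH e he
      exact ⟨h _ (not_not.2 g1), h _ (not_not.2 g2)⟩)
    (cvr_mon_norm hin hτ' esZ (fun e he => by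
      obtain ⟨g1, g2, g3, -, -, -, -, g4, g5⟩ := hZ e he
      exact ⟨g1, g2, g3, hlow _ _ g1 g2 g3 g4 g5⟩) 1 m hmZ (by omega))
    (cvr_mon_norm hin hτ' esH (fun e he => by
      obtain ⟨g1, g2, g3, g4, g5⟩ := hH e he
      exact ⟨g1, g2, g3, hlow _ _ g1 g2 g3 (fun h => hEa (h.1 ▸ g4)) (fun h => hEc (h.1 ▸ g4))⟩) 4 m hmH hm)

theorem cvr_scal {c2 r2 av P4 P1 K4 K1 S S' : ℝ} (hc2 : 0 ≤ c2) (hr2 : 0 ≤ r2) (hav : 0 ≤ av) (hP4 : 0 ≤ P4) (hP1 : 0 ≤ P1) (hS : 0 ≤ S)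
    (h4 : P4 ≤ K4) (h1 : P1 ≤ K1) (hSS : S ≤ S') : c2 * av * r2 * P4 * P1 * S ≤ c2 * r2 * K4 * K1 * av * S' := by
  have h : P4 * P1 * S ≤ K4 * K1 * S' :=
    mul_le_mul (mul_le_mul h4 h1 hP1 (hP4.trans h4)) hSS hS (mul_nonneg (hP4.trans h4) (hP1.trans h1))
  calc c2 * av * r2 * P4 * P1 * S = (c2 * av * r2) * (P4 * P1 * S) := by ring
    _ ≤ (c2 * av * r2) * (K4 * K1 * S') := mul_le_mul_of_nonneg_left h (by positivity)
    _ = _ := by ring

/-- one level `j` of (i): `|ν[(Y_c - Y_a) P]| ≤ C (A / v_j)² (W / x) p₀`, `c = q`.   Antisymmetrisation `a ↔ c` (`tr_nu_symm`), telescoping (`sk_cvlp_prod_sub_prod`), `cvr_pair_bound`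
(tooth: `E = {θ'}`, `H = 1`; incoming edge: `E` = labels of `rest` and `o`, `H` = `rest`), `cvr_mon_norm`.  LEAF R5 -/
theorem cvr_one_level (Nd : ℕ) (Cr Ca : ℕ → ℝ) : ∃ (kM : ℕ) (C : ℝ), 0 ≤ C ∧ ∀ (n : ℕ) (ι : Type) [Fintype ι] (B : GhB (SkCfg n))
    (ls : List (GhLv (SkCfg n) ι)) (tI tS tU : ℕ) (W x A lg : ℝ), CvrIn B ls tI tS tU W x A lg Cr Ca kM →
    ∀ (q : ℕ) (τ : ℕ → ℕ → ℕ) (a b : ℕ) (ths : List ℕ) (io : Option ℕ) (rest : List (ℕ × ℕ)), CvrAdm ls.length tI tS q τ a b ths io rest →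
    q ≤ Nd → (cvrEs a ths io rest).length ≤ Nd → ∀ j, tU ≤ j → j ≤ ls.length →
      |trNu B ls (q + 1) (trAtt ls.length q τ a j) 0 fun σ =>
            (skOv (σ q) (σ b) - skOv (σ a) (σ b)) * cvrMon (cvrS B ls) τ (cvrEs a ths io rest) σ|
        ≤ C * (A / cvrV B ls j) ^ 2 * (W / x) * cvrSc τ tS W x (cvrEs a ths io rest) := by
  have hK₄ : (1:ℝ) ≤ max 1 (Cr (4 * Nd)) := le_max_left _ _
  have hK₁ : (1:ℝ) ≤ max 1 (Cr (1 * Nd)) := le_max_left _ _
  refine ⟨max 2 (4 * Nd), (Nd + 1) * ((Ca 2) ^ 2 * |Cr 2| * max 1 (Cr (4 * Nd)) ^ Nd * max 1 (Cr (1 * Nd)) ^ Nd), by positivity, ?_⟩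
  intro n ι _ B ls tI tS tU W x A lg hin q τ a b ths io rest hadm hq hes j hj hjN
  obtain ⟨hIS, hSU, hUN⟩ := hin.ord
  have hkM : 2 ≤ max 2 (4 * Nd) := le_max_left _ _
  have hkM4 : 4 * Nd ≤ max 2 (4 * Nd) := le_max_right _ _
  have hx := hin.x_pos
  have hW : 0 < W := lt_of_lt_of_le hx hin.x_le
  have hWx : 1 ≤ W / x := (one_le_div hx).2 hin.x_le
  have ha := hadm.ha
  have hb := hadm.hb
  have hba : b ≠ a := by
    intro h
    have h1 := hadm.hab
    rw [h, hadm.tr.diag a ha] at h1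
    omega
  generalize hτ'def : trAtt ls.length q τ a j = τ'
  have hτ' : IsTr ls.length (q + 1) τ' := by rw [← hτ'def]; exact tr_att_isTr hadm.tr ha (by omega)
  have hac : τ' a q = j := by
    rw [← hτ'def, tr_att_on _ _ _ _ _ (by omega), hadm.tr.diag a ha]
    exact min_eq_left (by omega)
  have hold : ∀ u v, u < q → v < q → τ' u v = τ u v := fun u v hu hv => by rw [← hτ'def]; exact tr_att_old hu hv
  have hcv : ∀ v, v < q → v ≠ a → τ' q v = τ' a v := by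
    intro v hv hva
    rw [hold a v ha hv, ← hτ'def, tr_att_no _ _ _ _ _ (by omega)]
    rcases hadm.low a v ha hv (Ne.symm hva) with h | h <;> rw [h] <;> exact min_eq_right (by omega)
  have hlow : ∀ u v, u < q + 1 → v < q + 1 → u ≠ v → ¬ (u = a ∧ v = q) → ¬ (u = q ∧ v = a) → τ' u v = tS ∨ τ' u v = tI := by
    intro u v hu hv huv h1 h2
    by_cases hu' : u = q
    · have hv' : v < q := by omega
      have hva : v ≠ a := fun h => h2 ⟨hu', h⟩
      rw [hu', hcv v hv' hva, hold a v ha hv']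
      exact hadm.low a v ha hv' (Ne.symm hva)
    · by_cases hv' : v = q
      · have hu'' : u < q := by omega
        have hua : u ≠ a := fun h => h1 ⟨h, hv'⟩
        rw [hv', hτ'.symm u q hu (by omega), hcv u hu'' hua, hold a u ha hu'']
        exact hadm.low a u ha hu'' (Ne.symm hua)
      · rw [hold u v (by omega) (by omega)]
        exact hadm.low u v (by omega) (by omega) huv
  -- the symmetry `a ↔ q`
  have hsw : ∀ v, v ≠ a → v ≠ q → Equiv.swap a q v = v := fun v h1 h2 => Equiv.swap_apply_of_ne_of_ne h1 h2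
  have hinv : ∀ u v, u < q + 1 → v < q + 1 → τ' (Equiv.swap a q u) (Equiv.swap a q v) = τ' u v := by
    intro u v hu hv
    by_cases hua : u = a
    · rw [hua, Equiv.swap_apply_left]
      by_cases hva : v = a
      · rw [hva, Equiv.swap_apply_left, hτ'.diag q (by omega), hτ'.diag a (by omega)]
      · by_cases hvq : v = q
        · rw [hvq, Equiv.swap_apply_right, hτ'.symm q a (by omega) (by omega)]
        · rw [hsw v hva hvq, hcv v (by omega) hva]
    · by_cases huq : u = q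
      · rw [huq, Equiv.swap_apply_right]
        by_cases hva : v = a
        · rw [hva, Equiv.swap_apply_left, hτ'.symm q a (by omega) (by omega)]
        · by_cases hvq : v = q
          · rw [hvq, Equiv.swap_apply_right, hτ'.diag q (by omega), hτ'.diag a (by omega)]
          · rw [hsw v hva hvq, hcv v (by omega) hva]
      · rw [hsw u hua huq]
        by_cases hva : v = a
        · rw [hva, Equiv.swap_apply_left, hτ'.symm u q hu (by omega), hτ'.symm u a hu (by omega), hcv u (by omega) hua]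
        · by_cases hvq : v = q
          · rw [hvq, Equiv.swap_apply_right, hτ'.symm u q hu (by omega), hτ'.symm u a hu (by omega), hcv u (by omega) hua]
          · rw [hsw v hva hvq]
  -- the edges
  have hth : ∀ θ ∈ ths, θ < q ∧ θ ≠ a ∧ θ ≠ b ∧ τ' a θ = tS := fun θ h => by
    obtain ⟨g1, g2, g3, g4⟩ := hadm.th_lt θ h
    exact ⟨g1, g2, g3, by rw [hold a θ ha g1, g4]⟩
  have hlt : ∀ e ∈ cvrEs a ths io rest, e.1 < q ∧ e.2 < q := by
    intro e he
    unfold cvrEs at he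
    rcases List.mem_append.1 he with he | he
    · rcases List.mem_append.1 he with he | he
      · obtain ⟨θ, hθ, rfl⟩ := List.mem_map.1 he
        exact ⟨ha, (hth θ hθ).1⟩
      · obtain ⟨o, ho, rfl⟩ := List.mem_map.1 he
        exact ⟨ha, (hadm.io_lt o (Option.mem_toList.1 ho)).1⟩
    · exact ⟨(hadm.rest_lt e he).1, (hadm.rest_lt e he).2.1⟩
  have hlen : ths.length + io.toList.length + rest.length ≤ Nd := by
    have : (cvrEs a ths io rest).length = ths.length + io.toList.length + rest.length := by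
      unfold cvrEs
      simp only [List.length_append, List.length_map]
    omega
  generalize hSf : cvrS B ls = Sf at *
  have hmon : ∀ σ : ℕ → SkCfg n, cvrMon Sf τ (cvrEs a ths io rest) σ
      = cvrMon Sf τ' (ths.map fun θ => (a, θ)) σ * cvrMon Sf τ' (io.toList.map fun o => (a, o)) σ * cvrMon Sf τ' rest σ := by
    intro σ
    rw [cvr_mon_tab Sf τ τ' _ (fun e he => (hold _ _ (hlt e he).1 (hlt e he).2).symm)]
    unfold cvrEs
    rw [cvrMon_append, cvrMon_append]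
  have hsc : cvrSc τ tS W x (cvrEs a ths io rest)
      = cvrSc τ' tS W x (ths.map fun θ => (a, θ)) * cvrSc τ' tS W x (io.toList.map fun o => (a, o)) * cvrSc τ' tS W x rest := by
    rw [cvr_sc_tab τ τ' tS W x _ (fun e he => (hold _ _ (hlt e he).1 (hlt e he).2).symm)]
    unfold cvrEs
    rw [cvrSc_append, cvrSc_append]
  have hstar : ∀ l : List ℕ, (∀ θ ∈ l, θ < q ∧ θ ≠ a) → ∀ σ : ℕ → SkCfg n,
      cvrMon Sf τ' (l.map fun θ => (a, θ)) (fun i => σ (Equiv.swap a q i)) = cvrMon Sf τ' (l.map fun θ => (q, θ)) σ := by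
    intro l hl σ
    rw [cvr_mon_relab Sf τ' _ (Equiv.swap a q) (fun p hp => by
      obtain ⟨θ, hθ, rfl⟩ := List.mem_map.1 hp
      exact hinv _ _ (by omega) (by have := (hl θ hθ).1; omega)), List.map_map]
    congr 1
    refine List.map_congr_left fun θ hθ => ?_
    simp only [Function.comp, Equiv.swap_apply_left]
    rw [hsw θ (hl θ hθ).2 (by have := (hl θ hθ).1; omega)]
  have hio : ∀ o ∈ io.toList, o < q ∧ o ≠ a ∧ o ≠ b ∧ o ∉ ths := fun o ho => hadm.io_lt o (Option.mem_toList.1 ho)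
  have hrs : ∀ σ : ℕ → SkCfg n, cvrMon Sf τ' rest (fun i => σ (Equiv.swap a q i)) = cvrMon Sf τ' rest σ := by
    intro σ
    refine cvr_mon_sig _ _ _ _ _ fun e he => ?_
    obtain ⟨g1, g2, -⟩ := hadm.rest_lt e he
    obtain ⟨g3, g4, -⟩ := hadm.rest_free e he
    exact ⟨by rw [hsw _ g3 (by omega)], by rw [hsw _ g4 (by omega)]⟩
  have hanti : (trNu B ls (q + 1) τ' 0 fun σ => (skOv (σ q) (σ b) - skOv (σ a) (σ b))
        * (cvrMon Sf τ' (ths.map fun θ => (a, θ)) σ * cvrMon Sf τ' (io.toList.map fun o => (a, o)) σ * cvrMon Sf τ' rest σ))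
      = - trNu B ls (q + 1) τ' 0 fun σ => (skOv (σ q) (σ b) - skOv (σ a) (σ b))
        * (cvrMon Sf τ' (ths.map fun θ => (q, θ)) σ * cvrMon Sf τ' (io.toList.map fun o => (q, o)) σ * cvrMon Sf τ' rest σ) := by
    have h := tr_nu_symm hin.okB hin.adm hτ' 0 (Equiv.swap a q) (fun v hv => hsw v (by omega) (by omega)) hinv
      (fun σ => (skOv (σ q) (σ b) - skOv (σ a) (σ b))
        * (cvrMon Sf τ' (ths.map fun θ => (a, θ)) σ * cvrMon Sf τ' (io.toList.map fun o => (a, o)) σ * cvrMon Sf τ' rest σ))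
      (by
        intro σ σ' h
        simp only
        rw [h q (by omega), h b (by omega), h a (by omega),
          cvr_mon_sig Sf τ' (ths.map fun θ => (a, θ)) σ σ' (fun e he => by
            obtain ⟨θ, hθ, rfl⟩ := List.mem_map.1 he
            exact ⟨h _ (by omega), h _ (by have := (hth θ hθ).1; omega)⟩),
          cvr_mon_sig Sf τ' (io.toList.map fun o => (a, o)) σ σ' (fun e he => by
            obtain ⟨θ, hθ, rfl⟩ := List.mem_map.1 he
            exact ⟨h _ (by omega), h _ (by have := (hio θ hθ).1; omega)⟩),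
          cvr_mon_sig Sf τ' rest σ σ' (fun e he => by
            obtain ⟨g1, g2, -⟩ := hadm.rest_lt e he
            exact ⟨h _ (by omega), h _ (by omega)⟩)])
    rw [← h]
    simp only [hstar ths (fun θ hθ => ⟨(hth θ hθ).1, (hth θ hθ).2.1⟩), hstar io.toList (fun θ hθ => ⟨(hio θ hθ).1, (hio θ hθ).2.1⟩), hrs,
      Equiv.swap_apply_left, Equiv.swap_apply_right, hsw b hba (by omega : b ≠ q)]
    have hneg := (cvpE hin.okB hin.adm (q + 1) τ' 0).neg fun σ => (skOv (σ q) (σ b) - skOv (σ a) (σ b))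
        * (cvrMon Sf τ' (ths.map fun θ => (q, θ)) σ * cvrMon Sf τ' (io.toList.map fun o => (q, o)) σ * cvrMon Sf τ' rest σ)
    rw [sk_cvpl_nu_E, sk_cvpl_nu_E] at hneg
    rw [← hneg]
    congr 1
    funext σ
    ring
  have hv : 0 ≤ cvrV B ls j := cvr_V_nonneg hin.okB hin.adm j
  have hScn : ∀ es, 0 ≤ cvrSc τ' tS W x es := fun es => cvrSc_nonneg τ' tS hW.le hx.le es
  have hCr2 : |Cr 2| = Cr 2 := abs_of_nonneg (hin.Cr_nonneg 2)
  have hpw : ∀ (k m : ℕ), m ≤ Nd → Cr k ^ m ≤ max 1 (Cr k) ^ Nd := fun k m hm =>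
    (pow_le_pow_left₀ (hin.Cr_nonneg k) (le_max_right _ _) m).trans (pow_le_pow_right₀ (le_max_left _ _) hm)
  generalize hKdef : (Ca 2) ^ 2 * Cr 2 * max 1 (Cr (4 * Nd)) ^ Nd * max 1 (Cr (1 * Nd)) ^ Nd * (A / cvrV B ls j) ^ 2
      * (W / x * (cvrSc τ' tS W x (ths.map fun θ => (a, θ)) * cvrSc τ' tS W x (io.toList.map fun o => (a, o)) * cvrSc τ' tS W x rest)) = K
  have hK0 : 0 ≤ K := by
    rw [← hKdef]
    have := hin.Cr_nonneg 2
    have := hScn (ths.map fun θ => (a, θ))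
    have := hScn (io.toList.map fun o => (a, o))
    have := hScn rest
    positivity
  -- the teeth
  have hT : ∀ l y l', ths = l ++ y :: l' →
      |(cvpE hin.okB hin.adm (q + 1) τ' 0).E fun σ => ((skOv (σ q) (σ b) - skOv (σ a) (σ b))
          * cvrMon Sf τ' (io.toList.map fun o => (a, o)) σ * cvrMon Sf τ' rest σ)
        * ((l.map fun i => cvrDl Sf τ' q i σ).prod * (cvrDl Sf τ' a y σ - cvrDl Sf τ' q y σ) * (l'.map fun i => cvrDl Sf τ' a i σ).prod)| ≤ K := by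
    intro l y l' hl
    have hyth : y ∈ ths := by rw [hl]; simp
    obtain ⟨hy1, hy2, hy3, hy4⟩ := hth y hyth
    have hnd := hadm.th_nodup
    rw [hl, List.nodup_middle, List.nodup_cons] at hnd
    have hyl : ∀ θ ∈ l, θ ∈ ths ∧ θ ≠ y := fun θ hθ =>
      ⟨by rw [hl]; simp [hθ], fun h => hnd.1 (by rw [← h]; simp [hθ])⟩
    have hyl' : ∀ θ ∈ l', θ ∈ ths ∧ θ ≠ y := fun θ hθ =>
      ⟨by rw [hl]; simp [hθ], fun h => hnd.1 (by rw [← h]; simp [hθ])⟩
    have e1 : (fun σ : ℕ → SkCfg n => ((skOv (σ q) (σ b) - skOv (σ a) (σ b))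
          * cvrMon Sf τ' (io.toList.map fun o => (a, o)) σ * cvrMon Sf τ' rest σ)
        * ((l.map fun i => cvrDl Sf τ' q i σ).prod * (cvrDl Sf τ' a y σ - cvrDl Sf τ' q y σ) * (l'.map fun i => cvrDl Sf τ' a i σ).prod))
        = fun σ => (skOv (σ q) (σ b) - skOv (σ a) (σ b)) * ((skOv (σ a) (σ y) - skOv (σ q) (σ y)) * cvrMon Sf τ' [] σ)
          * cvrMon Sf τ' ((l.map fun θ => (q, θ)) ++ (l'.map fun θ => (a, θ)) ++ (io.toList.map fun o => (a, o)) ++ rest) σ := by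
      funext σ
      rw [cvrMon_append, cvrMon_append, cvrMon_append, cvrMon_nil, cvr_mon_star Sf τ' q l, cvr_mon_star Sf τ' a l']
      unfold cvrDl
      rw [hcv y hy1 hy2]
      ring
    rw [e1, sk_cvpl_nu_E]
    have hlen' : ((l.map fun θ => (q, θ)) ++ (l'.map fun θ => (a, θ)) ++ (io.toList.map fun o => (a, o)) ++ rest).length ≤ Nd := by
      have : ths.length = l.length + (l'.length + 1) := by rw [hl]; simp
      simp only [List.length_append, List.length_map]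
      omega
    have key := cvr_pair_mon hin hkM hτ' (a := a) (c := q) (θ := b) (y := y) (by omega) (by omega) (by omega) (by omega) hac hj hjN hlow
      (fun u => u = y) rfl (Ne.symm hy2) (by omega) (Ne.symm hy3) hba (by omega) []
      ((l.map fun θ => (q, θ)) ++ (l'.map fun θ => (a, θ)) ++ (io.toList.map fun o => (a, o)) ++ rest) (by simp)
      (by
        intro e he
        rcases List.mem_append.1 he with he | he
        · rcases List.mem_append.1 he with he | he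
          · rcases List.mem_append.1 he with he | he
            · obtain ⟨θ, hθ, rfl⟩ := List.mem_map.1 he
              obtain ⟨g1, g2, g3, -⟩ := hth θ (hyl θ hθ).1
              have g4 := (hyl θ hθ).2
              refine ⟨by omega, by omega, by simp only; omega, by simp only; omega, g4, by simp only; omega, g3, ?_, ?_⟩
              · simp only; omega
              · simp only; omega
            · obtain ⟨θ, hθ, rfl⟩ := List.mem_map.1 he
              obtain ⟨g1, g2, g3, -⟩ := hth θ (hyl' θ hθ).1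
              have g4 := (hyl' θ hθ).2
              refine ⟨by omega, by omega, by simp only; omega, by simp only; omega, g4, by simp only; omega, g3, ?_, ?_⟩
              · simp only; omega
              · simp only; omega
          · obtain ⟨θ, hθ, rfl⟩ := List.mem_map.1 he
            obtain ⟨g1, g2, g3, g5⟩ := hio θ hθ
            have g4 : θ ≠ y := fun h => g5 (h ▸ hyth)
            refine ⟨by omega, by omega, by simp only; omega, by simp only; omega, g4, by simp only; omega, g3, ?_, ?_⟩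
            · simp only; omega
            · simp only; omega
        · obtain ⟨g1, g2, g3⟩ := hadm.rest_lt e he
          obtain ⟨f1, f2, f3, f4, f5, f6⟩ := hadm.rest_free e he
          exact ⟨by omega, by omega, g3, fun h => f5 (h ▸ hyth), fun h => f6 (h ▸ hyth), f3, f4, fun h => f1 h.1, fun h => f2 h.2⟩)
      Nd (by simp) hlen' hkM4
    rw [hSf] at key
    refine key.trans ?_
    rw [← hKdef]
    have hS1 : cvrSc τ' tS W x (ths.map fun θ => (a, θ))
        = W * (cvrSc τ' tS W x (l.map fun θ => (q, θ)) * cvrSc τ' tS W x (l'.map fun θ => (a, θ))) := by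
      rw [hl, List.map_append, List.map_cons, cvrSc_append, cvrSc_cons, if_pos hy4,
        cvr_sc_star τ' tS W x q a l fun θ hθ => hcv θ (hth θ (hyl θ hθ).1).1 (hth θ (hyl θ hθ).1).2.1]
      ring
    have hfin := cvr_scal (c2 := (Ca 2) ^ 2) (r2 := Cr 2) (av := (A / cvrV B ls j) ^ 2) (P4 := 1)
      (P1 := Cr (1 * Nd) ^ ((l.map fun θ => (q, θ)) ++ (l'.map fun θ => (a, θ)) ++ (io.toList.map fun o => (a, o)) ++ rest).length)
      (K4 := max 1 (Cr (4 * Nd)) ^ Nd) (K1 := max 1 (Cr (1 * Nd)) ^ Nd)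
      (S := cvrSc τ' tS W x (ths.map fun θ => (a, θ)) * cvrSc τ' tS W x (io.toList.map fun o => (a, o)) * cvrSc τ' tS W x rest)
      (S' := W / x * (cvrSc τ' tS W x (ths.map fun θ => (a, θ)) * cvrSc τ' tS W x (io.toList.map fun o => (a, o)) * cvrSc τ' tS W x rest))
      (by positivity) (hin.Cr_nonneg 2) (by positivity) zero_le_one (pow_nonneg (hin.Cr_nonneg _) _)
      (mul_nonneg (mul_nonneg (hScn _) (hScn _)) (hScn _)) (one_le_pow₀ hK₄) (hpw _ _ hlen')
      (le_mul_of_one_le_left (mul_nonneg (mul_nonneg (hScn _) (hScn _)) (hScn _)) hWx)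
    refine le_trans (le_of_eq ?_) hfin
    rw [hS1, cvrSc_append, cvrSc_append, cvrSc_append, cvrSc_nil, List.length_nil, pow_zero]
    ring
  -- the further edge
  have hI : |(cvpE hin.okB hin.adm (q + 1) τ' 0).E fun σ => (skOv (σ q) (σ b) - skOv (σ a) (σ b)) * cvrMon Sf τ' (ths.map fun θ => (q, θ)) σ
        * (cvrMon Sf τ' (io.toList.map fun o => (a, o)) σ - cvrMon Sf τ' (io.toList.map fun o => (q, o)) σ) * cvrMon Sf τ' rest σ| ≤ K := by
    rcases io with _ | o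
    · simp only [Option.toList_none, List.map_nil, sub_self, mul_zero, zero_mul]
      rw [CvExp.zero, abs_zero]
      exact hK0
    · obtain ⟨ho1, ho2, ho3, ho4⟩ := hio o (by simp)
      have e1 : (fun σ : ℕ → SkCfg n => (skOv (σ q) (σ b) - skOv (σ a) (σ b)) * cvrMon Sf τ' (ths.map fun θ => (q, θ)) σ
          * (cvrMon Sf τ' ((some o).toList.map fun o => (a, o)) σ - cvrMon Sf τ' ((some o).toList.map fun o => (q, o)) σ) * cvrMon Sf τ' rest σ)
          = fun σ => (skOv (σ q) (σ b) - skOv (σ a) (σ b)) * ((skOv (σ a) (σ o) - skOv (σ q) (σ o)) * cvrMon Sf τ' rest σ)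
            * cvrMon Sf τ' (ths.map fun θ => (q, θ)) σ := by
        funext σ
        simp only [Option.toList_some, List.map_cons, List.map_nil, cvrMon_cons, cvrMon_nil, mul_one]
        unfold cvrDl
        rw [hcv o ho1 ho2]
        ring
      rw [e1, sk_cvpl_nu_E]
      have hl1 : rest.length ≤ Nd := by omega
      have hl2 : (ths.map fun θ => (q, θ)).length ≤ Nd := by rw [List.length_map]; omega
      have key := cvr_pair_mon hin hkM hτ' (a := a) (c := q) (θ := b) (y := o) (by omega) (by omega) (by omega) (by omega) hac hj hjN hlow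
        (fun u => u ≠ a ∧ u ≠ q ∧ u ≠ b ∧ u ∉ ths) ⟨ho2, by omega, ho3, ho4⟩ (fun h => h.1 rfl) (fun h => h.2.1 rfl) (fun h => h.2.2.1 rfl)
        hba (by omega) rest (ths.map fun θ => (q, θ))
        (by
          intro e he
          obtain ⟨g1, g2, g3⟩ := hadm.rest_lt e he
          obtain ⟨f1, f2, f3, f4, f5, f6⟩ := hadm.rest_free e he
          exact ⟨by omega, by omega, g3, ⟨f1, by omega, f3, f5⟩, ⟨f2, by omega, f4, f6⟩⟩)
        (by
          intro e he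
          obtain ⟨θ, hθ, rfl⟩ := List.mem_map.1 he
          obtain ⟨g1, g2, g3, -⟩ := hth θ hθ
          refine ⟨by omega, by omega, by simp only; omega, fun h => h.2.1 rfl, fun h => h.2.2.2 hθ, by simp only; omega, g3, ?_, ?_⟩
          · simp only; omega
          · simp only; omega)
        Nd hl1 hl2 hkM4
      rw [hSf] at key
      refine key.trans ?_
      rw [← hKdef]
      have hS1 : cvrSc τ' tS W x (ths.map fun θ => (q, θ)) = cvrSc τ' tS W x (ths.map fun θ => (a, θ)) :=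
        cvr_sc_star τ' tS W x q a ths fun θ hθ => hcv θ (hth θ hθ).1 (hth θ hθ).2.1
      have hso : W ≤ W / x * cvrSc τ' tS W x ((some o).toList.map fun o => (a, o)) := by
        simp only [Option.toList_some, List.map_cons, List.map_nil, cvrSc_cons, cvrSc_nil, mul_one]
        have h1 : x ≤ if τ' a o = tS then W else x := by
          split_ifs
          · exact hin.x_le
          · exact le_rfl
        calc W = W / x * x := by field_simp
          _ ≤ _ := mul_le_mul_of_nonneg_left h1 (by positivity)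
      have hfin := cvr_scal (c2 := (Ca 2) ^ 2) (r2 := Cr 2) (av := (A / cvrV B ls j) ^ 2) (P4 := Cr (4 * Nd) ^ rest.length)
        (P1 := Cr (1 * Nd) ^ (ths.map fun θ => (q, θ)).length)
        (K4 := max 1 (Cr (4 * Nd)) ^ Nd) (K1 := max 1 (Cr (1 * Nd)) ^ Nd)
        (S := W * (cvrSc τ' tS W x (ths.map fun θ => (a, θ)) * cvrSc τ' tS W x rest))
        (S' := W / x * (cvrSc τ' tS W x (ths.map fun θ => (a, θ)) * cvrSc τ' tS W x ((some o).toList.map fun o => (a, o)) * cvrSc τ' tS W x rest))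
        (by positivity) (hin.Cr_nonneg 2) (by positivity) (pow_nonneg (hin.Cr_nonneg _) _) (pow_nonneg (hin.Cr_nonneg _) _)
        (mul_nonneg hW.le (mul_nonneg (hScn _) (hScn _))) (hpw _ _ hl1) (hpw _ _ hl2)
        (by
          calc W * (cvrSc τ' tS W x (ths.map fun θ => (a, θ)) * cvrSc τ' tS W x rest)
              ≤ (W / x * cvrSc τ' tS W x ((some o).toList.map fun o => (a, o)))
                * (cvrSc τ' tS W x (ths.map fun θ => (a, θ)) * cvrSc τ' tS W x rest) :=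
                mul_le_mul_of_nonneg_right hso (mul_nonneg (hScn _) (hScn _))
            _ = _ := by ring)
      refine le_trans (le_of_eq ?_) hfin
      rw [hS1]
      ring
  -- assembly
  have hB1 := cvr_tele (cvpE hin.okB hin.adm (q + 1) τ' 0) (fun i σ => cvrDl Sf τ' a i σ) (fun i σ => cvrDl Sf τ' q i σ)
    (fun σ => (skOv (σ q) (σ b) - skOv (σ a) (σ b)) * cvrMon Sf τ' (io.toList.map fun o => (a, o)) σ * cvrMon Sf τ' rest σ) K ths hT ths [] rfl
  have hadd := (cvpE hin.okB hin.adm (q + 1) τ' 0).add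
    (fun σ => ((skOv (σ q) (σ b) - skOv (σ a) (σ b)) * cvrMon Sf τ' (io.toList.map fun o => (a, o)) σ * cvrMon Sf τ' rest σ)
      * ((([] : List ℕ).map fun i => cvrDl Sf τ' q i σ).prod * ((ths.map fun i => cvrDl Sf τ' a i σ).prod - (ths.map fun i => cvrDl Sf τ' q i σ).prod)))
    (fun σ => (skOv (σ q) (σ b) - skOv (σ a) (σ b)) * cvrMon Sf τ' (ths.map fun θ => (q, θ)) σ
        * (cvrMon Sf τ' (io.toList.map fun o => (a, o)) σ - cvrMon Sf τ' (io.toList.map fun o => (q, o)) σ) * cvrMon Sf τ' rest σ)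
  have hsub := (cvpE hin.okB hin.adm (q + 1) τ' 0).sub
    (fun σ => (skOv (σ q) (σ b) - skOv (σ a) (σ b))
        * (cvrMon Sf τ' (ths.map fun θ => (a, θ)) σ * cvrMon Sf τ' (io.toList.map fun o => (a, o)) σ * cvrMon Sf τ' rest σ))
    (fun σ => (skOv (σ q) (σ b) - skOv (σ a) (σ b))
        * (cvrMon Sf τ' (ths.map fun θ => (q, θ)) σ * cvrMon Sf τ' (io.toList.map fun o => (q, o)) σ * cvrMon Sf τ' rest σ))
  have efun : (fun σ : ℕ → SkCfg n => ((skOv (σ q) (σ b) - skOv (σ a) (σ b)) * cvrMon Sf τ' (io.toList.map fun o => (a, o)) σ * cvrMon Sf τ' rest σ)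
      * ((([] : List ℕ).map fun i => cvrDl Sf τ' q i σ).prod * ((ths.map fun i => cvrDl Sf τ' a i σ).prod - (ths.map fun i => cvrDl Sf τ' q i σ).prod))
      + (skOv (σ q) (σ b) - skOv (σ a) (σ b)) * cvrMon Sf τ' (ths.map fun θ => (q, θ)) σ
        * (cvrMon Sf τ' (io.toList.map fun o => (a, o)) σ - cvrMon Sf τ' (io.toList.map fun o => (q, o)) σ) * cvrMon Sf τ' rest σ)
      = fun σ => (skOv (σ q) (σ b) - skOv (σ a) (σ b))
        * (cvrMon Sf τ' (ths.map fun θ => (a, θ)) σ * cvrMon Sf τ' (io.toList.map fun o => (a, o)) σ * cvrMon Sf τ' rest σ)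
        - (skOv (σ q) (σ b) - skOv (σ a) (σ b))
        * (cvrMon Sf τ' (ths.map fun θ => (q, θ)) σ * cvrMon Sf τ' (io.toList.map fun o => (q, o)) σ * cvrMon Sf τ' rest σ) := by
    funext σ
    rw [List.map_nil, List.prod_nil, one_mul, cvr_mon_star Sf τ' a ths, cvr_mon_star Sf τ' q ths]
    ring
  rw [efun, hsub, sk_cvpl_nu_E, sk_cvpl_nu_E, hanti] at hadd
  simp only [hmon]
  rw [hsc, hCr2, hanti, abs_neg]
  have h3 := (abs_add_le _ _).trans (add_le_add hB1 hI)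
  rw [← hadd] at h3
  generalize (trNu B ls (q + 1) τ' 0 fun σ => (skOv (σ q) (σ b) - skOv (σ a) (σ b))
        * (cvrMon Sf τ' (ths.map fun θ => (q, θ)) σ * cvrMon Sf τ' (io.toList.map fun o => (q, o)) σ * cvrMon Sf τ' rest σ)) = Y at h3 ⊢
  rw [show -Y - Y = -(2 * Y) by ring, abs_neg, abs_mul, abs_two] at h3
  have hthl : (ths.length : ℝ) ≤ Nd := by exact_mod_cast (by omega : ths.length ≤ Nd)
  have h4 : (ths.length : ℝ) * K + K ≤ 2 * ((Nd + 1) * K) := by nlinarith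
  have h5 : |Y| ≤ (Nd + 1) * K := by linarith
  refine h5.trans (le_of_eq ?_)
  rw [← hKdef]
  ring

/-- the masses `cvrV` are positive above `U` -/
theorem cvr_V_pos {B : GhB (SkCfg n)} {ls : List (GhLv (SkCfg n) ι)} {tI tS tU : ℕ} {W x A lg : ℝ} {Cr Ca : ℕ → ℝ} {kM : ℕ}
    (hin : CvrIn B ls tI tS tU W x A lg Cr Ca kM) {j : ℕ} (hj : tU ≤ j) (hjN : j ≤ ls.length) : 0 < cvrV B ls j := by
  obtain ⟨-, hSU, -⟩ := hin.ord
  refine lt_of_lt_of_le hin.U_pos ?_
  unfold cvrV trPm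
  rw [if_neg (by omega), if_neg (by omega)]
  exact (tr_ms_isMs hin.okB hin.adm).1.mono _ _ (by omega) (by omega)

/-- TEX[PE:lem:cavity-replacements] **Lemma 4.8 (i)**.  New label `c = q` summed in the block of `a`.  The coincidence vanishes (`tr_nu_coinc`); `cvr_one_level`; `∑ dm_j v_j (A/v_j)² ≤ A² lg`.  LEAF R6 -/
theorem cvr_one (Nd : ℕ) (Cr Ca : ℕ → ℝ) (Cg : ℝ) : ∃ (kM : ℕ) (C : ℝ), 0 ≤ C ∧ ∀ (n : ℕ) (ι : Type) [Fintype ι] (B : GhB (SkCfg n))
    (ls : List (GhLv (SkCfg n) ι)) (tI tS tU : ℕ) (W x A lg : ℝ), CvrIn B ls tI tS tU W x A lg Cr Ca kM →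
    ∀ (q : ℕ) (τ : ℕ → ℕ → ℕ) (a b : ℕ) (ths : List ℕ) (io : Option ℕ) (rest : List (ℕ × ℕ)), CvrAdm ls.length tI tS q τ a b ths io rest →
    q ≤ Nd → (cvrEs a ths io rest).length ≤ Nd →
    ∀ gam : ℕ → ℝ, (∀ j, tU ≤ j → j ≤ ls.length → |gam j| ≤ Cg * cvrV B ls j) →
      |∑ j ∈ Finset.Icc tU (ls.length + 1), cvrW (trMs B ls) ls.length j * gam j *
          trNu B ls (q + 1) (trAtt ls.length q τ a j) 0 fun σ =>
            (skOv (σ q) (σ b) - skOv (σ a) (σ b)) * cvrMon (cvrS B ls) τ (cvrEs a ths io rest) σ|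
        ≤ C * lg * A ^ 2 * (W / x) * cvrSc τ tS W x (cvrEs a ths io rest) := by
  obtain ⟨kM, C₁, hC₁, hlev⟩ := cvr_one_level Nd Cr Ca
  refine ⟨kM, C₁ * |Cg|, by positivity, ?_⟩
  intro n ι _ B ls tI tS tU W x A lg hin q τ a b ths io rest hadm hq hes gam hgam
  obtain ⟨-, hSU, hUN⟩ := hin.ord
  have hW : 0 ≤ W := hin.x_pos.le.trans hin.x_le
  have hSc : 0 ≤ cvrSc τ tS W x (cvrEs a ths io rest) := cvrSc_nonneg τ tS hW hin.x_pos.le _
  have hms := (tr_ms_isMs hin.okB hin.adm).1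
  rw [Finset.sum_Icc_succ_top (by omega : tU ≤ ls.length + 1)]
  have htop : (trNu B ls (q + 1) (trAtt ls.length q τ a (ls.length + 1)) 0 fun σ =>
      (skOv (σ q) (σ b) - skOv (σ a) (σ b)) * cvrMon (cvrS B ls) τ (cvrEs a ths io rest) σ) = 0 := by
    rw [tr_nu_coinc hin.okB hin.adm (tr_att_isTr hadm.tr hadm.ha le_rfl) 0 _ (x := a) (y := q) (by have := hadm.ha; omega) (by omega)
      (by rw [tr_att_on _ _ _ _ _ (by have := hadm.ha; omega), hadm.tr.diag a hadm.ha, min_self])]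
    have e0 : (fun σ : ℕ → SkCfg n => (skOv (Function.update σ q (σ a) q) (Function.update σ q (σ a) b)
        - skOv (Function.update σ q (σ a) a) (Function.update σ q (σ a) b))
          * cvrMon (cvrS B ls) τ (cvrEs a ths io rest) (Function.update σ q (σ a))) = fun _ => 0 := by
      funext σ
      rw [Function.update_self, Function.update_of_ne (by have := hadm.ha; omega : a ≠ q), sub_self, zero_mul]
    rw [e0]
    exact (cvpE hin.okB hin.adm (q + 1) _ 0).zero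
  rw [htop, mul_zero, add_zero]
  refine (Finset.abs_sum_le_sum_abs _ _).trans ?_
  have hterm : ∀ j ∈ Finset.Icc tU ls.length, |cvrW (trMs B ls) ls.length j * gam j *
      trNu B ls (q + 1) (trAtt ls.length q τ a j) 0 fun σ =>
        (skOv (σ q) (σ b) - skOv (σ a) (σ b)) * cvrMon (cvrS B ls) τ (cvrEs a ths io rest) σ|
      ≤ (C₁ * |Cg| * A ^ 2 * (W / x) * cvrSc τ tS W x (cvrEs a ths io rest)) * (cvrDm B ls j / cvrV B ls j) := by
    intro j hj
    obtain ⟨hj1, hj2⟩ := Finset.mem_Icc.1 hj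
    have hv := cvr_V_pos hin hj1 hj2
    have h1 := hlev n ι B ls tI tS tU W x A lg hin q τ a b ths io rest hadm hq hes j hj1 hj2
    have h2 : |gam j| ≤ |Cg| * cvrV B ls j := (hgam j hj1 hj2).trans (mul_le_mul_of_nonneg_right (le_abs_self _) hv.le)
    have h3 : |cvrW (trMs B ls) ls.length j| = cvrDm B ls j := by
      rw [cvrW_of_le _ hj2, abs_sub_comm, abs_of_nonneg (sub_nonneg.2 (tra2_pm_le hms hj2))]
      rfl
    have h4 : 0 ≤ cvrDm B ls j := by rw [← h3]; exact abs_nonneg _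
    rw [abs_mul, abs_mul, h3]
    calc _ ≤ cvrDm B ls j * (|Cg| * cvrV B ls j)
          * (C₁ * (A / cvrV B ls j) ^ 2 * (W / x) * cvrSc τ tS W x (cvrEs a ths io rest)) :=
          mul_le_mul (mul_le_mul_of_nonneg_left h2 h4) h1 (abs_nonneg _) (by positivity)
      _ = _ := by field_simp
  refine (Finset.sum_le_sum hterm).trans ?_
  rw [← Finset.mul_sum]
  have hx := hin.x_pos
  calc _ ≤ (C₁ * |Cg| * A ^ 2 * (W / x) * cvrSc τ tS W x (cvrEs a ths io rest)) * lg :=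
        mul_le_mul_of_nonneg_left hin.mesh (by positivity)
    _ = _ := by ring

end

end Claimed.Agent.R286
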