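import Claimed.Agent.R286.Cav.RepDefs
import Claimed.Agent.R286.Fd.TrB2
import Claimed.Agent.R286.Fd.TrA4
import Claimed.Agent.R286.Fd.ExtC
import Claimed.Agent.R286.Cav.PreLay
import Claimed.Agent.R286.Cav.PreLp

/-!
# Row 286 (S0533), folder Cav (PE Section 4), file RepApi : unit REP (PE Lemma 4.8), elementary API      (architect helper185; PROVER helper227, in place)

A1 the tree of copies, A2 marginal of a pair / symmetry of a table, A3 marginal of one copy (all from `tr_nu_comap`, `tr_nu_perm`, `tr_nu_congr` of `Fd/TrB1-2`),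
B3 size of a weighted projected anchor (`tr_x_holder_marg` / `tr_x_jensen` of `Fd/ExtC`, `sk_cavhol_prod`), C1 explicit weights of a singleton block, C2 joint split density (`Fd/TrA4`).
-/

set_option autoImplicit false

namespace Claimed.Agent.R286

open MeasureTheory ProbabilityTheory

theorem tr_dupK_le (q : ℕ) (τ : ℕ → ℕ → ℕ) (t : ℕ) (E : ℕ → Prop) [DecidablePred E] (x y : ℕ) :
    trDupK q τ t E x y ≤ τ (x % q) (y % q) := by
  unfold trDupK
  split_ifs
  · exact le_rfl
  · exact min_le_left _ _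
  · exact le_rfl

/-- the tree of copies is a tree.  LEAF A1 -/
theorem tr_dupK_isTr {N q : ℕ} {τ : ℕ → ℕ → ℕ} (hτ : IsTr N q τ) {t : ℕ} (E : ℕ → Prop) [DecidablePred E]
    (hE : ∀ x y, x < q → y < q → E x → ¬ E y → τ x y ≤ t) (p : ℕ) : IsTr N (p * q) (trDupK q τ t E) := by
  have hq : ∀ x, x < p * q → 0 < q := fun x hx => by
    rcases Nat.eq_zero_or_pos q with h | h
    · subst h; simp at hx
    · exact h
  refine ⟨fun x y hx hy => ?_, fun x hx => ?_, fun x y hx hy => ?_, fun x y z hx hy hz => ?_⟩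
  · exact (tr_dupK_le q τ t E x y).trans (hτ.le _ _ (Nat.mod_lt _ (hq x hx)) (Nat.mod_lt _ (hq x hx)))
  · unfold trDupK
    rw [if_pos rfl]
    exact hτ.diag _ (Nat.mod_lt _ (hq x hx))
  · have h0 := hq x hx
    have hs := hτ.symm (x % q) (y % q) (Nat.mod_lt _ h0) (Nat.mod_lt _ h0)
    unfold trDupK
    by_cases h1 : x / q = y / q
    · rw [if_pos h1, if_pos h1.symm, hs]
    · have h1' : ¬ y / q = x / q := fun h => h1 h.symm
      rw [if_neg h1, if_neg h1']
      by_cases h2 : E (x % q) ∧ E (y % q)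
      · have h2' : E (y % q) ∧ E (x % q) := ⟨h2.2, h2.1⟩
        rw [if_pos h2, if_pos h2', hs]
      · have h2' : ¬ (E (y % q) ∧ E (x % q)) := fun h => h2 ⟨h.2, h.1⟩
        rw [if_neg h2, if_neg h2', hs]
  · have h0 := hq x hx
    have hx' := Nat.mod_lt x h0
    have hy' := Nat.mod_lt y h0
    have hz' := Nat.mod_lt z h0
    have hu := hτ.ultra _ _ _ hx' hy' hz'
    have h1 := tr_dupK_le q τ t E x y
    have h2 := tr_dupK_le q τ t E y z
    have hmain : min (trDupK q τ t E x y) (trDupK q τ t E y z) ≤ τ (x % q) (z % q) :=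
      le_trans (min_le_min h1 h2) hu
    by_cases h3 : x / q = z / q
    · have : trDupK q τ t E x z = τ (x % q) (z % q) := by unfold trDupK; rw [if_pos h3]
      rw [this]; exact hmain
    · by_cases h4 : E (x % q) ∧ E (z % q)
      · have : trDupK q τ t E x z = min (τ (x % q) (z % q)) t := by unfold trDupK; rw [if_neg h3, if_pos h4]
        rw [this]
        refine le_min hmain ?_
        by_cases h5 : E (y % q)
        · by_cases h6 : x / q = y / q
          · have h7 : ¬ y / q = z / q := fun h => h3 (h6.trans h)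
            have : trDupK q τ t E y z = min (τ (y % q) (z % q)) t := by
              unfold trDupK; rw [if_neg h7, if_pos ⟨h5, h4.2⟩]
            rw [this]
            exact (min_le_right _ _).trans (min_le_right _ _)
          · have : trDupK q τ t E x y = min (τ (x % q) (y % q)) t := by
              unfold trDupK; rw [if_neg h6, if_pos ⟨h4.1, h5⟩]
            rw [this]
            exact (min_le_left _ _).trans (min_le_right _ _)
        · exact (min_le_left _ _).trans (h1.trans (hE _ _ hx' hy' h4.1 h5))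
      · have : trDupK q τ t E x z = τ (x % q) (z % q) := by unfold trDupK; rw [if_neg h3, if_neg h4]
        rw [this]; exact hmain

section
variable {S ι : Type} [Fintype S] [Fintype ι] [Inhabited S]

/-- marginal of a pair of leaves (`tr_nu_comap` + `tr_nu_congr`).  LEAF A2 -/
theorem tr_nu_pair {B : GhB S} (hB : B.Ok) {ls : List (GhLv S ι)} (hls : GhAdm B 0 ls) {q : ℕ} {τ : ℕ → ℕ → ℕ}
    (hτ : IsTr ls.length q τ) (z : S → ℝ) {c d : ℕ} (hc : c < q) (hd : d < q) (hcd : c ≠ d) (f : S → S → ℝ) :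
    trNu B ls q τ z (fun σ => f (σ c) (σ d)) = trNu B ls 2 (trTwo ls.length (τ c d)) z fun σ => f (σ 0) (σ 1) := by
  have h := tr_nu_comap hB hls hτ z (fun x => if x = 0 then c else d) (p := 2)
    (fun x _ => by split_ifs <;> assumption) (fun σ => f (σ 0) (σ 1))
    (fun σ σ' h => by simp only [h 0 (by norm_num), h 1 (by norm_num)])
  simp only [if_true, one_ne_zero, if_false] at h
  rw [h]
  refine tr_nu_congr B ls (fun x y hx hy => ?_) z _
  unfold trTwo
  have hx' : x = 0 ∨ x = 1 := by omega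
  have hy' : y = 0 ∨ y = 1 := by omega
  rcases hx' with rfl | rfl <;> rcases hy' with rfl | rfl <;> simp [hτ.diag _ hc, hτ.diag _ hd, hτ.symm d c hd hc]

/-- invariance under a symmetry of the table (`tr_nu_perm` + `tr_nu_congr`).  LEAF A2 -/
theorem tr_nu_symm {B : GhB S} (hB : B.Ok) {ls : List (GhLv S ι)} (hls : GhAdm B 0 ls) {q : ℕ} {τ : ℕ → ℕ → ℕ}
    (hτ : IsTr ls.length q τ) (z : S → ℝ) (e : Equiv.Perm ℕ) (he : ∀ x, q ≤ x → e x = x)
    (hinv : ∀ x y, x < q → y < q → τ (e x) (e y) = τ x y) (P : (ℕ → S) → ℝ) (hP : TrUses q P) :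
    trNu B ls q τ z (fun σ => P fun i => σ (e i)) = trNu B ls q τ z P := by
  rw [tr_nu_comap hB hls hτ z e (fun x hx => tb2_perm_lt e he hx) P hP]
  exact tr_nu_congr B ls hinv z P

/-- one copy in the tree of copies has the law of the original tree (`tr_nu_comap`).  LEAF A3 -/
theorem tr_dupK_marg {B : GhB S} (hB : B.Ok) {ls : List (GhLv S ι)} (hls : GhAdm B 0 ls) {q : ℕ} {τ : ℕ → ℕ → ℕ}
    (hτ : IsTr ls.length q τ) (z : S → ℝ) {t : ℕ} (E : ℕ → Prop) [DecidablePred E]
    (hE : ∀ x y, x < q → y < q → E x → ¬ E y → τ x y ≤ t) {p k : ℕ} (hk : k < p) (P : (ℕ → S) → ℝ) (hP : TrUses q P) :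
    trNu B ls (p * q) (trDupK q τ t E) z (trSh q k P) = trNu B ls q τ z P := by
  have h := tr_nu_comap hB hls (tr_dupK_isTr hτ E hE p) z (fun b => b + k * q) (p := q)
    (fun x hx => by
      have : (k + 1) * q ≤ p * q := Nat.mul_le_mul_right q hk
      rw [Nat.add_mul, one_mul] at this
      omega) P hP
  unfold trSh
  rw [h]
  refine tr_nu_congr B ls (fun x y hx hy => ?_) z P
  have hq : 0 < q := by omega
  unfold trDupK
  have e1 : (x + k * q) / q = k := by
    rw [Nat.add_mul_div_right _ _ hq, Nat.div_eq_of_lt hx, zero_add]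
  have e2 : (y + k * q) / q = k := by
    rw [Nat.add_mul_div_right _ _ hq, Nat.div_eq_of_lt hy, zero_add]
  rw [if_pos (e1.trans e2.symm), Nat.add_mul_mod_self_right, Nat.add_mul_mod_self_right, Nat.mod_eq_of_lt hx, Nat.mod_eq_of_lt hy]

end

section
variable {n : ℕ} {ι : Type} [Fintype ι]

/-- size of a weighted projected anchor `w = H σ_o` (PE l.775-790): `‖V‖_{2k} ≤ ‖H‖_{4k} ‖R_{split at the depth t}‖_{2k}^{1/2}`.   `sk_cavhol_prod` on the tree of copies
(`k` factors `H H'` and `k` overlaps, all in `L^{2k}`) + marginals (`tr_dupK_marg`, `tr_nu_pair`).  LEAF B3 -/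
theorem cvr_anchor_size {B : GhB (SkCfg n)} (hB : B.Ok) {ls : List (GhLv (SkCfg n) ι)} (hls : GhAdm B 0 ls) {q : ℕ} {τ : ℕ → ℕ → ℕ}
    (hτ : IsTr ls.length q τ) {t k o : ℕ} (ht : t ≤ ls.length) (ho : o < q) (hk : 0 < k)
    (E : ℕ → Prop) [DecidablePred E] (hoE : E o)
    (hE : ∀ x y, x < q → y < q → E x → ¬ E y → τ x y ≤ t)
    (H : (ℕ → SkCfg n) → ℝ) (hHu : TrUses q H) {cH cR : ℝ} (hH : CvLe (cvpE hB hls q τ 0) (2 * k) H cH)
    (hcR : 0 ≤ cR) (hR : cvrM B ls t k ≤ cR ^ (2 * k)) :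
    (trNu B ls (2 * k * q) (trDupK q τ t E) 0 fun σ =>
        ∏ i ∈ Finset.range k, cvrIp (trSh q (2 * i) (fun σ i => H σ * skSp (σ o) i) σ)
          (trSh q (2 * i + 1) (fun σ i => H σ * skSp (σ o) i) σ))
      ≤ cH ^ (2 * k) * cR ^ k := by
  have hq : 0 < q := by omega
  have hT := tr_dupK_isTr hτ E hE (2 * k) (t := t)
  set ν := cvpE hB hls (2 * k * q) (trDupK q τ t E) 0 with hν
  -- the two families of factors
  let HH : ℕ → (ℕ → SkCfg n) → ℝ := fun i σ => trSh q (2 * i) H σ * trSh q (2 * i + 1) H σ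
  let RR : ℕ → (ℕ → SkCfg n) → ℝ := fun i σ => skOv (σ (o + 2 * i * q)) (σ (o + (2 * i + 1) * q))
  have hpt : (fun σ : ℕ → SkCfg n => ∏ i ∈ Finset.range k, cvrIp (trSh q (2 * i) (fun σ i => H σ * skSp (σ o) i) σ)
          (trSh q (2 * i + 1) (fun σ i => H σ * skSp (σ o) i) σ))
      = fun σ => ∏ j ∈ Finset.range (k + k), (if j < k then HH j else RR (j - k)) σ := by
    funext σ
    rw [Finset.prod_range_add, ← Finset.prod_mul_distrib]
    refine Finset.prod_congr rfl fun i hi => ?_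
    rw [Finset.mem_range] at hi
    rw [if_pos hi, if_neg (by omega), Nat.add_sub_cancel_left]
    simp only [cvrIp, trSh, HH, RR, skOv]
    rw [mul_div_assoc', Finset.mul_sum]
    congr 1
    exact Finset.sum_congr rfl fun j _ => by ring
  -- marginal of one copy of `H`
  have hHm : ∀ m, m < 2 * k → CvLe ν (k * 2) (trSh q m H) cH := by
    intro m hm
    refine ⟨hH.1, ?_⟩
    have h1 := tr_dupK_marg hB hls hτ 0 E hE hm (fun σ => H σ ^ (2 * (k * 2)))
      (fun σ σ' h => by simp only [hHu σ σ' h])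
    have h2 : ν.E (fun σ => trSh q m H σ ^ (2 * (k * 2))) = trNu B ls q τ 0 fun σ => H σ ^ (2 * (k * 2)) := h1
    rw [h2, mul_comm k 2]
    exact hH.2
  have hHH : ∀ i, i < k → CvLe ν k (HH i) (cH * cH) := fun i hi =>
    CvLe.mul (hHm _ (by omega)) (hHm _ (by omega))
  have hRR : ∀ i, i < k → ν.E (fun σ => RR i σ ^ (2 * k)) ≤ cR ^ (2 * k) := by
    intro i hi
    have hc : o + 2 * i * q < 2 * k * q := by
      have : (2 * i + 1) * q ≤ 2 * k * q := Nat.mul_le_mul_right q (by omega)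
      rw [Nat.add_mul, one_mul] at this
      omega
    have hd : o + (2 * i + 1) * q < 2 * k * q := by
      have : (2 * i + 1 + 1) * q ≤ 2 * k * q := Nat.mul_le_mul_right q (by omega)
      rw [Nat.add_mul (2 * i + 1), one_mul] at this
      omega
    have hcd : o + 2 * i * q ≠ o + (2 * i + 1) * q := by
      rw [Nat.add_mul, one_mul]
      omega
    have h1 := tr_nu_pair hB hls hT 0 hc hd hcd (fun s s' => skOv s s' ^ (2 * k))
    have h2 : trDupK q τ t E (o + 2 * i * q) (o + (2 * i + 1) * q) = t := by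
      unfold trDupK
      have e1 : (o + 2 * i * q) / q = 2 * i := by
        rw [Nat.add_mul_div_right _ _ hq, Nat.div_eq_of_lt ho, zero_add]
      have e2 : (o + (2 * i + 1) * q) / q = 2 * i + 1 := by
        rw [Nat.add_mul_div_right _ _ hq, Nat.div_eq_of_lt ho, zero_add]
      rw [if_neg (by rw [e1, e2]; omega), Nat.add_mul_mod_self_right, Nat.add_mul_mod_self_right, Nat.mod_eq_of_lt ho,
        if_pos ⟨hoE, hoE⟩, hτ.diag o ho]
      exact min_eq_right (by omega)
    rw [h2] at h1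
    have h3 : ν.E (fun σ => RR i σ ^ (2 * k)) = cvrM B ls t k := h1
    rw [h3]
    exact hR
  have hmain := sk_cavhol_prod ν (Finset.range (k + k)) (fun j => if j < k then HH j else RR (j - k))
    (fun j => if j < k then cH * cH else cR) k (by rw [Finset.card_range]; omega)
    (by
      intro j _
      split_ifs
      · exact mul_nonneg hH.1 hH.1
      · exact hcR)
    (by
      intro j hj
      rw [Finset.mem_range] at hj
      by_cases h : j < k
      · simp only [if_pos h]
        exact (hHH j h).2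
      · simp only [if_neg h]
        exact hRR (j - k) (by omega))
  have hprod : ∏ j ∈ Finset.range (k + k), (if j < k then cH * cH else cR) = cH ^ (2 * k) * cR ^ k := by
    rw [Finset.prod_range_add]
    have e1 : ∏ j ∈ Finset.range k, (if j < k then cH * cH else cR) = (cH * cH) ^ k := by
      rw [Finset.prod_congr rfl fun j hj => if_pos (Finset.mem_range.1 hj), Finset.prod_const, Finset.card_range]
    have e2 : ∏ j ∈ Finset.range k, (if k + j < k then cH * cH else cR) = cR ^ k := by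
      rw [Finset.prod_congr rfl fun j _ => if_neg (by omega), Finset.prod_const, Finset.card_range]
    rw [e1, e2, pow_mul, sq]
  rw [hpt]
  rw [hprod] at hmain
  exact (le_abs_self _).trans hmain

end

/-- weight of an attachment inside the block of a leaf which is alone in its block -/
theorem cvr_wt_blk {N q : ℕ} {τ : ℕ → ℕ → ℕ} (ms : ℕ → ℝ) (hτ : IsTr N q τ) {a tU : ℕ} (ha : a < q)
    (hal : ∀ y, y < q → y ≠ a → τ a y < tU) {j : ℕ} (hj : tU ≤ j) (hjN : j ≤ N + 1) :
    trWt ms N q τ a j = cvrW ms N j := by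
  have hmin : ∀ i, tU ≤ i → trIsMin τ i a := fun i hi y hy => lt_of_lt_of_le (hal y (by omega) (by omega)) hi
  unfold trWt cvrW
  rw [if_pos (hmin j hj)]
  by_cases h : j = N + 1
  · rw [if_pos h, if_pos h]
  · rw [if_neg h, if_neg h]
    have hdeg : trDeg q τ j a = 1 := by
      unfold trDeg
      have : ((Finset.range q).filter fun y => j ≤ τ a y ∧ trIsMin τ (j + 1) y) = {a} := by
        ext y
        simp only [Finset.mem_filter, Finset.mem_range, Finset.mem_singleton]
        constructor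
        · rintro ⟨hy, h1, _⟩
          by_contra hya
          have := hal y hy hya
          omega
        · rintro rfl
          exact ⟨ha, by rw [hτ.diag y ha]; exact hjN, hmin _ (by omega)⟩
      rw [this, Finset.card_singleton]
    rw [hdeg, Nat.cast_one, one_mul]

/-- a new label in the block of a leaf which is alone in its block: explicit weights.  (`trWt`, `trDeg` by hand; cf. `sk_cvpl_row_radial`.)  LEAF C1 -/
theorem cvr_sum_blk {N q : ℕ} {τ : ℕ → ℕ → ℕ} (ms : ℕ → ℝ) (hτ : IsTr N q τ) {a tU : ℕ} (ha : a < q) (hU : tU ≤ N)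
    (hal : ∀ y, y < q → y ≠ a → τ a y < tU) (Φ : (ℕ → ℕ → ℕ) → ℝ) :
    trSum ms N q τ (fun τ' => if tU ≤ τ' a q then Φ τ' else 0) = ∑ j ∈ Finset.Icc tU (N + 1), cvrW ms N j * Φ (trAtt N q τ a j) := by
  unfold trSum
  beta_reduce
  rw [Finset.sum_eq_single_of_mem a (Finset.mem_range.2 ha)]
  · have hsub : Finset.Icc tU (N + 1) ⊆ Finset.range (N + 2) := fun j hj => by
      rw [Finset.mem_Icc] at hj
      rw [Finset.mem_range]
      omega
    rw [← Finset.sum_subset hsub]
    · refine Finset.sum_congr rfl fun j hj => ?_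
      rw [Finset.mem_Icc] at hj
      rw [trw_att_nr ha, hτ.diag a ha, if_pos (le_min hj.1 (by omega)), cvr_wt_blk ms hτ ha hal hj.1 hj.2]
    · intro j hj hj'
      rw [Finset.mem_range] at hj
      rw [Finset.mem_Icc] at hj'
      rw [trw_att_nr ha, if_neg (by
        intro h
        have := le_trans h (min_le_left _ _)
        omega), mul_zero]
  · intro x hx hxa
    rw [Finset.mem_range] at hx
    refine Finset.sum_eq_zero fun j _ => ?_
    rw [trw_att_nr ha, if_neg (by
      intro h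
      have h1 := le_trans h (min_le_right _ _)
      have h2 := hal x hx hxa
      omega), mul_zero]

/-- linearity of the total variation sums -/
theorem cvr_absK_sum {α : Type} (ms : ℕ → ℝ) (N : ℕ) (s : Finset α) (c : α → ℝ) (Φ : α → (ℕ → ℕ → ℕ) → ℝ) (k : ℕ) :
    ∀ (q : ℕ) (τ : ℕ → ℕ → ℕ),
    trAbsK ms N k q τ (fun τ' => ∑ i ∈ s, c i * Φ i τ') = ∑ i ∈ s, c i * trAbsK ms N k q τ (Φ i) := by
  induction k with
  | zero => intro q τ; rfl
  | succ k ih =>
    intro q τ
    simp only [trAbsK, trAbs]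
    simp_rw [ih, Finset.mul_sum]
    calc _ = ∑ x ∈ Finset.range q, ∑ i ∈ s, ∑ j ∈ Finset.range (N + 2),
            |trWt ms N q τ x j| * (c i * trAbsK ms N k (q + 1) (trAtt N q τ x j) (Φ i)) :=
          Finset.sum_congr rfl fun x _ => Finset.sum_comm
      _ = ∑ i ∈ s, ∑ x ∈ Finset.range q, ∑ j ∈ Finset.range (N + 2),
            |trWt ms N q τ x j| * (c i * trAbsK ms N k (q + 1) (trAtt N q τ x j) (Φ i)) := Finset.sum_comm
      _ = _ := Finset.sum_congr rfl fun i _ => Finset.sum_congr rfl fun x _ => Finset.sum_congr rfl fun j _ => by ring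

/-- joint density of the split depths of `(a, q)` and `(q+1, q+2)` above all the old forks -/
theorem cvr_dens_pair (q : ℕ) (amax : ℝ) : ∃ C : ℝ, 0 ≤ C ∧ ∀ (N : ℕ) (τ : ℕ → ℕ → ℕ) (ms : ℕ → ℝ) (a tU : ℕ), IsTr N q τ → IsMs N ms →
    ms N ≤ amax → a < q → (∀ y z, y < q → z < q → y ≠ z → τ y z < tU) → ∀ j1 j2, tU ≤ j1 → j1 ≤ N + 1 → tU ≤ j2 → j2 ≤ N →
    trAbsK ms N 3 q τ (fun τ' => if τ' a q = j1 ∧ τ' (q + 1) (q + 2) = j2 then 1 else 0)
      ≤ C * (if j1 = N + 1 then (ms j2 - trPm ms j2)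
          else (ms j1 - trPm ms j1) * (ms j2 - trPm ms j2) + if j1 = j2 then (ms j2 - trPm ms j2) else 0) := by
  obtain ⟨C, hC0, hC⟩ := tr_split_density_multi q 3 2 amax
  refine ⟨C, hC0, fun N τ ms a tU hτ hms hA ha hlow j1 j2 h1 h1N h2 h2N => ?_⟩
  have hno : ∀ j, tU ≤ j → j ≤ N → ∀ y z, y < q → z < q → τ y z ≠ j := by
    intro j hj hjN y z hy hz
    by_cases hyz : y = z
    · subst hyz; rw [hτ.diag y hy]; omega
    · have := hlow y z hy hz hyz; omega
  have hD2 := trw_step_nonneg hms h2N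
  -- the bound by the density of the pair `(q+1, q+2)` alone
  have hone : trAbsK ms N 3 q τ (fun τ' => if τ' a q = j1 ∧ τ' (q + 1) (q + 2) = j2 then 1 else 0)
      ≤ C * (ms j2 - trPm ms j2) := by
    have h := hC N τ ms hτ hms hA {j2} (fun _ => q + 1) (fun _ => q + 2) (by simp)
      (by intro j hj; rw [Finset.mem_singleton] at hj; subst hj; exact ⟨h2N, by omega, by omega⟩)
      (by intro j hj; rw [Finset.mem_singleton] at hj; subst hj; exact hno j h2 h2N)
    rw [Finset.prod_singleton] at h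
    refine le_trans ?_ h
    apply trw_absK_mono
    intro τ'
    by_cases hc : τ' a q = j1 ∧ τ' (q + 1) (q + 2) = j2
    · rw [if_pos hc, Set.indicator_of_mem (show τ' ∈ {τ' : ℕ → ℕ → ℕ | ∀ j ∈ ({j2} : Finset ℕ), τ' (q + 1) (q + 2) = j} from
        fun j hj => by rw [Finset.mem_singleton] at hj; rw [hj]; exact hc.2)]
    · rw [if_neg hc]
      exact Set.indicator_nonneg (fun _ _ => zero_le_one) τ'
  by_cases hN : j1 = N + 1
  · rw [if_pos hN]; exact hone
  rw [if_neg hN]
  have h1N' : j1 ≤ N := by omega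
  have hD1 := trw_step_nonneg hms h1N'
  by_cases h12 : j1 = j2
  · rw [if_pos h12]
    refine hone.trans (mul_le_mul_of_nonneg_left ?_ hC0)
    have := mul_nonneg hD1 hD2
    linarith
  · rw [if_neg h12, add_zero]
    have h := hC N τ ms hτ hms hA {j1, j2} (fun j => if j = j1 then a else q + 1) (fun j => if j = j1 then q else q + 2)
      (Finset.card_le_two)
      (by
        intro j hj
        rw [Finset.mem_insert, Finset.mem_singleton] at hj
        refine ⟨by rcases hj with rfl | rfl <;> assumption, ?_, ?_⟩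
        · split_ifs <;> omega
        · split_ifs <;> omega)
      (by
        intro j hj
        rw [Finset.mem_insert, Finset.mem_singleton] at hj
        rcases hj with rfl | rfl
        · exact hno _ h1 h1N'
        · exact hno _ h2 h2N)
    rw [Finset.prod_pair h12] at h
    refine le_trans ?_ h
    apply trw_absK_mono
    intro τ'
    by_cases hc : τ' a q = j1 ∧ τ' (q + 1) (q + 2) = j2
    · rw [if_pos hc, Set.indicator_of_mem]
      intro j hj
      rw [Finset.mem_insert, Finset.mem_singleton] at hj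
      rcases hj with rfl | rfl
      · simp only [if_true]; exact hc.1
      · rw [if_neg (fun h => h12 h.symm), if_neg (fun h => h12 h.symm)]; exact hc.2
    · rw [if_neg hc]
      exact Set.indicator_nonneg (fun _ _ => zero_le_one) τ'

/-- three new labels `c = q`, `e = q+1`, `f = q+2` in the block of a leaf `a` which is alone in its block: joint density of the split depths of `(a,c)` and `(e,f)`.
From `tr_split_density_multi` (distinct depths), `tr_split_density` (equal depths, coincidence `c = a`).   Numerically `C = 8` at terminal mass `1`.  LEAF C2 -/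
theorem cvr_dens3 (Nd : ℕ) (amax : ℝ) : ∃ C : ℝ, 0 ≤ C ∧ ∀ (N q : ℕ) (τ : ℕ → ℕ → ℕ) (ms : ℕ → ℝ) (a tU : ℕ), IsTr N q τ → IsMs N ms → ms N ≤ amax →
    q ≤ Nd → a < q → (∀ y z, y < q → z < q → y ≠ z → τ y z < tU) → tU ≤ N → ∀ φ ψ : ℕ → ℝ, (∀ j, 0 ≤ φ j) → (∀ j, 0 ≤ ψ j) →
      trAbsK ms N 3 q τ (fun τ' => if tU ≤ τ' a q ∧ tU ≤ τ' a (q + 1) ∧ tU ≤ τ' a (q + 2) ∧ τ' (q + 1) (q + 2) ≤ N then
          φ (τ' a q) * ψ (τ' (q + 1) (q + 2)) else 0)
        ≤ C * ((∑ j ∈ Finset.Icc tU N, (ms j - trPm ms j) * φ j + φ (N + 1)) * (∑ j ∈ Finset.Icc tU N, (ms j - trPm ms j) * ψ j)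
            + ∑ j ∈ Finset.Icc tU N, (ms j - trPm ms j) * φ j * ψ j) := by
  choose Cq hCq0 hCq using fun q => cvr_dens_pair q amax
  refine ⟨∑ q ∈ Finset.range (Nd + 1), Cq q, Finset.sum_nonneg fun q _ => hCq0 q, ?_⟩
  intro N q τ ms a tU hτ hms hA hq ha hlow hU φ ψ hφ hψ
  set C : ℝ := ∑ q ∈ Finset.range (Nd + 1), Cq q with hCdef
  have hC0 : 0 ≤ C := Finset.sum_nonneg fun q _ => hCq0 q
  have hCle : Cq q ≤ C := Finset.single_le_sum (f := Cq) (fun i _ => hCq0 i) (Finset.mem_range.2 (by omega))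
  set D : ℕ → ℝ := fun j => ms j - trPm ms j with hD
  have hD0 : ∀ j ∈ Finset.Icc tU N, 0 ≤ D j := fun j hj => trw_step_nonneg hms (Finset.mem_Icc.1 hj).2
  set w : ℕ → ℕ → ℝ := fun j1 j2 => if j1 = N + 1 then D j2 else D j1 * D j2 + if j1 = j2 then D j2 else 0 with hw
  set G : ℕ × ℕ → (ℕ → ℕ → ℕ) → ℝ := fun p τ' => if τ' a q = p.1 ∧ τ' (q + 1) (q + 2) = p.2 then 1 else 0 with hG
  set s : Finset (ℕ × ℕ) := Finset.Icc tU (N + 1) ×ˢ Finset.Icc tU N with hs
  -- pointwise domination on trees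
  have hpt : trAbsK ms N 3 q τ (fun τ' => if tU ≤ τ' a q ∧ tU ≤ τ' a (q + 1) ∧ tU ≤ τ' a (q + 2) ∧ τ' (q + 1) (q + 2) ≤ N then
          φ (τ' a q) * ψ (τ' (q + 1) (q + 2)) else 0)
      ≤ trAbsK ms N 3 q τ (fun τ' => ∑ p ∈ s, (φ p.1 * ψ p.2) * G p τ') := by
    refine tr_absK_mono hτ 3 _ _ fun τ' hτ' => ?_
    have hnn : ∀ p ∈ s, 0 ≤ (φ p.1 * ψ p.2) * G p τ' := fun p _ => by
      refine mul_nonneg (mul_nonneg (hφ _) (hψ _)) ?_
      simp only [hG]; split_ifs <;> norm_num
    split_ifs with hc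
    · obtain ⟨c1, c2, c3, c4⟩ := hc
      have hmem : (τ' a q, τ' (q + 1) (q + 2)) ∈ s := by
        rw [hs, Finset.mem_product, Finset.mem_Icc, Finset.mem_Icc]
        refine ⟨⟨c1, hτ'.le _ _ (by omega) (by omega)⟩, ?_, c4⟩
        have hu := hτ'.ultra (q + 1) a (q + 2) (by omega) (by omega) (by omega)
        rw [hτ'.symm (q + 1) a (by omega) (by omega)] at hu
        exact le_trans (le_min c2 c3) hu
      refine le_trans (le_of_eq ?_) (Finset.single_le_sum hnn hmem)
      simp only [hG, and_self, if_true, mul_one]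
    · exact Finset.sum_nonneg hnn
  refine hpt.trans ?_
  rw [cvr_absK_sum]
  -- density of each pair
  have hden : ∀ p ∈ s, (φ p.1 * ψ p.2) * trAbsK ms N 3 q τ (G p) ≤ (φ p.1 * ψ p.2) * (C * w p.1 p.2) := by
    intro p hp
    rw [hs, Finset.mem_product, Finset.mem_Icc, Finset.mem_Icc] at hp
    refine mul_le_mul_of_nonneg_left ?_ (mul_nonneg (hφ _) (hψ _))
    refine (hCq q N τ ms a tU hτ hms hA ha hlow p.1 p.2 hp.1.1 hp.1.2 hp.2.1 hp.2.2).trans ?_
    refine mul_le_mul_of_nonneg_right hCle ?_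
    have d2 : 0 ≤ D p.2 := hD0 _ (Finset.mem_Icc.2 hp.2)
    by_cases hN : p.1 = N + 1
    · rw [if_pos hN]; exact d2
    · rw [if_neg hN]
      have d1 : 0 ≤ D p.1 := hD0 _ (Finset.mem_Icc.2 ⟨hp.1.1, by omega⟩)
      refine add_nonneg (mul_nonneg d1 d2) ?_
      split_ifs
      · exact d2
      · exact le_rfl
  refine (Finset.sum_le_sum hden).trans (le_of_eq ?_)
  rw [hs, Finset.sum_product, Finset.sum_Icc_succ_top (by omega)]
  have e1 : ∑ j2 ∈ Finset.Icc tU N, φ (N + 1) * ψ j2 * (C * w (N + 1) j2)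
      = C * (φ (N + 1) * ∑ j ∈ Finset.Icc tU N, D j * ψ j) := by
    rw [Finset.mul_sum, Finset.mul_sum]
    refine Finset.sum_congr rfl fun j _ => ?_
    simp only [hw, if_true]
    ring
  have e2 : ∀ j1 ∈ Finset.Icc tU N, ∑ j2 ∈ Finset.Icc tU N, φ j1 * ψ j2 * (C * w j1 j2)
      = C * (D j1 * φ j1 * ∑ j ∈ Finset.Icc tU N, D j * ψ j) + C * (D j1 * φ j1 * ψ j1) := by
    intro j1 hj1
    have hne : j1 ≠ N + 1 := by
      have := (Finset.mem_Icc.1 hj1).2
      omega
    have : ∀ j2 ∈ Finset.Icc tU N, φ j1 * ψ j2 * (C * w j1 j2)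
        = C * (D j1 * φ j1 * (D j2 * ψ j2)) + if j1 = j2 then C * (D j2 * φ j1 * ψ j2) else 0 := by
      intro j2 _
      simp only [hw, if_neg hne]
      split_ifs <;> ring
    rw [Finset.sum_congr rfl this, Finset.sum_add_distrib, Finset.sum_ite_eq, if_pos hj1, Finset.mul_sum, Finset.mul_sum]
  simp only
  rw [e1, Finset.sum_congr rfl e2, Finset.sum_add_distrib, ← Finset.mul_sum, ← Finset.mul_sum, ← Finset.sum_mul]
  ring

end Claimed.Agent.R286
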