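import Claimed.Agent.R286.Cav.RepApi
import Claimed.Agent.R286.Fd.TrB3
import Claimed.Agent.R286.Fd.TrBe
import Claimed.Agent.R286.Fd.ExtA
import Claimed.Agent.R286.Fd.Cut
import Claimed.Agent.R286.Fd.ExtE

/-!
# Row 286 (S0533), folder Cav (PE Section 4), file RepCut : unit REP (PE Lemma 4.8), THE CUT MACHINERY      (architect helper185; PROVER helper127, in place)

A4 Hoelder (2,4,4) at a cut (PROVER helper16), B1 / B2 the anchor estimate PE (13) integrated against projected / unprojected anchors (PROVED, helper127: `Fd/Cut.lean`, `tr_k_anchor_rep`, `tr_k_anchor_raw`;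
the cut kit there is reusable for A4: `tr_k_cut`, `tr_k_ind`, `tr_k_comap`, `gh_k_mix`, `gh_k_peel`).
TOOLS: `gh_x_markov` (`Fd/ExtA`, subtree Markov, raw, 0 sorry): `ν[f g(σ_A)] = ν[f Ψ_g(field of a0 after s revelations)]`, `f` may read spins and drivers outside `A`;
a test which is not a product is a FINITE SUM over the spins outside `A` of products `1[σ = s] * g_s(σ_A)`;   `gh_n_inv` (`Fd/NuApi`: marginals, relabelling, doubling), `tr_b3_indep_raw`, `tr_e_nu_meas` (`Fd/TrBe`).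
PLAN for A4 (alternative): induction on `t` at the level of `ghNu` with per-label fields: `t = 0` = independence of the three groups + finite sums + Hoelder for finite sums;
step = `gh_n_level` (only the classes matter: the copies have the classes of the originals before the depth `t`) + Hoelder (2,4,4) in the outer Gaussian integral.
-/

set_option autoImplicit false

namespace Claimed.Agent.R286

open MeasureTheory ProbabilityTheory

/-! ### A4: helpers (helper16).  Route: on the master table `M` = 4 copies of `E = E₁ ∪ E₂` two squares are nonnegative (`tr_x_refl`, `Fd/ExtE`); all the other numbers are marginals of `M`. -/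

/-- the table of copies at shifted labels -/
theorem tr_xc_shift {q : ℕ} (hq : 0 < q) (τ : ℕ → ℕ → ℕ) (t : ℕ) (E : ℕ → Prop) [DecidablePred E] (x y s s' : ℕ) :
    trDupK q τ t E (x + s * q) (y + s' * q)
      = if x / q + s = y / q + s' then τ (x % q) (y % q)
        else if E (x % q) ∧ E (y % q) then min (τ (x % q) (y % q)) t else τ (x % q) (y % q) := by
  unfold trDupK
  rw [Nat.add_mul_div_right _ _ hq, Nat.add_mul_div_right _ _ hq, Nat.add_mul_mod_self_right, Nat.add_mul_mod_self_right]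

/-- a test which uses the labels `< q` and is free of `F` reads the labels `< q` outside `F` only -/
theorem tr_xc_reads {S : Type} {q : ℕ} {F : ℕ → Prop} {g : (ℕ → S) → ℝ} (hu : TrUses q g) (hf : TrFree F g) (σ σ' : ℕ → S)
    (h : ∀ b, b < q → ¬ F b → σ b = σ' b) : g σ = g σ' := by
  classical
  calc g σ = g (fun b => if b < q then σ b else σ' b) := hu _ _ fun i hi => by simp only [if_pos hi]
    _ = g σ' := hf _ _ fun b hb => by
        by_cases hq : b < q
        · simp only [if_pos hq]; exact h b hq hb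
        · simp only [if_neg hq]

/-- the label map "copy `k` of the labels of `E`, the common copy of the other labels" -/
def trCp (q : ℕ) (E : ℕ → Prop) [DecidablePred E] (k : ℕ) : ℕ → ℕ := fun x => x + (if E (x % q) then k else 0) * q

theorem tr_xc_eqns_cite : True := by
  have := @trCp.eq_1
  trivial

theorem tr_xc_cp_lt {q : ℕ} (E : ℕ → Prop) [DecidablePred E] {k x c : ℕ} (hx : x < c * q) : trCp q E k x < (c + k) * q := by
  unfold trCp
  have h1 : (if E (x % q) then k else 0) * q ≤ k * q := Nat.mul_le_mul_right q (by split_ifs <;> omega)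
  rw [Nat.add_mul]
  omega

theorem tr_xc_cp_low {q : ℕ} (E : ℕ → Prop) [DecidablePred E] (k : ℕ) {b : ℕ} (hb : b < q) :
    trCp q E k b = b + (if E b then k else 0) * q := by
  unfold trCp
  rw [Nat.mod_eq_of_lt hb]

theorem tr_xc_cp_cp {q : ℕ} (E : ℕ → Prop) [DecidablePred E] (k k' x : ℕ) : trCp q E k (trCp q E k' x) = trCp q E (k' + k) x := by
  unfold trCp
  rw [Nat.add_mul_mod_self_right]
  split_ifs
  · rw [Nat.add_mul, Nat.add_assoc]
  · simp

section
variable {S ι : Type} [Fintype S] [Fintype ι] [Inhabited S]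

/-- **a block of `c` copies and its reflection**: `E (E[H | fields at the depth t, leaves outside E])² ≥ 0` -/
theorem tr_xc_refl {B : GhB S} (hB : B.Ok) {ls : List (GhLv S ι)} (hls : GhAdm B 0 ls) {q : ℕ} {τ : ℕ → ℕ → ℕ}
    (hτ : IsTr ls.length q τ) (z : S → ℝ) {t : ℕ} (E : ℕ → Prop) [DecidablePred E]
    (hE : ∀ x y, x < q → y < q → E x → ¬ E y → τ x y ≤ t) {c P : ℕ} (hc : 0 < c) (hcP : 2 * c ≤ P)
    (H : (ℕ → S) → ℝ) (hH : TrUses (c * q) H) :
    0 ≤ trNu B ls (P * q) (trDupK q τ t E) z fun σ => H σ * H fun x => σ (trCp q E c x) := by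
  have hq : ∀ x, x < c * q → 0 < q := fun x hx => by
    rcases Nat.eq_zero_or_pos q with h | h
    · subst h; simp at hx
    · exact h
  have hmod : ∀ x, trCp q E c x % q = x % q := fun x => by unfold trCp; rw [Nat.add_mul_mod_self_right]
  have h2c : (c + c) * q ≤ P * q := Nat.mul_le_mul_right q (by omega)
  have hdiv : ∀ x, x < c * q → x / q < c := fun x hx => Nat.div_lt_of_lt_mul (by rwa [Nat.mul_comm] at hx)
  have sh0 : ∀ x y s', 0 < q → trDupK q τ t E x (y + s' * q)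
      = if x / q = y / q + s' then τ (x % q) (y % q)
        else if E (x % q) ∧ E (y % q) then min (τ (x % q) (y % q)) t else τ (x % q) (y % q) := by
    intro x y s' h0
    have := tr_xc_shift h0 τ t E x y 0 s'
    simpa using this
  refine tr_x_refl hB hls (tr_dupK_isTr hτ E hE P) z (min t (ls.length + 1)) (fun x => x) (trCp q E c)
    (fun x hx => lt_of_lt_of_le hx (Nat.mul_le_mul_right q (by omega)))
    (fun x hx => lt_of_lt_of_le (tr_xc_cp_lt E hx) h2c) (fun _ _ _ _ h => h) ?_ (fun x => E (x % q)) ?_ ?_ ?_ ?_ ?_ H hH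
  · intro x y _ _ h
    have h1 : x % q = y % q := by rw [← hmod x, ← hmod y, h]
    unfold trCp at h
    rw [h1] at h
    omega
  · intro x _ hx
    unfold trCp
    rw [if_neg hx]; simp
  · intro x y hx hy
    have h0 := hq x hx
    unfold trCp
    rw [tr_xc_shift h0]
    show _ = trDupK q τ t E x y
    unfold trDupK
    by_cases h1 : E (x % q) ∧ E (y % q)
    · rw [if_pos h1.1, if_pos h1.2]
      simp only [Nat.add_right_cancel_iff]
    · simp only [if_neg h1, ite_self]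
  · intro x hx hD
    have h0 := hq x hx
    unfold trCp
    rw [if_pos hD]
    show _ ≤ trDupK q τ t E x (x + c * q)
    rw [sh0 x x c h0, if_neg (by omega), if_pos ⟨hD, hD⟩, hτ.diag _ (Nat.mod_lt _ h0), min_comm]
  · intro x y hx hy hD
    have h0 := hq x hx
    have hxm := Nat.mod_lt x h0
    have hym := Nat.mod_lt y h0
    have hle := hτ.le _ _ hxm hym
    unfold trCp
    rw [if_pos hD]
    show trDupK q τ t E x (y + c * q) ≤ _
    have hdx := hdiv x hx
    rw [sh0 x y c h0, if_neg (fun h => by rw [h] at hdx; exact absurd hdx (Nat.not_lt.2 (Nat.le_add_left c _)))]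
    by_cases h1 : E (x % q)
    · rw [if_pos ⟨h1, hD⟩]
      exact le_min (min_le_right _ _) ((min_le_left _ _).trans hle)
    · rw [if_neg (fun h => h1 h.1)]
      refine le_min ?_ hle
      rw [hτ.symm _ _ hxm hym]
      exact hE _ _ hym hxm hD h1
  · intro x y hx _ hD
    unfold trCp
    rw [if_pos hD]
    show x ≠ y + c * q
    omega

/-- one (collapsed) copy inside the table of copies has the law of the original tree -/
theorem tr_xc_marg {B : GhB S} (hB : B.Ok) {ls : List (GhLv S ι)} (hls : GhAdm B 0 ls) {q : ℕ} {τ : ℕ → ℕ → ℕ}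
    (hτ : IsTr ls.length q τ) (z : S → ℝ) {t : ℕ} (E : ℕ → Prop) [DecidablePred E]
    (hE : ∀ x y, x < q → y < q → E x → ¬ E y → τ x y ≤ t) {k P : ℕ} (hk : k < P) (F : (ℕ → S) → ℝ) (hF : TrUses q F) :
    trNu B ls (P * q) (trDupK q τ t E) z (fun σ => F fun x => σ (trCp q E k x)) = trNu B ls q τ z F := by
  refine tr_x_pull hB hls (tr_dupK_isTr hτ E hE P) z (trCp q E k) (fun x hx => ?_) (fun x y hx hy => ?_) F hF
  · have h1 : trCp q E k x < (1 + k) * q := tr_xc_cp_lt E (by rwa [one_mul])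
    exact lt_of_lt_of_le h1 (Nat.mul_le_mul_right q (by omega))
  · have h0 : 0 < q := by omega
    unfold trCp
    rw [tr_xc_shift h0, Nat.mod_eq_of_lt hx, Nat.mod_eq_of_lt hy, Nat.div_eq_of_lt hx, Nat.div_eq_of_lt hy]
    by_cases h1 : E x ∧ E y
    · rw [if_pos h1.1, if_pos h1.2, if_pos rfl]
    · simp only [if_neg h1, ite_self]

/-- the copy `0` -/
theorem tr_xc_marg0 {B : GhB S} (hB : B.Ok) {ls : List (GhLv S ι)} (hls : GhAdm B 0 ls) {q : ℕ} {τ : ℕ → ℕ → ℕ}
    (hτ : IsTr ls.length q τ) (z : S → ℝ) {t : ℕ} (E : ℕ → Prop) [DecidablePred E]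
    (hE : ∀ x y, x < q → y < q → E x → ¬ E y → τ x y ≤ t) {P : ℕ} (hP : 0 < P) (F : (ℕ → S) → ℝ) (hF : TrUses q F) :
    trNu B ls (P * q) (trDupK q τ t E) z F = trNu B ls q τ z F := by
  rw [← tr_xc_marg hB hls hτ z E hE hP F hF]
  congr 1
  funext σ
  congr 1
  funext x
  unfold trCp
  simp

/-- four copies of `E' ⊆ E` are a marginal of four copies of `E`, for a test which is free of `E \ E'` -/
theorem tr_xc_four {B : GhB S} (hB : B.Ok) {ls : List (GhLv S ι)} (hls : GhAdm B 0 ls) {q : ℕ} {τ : ℕ → ℕ → ℕ}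
    (hτ : IsTr ls.length q τ) (z : S → ℝ) {t : ℕ} (E E' F : ℕ → Prop) [DecidablePred E] [DecidablePred E']
    (hEE : ∀ b, E b ↔ E' b ∨ F b)
    (hE : ∀ x y, x < q → y < q → E x → ¬ E y → τ x y ≤ t) (hE' : ∀ x y, x < q → y < q → E' x → ¬ E' y → τ x y ≤ t)
    (g : (ℕ → S) → ℝ) (hgu : TrUses q g) (hg : TrFree F g) :
    trNu B ls (4 * q) (trDupK q τ t E) z (fun σ => g σ * g (fun x => σ (trCp q E 1 x)) * (g (fun x => σ (trCp q E 2 x)) * g fun x => σ (trCp q E 3 x)))
      = trNu B ls (4 * q) (trDupK q τ t E') z fun σ => ∏ k ∈ Finset.range 4, trSh q k g σ := by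
  have hPu : TrUses (4 * q) fun σ : ℕ → S => ∏ k ∈ Finset.range 4, trSh q k g σ := by
    intro σ σ' h
    refine Finset.prod_congr rfl fun k hk => ?_
    have hk' := Finset.mem_range.1 hk
    unfold trSh
    refine hgu _ _ fun i hi => h _ ?_
    have : (k + 1) * q ≤ 4 * q := Nat.mul_le_mul_right q (by omega)
    rw [Nat.add_mul, one_mul] at this
    omega
  rw [← tr_x_pull hB hls (tr_dupK_isTr hτ E hE 4) z (fun x => x % q + (if E' (x % q) then x / q else 0) * q) (fun x hx => ?_)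
    (fun x y hx hy => ?_) _ hPu]
  · congr 1
    funext σ
    rw [Finset.prod_range_succ, Finset.prod_range_succ, Finset.prod_range_succ, Finset.prod_range_one]
    have key : ∀ k, trSh q k g (fun x => σ (x % q + (if E' (x % q) then x / q else 0) * q)) = g fun x => σ (trCp q E k x) := by
      intro k
      unfold trSh
      refine tr_xc_reads hgu hg _ _ fun b hb hF => ?_
      have h0 : 0 < q := by omega
      beta_reduce
      rw [tr_xc_cp_low E k hb, Nat.add_mul_mod_self_right, Nat.mod_eq_of_lt hb, Nat.add_mul_div_right _ _ h0, Nat.div_eq_of_lt hb,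
        zero_add]
      have : E b ↔ E' b := by rw [hEE b]; exact ⟨fun h => h.resolve_right hF, Or.inl⟩
      simp only [this]
    rw [key 0, key 1, key 2, key 3]
    have e0 : (fun x => σ (trCp q E 0 x)) = σ := by
      funext x; unfold trCp; simp
    rw [e0]
    ring
  · have h0 : 0 < q := by
      rcases Nat.eq_zero_or_pos q with h | h
      · subst h; simp at hx
      · exact h
    have h1 : x / q < 4 := Nat.div_lt_of_lt_mul (by rwa [Nat.mul_comm] at hx)
    have h2 := Nat.mod_lt x h0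
    have h3 : (if E' (x % q) then x / q else 0) * q ≤ 3 * q := Nat.mul_le_mul_right q (by split_ifs <;> omega)
    omega
  · have h0 : 0 < q := by
      rcases Nat.eq_zero_or_pos q with h | h
      · subst h; simp at hx
      · exact h
    have hxm := Nat.mod_lt x h0
    have hym := Nat.mod_lt y h0
    rw [tr_xc_shift h0, Nat.mod_mod, Nat.mod_mod, Nat.div_eq_of_lt hxm, Nat.div_eq_of_lt hym]
    unfold trDupK
    by_cases h1 : E' (x % q) <;> by_cases h2 : E' (y % q)
    · have e1 : E (x % q) ∧ E (y % q) := ⟨(hEE _).2 (Or.inl h1), (hEE _).2 (Or.inl h2)⟩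
      have e2 : E' (x % q) ∧ E' (y % q) := ⟨h1, h2⟩
      simp only [if_pos h1, if_pos h2, if_pos e1, if_pos e2, zero_add]
    · have hle := hE' _ _ hxm hym h1 h2
      simp only [if_pos h1, h2, and_false, if_false, ite_self, min_eq_left hle]
    · have hle := hE' _ _ hym hxm h2 h1
      rw [hτ.symm _ _ hym hxm] at hle
      simp only [if_pos h2, h1, false_and, if_false, ite_self, min_eq_left hle]
    · simp only [if_neg h2, h1, false_and, if_false, ite_self, if_true]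

/-- the copies `2, 3` of `E₂` may be used instead of the copies `0, 1`: `E₁` and `E₂` share at most `t` stages -/
theorem tr_xc_cross {B : GhB S} (hB : B.Ok) {ls : List (GhLv S ι)} (hls : GhAdm B 0 ls) {q : ℕ} {τ : ℕ → ℕ → ℕ}
    (hτ : IsTr ls.length q τ) (z : S → ℝ) {t : ℕ} (E E₁ E₂ : ℕ → Prop) [DecidablePred E] [DecidablePred E₂]
    (hEE : ∀ b, E b ↔ E₁ b ∨ E₂ b)
    (hE : ∀ x y, x < q → y < q → E x → ¬ E y → τ x y ≤ t) (hE₂ : ∀ x y, x < q → y < q → E₂ x → ¬ E₂ y → τ x y ≤ t)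
    (g₁ g₂ : (ℕ → S) → ℝ) (hg₁u : TrUses q g₁) (hg₂u : TrUses q g₂) (hg₁ : TrFree E₂ g₁) (hg₂ : TrFree E₁ g₂) :
    trNu B ls (4 * q) (trDupK q τ t E) z
        (fun σ => g₁ σ * g₁ (fun x => σ (trCp q E 1 x)) * (g₂ (fun x => σ (trCp q E 2 x)) * g₂ fun x => σ (trCp q E 3 x)))
      = trNu B ls (4 * q) (trDupK q τ t E) z
        fun σ => g₁ σ * g₂ σ * (g₁ (fun x => σ (trCp q E 1 x)) * g₂ fun x => σ (trCp q E 1 x)) := by
  have hcp : ∀ x, x < q → trCp q E 1 x < 4 * q := fun x hx =>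
    lt_of_lt_of_le (tr_xc_cp_lt (c := 1) E (by rwa [one_mul])) (Nat.mul_le_mul_right q (by omega))
  have hPu : TrUses (4 * q) fun σ : ℕ → S => g₁ σ * g₂ σ * (g₁ (fun x => σ (trCp q E 1 x)) * g₂ fun x => σ (trCp q E 1 x)) := by
    intro σ σ' h
    beta_reduce
    rw [hg₁u σ σ' fun i hi => h i (by omega), hg₂u σ σ' fun i hi => h i (by omega),
      hg₁u (fun x => σ (trCp q E 1 x)) (fun x => σ' (trCp q E 1 x)) fun i hi => h _ (hcp i hi),
      hg₂u (fun x => σ (trCp q E 1 x)) (fun x => σ' (trCp q E 1 x)) fun i hi => h _ (hcp i hi)]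
  rw [← tr_x_pull hB hls (tr_dupK_isTr hτ E hE 4) z (fun x => x % q + (if E₂ (x % q) then (x / q + 2) % 4 else x / q) * q)
    (fun x hx => ?_) (fun x y hx hy => ?_) _ hPu]
  · congr 1
    funext σ
    have k1 : g₁ (fun x => σ (x % q + (if E₂ (x % q) then (x / q + 2) % 4 else x / q) * q)) = g₁ σ := by
      refine tr_xc_reads hg₁u hg₁ _ _ fun b hb hF => ?_
      rw [Nat.mod_eq_of_lt hb, if_neg hF, Nat.div_eq_of_lt hb]; simp
    have k2 : g₂ (fun x => σ (x % q + (if E₂ (x % q) then (x / q + 2) % 4 else x / q) * q)) = g₂ fun x => σ (trCp q E 2 x) := by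
      refine tr_xc_reads hg₂u hg₂ _ _ fun b hb hF => ?_
      have : E b ↔ E₂ b := by rw [hEE b]; exact ⟨fun h => h.resolve_left hF, Or.inr⟩
      rw [tr_xc_cp_low E 2 hb, Nat.mod_eq_of_lt hb, Nat.div_eq_of_lt hb]
      simp only [this]
    have k3 : g₁ (fun x => σ (trCp q E 1 x % q + (if E₂ (trCp q E 1 x % q) then (trCp q E 1 x / q + 2) % 4 else trCp q E 1 x / q) * q))
        = g₁ fun x => σ (trCp q E 1 x) := by
      refine tr_xc_reads hg₁u hg₁ _ _ fun b hb hF => ?_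
      have h0 : 0 < q := by omega
      rw [tr_xc_cp_low E 1 hb, Nat.add_mul_mod_self_right, Nat.mod_eq_of_lt hb, if_neg hF, Nat.add_mul_div_right _ _ h0,
        Nat.div_eq_of_lt hb, zero_add]
    have k4 : g₂ (fun x => σ (trCp q E 1 x % q + (if E₂ (trCp q E 1 x % q) then (trCp q E 1 x / q + 2) % 4 else trCp q E 1 x / q) * q))
        = g₂ fun x => σ (trCp q E 3 x) := by
      refine tr_xc_reads hg₂u hg₂ _ _ fun b hb hF => ?_
      have h0 : 0 < q := by omega
      have : E b ↔ E₂ b := by rw [hEE b]; exact ⟨fun h => h.resolve_left hF, Or.inr⟩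
      rw [tr_xc_cp_low E 1 hb, tr_xc_cp_low E 3 hb, Nat.add_mul_mod_self_right, Nat.mod_eq_of_lt hb, Nat.add_mul_div_right _ _ h0,
        Nat.div_eq_of_lt hb, zero_add]
      by_cases h2 : E₂ b
      · simp only [this, if_pos h2]
      · simp only [this, if_neg h2]
    rw [k1, k2, k3, k4]
    ring
  · have h0 : 0 < q := by
      rcases Nat.eq_zero_or_pos q with h | h
      · subst h; simp at hx
      · exact h
    have h1 : x / q < 4 := Nat.div_lt_of_lt_mul (by rwa [Nat.mul_comm] at hx)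
    have h2 := Nat.mod_lt x h0
    have h3 : (if E₂ (x % q) then (x / q + 2) % 4 else x / q) * q ≤ 3 * q := Nat.mul_le_mul_right q (by split_ifs <;> omega)
    omega
  · have h0 : 0 < q := by
      rcases Nat.eq_zero_or_pos q with h | h
      · subst h; simp at hx
      · exact h
    have hxm := Nat.mod_lt x h0
    have hym := Nat.mod_lt y h0
    have hx4 : x / q < 4 := Nat.div_lt_of_lt_mul (by rwa [Nat.mul_comm] at hx)
    have hy4 : y / q < 4 := Nat.div_lt_of_lt_mul (by rwa [Nat.mul_comm] at hy)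
    rw [tr_xc_shift h0, Nat.mod_mod, Nat.mod_mod, Nat.div_eq_of_lt hxm, Nat.div_eq_of_lt hym]
    unfold trDupK
    generalize x / q = k at *
    generalize y / q = k' at *
    by_cases h1 : E₂ (x % q) <;> by_cases h2 : E₂ (y % q)
    · have e : (0 + (k + 2) % 4 = 0 + (k' + 2) % 4) ↔ k = k' := by omega
      simp only [if_pos h1, if_pos h2, e]
    · have hle := hE₂ _ _ hxm hym h1 h2
      simp only [min_eq_left hle, ite_self]
    · have hle := hE₂ _ _ hym hxm h2 h1
      rw [hτ.symm _ _ hym hxm] at hle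
      simp only [min_eq_left hle, ite_self]
    · simp only [if_neg h1, if_neg h2, zero_add]

end

/-- a nonnegative binary quadratic form has a nonpositive discriminant -/
theorem tr_xc_disc {X Y W : ℝ} (h : ∀ a b : ℝ, 0 ≤ a ^ 2 * X - 2 * a * b * Y + b ^ 2 * W) : Y ^ 2 ≤ X * W := by
  have hX : 0 ≤ X := by simpa using h 1 0
  rcases hX.eq_or_lt with hX0 | hX0
  · have hY : Y = 0 := by
      by_contra hY
      have hY2 : 0 < Y ^ 2 := by positivity
      have := h ((W + 1) / (2 * Y)) 1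
      rw [← hX0] at this
      have e : 2 * ((W + 1) / (2 * Y)) * 1 * Y = W + 1 := by field_simp
      rw [e] at this
      linarith
    rw [hY, ← hX0]; simp
  · have := h Y X
    have e : Y ^ 2 * X - 2 * Y * X * Y + X ^ 2 * W = X * (X * W - Y ^ 2) := by ring
    rw [e] at this
    have := nonneg_of_mul_nonneg_right this hX0
    linarith


/-- the square of a difference, expanded under an expectation -/
theorem tr_xc_quad {Ω : Type} (ν : CvExp Ω) (a b : ℝ) (h₁ h₂ k₁ k₂ : Ω → ℝ) :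
    ν.E (fun ω => (a * h₁ ω - b * h₂ ω) * (a * k₁ ω - b * k₂ ω))
      = a ^ 2 * ν.E (fun ω => h₁ ω * k₁ ω) - a * b * ν.E (fun ω => h₁ ω * k₂ ω) - a * b * ν.E (fun ω => h₂ ω * k₁ ω)
        + b ^ 2 * ν.E fun ω => h₂ ω * k₂ ω := by
  have e : (fun ω => (a * h₁ ω - b * h₂ ω) * (a * k₁ ω - b * k₂ ω))
      = fun ω => ((a ^ 2 * (h₁ ω * k₁ ω) - a * b * (h₁ ω * k₂ ω)) - a * b * (h₂ ω * k₁ ω)) + b ^ 2 * (h₂ ω * k₂ ω) := by
    funext ω; ring
  rw [e, ν.add (fun ω => (a ^ 2 * (h₁ ω * k₁ ω) - a * b * (h₁ ω * k₂ ω)) - a * b * (h₂ ω * k₁ ω)) (fun ω => b ^ 2 * (h₂ ω * k₂ ω)),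
    ν.sub (fun ω => a ^ 2 * (h₁ ω * k₁ ω) - a * b * (h₁ ω * k₂ ω)) (fun ω => a * b * (h₂ ω * k₁ ω)),
    ν.sub (fun ω => a ^ 2 * (h₁ ω * k₁ ω)) (fun ω => a * b * (h₁ ω * k₂ ω)),
    ν.smul, ν.smul, ν.smul, ν.smul]

section
variable {S ι : Type} [Fintype S] [Fintype ι] [Inhabited S]

/-- **Hoelder (2,4,4) at a cut.**  `E₁, E₂` = disjoint unions of classes of `{τ > t}` (possibly empty); given the fields at the depth `t` and the other leaves they are conditionally independent: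
`ν[Z g₁ g₂] = ν[Z ĝ₁ ĝ₂]`, `ĝ_s = E[g_s | fields at t, leaves outside E_s]`, and `ν[ĝ_s⁴]` = the number of 4 copies.
PROOF (helper16): on the master table of 4 copies of `E₁ ∪ E₂` two reflected squares are nonnegative (`tr_xc_refl` <- `tr_x_refl`, `Fd/ExtE`); every other number is a marginal of it (`tr_x_pull`).  PROVED -/
theorem tr_cut_holder {B : GhB S} (hB : B.Ok) {ls : List (GhLv S ι)} (hls : GhAdm B 0 ls) {q : ℕ} {τ : ℕ → ℕ → ℕ}
    (hτ : IsTr ls.length q τ) (z : S → ℝ) {t : ℕ} (E₁ E₂ : ℕ → Prop) [DecidablePred E₁] [DecidablePred E₂]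
    (h12 : ∀ x, E₁ x → ¬ E₂ x)
    (hE₁ : ∀ x y, x < q → y < q → E₁ x → ¬ E₁ y → τ x y ≤ t) (hE₂ : ∀ x y, x < q → y < q → E₂ x → ¬ E₂ y → τ x y ≤ t)
    (Z g₁ g₂ : (ℕ → S) → ℝ) (hZu : TrUses q Z) (hg₁u : TrUses q g₁) (hg₂u : TrUses q g₂)
    (hZ : TrFree (fun b => E₁ b ∨ E₂ b) Z) (hg₁ : TrFree E₂ g₁) (hg₂ : TrFree E₁ g₂) :
    (trNu B ls q τ z fun σ => Z σ * g₁ σ * g₂ σ) ^ 4
      ≤ (trNu B ls q τ z fun σ => Z σ ^ 2) ^ 2
        * (trNu B ls (4 * q) (trDupK q τ t E₁) z fun σ => ∏ k ∈ Finset.range 4, trSh q k g₁ σ)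
        * (trNu B ls (4 * q) (trDupK q τ t E₂) z fun σ => ∏ k ∈ Finset.range 4, trSh q k g₂ σ) := by
  have _h := h12
  have hE : ∀ x y, x < q → y < q → (E₁ x ∨ E₂ x) → ¬ (E₁ y ∨ E₂ y) → τ x y ≤ t := by
    intro x y hx hy h1 h2
    rcases h1 with h1 | h1
    · exact hE₁ x y hx hy h1 fun h => h2 (Or.inl h)
    · exact hE₂ x y hx hy h1 fun h => h2 (Or.inr h)
  set E : ℕ → Prop := fun b => E₁ b ∨ E₂ b with hEdef
  set ν := trExp hB hls (4 * q) (trDupK q τ t E) z with hν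
  set A := trNu B ls q τ z fun σ => Z σ ^ 2 with hA
  set Nn := trNu B ls q τ z fun σ => Z σ * g₁ σ * g₂ σ with hNn
  set B₁ := trNu B ls (4 * q) (trDupK q τ t E₁) z fun σ => ∏ k ∈ Finset.range 4, trSh q k g₁ σ with hB₁
  set B₂ := trNu B ls (4 * q) (trDupK q τ t E₂) z fun σ => ∏ k ∈ Finset.range 4, trSh q k g₂ σ with hB₂
  set Mm := trNu B ls (4 * q) (trDupK q τ t E) z
    fun σ => g₁ σ * g₂ σ * (g₁ (fun x => σ (trCp q E 1 x)) * g₂ fun x => σ (trCp q E 1 x)) with hMm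
  have hZcp : ∀ (k : ℕ) (σ : ℕ → S), Z (fun x => σ (trCp q E k x)) = Z σ := by
    intro k σ
    refine tr_xc_reads hZu hZ _ _ fun b hb hF => ?_
    rw [tr_xc_cp_low E k hb, if_neg hF]; simp
  have hcp : ∀ k x, x < q → trCp q E k x < (1 + k) * q := fun k x hx => tr_xc_cp_lt (c := 1) E (by rwa [one_mul])
  -- step 1
  have P1 : Nn ^ 2 ≤ A * Mm := by
    refine tr_xc_disc fun a b => ?_
    have hH : TrUses (1 * q) fun σ : ℕ → S => a * Z σ - b * (g₁ σ * g₂ σ) := by
      intro σ σ' h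
      rw [one_mul] at h
      beta_reduce
      rw [hZu σ σ' h, hg₁u σ σ' h, hg₂u σ σ' h]
    have h0 := tr_xc_refl hB hls hτ z E hE (c := 1) (P := 4) one_pos (by norm_num) _ hH
    have h1 := tr_xc_quad ν a b Z (fun σ => g₁ σ * g₂ σ) (fun σ => Z fun x => σ (trCp q E 1 x))
      (fun σ => g₁ (fun x => σ (trCp q E 1 x)) * g₂ fun x => σ (trCp q E 1 x))
    have t1 : ν.E (fun σ => Z σ * Z fun x => σ (trCp q E 1 x)) = A := by
      rw [hA, ← tr_xc_marg0 hB hls hτ z E hE (P := 4) (by norm_num) (fun σ => Z σ ^ 2)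
        (fun σ σ' h => by beta_reduce; rw [hZu σ σ' h])]
      rw [hν, tr_x_exp_E]
      congr 1
      funext σ
      rw [hZcp 1 σ]; ring
    have t2 : ν.E (fun σ => Z σ * (g₁ (fun x => σ (trCp q E 1 x)) * g₂ fun x => σ (trCp q E 1 x))) = Nn := by
      rw [hNn, ← tr_xc_marg hB hls hτ z E hE (k := 1) (P := 4) (by norm_num) (fun σ => Z σ * g₁ σ * g₂ σ)
        (fun σ σ' h => by beta_reduce; rw [hZu σ σ' h, hg₁u σ σ' h, hg₂u σ σ' h])]
      rw [hν, tr_x_exp_E]
      congr 1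
      funext σ
      rw [hZcp 1 σ]; ring
    have t3 : ν.E (fun σ => g₁ σ * g₂ σ * Z fun x => σ (trCp q E 1 x)) = Nn := by
      rw [hNn, ← tr_xc_marg0 hB hls hτ z E hE (P := 4) (by norm_num) (fun σ => Z σ * g₁ σ * g₂ σ)
        (fun σ σ' h => by beta_reduce; rw [hZu σ σ' h, hg₁u σ σ' h, hg₂u σ σ' h])]
      rw [hν, tr_x_exp_E]
      congr 1
      funext σ
      rw [hZcp 1 σ]; ring
    have t4 : ν.E (fun σ => g₁ σ * g₂ σ * (g₁ (fun x => σ (trCp q E 1 x)) * g₂ fun x => σ (trCp q E 1 x))) = Mm := rfl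
    rw [t1, t2, t3, t4] at h1
    have h2 : 0 ≤ ν.E fun σ => (a * Z σ - b * (g₁ σ * g₂ σ)) * (a * Z (fun x => σ (trCp q E 1 x))
      - b * (g₁ (fun x => σ (trCp q E 1 x)) * g₂ fun x => σ (trCp q E 1 x))) := h0
    rw [h1] at h2
    linarith
  -- step 2
  have P2 : Mm ^ 2 ≤ B₁ * B₂ := by
    refine tr_xc_disc fun a b => ?_
    have hH : TrUses (2 * q) fun σ : ℕ → S => a * (g₁ σ * g₁ fun x => σ (trCp q E 1 x)) - b * (g₂ σ * g₂ fun x => σ (trCp q E 1 x)) := by
      intro σ σ' h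
      beta_reduce
      rw [hg₁u σ σ' fun i hi => h i (by omega), hg₂u σ σ' fun i hi => h i (by omega),
        hg₁u (fun x => σ (trCp q E 1 x)) (fun x => σ' (trCp q E 1 x)) fun i hi => h _ (hcp 1 i hi),
        hg₂u (fun x => σ (trCp q E 1 x)) (fun x => σ' (trCp q E 1 x)) fun i hi => h _ (hcp 1 i hi)]
    have h0 := tr_xc_refl hB hls hτ z E hE (c := 2) (P := 4) (by norm_num) (by norm_num) _ hH
    have h1 := tr_xc_quad ν a b (fun σ => g₁ σ * g₁ fun x => σ (trCp q E 1 x)) (fun σ => g₂ σ * g₂ fun x => σ (trCp q E 1 x))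
      (fun σ => g₁ (fun x => σ (trCp q E 2 x)) * g₁ fun x => σ (trCp q E 3 x))
      (fun σ => g₂ (fun x => σ (trCp q E 2 x)) * g₂ fun x => σ (trCp q E 3 x))
    have t1 : ν.E (fun σ => g₁ σ * g₁ (fun x => σ (trCp q E 1 x)) * (g₁ (fun x => σ (trCp q E 2 x)) * g₁ fun x => σ (trCp q E 3 x))) = B₁ :=
      tr_xc_four hB hls hτ z E E₁ E₂ (fun _ => Iff.rfl) hE hE₁ g₁ hg₁u hg₁
    have t4 : ν.E (fun σ => g₂ σ * g₂ (fun x => σ (trCp q E 1 x)) * (g₂ (fun x => σ (trCp q E 2 x)) * g₂ fun x => σ (trCp q E 3 x))) = B₂ :=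
      tr_xc_four hB hls hτ z E E₂ E₁ (fun _ => or_comm) hE hE₂ g₂ hg₂u hg₂
    have t2 : ν.E (fun σ => g₁ σ * g₁ (fun x => σ (trCp q E 1 x)) * (g₂ (fun x => σ (trCp q E 2 x)) * g₂ fun x => σ (trCp q E 3 x))) = Mm :=
      tr_xc_cross hB hls hτ z E E₁ E₂ (fun _ => Iff.rfl) hE hE₂ g₁ g₂ hg₁u hg₂u hg₁ hg₂
    have t3 : ν.E (fun σ => g₂ σ * g₂ (fun x => σ (trCp q E 1 x)) * (g₁ (fun x => σ (trCp q E 2 x)) * g₁ fun x => σ (trCp q E 3 x))) = Mm := by
      have := tr_xc_cross hB hls hτ z E E₂ E₁ (fun _ => or_comm) hE hE₁ g₂ g₁ hg₂u hg₁u hg₂ hg₁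
      refine this.trans ?_
      rw [hMm]
      congr 1
      funext σ
      ring
    rw [t1, t2, t3, t4] at h1
    have h2 : 0 ≤ ν.E fun σ => (a * (g₁ σ * g₁ fun x => σ (trCp q E 1 x)) - b * (g₂ σ * g₂ fun x => σ (trCp q E 1 x)))
        * (a * (g₁ (fun x => σ (trCp q E 2 x)) * g₁ fun x => σ (trCp q E 3 x))
          - b * (g₂ (fun x => σ (trCp q E 2 x)) * g₂ fun x => σ (trCp q E 3 x))) := by
      have e : ∀ (σ : ℕ → S) (x : ℕ), σ (trCp q E 2 (trCp q E 1 x)) = σ (trCp q E 3 x) := fun σ x => by rw [tr_xc_cp_cp]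
      simp only [e] at h0
      exact h0
    rw [h1] at h2
    linarith
  have hA0 : 0 ≤ A := (trExp hB hls q τ z).nonneg fun σ => sq_nonneg _
  calc Nn ^ 4 = (Nn ^ 2) ^ 2 := by ring
    _ ≤ (A * Mm) ^ 2 := pow_le_pow_left₀ (sq_nonneg _) P1 2
    _ = A ^ 2 * Mm ^ 2 := by ring
    _ ≤ A ^ 2 * (B₁ * B₂) := mul_le_mul_of_nonneg_left P2 (sq_nonneg _)
    _ = A ^ 2 * B₁ * B₂ := by ring

/-- the number of an even number of copies is a moment of a conditional mean: it is nonnegative.  LEAF A4 -/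
theorem tr_dupK_nonneg {B : GhB S} (hB : B.Ok) {ls : List (GhLv S ι)} (hls : GhAdm B 0 ls) {q : ℕ} {τ : ℕ → ℕ → ℕ}
    (hτ : IsTr ls.length q τ) (z : S → ℝ) {t : ℕ} (E : ℕ → Prop) [DecidablePred E]
    (hE : ∀ x y, x < q → y < q → E x → ¬ E y → τ x y ≤ t) (g : (ℕ → S) → ℝ) (hgu : TrUses q g) (k : ℕ) :
    0 ≤ trNu B ls (2 * k * q) (trDupK q τ t E) z fun σ => ∏ i ∈ Finset.range (2 * k), trSh q i g σ := by
  by_cases ht : t ≤ ls.length
  · exact tr_k_dup_nonneg hB hls hτ z ht E hE k (tr_dupK_isTr hτ E hE (2 * k)) g hgu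
  · have hE0 : ∀ x y, x < q → y < q → (fun _ : ℕ => False) x → ¬ (fun _ : ℕ => False) y → τ x y ≤ 0 := fun _ _ _ _ h _ => h.elim
    rw [tr_nu_congr B ls (τ' := trDupK q τ 0 fun _ => False) (fun x y hx _ => ?_) z]
    · exact tr_k_dup_nonneg hB hls hτ z (Nat.zero_le _) (fun _ => False) hE0 k (tr_dupK_isTr hτ _ hE0 (2 * k)) g hgu
    · have hq : 0 < q := by
        rcases Nat.eq_zero_or_pos q with h | h
        · subst h; simp at hx
        · exact h
      have := hτ.le _ _ (Nat.mod_lt x hq) (Nat.mod_lt y hq)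
      unfold trDupK
      simp only [and_self, if_false, ite_self]
      split_ifs
      · rfl
      · exact min_eq_left (by omega)
      · rfl

end

section
variable {n : ℕ} {ι : Type} [Fintype ι]

/-- TEX[PE:comp:projection] used with a WEIGHTED PROJECTED anchor `V = E[w | fields at the depth t]` (PE l.741-812), replica form.  `a, c` share `j > t` stages; the leaves of `E`
(the only ones seen by `w`) leave them by the depth `t`.   `E[(V·(y_a - y_c))^{2k}] ≤ cst^{2k} E[|V|^{2k}]`.  LEAF B1 -/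
theorem cvr_anchor_rep {B : GhB (SkCfg n)} (hB : B.Ok) {ls : List (GhLv (SkCfg n) ι)} (hls : GhAdm B 0 ls) {q : ℕ} {τ : ℕ → ℕ → ℕ}
    (hτ : IsTr ls.length q τ) (z : SkCfg n → ℝ) {t j k a c : ℕ} (ha : a < q) (hc : c < q) (hac : τ a c = j) (htj : t < j)
    {cst : ℝ} (hcst : 0 ≤ cst) (hanc : CvrAnchor B ls t j k cst)
    (E : ℕ → Prop) [DecidablePred E] (hEa : ¬ E a) (hEc : ¬ E c)
    (hE : ∀ x y, x < q → y < q → E x → ¬ E y → τ x y ≤ t)
    (w : (ℕ → SkCfg n) → Fin n → ℝ) (hwu : ∀ σ σ' : ℕ → SkCfg n, (∀ i, i < q → σ i = σ' i) → w σ = w σ')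
    (hw : TrFree (fun b => ¬ E b) w) :
    (trNu B ls (2 * k * q) (trDupK q τ t E) z fun σ =>
        ∏ i ∈ Finset.range (2 * k), cvrIp (trSh q i w σ) (skSp (σ a) - skSp (σ c)))
      ≤ cst ^ (2 * k) * trNu B ls (2 * k * q) (trDupK q τ t E) z fun σ =>
        ∏ i ∈ Finset.range k, cvrIp (trSh q (2 * i) w σ) (trSh q (2 * i + 1) w σ) := by
  have _h := hcst
  exact tr_k_anchor_rep skSp hB hls hτ z ha hc hac htj hanc E hEa hEc hE (tr_dupK_isTr hτ E hE (2 * k)) w hwu hw

/-- TEX[PE:comp:projection] used with an UNPROJECTED exterior anchor `w`.  LEAF B2 -/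
theorem cvr_anchor_raw {B : GhB (SkCfg n)} (hB : B.Ok) {ls : List (GhLv (SkCfg n) ι)} (hls : GhAdm B 0 ls) {q : ℕ} {τ : ℕ → ℕ → ℕ}
    (hτ : IsTr ls.length q τ) (z : SkCfg n → ℝ) {t j k a c : ℕ} (ha : a < q) (hc : c < q) (hac : τ a c = j) (htj : t < j)
    {cst : ℝ} (hcst : 0 ≤ cst) (hanc : CvrAnchor B ls t j k cst)
    (E : ℕ → Prop) (hEa : ¬ E a) (hEc : ¬ E c)
    (hE : ∀ x y, x < q → y < q → E x → ¬ E y → τ x y ≤ t)
    (w : (ℕ → SkCfg n) → Fin n → ℝ) (hwu : ∀ σ σ' : ℕ → SkCfg n, (∀ i, i < q → σ i = σ' i) → w σ = w σ')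
    (hw : TrFree (fun b => ¬ E b) w) :
    (trNu B ls q τ z fun σ => (cvrIp (w σ) (skSp (σ a) - skSp (σ c))) ^ (2 * k))
      ≤ cst ^ (2 * k) * trNu B ls q τ z fun σ => (cvrIp (w σ) (w σ)) ^ k := by
  have _h := hcst
  exact tr_k_anchor_raw skSp hB hls hτ z ha hc hac htj hanc E hEa hEc hE w hwu hw

end

end Claimed.Agent.R286
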