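import Claimed.Agent.R286.Defs.Tr
import Claimed.Agent.R286.Defs.Sk

/-!
# Row 286 (S0533), folder Cav (PE Section 4), file RepDefs : VOCABULARY of the UNIT REP = PE Lemma 4.8 "projected replacements"      (owner / architect helper185; prefix `cvr`, `Cvr`, `tr_`)

PE cavity.tex l.700-868 + replacement (iv) of helper266 (ruling of 142: the tests live on ONE star tree, all `U`-blocks are singletons).      CONTRACT: every `sorry` = one LEAF (claim table `claim286`, key = name of the theorem).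

FRAME.  Finite `n`, NON-ASYMPTOTIC, STEP hierarchy `ls` over `SkCfg n`, ONE monomial on ONE old table `τ`.   Vocabulary `Defs/Tr` (ℕ-tables), the same as `Led*` (204) and `PreLay` (18):
the exits `cvr_main1`, `cvr_main2` have the shape of `LedSys.main1`, `LedSys.main2` (old labels `a`, `b`; new labels `c = q`, `d = q+1`, `e = q+2`, `f = q+3`).
Exponents: only even moments (D8): `CvLe (cvpE ..) k f c` means `‖f‖_{2k} ≤ c`.      Conditional means are never typed: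
* a projection factor `Y_a = X_* · y_a - S_*` is a star edge to a TOOTH (a leaf used by no other factor);   the fresh partner `b` plays the tooth in `Y_c - Y_a = R_cb - R_ab`;
* `E[ (E[g | fields at the depth t, other leaves])^p ]` is the tree number of `p` copies of the averaged leaves which share the first `t` stages only (`trDupK`).
DEPTHS  `tI ≤ tS < tU` = initial cut `i`, good cut `*`, first depth inside a block (`tU = jU + 1` in `Cav/Defs`).   A pair which shares `j` stages splits at a mass in `[cvrV j, cvrV j + cvrDm j)`.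

EXITS (consumer: derivation of (25') = field `h25` of `CvtMod`, 244)
* `cvr_main1` : `∑_{c ∈ A, d ∈ B'} γ_ac γ_bd ν[Δ_cd P] = χ² ν[Δ_ab P] + O(lg A² (W/x) p₀)`
* `cvr_main2` : `∑ ν[P (G_ac γ_bd + γ_ac G_bd)(K_* + b_* Δ_cd)] = χ K_* (𝓛(P,a) + 𝓛(P,b)) + b_* χ (𝓛(P Δ_ab, a) + 𝓛(P Δ_ab, b)) + O(((1+lg) A √W + lg A²/x) eH p₀)`
With `A = sv x³ / W^{3/2}`, `eH = sv x² / W`, `lg = C log`: both errors are `≤ sv² lg W x² p₀`.      INSTANCE of the hypotheses: `cvr_in_of_cav` (from `CavIn.Ok`, `CavIn.Star`).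

FILES OF THE UNIT (statements fixed by the architect helper185; PROVERS PATCH IN PLACE, helper lemmas just above the leaf, in the same file; a false / awkward statement = one line to helper185)
`RepDefs` (vocabulary, 0 sorry) <- `RepApi` (A1-A3, B3, C1, C2) <- `RepCut` (A4, B1, B2: the cut machinery) <- `RepAn` (R1-R6) <- `RepHi` (R7-R9, I1) <- `Rep` (X1-X3, exits E1, E2, instance I2, I3).
-/

set_option autoImplicit false

namespace Claimed.Agent.R286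

open MeasureTheory ProbabilityTheory

/-! ## 1. Vocabulary -/

/-- the tree with two leaves which share `t` stages -/
def trTwo (N t : ℕ) : ℕ → ℕ → ℕ := fun x y => if x = y then N + 1 else t

/-- `p` copies of the leaves of `E`; the copy `k` of the leaf `b < q` is the label `b + k q`.  Different copies of leaves of `E` share at most `t` stages;
the copies of a leaf outside `E` coincide with it. -/
def trDupK (q : ℕ) (τ : ℕ → ℕ → ℕ) (t : ℕ) (E : ℕ → Prop) [DecidablePred E] : ℕ → ℕ → ℕ := fun x y =>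
  if x / q = y / q then τ (x % q) (y % q)
  else if E (x % q) ∧ E (y % q) then min (τ (x % q) (y % q)) t else τ (x % q) (y % q)

/-- a function of the configurations read on the copy `k` -/
def trSh {S α : Type} (q k : ℕ) (g : (ℕ → S) → α) : (ℕ → S) → α := fun σ => g fun b => σ (b + k * q)

/-- `g` does not depend on the labels in `E` -/
def TrFree {S α : Type} (E : ℕ → Prop) (g : (ℕ → S) → α) : Prop :=
  ∀ σ σ' : ℕ → S, (∀ b, ¬ E b → σ b = σ' b) → g σ = g σ'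

/-- normalised inner product `⟨ξ, ξ'⟩ / n`  (`V · y = cvrIp (√n V) σ`, `|V|² = cvrIp (√n V) (√n V)`, `R = cvrIp σ σ'`) -/
noncomputable def cvrIp {n : ℕ} (ξ ξ' : Fin n → ℝ) : ℝ := (∑ k, ξ k * ξ' k) / n

section
variable {n : ℕ} {ι : Type} [Fintype ι]

/-- `S` at the depth `t` (two leaves which share `t` stages), zero root field -/
noncomputable def cvrS (B : GhB (SkCfg n)) (ls : List (GhLv (SkCfg n) ι)) (t : ℕ) : ℝ :=
  trNu B ls 2 (trTwo ls.length t) 0 fun σ => skOv (σ 0) (σ 1)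

/-- raw moment of order `2k` of the overlap at the depth `t` -/
noncomputable def cvrM (B : GhB (SkCfg n)) (ls : List (GhLv (SkCfg n) ι)) (t k : ℕ) : ℝ :=
  trNu B ls 2 (trTwo ls.length t) 0 fun σ => skOv (σ 0) (σ 1) ^ (2 * k)

/-- centred moment of order `2k` of the overlap at the depth `t`  (`k = 1`: the paper's `D²`) -/
noncomputable def cvrC (B : GhB (SkCfg n)) (ls : List (GhLv (SkCfg n) ι)) (t k : ℕ) : ℝ :=
  trNu B ls 2 (trTwo ls.length t) 0 fun σ => (skOv (σ 0) (σ 1) - cvrS B ls t) ^ (2 * k)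

/-- left end of the mass interval of the splits at the depth `j` -/
noncomputable def cvrV (B : GhB (SkCfg n)) (ls : List (GhLv (SkCfg n) ι)) (j : ℕ) : ℝ := trPm (trMs B ls) j

/-- length of the mass interval of the splits at the depth `j` -/
noncomputable def cvrDm (B : GhB (SkCfg n)) (ls : List (GhLv (SkCfg n) ι)) (j : ℕ) : ℝ := trMs B ls j - trPm (trMs B ls) j

end

/-- centred overlap of the pair `(c,d)`; `Sf` = the centres as a function of the depth -/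
noncomputable def cvrDl {n : ℕ} (Sf : ℕ → ℝ) (τ : ℕ → ℕ → ℕ) (c d : ℕ) (σ : ℕ → SkCfg n) : ℝ :=
  skOv (σ c) (σ d) - Sf (τ c d)

/-- monomial = product of centred overlaps over a list of edges -/
noncomputable def cvrMon {n : ℕ} (Sf : ℕ → ℝ) (τ : ℕ → ℕ → ℕ) (es : List (ℕ × ℕ)) (σ : ℕ → SkCfg n) : ℝ :=
  (es.map fun e => cvrDl Sf τ e.1 e.2 σ).prod

/-- natural scale of a monomial: `W` per star edge, `x` per initial edge -/
noncomputable def cvrSc (τ : ℕ → ℕ → ℕ) (tS : ℕ) (W x : ℝ) (es : List (ℕ × ℕ)) : ℝ :=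
  (es.map fun e => if τ e.1 e.2 = tS then W else x).prod

/-- the edges of a monomial with target `a`: teeth `ths` at `a`, at most one further edge `(a, o)`, and edges `rest` which do not touch `a` or the teeth -/
def cvrEs (a : ℕ) (ths : List ℕ) (io : Option ℕ) (rest : List (ℕ × ℕ)) : List (ℕ × ℕ) :=
  ths.map (fun θ => (a, θ)) ++ io.toList.map (fun o => (a, o)) ++ rest

/-- old table + monomial + target `a` + fresh partner `b` (PE Def. 4.2 after the reduction R1 of 266): STAR TREE, every `U`-block is a singleton; no factor uses `b` -/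
structure CvrAdm (N tI tS q : ℕ) (τ : ℕ → ℕ → ℕ) (a b : ℕ) (ths : List ℕ) (io : Option ℕ) (rest : List (ℕ × ℕ)) : Prop where
  tr : IsTr N q τ
  ha : a < q
  hb : b < q
  hab : τ a b = tS
  /-- all splits of the old tree are `*` or `i` -/
  low : ∀ x y, x < q → y < q → x ≠ y → τ x y = tS ∨ τ x y = tI
  th_lt : ∀ θ ∈ ths, θ < q ∧ θ ≠ a ∧ θ ≠ b ∧ τ a θ = tS
  th_nodup : ths.Nodup
  io_lt : ∀ o ∈ io, o < q ∧ o ≠ a ∧ o ≠ b ∧ o ∉ ths
  rest_lt : ∀ e ∈ rest, e.1 < q ∧ e.2 < q ∧ e.1 ≠ e.2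
  rest_free : ∀ e ∈ rest, e.1 ≠ a ∧ e.2 ≠ a ∧ e.1 ≠ b ∧ e.2 ≠ b ∧ e.1 ∉ ths ∧ e.2 ∉ ths

section
variable {n : ℕ} {ι : Type} [Fintype ι]

/-- **pointwise anchor property** = PE (13) for the pair of leaves which share `j` stages, started at the depth `t` from an ARBITRARY field `G`, with a FIXED vector `ξ = √n V`, moment `2k` -/
def CvrAnchor (B : GhB (SkCfg n)) (ls : List (GhLv (SkCfg n) ι)) (t j k : ℕ) (c : ℝ) : Prop :=
  ∀ (G : SkCfg n → ℝ) (ξ : Fin n → ℝ),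
    trNu B (ls.drop t) 2 (trTwo (ls.length - t) (j - t)) G (fun σ => (cvrIp ξ (skSp (σ 0) - skSp (σ 1))) ^ (2 * k))
      ≤ c ^ (2 * k) * (cvrIp ξ ξ) ^ k

/-- **parametric cost hypotheses of Lemma 4.8.**  `W`, `x` = raw scales of star / initial factors; `A / v_j` = anchor constant at the depth `j`; `lg` = `∫_U^a dv / v`;
`kM` = largest moment order `2 kM` which is available (ruling of 142/76: finitely many orders; the property is antitone in `kM`).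
INSTANCE: `cvr_in_of_cav` below (PE direct test and LL 07 both go through `CavIn`). -/
structure CvrIn (B : GhB (SkCfg n)) (ls : List (GhLv (SkCfg n) ι)) (tI tS tU : ℕ) (W x A lg : ℝ) (Cr Ca : ℕ → ℝ) (kM : ℕ) : Prop where
  okB : B.Ok
  adm : GhAdm B 0 ls
  a_le : B.a ≤ 4
  hn : 0 < n
  ord : tI ≤ tS ∧ tS < tU ∧ tU ≤ ls.length
  x_pos : 0 < x
  x_le : x ≤ W
  A_nonneg : 0 ≤ A
  Cr_nonneg : ∀ k, 0 ≤ Cr k
  Ca_nonneg : ∀ k, 0 ≤ Ca k
  lg_nonneg : 0 ≤ lg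
  U_pos : 0 < cvrV B ls tU
  /-- raw moments (12) at the two low cuts -/
  raw_star : ∀ k, k ≤ kM → cvrM B ls tS k ≤ (Cr k * W) ^ (2 * k)
  cen_star : ∀ k, k ≤ kM → cvrC B ls tS k ≤ (Cr k * W) ^ (2 * k)
  cen_ini : ∀ k, k ≤ kM → cvrC B ls tI k ≤ (Cr k * x) ^ (2 * k)
  /-- (13) on the innovation intervals between `*` and the high splits -/
  anchor : ∀ k j, k ≤ kM → tU ≤ j → j ≤ ls.length → CvrAnchor B ls tS j k (Ca k * A / cvrV B ls j)
  /-- the mesh is fine above `U` -/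
  mesh : ∑ j ∈ Finset.Icc tU ls.length, cvrDm B ls j / cvrV B ls j ≤ lg

/-- the high centred errors (PE (18), PER DYAD): `dH j ≥ D_j`, `∫_U^a D ≤ eH`, `∫_U^a D dv / v ≤ lg eH` -/
structure CvrHigh (B : GhB (SkCfg n)) (ls : List (GhLv (SkCfg n) ι)) (tU : ℕ) (lg eH : ℝ) (dH : ℕ → ℝ) : Prop where
  nonneg : ∀ j, 0 ≤ dH j
  dom : ∀ j, tU ≤ j → j ≤ ls.length → cvrC B ls j 1 ≤ dH j ^ 2
  tot : ∑ j ∈ Finset.Icc tU ls.length, cvrDm B ls j * dH j ≤ eH
  wtd : ∑ j ∈ Finset.Icc tU ls.length, cvrDm B ls j / cvrV B ls j * dH j ≤ lg * eH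

end

theorem CvrIn.mono {n : ℕ} {ι : Type} [Fintype ι] {B : GhB (SkCfg n)} {ls : List (GhLv (SkCfg n) ι)} {tI tS tU : ℕ} {W x A lg : ℝ} {Cr Ca : ℕ → ℝ}
    {kM kM' : ℕ} (h : CvrIn B ls tI tS tU W x A lg Cr Ca kM) (hk : kM' ≤ kM) : CvrIn B ls tI tS tU W x A lg Cr Ca kM' :=
  { h with
    raw_star := fun k hk' => h.raw_star k (hk'.trans hk)
    cen_star := fun k hk' => h.cen_star k (hk'.trans hk)
    cen_ini := fun k hk' => h.cen_ini k (hk'.trans hk)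
    anchor := fun k j hk' => h.anchor k j (hk'.trans hk) }

/-- signed weight of the attachment at the depth `j` to a leaf which is alone in its block -/
def cvrW (ms : ℕ → ℝ) (N j : ℕ) : ℝ := if j = N + 1 then ms N else trPm ms j - ms j

/-- `χ = ∑_{c ∈ A} γ_ac = γ(coincidence) a - ∫_U^a γ` -/
def cvrChi (ms : ℕ → ℝ) (N tU : ℕ) (gam : ℕ → ℝ) : ℝ := ∑ j ∈ Finset.Icc tU (N + 1), cvrW ms N j * gam j

/-- scalar data of the insertions: `gam j = γ` at the depth `j`, `kap τ' r c e f` = connected scalar four point function, `bf j = b` at the depth `j` -/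
structure CvrScal (N tU : ℕ) (v : ℕ → ℝ) (gam : ℕ → ℝ) (kap : (ℕ → ℕ → ℕ) → ℕ → ℕ → ℕ → ℕ → ℝ) (bf : ℕ → ℝ) (Cg Ck Cb : ℝ) : Prop where
  gam_le : ∀ j, tU ≤ j → j ≤ N → |gam j| ≤ Cg * v j
  gam_top : |gam (N + 1)| ≤ Cg
  kap_le : ∀ τ' r c e f, |kap τ' r c e f| ≤ Ck
  /-- only the table of the four labels matters -/
  kap_loc : ∀ (τ₁ τ₂ : ℕ → ℕ → ℕ) (u w : Fin 4 → ℕ), (∀ i j, τ₁ (u i) (u j) = τ₂ (w i) (w j)) →
    kap τ₁ (u 0) (u 1) (u 2) (u 3) = kap τ₂ (w 0) (w 1) (w 2) (w 3)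
  kap_symm : ∀ τ' r c e f, kap τ' r c e f = kap τ' c r e f
  bf_le : ∀ j, |bf j| ≤ Cb

/-- coefficient of `G_rc`: `c, e, f` in the block of `r`, `e ≠ f`:  `(1/2) κ(r,c,e,f) b_ef` -/
noncomputable def cvrCo (N tU : ℕ) (kap : (ℕ → ℕ → ℕ) → ℕ → ℕ → ℕ → ℕ → ℝ) (bf : ℕ → ℝ) (r c e f : ℕ) (τ' : ℕ → ℕ → ℕ) : ℝ :=
  if tU ≤ τ' r c ∧ tU ≤ τ' r e ∧ tU ≤ τ' r f ∧ τ' e f ≤ N then 1 / 2 * kap τ' r c e f * bf (τ' e f) else 0

section
variable {n : ℕ} {ι : Type} [Fintype ι]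

/-- **`𝓛(X, r) = ν[X M_r]`** (PE (23)) on the table `τ` with `q` labels; new labels `c = q`, `e = q + 1`, `f = q + 2` -/
noncomputable def cvrL (B : GhB (SkCfg n)) (ls : List (GhLv (SkCfg n) ι)) (tU : ℕ) (kap : (ℕ → ℕ → ℕ) → ℕ → ℕ → ℕ → ℕ → ℝ) (bf : ℕ → ℝ)
    (q : ℕ) (τ : ℕ → ℕ → ℕ) (r : ℕ) (X : (ℕ → SkCfg n) → ℝ) : ℝ :=
  trSumK (trMs B ls) ls.length 3 q τ fun τ' => cvrCo ls.length tU kap bf r q (q + 1) (q + 2) τ' *
    trNu B ls (q + 3) τ' 0 fun σ => X σ * cvrDl (cvrS B ls) τ' (q + 1) (q + 2) σ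

/-- first retained term of (24) without the factor `b_*` (`LedSys.main1`) -/
noncomputable def cvrMain1 (B : GhB (SkCfg n)) (ls : List (GhLv (SkCfg n) ι)) (tU : ℕ) (gam : ℕ → ℝ)
    (q : ℕ) (τ : ℕ → ℕ → ℕ) (a b : ℕ) (X : (ℕ → SkCfg n) → ℝ) : ℝ :=
  trSumK (trMs B ls) ls.length 2 q τ fun τ' =>
    (if tU ≤ τ' a q ∧ tU ≤ τ' b (q + 1) then gam (τ' a q) * gam (τ' b (q + 1)) else 0) *
      trNu B ls (q + 2) τ' 0 fun σ => cvrDl (cvrS B ls) τ' q (q + 1) σ * X σ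

/-- second retained term of (24) (`LedSys.main2`) -/
noncomputable def cvrMain2 (B : GhB (SkCfg n)) (ls : List (GhLv (SkCfg n) ι)) (tU : ℕ) (gam : ℕ → ℝ)
    (kap : (ℕ → ℕ → ℕ) → ℕ → ℕ → ℕ → ℕ → ℝ) (bf : ℕ → ℝ) (Ks bs : ℝ) (q : ℕ) (τ : ℕ → ℕ → ℕ) (a b : ℕ) (X : (ℕ → SkCfg n) → ℝ) : ℝ :=
  trSumK (trMs B ls) ls.length 4 q τ fun τ' =>
    ((if tU ≤ τ' b (q + 1) then gam (τ' b (q + 1)) else 0) * cvrCo ls.length tU kap bf a q (q + 2) (q + 3) τ'
      + (if tU ≤ τ' a q then gam (τ' a q) else 0) * cvrCo ls.length tU kap bf b (q + 1) (q + 2) (q + 3) τ') *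
      trNu B ls (q + 4) τ' 0 fun σ => X σ * cvrDl (cvrS B ls) τ' (q + 2) (q + 3) σ * (Ks + bs * cvrDl (cvrS B ls) τ' q (q + 1) σ)

end

theorem cvr_defs_eqns_cite : True := by
  have := @trTwo.eq_1
  have := @trDupK.eq_1
  have := @trSh.eq_1
  have := @TrFree.eq_1
  have := @cvrIp.eq_1
  have := @cvrS.eq_1
  have := @cvrM.eq_1
  have := @cvrC.eq_1
  have := @cvrV.eq_1
  have := @cvrDm.eq_1
  have := @cvrDl.eq_1
  have := @cvrMon.eq_1
  have := @cvrSc.eq_1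
  have := @cvrEs.eq_1
  have := @CvrAnchor.eq_1
  have := @cvrW.eq_1
  have := @cvrChi.eq_1
  have := @cvrCo.eq_1
  have := @cvrL.eq_1
  have := @cvrMain1.eq_1
  have := @cvrMain2.eq_1
  trivial

/-! ## 2. First lemmas (proved) -/

theorem trTwo_isTr (N : ℕ) {t : ℕ} (ht : t ≤ N + 1) : IsTr N 2 (trTwo N t) := by
  refine ⟨?_, ?_, ?_, ?_⟩
  · intro x y _ _; unfold trTwo; split_ifs <;> omega
  · intro x _; simp [trTwo]
  · intro x y _ _; unfold trTwo
    by_cases h : x = y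
    · rw [if_pos h, if_pos h.symm]
    · rw [if_neg h, if_neg (Ne.symm h)]
  · intro x y z hx hy hz; unfold trTwo
    by_cases h1 : x = y <;> by_cases h2 : y = z <;> by_cases h3 : x = z <;> simp [h1, h2, h3] <;> omega

theorem cvr_ov_eq_ip {n : ℕ} (σ τ : SkCfg n) : skOv σ τ = cvrIp (skSp σ) (skSp τ) := rfl

theorem cvrIp_comm {n : ℕ} (ξ ξ' : Fin n → ℝ) : cvrIp ξ ξ' = cvrIp ξ' ξ := by
  unfold cvrIp; congr 1; exact Finset.sum_congr rfl fun k _ => mul_comm _ _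

theorem cvrIp_sub {n : ℕ} (ξ u v : Fin n → ℝ) : cvrIp ξ (u - v) = cvrIp ξ u - cvrIp ξ v := by
  unfold cvrIp
  rw [← sub_div, ← Finset.sum_sub_distrib]
  congr 1; exact Finset.sum_congr rfl fun k _ => by simp only [Pi.sub_apply]; ring

theorem cvrIp_self_nonneg {n : ℕ} (ξ : Fin n → ℝ) : 0 ≤ cvrIp ξ ξ :=
  div_nonneg (Finset.sum_nonneg fun k _ => mul_self_nonneg _) (Nat.cast_nonneg n)

theorem cvrIp_smul_left {n : ℕ} (c : ℝ) (ξ ξ' : Fin n → ℝ) : cvrIp (fun i => c * ξ i) ξ' = c * cvrIp ξ ξ' := by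
  unfold cvrIp
  rw [← mul_div_assoc, Finset.mul_sum]
  congr 1; exact Finset.sum_congr rfl fun k _ => by ring

@[simp] theorem cvrMon_nil {n : ℕ} (Sf : ℕ → ℝ) (τ : ℕ → ℕ → ℕ) (σ : ℕ → SkCfg n) : cvrMon Sf τ [] σ = 1 := rfl

@[simp] theorem cvrMon_cons {n : ℕ} (Sf : ℕ → ℝ) (τ : ℕ → ℕ → ℕ) (e : ℕ × ℕ) (es : List (ℕ × ℕ)) (σ : ℕ → SkCfg n) :
    cvrMon Sf τ (e :: es) σ = cvrDl Sf τ e.1 e.2 σ * cvrMon Sf τ es σ := by simp [cvrMon]

theorem cvrMon_append {n : ℕ} (Sf : ℕ → ℝ) (τ : ℕ → ℕ → ℕ) (es es' : List (ℕ × ℕ)) (σ : ℕ → SkCfg n) :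
    cvrMon Sf τ (es ++ es') σ = cvrMon Sf τ es σ * cvrMon Sf τ es' σ := by simp [cvrMon]

@[simp] theorem cvrSc_nil (τ : ℕ → ℕ → ℕ) (tS : ℕ) (W x : ℝ) : cvrSc τ tS W x [] = 1 := rfl

@[simp] theorem cvrSc_cons (τ : ℕ → ℕ → ℕ) (tS : ℕ) (W x : ℝ) (e : ℕ × ℕ) (es : List (ℕ × ℕ)) :
    cvrSc τ tS W x (e :: es) = (if τ e.1 e.2 = tS then W else x) * cvrSc τ tS W x es := by simp [cvrSc]

theorem cvrSc_append (τ : ℕ → ℕ → ℕ) (tS : ℕ) (W x : ℝ) (es es' : List (ℕ × ℕ)) :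
    cvrSc τ tS W x (es ++ es') = cvrSc τ tS W x es * cvrSc τ tS W x es' := by simp [cvrSc]

theorem cvrSc_nonneg (τ : ℕ → ℕ → ℕ) (tS : ℕ) {W x : ℝ} (hW : 0 ≤ W) (hx : 0 ≤ x) (es : List (ℕ × ℕ)) : 0 ≤ cvrSc τ tS W x es := by
  induction es with
  | nil => simp
  | cons e es ih => rw [cvrSc_cons]; exact mul_nonneg (by split_ifs <;> assumption) ih

theorem cvrW_top (ms : ℕ → ℝ) (N : ℕ) : cvrW ms N (N + 1) = ms N := by simp [cvrW]

theorem cvrW_of_le (ms : ℕ → ℝ) {N j : ℕ} (hj : j ≤ N) : cvrW ms N j = trPm ms j - ms j := by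
  unfold cvrW; rw [if_neg (by omega)]

end Claimed.Agent.R286
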