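import Claimed.Agent.R286.Cav.RepAn
import Claimed.Agent.R286.Cav.Defs
import Claimed.Agent.R286.Fd.TrA5

/-!
# Row 286 (S0533), folder Cav (PE Section 4), file RepHi : unit REP (PE Lemma 4.8), replacements (ii) and (iv) (high centred errors), bridge I1      (architect helper185; PROVER helper208, in place)
-/

set_option autoImplicit false

namespace Claimed.Agent.R286

open MeasureTheory ProbabilityTheory

section
variable {n : ℕ} {ι : Type} [Fintype ι]

/-! ### helpers of `cvr_two`, `cvr_four_level` (helper208; prefix `cvrh_`) -/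

/-- monotonicity of the total variation sums; the majorant is needed on the extensions of the old table only -/
theorem cvrh_absK_mono {N q : ℕ} {τ : ℕ → ℕ → ℕ} {ms : ℕ → ℝ} (hτ : IsTr N q τ) (k : ℕ) (Φ Ψ : (ℕ → ℕ → ℕ) → ℝ)
    (h : ∀ τ', IsTr N (q + k) τ' → (∀ y z, y < q → z < q → τ' y z = τ y z) → Φ τ' ≤ Ψ τ') :
    trAbsK ms N k q τ Φ ≤ trAbsK ms N k q τ Ψ := by
  induction k generalizing q τ with
  | zero => exact h τ hτ fun _ _ _ _ => rfl
  | succ k ih =>
    rw [trAbsK, trAbsK]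
    unfold trAbs
    refine Finset.sum_le_sum fun x hx => Finset.sum_le_sum fun j hj => ?_
    have hx' := Finset.mem_range.mp hx
    have hj' := Finset.mem_range.mp hj
    refine mul_le_mul_of_nonneg_left (ih (tr_att_isTr hτ hx' (by omega)) ?_) (abs_nonneg _)
    intro τ' hτ' hag
    refine h τ' (by rwa [show q + (k + 1) = q + 1 + k by omega]) ?_
    intro y z hy hz
    rw [hag y z (by omega) (by omega), tr_att_old hy hz]

theorem cvrh_mon_congr {n : ℕ} (Sf : ℕ → ℝ) {τ τ' : ℕ → ℕ → ℕ} (es : List (ℕ × ℕ)) (h : ∀ e ∈ es, τ' e.1 e.2 = τ e.1 e.2) :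
    cvrMon (n := n) Sf τ' es = cvrMon Sf τ es := by
  funext σ
  unfold cvrMon
  congr 1
  refine List.map_congr_left fun e he => ?_
  unfold cvrDl
  rw [h e he]

theorem cvrh_sc_congr {τ τ' : ℕ → ℕ → ℕ} (tS : ℕ) (W x : ℝ) (es : List (ℕ × ℕ)) (h : ∀ e ∈ es, τ' e.1 e.2 = τ e.1 e.2) :
    cvrSc τ' tS W x es = cvrSc τ tS W x es := by
  unfold cvrSc
  congr 1
  refine List.map_congr_left fun e he => ?_
  rw [h e he]

theorem cvrh_sc_nonneg (τ : ℕ → ℕ → ℕ) (tS : ℕ) {W x : ℝ} (hW : 0 ≤ W) (hx : 0 ≤ x) (es : List (ℕ × ℕ)) : 0 ≤ cvrSc τ tS W x es := by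
  unfold cvrSc
  refine List.prod_nonneg fun r hr => ?_
  obtain ⟨e, _, rfl⟩ := List.mem_map.1 hr
  split_ifs <;> assumption

/-- a monomial reads the end points of its edges only -/
theorem cvrh_mon_eq {n : ℕ} (Sf : ℕ → ℝ) (τ : ℕ → ℕ → ℕ) (es : List (ℕ × ℕ)) (σ σ' : ℕ → SkCfg n)
    (h : ∀ e ∈ es, σ e.1 = σ' e.1 ∧ σ e.2 = σ' e.2) : cvrMon Sf τ es σ = cvrMon Sf τ es σ' := by
  unfold cvrMon
  congr 1
  refine List.map_congr_left fun e he => ?_
  unfold cvrDl
  rw [(h e he).1, (h e he).2]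

/-- the edges of an admissible monomial -/
theorem cvrh_es_mem {N tI tS q : ℕ} {τ : ℕ → ℕ → ℕ} {a b : ℕ} {ths : List ℕ} {io : Option ℕ} {rest : List (ℕ × ℕ)}
    (h : CvrAdm N tI tS q τ a b ths io rest) (hS : tS ≤ N) : ∀ e ∈ cvrEs a ths io rest,
      e.1 < q ∧ e.2 < q ∧ e.1 ≠ e.2 ∧ e.1 ≠ b ∧ e.2 ≠ b ∧ e.2 ≠ a ∧ (τ e.1 e.2 = tS ∨ τ e.1 e.2 = tI) := by
  have hab : a ≠ b := by
    intro e
    have h1 := h.hab
    rw [e, h.tr.diag _ h.hb] at h1
    omega
  intro e he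
  unfold cvrEs at he
  rw [List.mem_append, List.mem_append, List.mem_map, List.mem_map] at he
  rcases he with (⟨θ, hθ, rfl⟩ | ⟨o, ho, rfl⟩) | he
  · obtain ⟨h1, h2, h3, h4⟩ := h.th_lt θ hθ
    exact ⟨h.ha, h1, fun e => h2 e.symm, hab, h3, h2, Or.inl h4⟩
  · have ho' : o ∈ io := by simpa using ho
    obtain ⟨h1, h2, h3, _⟩ := h.io_lt o ho'
    exact ⟨h.ha, h1, fun e => h2 e.symm, hab, h3, h2, h.low _ _ h.ha h1 fun e => h2 e.symm⟩
  · obtain ⟨h1, h2, h3⟩ := h.rest_lt e he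
    obtain ⟨_, h5, h6, h7, _, _⟩ := h.rest_free e he
    exact ⟨h1, h2, h3, h6, h7, h5, h.low _ _ h1 h2 h3⟩

/-- norm of one centred overlap at a high split -/
theorem cvrh_high_norm {B : GhB (SkCfg n)} (hB : B.Ok) {ls : List (GhLv (SkCfg n) ι)} (hls : GhAdm B 0 ls) {tU : ℕ} {lg eH : ℝ} {dH : ℕ → ℝ}
    (hH : CvrHigh B ls tU lg eH dH) {q' : ℕ} {τ' : ℕ → ℕ → ℕ} (hτ' : IsTr ls.length q' τ') {e f : ℕ} (he : e < q') (hf : f < q') (hef : e ≠ f)
    (h1 : tU ≤ τ' e f) (h2 : τ' e f ≤ ls.length) :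
    CvLe (cvpE hB hls q' τ' 0) 1 (cvrDl (cvrS B ls) τ' e f) (dH (τ' e f)) := by
  refine ⟨hH.nonneg _, ?_⟩
  have := tr_nu_pair hB hls hτ' 0 he hf hef (fun s t => (skOv s t - cvrS B ls (τ' e f)) ^ (2 * 1))
  rw [sk_cvpl_nu_E]
  unfold cvrDl
  rw [this]
  exact hH.dom _ h1 h2


theorem cvrh_dm_nonneg {N : ℕ} {ms : ℕ → ℝ} (hms : IsMs N ms) {j : ℕ} (hj : j ≤ N) : 0 ≤ ms j - trPm ms j := by
  unfold trPm
  split_ifs with h
  · simpa using hms.nonneg j
  · have := hms.mono (j - 1) j (by omega) hj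
    linarith

theorem cvrh_pm_nonneg {N : ℕ} {ms : ℕ → ℝ} (hms : IsMs N ms) (j : ℕ) : 0 ≤ trPm ms j := by
  unfold trPm
  split_ifs
  · exact le_rfl
  · exact hms.nonneg _

/-- the norm of an admissible monomial on an extension of the old table, with a constant which does not depend on the number of edges -/
theorem cvrh_mon_norm {B : GhB (SkCfg n)} {ls : List (GhLv (SkCfg n) ι)} {tI tS tU : ℕ} {W x A lg : ℝ} {Cr Ca : ℕ → ℝ} {kM : ℕ}
    (hin : CvrIn B ls tI tS tU W x A lg Cr Ca kM) {q q' : ℕ} {τ τ' : ℕ → ℕ → ℕ} (hτ' : IsTr ls.length q' τ') (hqq : q ≤ q')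
    (hext : ∀ y z, y < q → z < q → τ' y z = τ y z) (es : List (ℕ × ℕ))
    (hes : ∀ e ∈ es, e.1 < q ∧ e.2 < q ∧ e.1 ≠ e.2 ∧ (τ e.1 e.2 = tS ∨ τ e.1 e.2 = tI)) (k Nd : ℕ) (hm : es.length ≤ Nd) (hkM : k * Nd ≤ kM) :
    CvLe (cvpE hin.okB hin.adm q' τ' 0) k (cvrMon (cvrS B ls) τ es) ((max 1 |Cr (k * Nd)|) ^ Nd * cvrSc τ tS W x es) := by
  have hag : ∀ e ∈ es, τ' e.1 e.2 = τ e.1 e.2 := fun e he => hext _ _ (hes e he).1 (hes e he).2.1
  have h := cvr_mon_norm hin hτ' es (fun e he => by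
    obtain ⟨h1, h2, h3, h4⟩ := hes e he
    rw [hag e he]
    exact ⟨by omega, by omega, h3, h4⟩) k Nd hm hkM
  rw [cvrh_mon_congr _ es hag, cvrh_sc_congr _ _ _ es hag] at h
  have hW : 0 ≤ W := le_trans hin.x_pos.le hin.x_le
  refine h.weaken (mul_le_mul_of_nonneg_right ?_ (cvrh_sc_nonneg τ tS hW hin.x_pos.le es))
  calc Cr (k * Nd) ^ es.length ≤ (max 1 |Cr (k * Nd)|) ^ es.length :=
        pow_le_pow_left₀ (hin.Cr_nonneg _) ((le_abs_self _).trans (le_max_right _ _)) _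
    _ ≤ (max 1 |Cr (k * Nd)|) ^ Nd := pow_le_pow_right₀ (le_max_left _ _) hm

/-- TEX[PE:lem:cavity-replacements] **Lemma 4.8 (ii)**.  New labels `c = q`, error pair `e = q+1`, `f = q+2`, summed in the block of `a`.
`cvr_proj_bound` with `θ = b`, `Z₁ = Δ_ef` (only `D`, `tr_nu_pair`), `Z₂ = P` (`cvr_mon_norm`); `tr_sumK_le`, `cvr_dens3` with `φ = A / v` (`0` at the coincidence), `ψ = dH`.  LEAF R7 -/
theorem cvr_two (Nd : ℕ) (Cr Ca : ℕ → ℝ) (Cg : ℝ) : ∃ (kM : ℕ) (C : ℝ), 0 ≤ C ∧ ∀ (n : ℕ) (ι : Type) [Fintype ι] (B : GhB (SkCfg n))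
    (ls : List (GhLv (SkCfg n) ι)) (tI tS tU : ℕ) (W x A lg : ℝ), CvrIn B ls tI tS tU W x A lg Cr Ca kM →
    ∀ (q : ℕ) (τ : ℕ → ℕ → ℕ) (a b : ℕ) (ths : List ℕ) (io : Option ℕ) (rest : List (ℕ × ℕ)), CvrAdm ls.length tI tS q τ a b ths io rest →
    q ≤ Nd → (cvrEs a ths io rest).length ≤ Nd →
    ∀ (gam : ℕ → ℝ) (kap : (ℕ → ℕ → ℕ) → ℕ → ℕ → ℕ → ℕ → ℝ) (bf : ℕ → ℝ) (Ck Cb eH : ℝ) (dH : ℕ → ℝ),
      CvrScal ls.length tU (cvrV B ls) gam kap bf Cg Ck Cb → CvrHigh B ls tU lg eH dH →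
      |trSumK (trMs B ls) ls.length 3 q τ fun τ' => cvrCo ls.length tU kap bf a q (q + 1) (q + 2) τ' *
          trNu B ls (q + 3) τ' 0 fun σ =>
            cvrMon (cvrS B ls) τ (cvrEs a ths io rest) σ * (skOv (σ q) (σ b) - skOv (σ a) (σ b)) * cvrDl (cvrS B ls) τ' (q + 1) (q + 2) σ|
        ≤ C * Ck * Cb * lg * A * Real.sqrt W * eH * cvrSc τ tS W x (cvrEs a ths io rest) := by
  obtain ⟨C3, hC3, h3⟩ := cvr_dens3 Nd 4
  refine ⟨max 2 (2 * Nd), C3 * (|Ca 2| * Real.sqrt |Cr 2| * (max 1 |Cr (2 * Nd)|) ^ Nd), by positivity, ?_⟩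
  intro n ι _ B ls tI tS tU W x A lg hin q τ a b ths io rest had hq hlen gam kap bf Ck Cb eH dH hsc hH
  have hB := hin.okB
  have hls := hin.adm
  obtain ⟨hIS, hSU, hUN⟩ := hin.ord
  obtain ⟨hms, hmsN⟩ := tr_ms_isMs hB hls
  have hW : 0 < W := lt_of_lt_of_le hin.x_pos hin.x_le
  have hCk : 0 ≤ Ck := le_trans (abs_nonneg _) (hsc.kap_le τ 0 0 0 0)
  have hCb : 0 ≤ Cb := le_trans (abs_nonneg _) (hsc.bf_le 0)
  have hSc0 : 0 ≤ cvrSc τ tS W x (cvrEs a ths io rest) := cvrh_sc_nonneg τ tS hW.le hin.x_pos.le _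
  have hmem := cvrh_es_mem had (by omega)
  have hM0 : 0 ≤ (max 1 |Cr (2 * Nd)|) ^ Nd := by positivity
  have hab : a ≠ b := by
    intro e
    have h1 := had.hab
    rw [e, had.tr.diag _ had.hb] at h1
    omega
  have ha := had.ha
  have hb := had.hb
  obtain ⟨K0, hK0⟩ : ∃ K0 : ℝ, K0 = 1 / 2 * Ck * Cb * (Ca 2 * Real.sqrt (Cr 2 * W) * ((max 1 |Cr (2 * Nd)|) ^ Nd *
      cvrSc τ tS W x (cvrEs a ths io rest))) := ⟨_, rfl⟩
  have hK00 : 0 ≤ K0 := by
    rw [hK0]
    have := hin.Ca_nonneg 2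
    positivity
  obtain ⟨φ, hφ⟩ : ∃ φ : ℕ → ℝ, φ = fun j => if tU ≤ j ∧ j ≤ ls.length then K0 * (A / cvrV B ls j) else 0 := ⟨_, rfl⟩
  have hV0 : ∀ j, 0 ≤ cvrV B ls j := fun j => cvrh_pm_nonneg hms j
  have hφ0 : ∀ j, 0 ≤ φ j := by
    intro j
    rw [hφ]
    simp only
    split_ifs
    · exact mul_nonneg hK00 (div_nonneg hin.A_nonneg (hV0 j))
    · exact le_rfl
  -- the pointwise bound
  have hpt : ∀ τ', IsTr ls.length (q + 3) τ' → (∀ y z, y < q → z < q → τ' y z = τ y z) →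
      |cvrCo ls.length tU kap bf a q (q + 1) (q + 2) τ' * trNu B ls (q + 3) τ' 0 fun σ =>
        cvrMon (cvrS B ls) τ (cvrEs a ths io rest) σ * (skOv (σ q) (σ b) - skOv (σ a) (σ b)) * cvrDl (cvrS B ls) τ' (q + 1) (q + 2) σ|
      ≤ if tU ≤ τ' a q ∧ tU ≤ τ' a (q + 1) ∧ tU ≤ τ' a (q + 2) ∧ τ' (q + 1) (q + 2) ≤ ls.length then
          φ (τ' a q) * dH (τ' (q + 1) (q + 2)) else 0 := by
    intro τ' hτ' hext
    by_cases hc : tU ≤ τ' a q ∧ tU ≤ τ' a (q + 1) ∧ tU ≤ τ' a (q + 2) ∧ τ' (q + 1) (q + 2) ≤ ls.length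
    · rw [if_pos hc]
      unfold cvrCo
      rw [if_pos hc]
      obtain ⟨c1, c2, c3, c4⟩ := hc
      have hco : |1 / 2 * kap τ' a q (q + 1) (q + 2) * bf (τ' (q + 1) (q + 2))| ≤ 1 / 2 * Ck * Cb := by
        rw [abs_mul, abs_mul]
        have e1 : |(1 / 2 : ℝ)| = 1 / 2 := abs_of_nonneg (by norm_num)
        rw [e1]
        exact mul_le_mul (mul_le_mul_of_nonneg_left (hsc.kap_le _ _ _ _ _) (by norm_num)) (hsc.bf_le _) (abs_nonneg _) (by positivity)
      rcases Nat.lt_or_ge ls.length (τ' a q) with hj | hj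
      · -- coincidence
        have hj' : τ' a q = ls.length + 1 := le_antisymm (hτ'.le _ _ (by omega) (by omega)) hj
        have h0 := tr_nu_coinc hB hls hτ' 0 (fun σ =>
          cvrMon (cvrS B ls) τ (cvrEs a ths io rest) σ * (skOv (σ q) (σ b) - skOv (σ a) (σ b)) * cvrDl (cvrS B ls) τ' (q + 1) (q + 2) σ)
          (x := a) (y := q) (by omega) (by omega) hj'
        have h1 : (fun σ : ℕ → SkCfg n => cvrMon (cvrS B ls) τ (cvrEs a ths io rest) (Function.update σ q (σ a)) *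
            (skOv (Function.update σ q (σ a) q) (Function.update σ q (σ a) b) - skOv (Function.update σ q (σ a) a) (Function.update σ q (σ a) b)) *
            cvrDl (cvrS B ls) τ' (q + 1) (q + 2) (Function.update σ q (σ a))) = fun _ => 0 := by
          funext σ
          rw [Function.update_self, Function.update_of_ne (show a ≠ q by omega)]
          ring
        rw [h0, h1, ← sk_cvpl_nu_E hB hls, CvExp.zero, mul_zero, abs_zero]
        exact mul_nonneg (hφ0 _) (hH.nonneg _)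
      · have hθs : ∀ v, v < q + 3 → v ≠ b → τ' b v ≤ tS := by
          intro v hv hvb
          rcases Nat.lt_or_ge v q with hvq | hvq
          · rw [hext _ _ hb hvq]
            rcases had.low b v hb hvq (fun e => hvb e.symm) with h | h <;> omega
          · have hav : tU ≤ τ' a v := by
              have : v = q ∨ v = q + 1 ∨ v = q + 2 := by omega
              rcases this with rfl | rfl | rfl <;> assumption
            have h1 := hτ'.ultra b v a (by omega) hv (by omega)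
            rw [hτ'.symm v a hv (by omega), hext _ _ hb ha, had.tr.symm b a hb ha, had.hab] at h1
            rcases min_le_iff.1 h1 with h | h <;> omega
        have hef : tU ≤ τ' (q + 1) (q + 2) := by
          have h1 := hτ'.ultra (q + 1) a (q + 2) (by omega) (by omega) (by omega)
          rw [hτ'.symm (q + 1) a (by omega) (by omega)] at h1
          exact le_trans (le_min c2 c3) h1
        have key := cvr_proj_bound hin (le_max_left _ _) hτ' (a := a) (c := q) (θ := b) (j := τ' a q) (by omega) (by omega) (by omega) rfl c1 hj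
          (fun e => hab e.symm) (by omega) hθs (cvrDl (cvrS B ls) τ' (q + 1) (q + 2)) (cvrMon (cvrS B ls) τ (cvrEs a ths io rest))
          (fun σ σ' h => by unfold cvrDl; rw [h (q + 1) (by omega), h (q + 2) (by omega)])
          (fun σ σ' h => cvrh_mon_eq _ _ _ _ _ fun e he => ⟨h _ (by have := (hmem e he).1; omega), h _ (by have := (hmem e he).2.1; omega)⟩)
          (fun σ σ' h => by unfold cvrDl; rw [h (q + 1) (by omega), h (q + 2) (by omega)])
          (fun σ σ' h => cvrh_mon_eq _ _ _ _ _ fun e he => ⟨h _ (hmem e he).2.2.2.1, h _ (hmem e he).2.2.2.2.1⟩)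
          (cvrh_high_norm hB hls hH hτ' (by omega) (by omega) (by omega) hef c4)
          (cvrh_mon_norm hin hτ' (by omega) hext _ (fun e he => ⟨(hmem e he).1, (hmem e he).2.1, (hmem e he).2.2.1, (hmem e he).2.2.2.2.2.2⟩)
            2 Nd hlen (le_max_right _ _))
        have hre : (fun σ : ℕ → SkCfg n => cvrMon (cvrS B ls) τ (cvrEs a ths io rest) σ * (skOv (σ q) (σ b) - skOv (σ a) (σ b)) *
            cvrDl (cvrS B ls) τ' (q + 1) (q + 2) σ) = fun σ => (skOv (σ q) (σ b) - skOv (σ a) (σ b)) * cvrDl (cvrS B ls) τ' (q + 1) (q + 2) σ *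
            cvrMon (cvrS B ls) τ (cvrEs a ths io rest) σ := by
          funext σ; ring
        rw [hre, abs_mul]
        refine le_trans (mul_le_mul hco key (abs_nonneg _) (by positivity)) (le_of_eq ?_)
        rw [hφ]
        simp only
        rw [if_pos ⟨c1, hj⟩, hK0]
        ring
    · rw [if_neg hc]
      unfold cvrCo
      rw [if_neg hc, zero_mul, abs_zero]
  refine le_trans (tr_sumK_le 3 _) (le_trans (cvrh_absK_mono had.tr 3 _ _ hpt) ?_)
  have hlow : ∀ y z, y < q → z < q → y ≠ z → τ y z < tU := by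
    intro y z hy hz hyz
    rcases had.low y z hy hz hyz with h | h <;> omega
  refine le_trans (h3 ls.length q τ (trMs B ls) a tU had.tr hms (by rw [hmsN]; exact hin.a_le) hq ha hlow hUN φ dH hφ0 hH.nonneg) ?_
  have hS1 : ∑ j ∈ Finset.Icc tU ls.length, (trMs B ls j - trPm (trMs B ls) j) * φ j ≤ K0 * A * lg := by
    have e : ∑ j ∈ Finset.Icc tU ls.length, (trMs B ls j - trPm (trMs B ls) j) * φ j
        = K0 * A * ∑ j ∈ Finset.Icc tU ls.length, cvrDm B ls j / cvrV B ls j := by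
      rw [Finset.mul_sum]
      refine Finset.sum_congr rfl fun j hj => ?_
      rw [hφ]
      simp only
      rw [if_pos (Finset.mem_Icc.1 hj)]
      unfold cvrDm
      ring
    rw [e]
    exact mul_le_mul_of_nonneg_left hin.mesh (mul_nonneg hK00 hin.A_nonneg)
  have hS3 : ∑ j ∈ Finset.Icc tU ls.length, (trMs B ls j - trPm (trMs B ls) j) * φ j * dH j ≤ K0 * A * (lg * eH) := by
    have e : ∑ j ∈ Finset.Icc tU ls.length, (trMs B ls j - trPm (trMs B ls) j) * φ j * dH j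
        = K0 * A * ∑ j ∈ Finset.Icc tU ls.length, cvrDm B ls j / cvrV B ls j * dH j := by
      rw [Finset.mul_sum]
      refine Finset.sum_congr rfl fun j hj => ?_
      rw [hφ]
      simp only
      rw [if_pos (Finset.mem_Icc.1 hj)]
      unfold cvrDm
      ring
    rw [e]
    exact mul_le_mul_of_nonneg_left hH.wtd (mul_nonneg hK00 hin.A_nonneg)
  have hS2 : ∑ j ∈ Finset.Icc tU ls.length, (trMs B ls j - trPm (trMs B ls) j) * dH j ≤ eH := hH.tot
  have hS20 : 0 ≤ ∑ j ∈ Finset.Icc tU ls.length, (trMs B ls j - trPm (trMs B ls) j) * dH j :=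
    Finset.sum_nonneg fun j hj => mul_nonneg (cvrh_dm_nonneg hms (Finset.mem_Icc.1 hj).2) (hH.nonneg j)
  have hφN : φ (ls.length + 1) = 0 := by
    rw [hφ]
    simp only
    rw [if_neg (by omega)]
  rw [hφN, add_zero]
  have hprod := mul_le_mul hS1 hS2 hS20 (mul_nonneg (mul_nonneg hK00 hin.A_nonneg) hin.lg_nonneg)
  refine le_trans (mul_le_mul_of_nonneg_left (add_le_add hprod hS3) hC3) (le_of_eq ?_)
  rw [hK0, abs_of_nonneg (hin.Ca_nonneg 2), abs_of_nonneg (hin.Cr_nonneg 2), Real.sqrt_mul (hin.Cr_nonneg 2)]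
  ring

/-- a product over a list as a product over `range` -/
theorem cvrh_list_range {α : Type} (es : List α) (d0 : α) (F : α → ℝ) :
    (es.map F).prod = ∏ i ∈ Finset.range es.length, F (es.getD i d0) := by
  rw [Finset.prod_range, ← Fin.prod_univ_fun_getElem es F]
  refine Finset.prod_congr rfl fun i _ => ?_
  rw [List.getD_eq_getElem _ _ i.2]

/-- `∑_j ∏_i (if i = j then r else c i) ≤ d r ∏ c / x` when `x ≤ c i` -/
theorem cvrh_tel_le (d : ℕ) (c : ℕ → ℝ) {r x : ℝ} (hr : 0 ≤ r) (hx : 0 < x) (hc : ∀ i, i < d → x ≤ c i) :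
    ∑ j ∈ Finset.range d, ∏ i ∈ Finset.range d, (if i = j then r else c i)
      ≤ d * (r * ((∏ i ∈ Finset.range d, c i) / x)) := by
  have h : ∀ j ∈ Finset.range d, ∏ i ∈ Finset.range d, (if i = j then r else c i)
      ≤ r * ((∏ i ∈ Finset.range d, c i) / x) := by
    intro j hj
    have hj' := Finset.mem_range.1 hj
    rw [← Finset.mul_prod_erase _ _ hj, ← Finset.mul_prod_erase (Finset.range d) c hj, if_pos rfl]
    have e : ∏ i ∈ (Finset.range d).erase j, (if i = j then r else c i) = ∏ i ∈ (Finset.range d).erase j, c i :=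
      Finset.prod_congr rfl fun i hi => by rw [if_neg (Finset.ne_of_mem_erase hi)]
    rw [e]
    have hp : 0 ≤ ∏ i ∈ (Finset.range d).erase j, c i :=
      Finset.prod_nonneg fun i hi => hx.le.trans (hc i (Finset.mem_range.1 (Finset.mem_of_mem_erase hi)))
    refine mul_le_mul_of_nonneg_left ?_ hr
    rw [le_div_iff₀ hx]
    nlinarith [hc j hj']
  calc _ ≤ ∑ j ∈ Finset.range d, r * ((∏ i ∈ Finset.range d, c i) / x) := Finset.sum_le_sum h
    _ = _ := by rw [Finset.sum_const, Finset.card_range, nsmul_eq_mul]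

/-- one level `j`, one final topology of (iv).  `c = q`; `τ'` = any table on `q + 4` labels which extends `τ + c`, with `d, e, f = q+1, q+2, q+3` in the block of `b`.
PLAN (208, released 04:25Z): `CvLe.cs` against `Δ_ef` (`cvrh_high_norm`; `tU ≤ τ' e f` by `ultra` through `b`); `CvLe.mul` : `‖P - P∘sw‖₄ ‖R_cb - R_ab‖₄`; second factor = `cvr_raw_bound` (`k = 2`, `y = b`);
first factor: list product -> `∏ i ∈ range d` (`getD`), `sk_cvlp_prod_sub_prod_le` with `k = 2`, `c i = max 1 (Cr (2 Nd)) * scale i`, `r i = Ca (2 Nd) A / v_j` for ALL `i` (edge `(a, θ)`: `cvr_raw_bound` + `neg`, `τ' q θ = τ a θ`; other edges: difference `0`),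
`mono_exp` from `2 Nd` to `2 d`; `∏_{i ≠ j} c i ≤ ∏ c i / x` (`Finset.mul_prod_erase`, `x ≤ c j`).   All edges of `cvrEs` have `e.2 ≠ a` (`cvrh_es_mem`).
`|ν[(P_a - P_c)(R_cb - R_ab) Δ_ef]| ≤ C (A / v_j)² dH(e,f) p₀ / x`: Cauchy-Schwarz against `Δ_ef`, `sk_cvlp_prod_sub_prod_le`, `cvr_raw_bound`, `cvr_mon_norm`.  LEAF R8 -/
theorem cvr_four_level (Nd : ℕ) (Cr Ca : ℕ → ℝ) : ∃ (kM : ℕ) (C : ℝ), 0 ≤ C ∧ ∀ (n : ℕ) (ι : Type) [Fintype ι] (B : GhB (SkCfg n))
    (ls : List (GhLv (SkCfg n) ι)) (tI tS tU : ℕ) (W x A lg : ℝ), CvrIn B ls tI tS tU W x A lg Cr Ca kM →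
    ∀ (q : ℕ) (τ : ℕ → ℕ → ℕ) (a b : ℕ) (ths : List ℕ) (io : Option ℕ) (rest : List (ℕ × ℕ)), CvrAdm ls.length tI tS q τ a b ths io rest →
    q ≤ Nd → (cvrEs a ths io rest).length ≤ Nd → ∀ (eH : ℝ) (dH : ℕ → ℝ), CvrHigh B ls tU lg eH dH → ∀ j, tU ≤ j → j ≤ ls.length →
    ∀ τ' : ℕ → ℕ → ℕ, IsTr ls.length (q + 4) τ' →
      (∀ y z, y < q + 1 → z < q + 1 → τ' y z = trAtt ls.length q τ a j y z) →
      tU ≤ τ' b (q + 1) → tU ≤ τ' b (q + 2) → tU ≤ τ' b (q + 3) → τ' (q + 2) (q + 3) ≤ ls.length →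
      |trNu B ls (q + 4) τ' 0 fun σ =>
          (cvrMon (cvrS B ls) τ (cvrEs a ths io rest) σ - cvrMon (cvrS B ls) τ (cvrEs a ths io rest) fun i => σ (Equiv.swap a q i))
            * (skOv (σ q) (σ b) - skOv (σ a) (σ b)) * cvrDl (cvrS B ls) τ' (q + 2) (q + 3) σ|
        ≤ C * (A / cvrV B ls j) ^ 2 * dH (τ' (q + 2) (q + 3)) * (cvrSc τ tS W x (cvrEs a ths io rest) / x) := by
  refine ⟨2 * Nd + 2, Nd * |Ca (2 * Nd)| * (max 1 |Cr (2 * Nd)|) ^ Nd * |Ca 2|, by positivity, ?_⟩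
  intro n ι _ B ls tI tS tU W x A lg hin q τ a b ths io rest hadm _hq hlen eH dH hH j hj hjN τ' hτ' hext _hb1 hb2 hb3 hef
  obtain ⟨hIS, hSU, hUN⟩ := hin.ord
  set es := cvrEs a ths io rest with hes
  set ν := cvpE hin.okB hin.adm (q + 4) τ' 0 with hν
  have hmem := cvrh_es_mem hadm (by omega : tS ≤ ls.length)
  have hW : 0 ≤ W := hin.x_pos.le.trans hin.x_le
  set v := cvrV B ls j with hvdef
  have hv : 0 ≤ v := cvr_V_nonneg hin.okB hin.adm j
  set M := max 1 |Cr (2 * Nd)| with hM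
  have hM1 : 1 ≤ M := le_max_left _ _
  have ha := hadm.ha
  have hb := hadm.hb
  -- the table
  have hold : ∀ y z, y < q → z < q → τ' y z = τ y z := fun y z hy hz => by
    rw [hext y z (by omega) (by omega), tr_att_old hy hz]
  have haq : τ' a q = j := by
    rw [hext a q (by omega) (by omega)]
    unfold trAtt
    rw [if_neg (ne_of_lt ha), if_pos rfl, hadm.tr.diag a ha]
    exact min_eq_left (by omega)
  have hqz : ∀ z, z < q → τ a z ≤ tS → τ' q z = τ a z := by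
    intro z hz h
    rw [hext q z (by omega) (by omega)]
    unfold trAtt
    rw [if_pos rfl, if_neg (ne_of_lt hz)]
    exact min_eq_right (by omega)
  have hUef : tU ≤ τ' (q + 2) (q + 3) := by
    have := hτ'.ultra (q + 2) b (q + 3) (by omega) (by omega) (by omega)
    rw [hτ'.symm (q + 2) b (by omega) (by omega)] at this
    exact le_trans (le_min hb2 hb3) this
  have hΔ : CvLe ν 1 (cvrDl (cvrS B ls) τ' (q + 2) (q + 3)) (dH (τ' (q + 2) (q + 3))) :=
    cvrh_high_norm hin.okB hin.adm hH hτ' (by omega) (by omega) (by omega) hUef hef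
  have hR : CvLe ν 2 (fun σ => skOv (σ q) (σ b) - skOv (σ a) (σ b)) (Ca 2 * A / v) :=
    cvr_raw_bound hin hτ' (a := a) (c := q) (y := b) (by omega) (by omega) (by omega) haq hj hjN
      (by rw [hold a b ha hb, hadm.hab]) 2 (by omega)
  -- one low edge
  have hedge : ∀ u w, u < q + 4 → w < q + 4 → u ≠ w → (τ' u w = tS ∨ τ' u w = tI) →
      CvLe ν (2 * Nd) (fun σ => skOv (σ u) (σ w) - cvrS B ls (τ' u w)) (M * if τ' u w = tS then W else x) := by
    intro u w hu hw huw hτuw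
    have e0 : ν.E (fun σ => (skOv (σ u) (σ w) - cvrS B ls (τ' u w)) ^ (2 * (2 * Nd))) = cvrC B ls (τ' u w) (2 * Nd) := by
      rw [hν, sk_cvpl_nu_E]
      exact tr_nu_pair hin.okB hin.adm hτ' 0 hu hw huw fun s s' => (skOv s s' - cvrS B ls (τ' u w)) ^ (2 * (2 * Nd))
    have hC1 : Cr (2 * Nd) ≤ M := (le_abs_self _).trans (le_max_right _ _)
    by_cases hS : τ' u w = tS
    · rw [if_pos hS]
      refine CvLe.weaken ⟨mul_nonneg (hin.Cr_nonneg _) hW, ?_⟩ (mul_le_mul_of_nonneg_right hC1 hW)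
      rw [e0, hS]
      exact hin.cen_star _ (by omega)
    · rw [if_neg hS]
      refine CvLe.weaken ⟨mul_nonneg (hin.Cr_nonneg _) hin.x_pos.le, ?_⟩ (mul_le_mul_of_nonneg_right hC1 hin.x_pos.le)
      rw [e0, hτuw.resolve_left hS]
      exact hin.cen_ini _ (by omega)
  -- the factors
  let e : ℕ → ℕ × ℕ := fun i => es.getD i (0, 0)
  let Af : ℕ → (ℕ → SkCfg n) → ℝ := fun i σ => cvrDl (cvrS B ls) τ (e i).1 (e i).2 σ
  let Bf : ℕ → (ℕ → SkCfg n) → ℝ := fun i σ => cvrDl (cvrS B ls) τ (e i).1 (e i).2 fun y => σ (Equiv.swap a q y)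
  let cf : ℕ → ℝ := fun i => M * if τ (e i).1 (e i).2 = tS then W else x
  set r : ℝ := Ca (2 * Nd) * A / v with hr
  have hr0 : 0 ≤ r := div_nonneg (mul_nonneg (hin.Ca_nonneg _) hin.A_nonneg) hv
  have hei : ∀ i, i < es.length → e i ∈ es := fun i hi => by
    simp only [e]
    rw [List.getD_eq_getElem _ _ hi]
    exact List.getElem_mem hi
  have hd2 : 2 * es.length ≤ 2 * Nd := by omega
  have hA : ∀ i, i < es.length → CvLe ν (2 * es.length) (Af i) (cf i) := by
    intro i hi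
    obtain ⟨g1, g2, g3, -, -, -, g7⟩ := hmem _ (hei i hi)
    have h := hedge (e i).1 (e i).2 (by omega) (by omega) g3 (by rw [hold _ _ g1 g2]; exact g7)
    rw [hold _ _ g1 g2] at h
    exact h.mono_exp hd2
  have hsw : ∀ z, z < q → z ≠ a → Equiv.swap a q z = z := fun z hz hza =>
    Equiv.swap_apply_of_ne_of_ne hza (ne_of_lt hz)
  have hBeq : ∀ i, i < es.length → (e i).1 ≠ a → Bf i = Af i := by
    intro i hi h1
    obtain ⟨g1, g2, -, -, -, g6, -⟩ := hmem _ (hei i hi)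
    funext σ
    simp only [Bf, Af, cvrDl]
    rw [hsw _ g1 h1, hsw _ g2 g6]
  have hBa : ∀ i, i < es.length → (e i).1 = a →
      Bf i = fun σ => skOv (σ q) (σ (e i).2) - cvrS B ls (τ' q (e i).2) := by
    intro i hi h1
    obtain ⟨-, g2, -, -, -, g6, g7⟩ := hmem _ (hei i hi)
    funext σ
    simp only [Bf, cvrDl]
    rw [hsw _ g2 g6, h1, Equiv.swap_apply_left, hqz _ g2 (by rw [h1] at g7; omega)]
  have hB : ∀ i, i < es.length → CvLe ν (2 * es.length) (Bf i) (cf i) := by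
    intro i hi
    by_cases h1 : (e i).1 = a
    · obtain ⟨-, g2, -, -, -, g6, g7⟩ := hmem _ (hei i hi)
      rw [h1] at g7
      have hq2 : τ' q (e i).2 = τ a (e i).2 := hqz _ g2 (by omega)
      have h := hedge q (e i).2 (by omega) (by omega) (by omega) (by rw [hq2]; exact g7)
      rw [hBa i hi h1]
      simp only [cf, h1]
      rw [← hq2]
      exact h.mono_exp hd2
    · rw [hBeq i hi h1]
      exact hA i hi
  have hAB : ∀ i, i < es.length → CvLe ν (2 * es.length) (fun σ => Af i σ - Bf i σ) ((fun _ => r) i) := by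
    intro i hi
    by_cases h1 : (e i).1 = a
    · obtain ⟨-, g2, -, -, -, g6, g7⟩ := hmem _ (hei i hi)
      rw [h1] at g7
      have h := (cvr_raw_bound hin hτ' (a := a) (c := q) (y := (e i).2) (by omega) (by omega) (by omega) haq hj hjN
        (by rw [hold a _ ha g2]; omega) (2 * Nd) (by omega)).neg
      have e1 : (fun σ => Af i σ - Bf i σ) = fun σ : ℕ → SkCfg n => -(skOv (σ q) (σ (e i).2) - skOv (σ a) (σ (e i).2)) := by
        funext σ
        rw [hBa i hi h1]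
        simp only [Af, cvrDl, h1]
        rw [hqz _ g2 (by omega)]
        ring
      rw [e1]
      exact h.mono_exp hd2
    · rw [hBeq i hi h1]
      simp only [sub_self]
      exact (CvLe.const ν _ 0).weaken (by simpa using hr0)
  have hF := sk_cvlp_prod_sub_prod_le es.length 2 Af Bf cf (fun _ => r) hA hB hAB
  have hcx : ∀ i, i < es.length → x ≤ cf i := by
    intro i _
    simp only [cf]
    split_ifs
    · nlinarith [hin.x_le]
    · nlinarith [hin.x_pos]
  have hF' := hF.weaken (cvrh_tel_le es.length cf hr0 hin.x_pos hcx)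
  have hcf : ∏ i ∈ Finset.range es.length, cf i = M ^ es.length * cvrSc τ tS W x es := by
    simp only [cf]
    rw [Finset.prod_mul_distrib, Finset.prod_const, Finset.card_range]
    unfold cvrSc
    rw [cvrh_list_range es (0, 0)]
  rw [hcf] at hF'
  have hP1 : ∀ σ : ℕ → SkCfg n, cvrMon (cvrS B ls) τ es σ = ∏ i ∈ Finset.range es.length, Af i σ := fun σ => by
    unfold cvrMon
    rw [cvrh_list_range es (0, 0)]
  have hfin := (CvLe.mul (k := 1) hF' hR).cs hΔ
  rw [hν, sk_cvpl_nu_E] at hfin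
  simp only [hP1]
  refine hfin.trans ?_
  have hSc : 0 ≤ cvrSc τ tS W x es := cvrh_sc_nonneg τ tS hW hin.x_pos.le es
  have hK : 0 ≤ Ca (2 * Nd) * Ca 2 * (A / v) ^ 2 * dH (τ' (q + 2) (q + 3)) * (cvrSc τ tS W x es / x) :=
    mul_nonneg (mul_nonneg (mul_nonneg (mul_nonneg (hin.Ca_nonneg _) (hin.Ca_nonneg _)) (sq_nonneg _)) (hH.nonneg _))
      (div_nonneg hSc hin.x_pos.le)
  have hdM : (es.length : ℝ) * M ^ es.length ≤ Nd * M ^ Nd :=
    mul_le_mul (by exact_mod_cast hlen) (pow_le_pow_right₀ hM1 hlen) (by positivity) (by positivity)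
  rw [abs_of_nonneg (hin.Ca_nonneg _), abs_of_nonneg (hin.Ca_nonneg _)]
  calc (es.length : ℝ) * (r * (M ^ es.length * cvrSc τ tS W x es / x)) * (Ca 2 * A / v) * dH (τ' (q + 2) (q + 3))
      = ((es.length : ℝ) * M ^ es.length)
          * (Ca (2 * Nd) * Ca 2 * (A / v) ^ 2 * dH (τ' (q + 2) (q + 3)) * (cvrSc τ tS W x es / x)) := by
        rw [hr]; ring
    _ ≤ (Nd * M ^ Nd) * (Ca (2 * Nd) * Ca 2 * (A / v) ^ 2 * dH (τ' (q + 2) (q + 3)) * (cvrSc τ tS W x es / x)) :=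
        mul_le_mul_of_nonneg_right hdM hK
    _ = _ := by ring

/-! ### helpers of `cvr_four` (helper103; prefix `cvrq_`) -/

theorem cvrq_sumK_mul (ms : ℕ → ℝ) (N k : ℕ) (c : ℝ) (Φ : (ℕ → ℕ → ℕ) → ℝ) : ∀ (q : ℕ) (τ : ℕ → ℕ → ℕ),
    trSumK ms N k q τ (fun τ' => c * Φ τ') = c * trSumK ms N k q τ Φ := by
  induction k with
  | zero => intro q τ; rfl
  | succ k ih =>
    intro q τ
    simp only [trSumK, trSum]
    simp_rw [ih, Finset.mul_sum]
    exact Finset.sum_congr rfl fun x _ => Finset.sum_congr rfl fun j _ => by ring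

/-- monotonicity of the total variation sums: the final tables are trees which extend the old one -/
theorem cvrq_absK_mono {N q : ℕ} {τ : ℕ → ℕ → ℕ} {ms : ℕ → ℝ} (hτ : IsTr N q τ) (k : ℕ) (Φ Ψ : (ℕ → ℕ → ℕ) → ℝ)
    (h : ∀ τ', IsTr N (q + k) τ' → (∀ y z, y < q → z < q → τ' y z = τ y z) → Φ τ' ≤ Ψ τ') :
    trAbsK ms N k q τ Φ ≤ trAbsK ms N k q τ Ψ := by
  induction k generalizing q τ with
  | zero => exact h τ hτ fun _ _ _ _ => rfl
  | succ k ih =>
    rw [trAbsK, trAbsK]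
    unfold trAbs
    refine Finset.sum_le_sum fun x hx => Finset.sum_le_sum fun j hj => ?_
    have hx' := Finset.mem_range.mp hx
    have hj' := Finset.mem_range.mp hj
    refine mul_le_mul_of_nonneg_left (ih (tr_att_isTr hτ hx' (by omega)) ?_) (abs_nonneg _)
    intro τ' hτ' hag
    refine h τ' (by rwa [show q + (k + 1) = q + 1 + k by omega]) ?_
    intro y z hy hz
    rw [hag y z (by omega) (by omega), tr_att_old hy hz]

/-- a new label in the block of a leaf which is alone in its block, followed by `k` further labels -/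
theorem cvrq_blk_first {N q : ℕ} {τ : ℕ → ℕ → ℕ} (ms : ℕ → ℝ) (hτ : IsTr N q τ) {a tU : ℕ} (ha : a < q) (hU : tU ≤ N)
    (hal : ∀ y, y < q → y ≠ a → τ a y < tU) (g : ℕ → ℝ) (k : ℕ) (F : (ℕ → ℕ → ℕ) → ℝ) :
    ∑ j ∈ Finset.Icc tU (N + 1), cvrW ms N j * g j * trSumK ms N k (q + 1) (trAtt N q τ a j) F
      = trSumK ms N (k + 1) q τ fun τ' => (if tU ≤ τ' a q then g (τ' a q) else 0) * F τ' := by
  have h1 : trSumK ms N (k + 1) q τ (fun τ' => (if tU ≤ τ' a q then g (τ' a q) else 0) * F τ')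
      = trSum ms N q τ fun τ1 => if tU ≤ τ1 a q then g (τ1 a q) * trSumK ms N k (q + 1) τ1 F else 0 := by
    rw [trSumK]
    refine tr_sumK_congr (ms := ms) hτ 1 (fun τ1 => trSumK ms N k (q + 1) τ1 fun τ' => (if tU ≤ τ' a q then g (τ' a q) else 0) * F τ')
      (fun τ1 => if tU ≤ τ1 a q then g (τ1 a q) * trSumK ms N k (q + 1) τ1 F else 0) fun τ1 hτ1 _ => ?_
    have h2 : trSumK ms N k (q + 1) τ1 (fun τ' => (if tU ≤ τ' a q then g (τ' a q) else 0) * F τ')
        = trSumK ms N k (q + 1) τ1 fun τ' => (if tU ≤ τ1 a q then g (τ1 a q) else 0) * F τ' :=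
      tr_sumK_congr hτ1 k _ _ fun τ' _ hag => by rw [hag a q (by omega) (by omega)]
    rw [h2, cvrq_sumK_mul]
    split_ifs
    · rfl
    · rw [zero_mul]
  rw [h1, cvr_sum_blk ms hτ ha hU hal fun τ1 => g (τ1 a q) * trSumK ms N k (q + 1) τ1 F]
  refine Finset.sum_congr rfl fun j hj => ?_
  rw [Finset.mem_Icc] at hj
  rw [trw_att_nr ha, hτ.diag a ha, min_eq_left hj.2, mul_assoc]

theorem cvrq_sum_dm {N : ℕ} (ms : ℕ → ℝ) {tU : ℕ} (hU : tU ≤ N) :
    ∑ j ∈ Finset.Icc tU N, (ms j - trPm ms j) = ms N - trPm ms tU := by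
  induction N, hU using Nat.le_induction with
  | base => simp
  | succ M hM ih =>
    rw [Finset.sum_Icc_succ_top (by omega), ih, tra2_pm_succ]
    ring

theorem cvrq_mon_congr {n : ℕ} (Sf : ℕ → ℝ) (τ : ℕ → ℕ → ℕ) (es : List (ℕ × ℕ)) (σ σ' : ℕ → SkCfg n)
    (h : ∀ e ∈ es, σ e.1 = σ' e.1 ∧ σ e.2 = σ' e.2) : cvrMon Sf τ es σ = cvrMon Sf τ es σ' := by
  unfold cvrMon
  congr 1
  refine List.map_congr_left fun e he => ?_
  unfold cvrDl
  rw [(h e he).1, (h e he).2]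

theorem cvrq_es_lt {N tI tS q : ℕ} {τ : ℕ → ℕ → ℕ} {a b : ℕ} {ths : List ℕ} {io : Option ℕ} {rest : List (ℕ × ℕ)}
    (h : CvrAdm N tI tS q τ a b ths io rest) : ∀ e ∈ cvrEs a ths io rest, e.1 < q ∧ e.2 < q := by
  intro e he
  unfold cvrEs at he
  rw [List.mem_append, List.mem_append, List.mem_map, List.mem_map] at he
  rcases he with (⟨θ, hθ, rfl⟩ | ⟨o, ho, rfl⟩) | he
  · exact ⟨h.ha, (h.th_lt θ hθ).1⟩
  · exact ⟨h.ha, (h.io_lt o (by simpa using ho)).1⟩
  · exact ⟨(h.rest_lt e he).1, (h.rest_lt e he).2.1⟩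


/-- a final table of (iv) is invariant under the exchange of `a` and `c = q` -/
theorem cvrq_swap_inv {N tI tS tU q : ℕ} {τ : ℕ → ℕ → ℕ} {a b : ℕ} {ths : List ℕ} {io : Option ℕ} {rest : List (ℕ × ℕ)}
    (h : CvrAdm N tI tS q τ a b ths io rest) (hIS : tI ≤ tS) (hSU : tS < tU) {j : ℕ} (hj : tU ≤ j)
    {τ' : ℕ → ℕ → ℕ} (hτ' : IsTr N (q + 4) τ')
    (hag : ∀ y z, y < q + 1 → z < q + 1 → τ' y z = trAtt N q τ a j y z)
    (h1 : tU ≤ τ' b (q + 1)) (h2 : tU ≤ τ' b (q + 2)) (h3 : tU ≤ τ' b (q + 3)) :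
    ∀ x y, x < q + 4 → y < q + 4 → τ' (Equiv.swap a q x) (Equiv.swap a q y) = τ' x y := by
  have ha := h.ha
  have hb := h.hb
  have hlow : ∀ y, y < q → y ≠ a → τ a y < tU := fun y hy hya => by
    rcases h.low a y ha hy (Ne.symm hya) with e | e <;> omega
  have hab : τ' a b = tS := by rw [hag a b (by omega) (by omega), trw_att_old ha hb, h.hab]
  have hqb : τ' q b = tS := by
    rw [hag q b (by omega) (by omega), trw_att_nl hb, h.hab]
    exact min_eq_right (by omega)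
  -- a label in the block of `b` splits from `a` and from `c` at the star cut
  have hblk : ∀ c y, c < q + 4 → y < q + 4 → τ' c b = tS → tU ≤ τ' b y → τ' c y = tS := by
    intro c y hc hy hcb hby
    have u1 := hτ'.ultra c b y hc (by omega) hy
    have u2 := hτ'.ultra c y b hc hy (by omega)
    rw [hτ'.symm y b hy (by omega)] at u2
    rw [hcb] at u1 u2
    omega
  have key : ∀ y, y < q + 4 → y ≠ a → y ≠ q → τ' a y = τ' q y := by
    intro y hy hya hyq
    rcases Nat.lt_or_ge y q with hyq' | hyq'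
    · rw [hag a y (by omega) (by omega), hag q y (by omega) (by omega), trw_att_old ha hyq', trw_att_nl hyq']
      have := hlow y hyq' hya
      omega
    · have hy3 : y = q + 1 ∨ y = q + 2 ∨ y = q + 3 := by omega
      have hby : tU ≤ τ' b y := by rcases hy3 with rfl | rfl | rfl <;> assumption
      rw [hblk a y (by omega) hy hab hby, hblk q y (by omega) hy hqb hby]
  have key' : ∀ y, y < q + 4 → y ≠ a → y ≠ q → τ' y a = τ' y q := fun y hy hya hyq => by
    rw [hτ'.symm y a hy (by omega), hτ'.symm y q hy (by omega), key y hy hya hyq]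
  intro x y hx hy
  by_cases hxa : x = a
  · subst hxa
    rw [Equiv.swap_apply_left]
    by_cases hya : y = x
    · subst hya
      rw [Equiv.swap_apply_left, hτ'.diag q (by omega), hτ'.diag y hy]
    · by_cases hyq : y = q
      · subst hyq
        rw [Equiv.swap_apply_right, hτ'.symm y x hy hx]
      · rw [Equiv.swap_apply_of_ne_of_ne hya hyq, key y hy hya hyq]
  · by_cases hxq : x = q
    · subst hxq
      rw [Equiv.swap_apply_right]
      by_cases hya : y = a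
      · subst hya
        rw [Equiv.swap_apply_left, hτ'.symm y x hy hx]
      · by_cases hyq : y = x
        · subst hyq
          rw [Equiv.swap_apply_right, hτ'.diag a (by omega), hτ'.diag y hy]
        · rw [Equiv.swap_apply_of_ne_of_ne hya hyq, key y hy hya hyq]
    · rw [Equiv.swap_apply_of_ne_of_ne hxa hxq]
      by_cases hya : y = a
      · subst hya
        rw [Equiv.swap_apply_left, key' x hx hxa hxq]
      · by_cases hyq : y = q
        · subst hyq
          rw [Equiv.swap_apply_right, key' x hx hxa hxq]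
        · rw [Equiv.swap_apply_of_ne_of_ne hya hyq]

/-- one level `j` (the coincidence included), one final topology of (iv), BEFORE the antisymmetrisation -/
theorem cvrq_level (Nd : ℕ) (Cr Ca : ℕ → ℝ) : ∃ (kM : ℕ) (C : ℝ), 0 ≤ C ∧ ∀ (n : ℕ) (ι : Type) [Fintype ι] (B : GhB (SkCfg n))
    (ls : List (GhLv (SkCfg n) ι)) (tI tS tU : ℕ) (W x A lg : ℝ), CvrIn B ls tI tS tU W x A lg Cr Ca kM →
    ∀ (q : ℕ) (τ : ℕ → ℕ → ℕ) (a b : ℕ) (ths : List ℕ) (io : Option ℕ) (rest : List (ℕ × ℕ)), CvrAdm ls.length tI tS q τ a b ths io rest →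
    q ≤ Nd → (cvrEs a ths io rest).length ≤ Nd → ∀ (eH : ℝ) (dH : ℕ → ℝ), CvrHigh B ls tU lg eH dH → ∀ j, tU ≤ j → j ≤ ls.length + 1 →
    ∀ τ' : ℕ → ℕ → ℕ, IsTr ls.length (q + 4) τ' →
      (∀ y z, y < q + 1 → z < q + 1 → τ' y z = trAtt ls.length q τ a j y z) →
      tU ≤ τ' b (q + 1) → tU ≤ τ' b (q + 2) → tU ≤ τ' b (q + 3) → τ' (q + 2) (q + 3) ≤ ls.length →
      |trNu B ls (q + 4) τ' 0 fun σ =>
          cvrMon (cvrS B ls) τ (cvrEs a ths io rest) σ * (skOv (σ q) (σ b) - skOv (σ a) (σ b)) * cvrDl (cvrS B ls) τ' (q + 2) (q + 3) σ|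
        ≤ if j = ls.length + 1 then 0
          else C * (A / cvrV B ls j) ^ 2 * dH (τ' (q + 2) (q + 3)) * (cvrSc τ tS W x (cvrEs a ths io rest) / x) := by
  obtain ⟨kM, C, hC, H⟩ := cvr_four_level Nd Cr Ca
  refine ⟨kM, C / 2, by positivity, ?_⟩
  intro n ι _ B ls tI tS tU W x A lg hin q τ a b ths io rest hadm hq hes eH dH hH j hj hjN τ' hτ' hag h1 h2 h3 h4
  have ha := hadm.ha
  have hb := hadm.hb
  obtain ⟨hIS, hSU, hUN⟩ := hin.ord
  have hab : a ≠ b := by
    intro e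
    have h5 := hadm.hab
    rw [← e, hadm.tr.diag a ha] at h5
    omega
  set P : (ℕ → SkCfg n) → ℝ := cvrMon (cvrS B ls) τ (cvrEs a ths io rest) with hP
  set ν := cvpE hin.okB hin.adm (q + 4) τ' 0 with hν
  by_cases hjt : j = ls.length + 1
  · -- the coincidence
    rw [if_pos hjt]
    have hxy : τ' a q = ls.length + 1 := by
      rw [hag a q (by omega) (by omega), trw_att_nr ha, hadm.tr.diag a ha, hjt, min_self]
    rw [tr_nu_coinc hin.okB hin.adm hτ' 0 _ (x := a) (y := q) (by omega) (by omega) hxy]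
    have e0 : (fun σ : ℕ → SkCfg n => P (Function.update σ q (σ a))
          * (skOv (Function.update σ q (σ a) q) (Function.update σ q (σ a) b) - skOv (Function.update σ q (σ a) a) (Function.update σ q (σ a) b))
          * cvrDl (cvrS B ls) τ' (q + 2) (q + 3) (Function.update σ q (σ a))) = fun _ => 0 := by
      funext σ
      rw [Function.update_self, Function.update_of_ne (by omega : a ≠ q), sub_self, mul_zero, zero_mul]
    rw [e0]
    have := ν.zero
    rw [hν, sk_cvpl_nu_E] at this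
    rw [this, abs_zero]
  · rw [if_neg hjt]
    have hjN' : j ≤ ls.length := by omega
    have hlev := H n ι B ls tI tS tU W x A lg hin q τ a b ths io rest hadm hq hes eH dH hH j hj hjN' τ' hτ' hag h1 h2 h3 h4
    set Q : (ℕ → SkCfg n) → ℝ := fun σ => P σ * (skOv (σ q) (σ b) - skOv (σ a) (σ b)) * cvrDl (cvrS B ls) τ' (q + 2) (q + 3) σ with hQ
    have hQu : TrUses (q + 4) Q := by
      intro σ σ' hσ
      simp only [hQ, hP, cvrDl]
      rw [cvrq_mon_congr _ _ _ σ σ' fun e he => ⟨hσ _ (by have := (cvrq_es_lt hadm e he).1; omega), hσ _ (by have := (cvrq_es_lt hadm e he).2; omega)⟩,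
        hσ q (by omega), hσ b (by omega), hσ a (by omega), hσ (q + 2) (by omega), hσ (q + 3) (by omega)]
    have hsym := tr_nu_symm hin.okB hin.adm hτ' 0 (Equiv.swap a q)
      (fun y hy => Equiv.swap_apply_of_ne_of_ne (by omega) (by omega))
      (cvrq_swap_inv hadm hIS hSU hj hτ' hag h1 h2 h3) Q hQu
    have e1 : (fun σ : ℕ → SkCfg n => (P σ - P fun i => σ (Equiv.swap a q i)) * (skOv (σ q) (σ b) - skOv (σ a) (σ b))
          * cvrDl (cvrS B ls) τ' (q + 2) (q + 3) σ) = fun σ => Q σ + Q fun i => σ (Equiv.swap a q i) := by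
      funext σ
      simp only [hQ, cvrDl]
      rw [Equiv.swap_apply_right, Equiv.swap_apply_left, Equiv.swap_apply_of_ne_of_ne (Ne.symm hab) (by omega : b ≠ q),
        Equiv.swap_apply_of_ne_of_ne (by omega : q + 2 ≠ a) (by omega : q + 2 ≠ q),
        Equiv.swap_apply_of_ne_of_ne (by omega : q + 3 ≠ a) (by omega : q + 3 ≠ q)]
      ring
    rw [e1] at hlev
    have e2 := ν.add Q (fun σ => Q fun i => σ (Equiv.swap a q i))
    rw [hν, sk_cvpl_nu_E, sk_cvpl_nu_E, sk_cvpl_nu_E, hsym] at e2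
    rw [e2, ← two_mul, abs_mul, abs_two] at hlev
    have : |trNu B ls (q + 4) τ' 0 Q| ≤ (C * (A / cvrV B ls j) ^ 2 * dH (τ' (q + 2) (q + 3)) * (cvrSc τ tS W x (cvrEs a ths io rest) / x)) / 2 := by
      linarith
    refine this.trans (le_of_eq ?_)
    ring


theorem cvrq_alg (dm v Cg Ck Cb C1 A D p0 : ℝ) :
    dm * ((Cg * v) * ((1 / 2 * Ck * Cb) * (C1 * (A / v) ^ 2 * D * p0))) = dm / v * (1 / 2 * Ck * Cb * C1 * Cg * A ^ 2 * D * p0) := by
  by_cases hv : v = 0
  · subst hv; simp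
  · field_simp

theorem cvrq_co_comap {N tU : ℕ} {v gam : ℕ → ℝ} {kap : (ℕ → ℕ → ℕ) → ℕ → ℕ → ℕ → ℕ → ℝ} {bf : ℕ → ℝ} {Cg Ck Cb : ℝ}
    (hsc : CvrScal N tU v gam kap bf Cg Ck Cb) (τ₁ τ₂ : ℕ → ℕ → ℕ) (r c e f r' c' e' f' : ℕ)
    (h : ∀ i j : Fin 4, τ₁ ((![r, c, e, f] : Fin 4 → ℕ) i) ((![r, c, e, f] : Fin 4 → ℕ) j)
      = τ₂ ((![r', c', e', f'] : Fin 4 → ℕ) i) ((![r', c', e', f'] : Fin 4 → ℕ) j)) :
    cvrCo N tU kap bf r c e f τ₁ = cvrCo N tU kap bf r' c' e' f' τ₂ := by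
  have hk : kap τ₁ r c e f = kap τ₂ r' c' e' f' := hsc.kap_loc τ₁ τ₂ ![r, c, e, f] ![r', c', e', f'] h
  have h01 : τ₁ r c = τ₂ r' c' := h 0 1
  have h02 : τ₁ r e = τ₂ r' e' := h 0 2
  have h03 : τ₁ r f = τ₂ r' f' := h 0 3
  have h23 : τ₁ e f = τ₂ e' f' := h 2 3
  unfold cvrCo
  rw [hk, h01, h02, h03, h23]

theorem cvrq_co_le {N tU : ℕ} {v gam : ℕ → ℝ} {kap : (ℕ → ℕ → ℕ) → ℕ → ℕ → ℕ → ℕ → ℝ} {bf : ℕ → ℝ} {Cg Ck Cb : ℝ}
    (hsc : CvrScal N tU v gam kap bf Cg Ck Cb) (r c e f : ℕ) (τ' : ℕ → ℕ → ℕ) :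
    |cvrCo N tU kap bf r c e f τ'| ≤ 1 / 2 * Ck * Cb := by
  have hCk : 0 ≤ Ck := (abs_nonneg _).trans (hsc.kap_le τ' r c e f)
  have hCb : 0 ≤ Cb := (abs_nonneg _).trans (hsc.bf_le 0)
  unfold cvrCo
  split_ifs
  · rw [abs_mul, abs_mul, abs_of_pos (by norm_num : (0 : ℝ) < 1 / 2)]
    exact mul_le_mul (mul_le_mul_of_nonneg_left (hsc.kap_le _ _ _ _ _) (by norm_num)) (hsc.bf_le _) (abs_nonneg _) (by positivity)
  · rw [abs_zero]; positivity

/-- TEX[PE:lem:cavity-replacements] **replacement (iv)** (helper266 R1; ruling of 142): the switch term of (25) keeps the tests on the star tree.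
New labels `c = q` (summed in the block of `a`), `d, e, f = q+1, q+2, q+3` (summed in the block of `b`).
Antisymmetrisation `a ↔ c` (`tr_sumK_relabel`, `tr_nu_symm`, `kap_loc`), `cvr_four_level`, `cvr_dens3` with `φ = 1`.  LEAF R9 -/
theorem cvr_four (Nd : ℕ) (Cr Ca : ℕ → ℝ) (Cg : ℝ) : ∃ (kM : ℕ) (C : ℝ), 0 ≤ C ∧ ∀ (n : ℕ) (ι : Type) [Fintype ι] (B : GhB (SkCfg n))
    (ls : List (GhLv (SkCfg n) ι)) (tI tS tU : ℕ) (W x A lg : ℝ), CvrIn B ls tI tS tU W x A lg Cr Ca kM →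
    ∀ (q : ℕ) (τ : ℕ → ℕ → ℕ) (a b : ℕ) (ths : List ℕ) (io : Option ℕ) (rest : List (ℕ × ℕ)), CvrAdm ls.length tI tS q τ a b ths io rest →
    q ≤ Nd → (cvrEs a ths io rest).length ≤ Nd →
    ∀ (gam : ℕ → ℝ) (kap : (ℕ → ℕ → ℕ) → ℕ → ℕ → ℕ → ℕ → ℝ) (bf : ℕ → ℝ) (Ck Cb eH : ℝ) (dH : ℕ → ℝ),
      CvrScal ls.length tU (cvrV B ls) gam kap bf Cg Ck Cb → CvrHigh B ls tU lg eH dH →
      |∑ j ∈ Finset.Icc tU (ls.length + 1), cvrW (trMs B ls) ls.length j * gam j *
          cvrL B ls tU kap bf (q + 1) (trAtt ls.length q τ a j) b fun σ =>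
            cvrMon (cvrS B ls) τ (cvrEs a ths io rest) σ * (skOv (σ q) (σ b) - skOv (σ a) (σ b))|
        ≤ C * Ck * Cb * lg * A ^ 2 * eH * (cvrSc τ tS W x (cvrEs a ths io rest) / x) := by
  obtain ⟨kM, C1, hC1, H1⟩ := cvrq_level Nd Cr Ca
  obtain ⟨C2, hC2, H2⟩ := cvr_dens3 Nd 4
  refine ⟨kM, 3 * C1 * C2 * |Cg|, by positivity, ?_⟩
  intro n ι _ B ls tI tS tU W x A lg hin q τ a b ths io rest hadm hq hes gam kap bf Ck Cb eH dH hsc hH
  have ha := hadm.ha
  have hb := hadm.hb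
  have hτ := hadm.tr
  obtain ⟨hIS, hSU, hUN⟩ := hin.ord
  obtain ⟨hms, hmsN⟩ := tr_ms_isMs hin.okB hin.adm
  have hW : 0 ≤ W := hin.x_pos.le.trans hin.x_le
  have hCk : 0 ≤ Ck := (abs_nonneg _).trans (hsc.kap_le τ 0 0 0 0)
  have hCb : 0 ≤ Cb := (abs_nonneg _).trans (hsc.bf_le 0)
  have hlow : ∀ y z, y < q → z < q → y ≠ z → τ y z < tU := fun y z hy hz hyz => by
    rcases hadm.low y z hy hz hyz with e | e <;> omega
  set p0 : ℝ := cvrSc τ tS W x (cvrEs a ths io rest) / x with hp0def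
  have hp0 : 0 ≤ p0 := div_nonneg (cvrSc_nonneg τ tS hW hin.x_pos.le _) hin.x_pos.le
  -- the summand on a final table
  set G : (ℕ → ℕ → ℕ) → ℝ := fun τ' => trNu B ls (q + 4) τ' 0 fun σ =>
    cvrMon (cvrS B ls) τ (cvrEs a ths io rest) σ * (skOv (σ q) (σ b) - skOv (σ a) (σ b)) * cvrDl (cvrS B ls) τ' (q + 2) (q + 3) σ with hG
  set F : (ℕ → ℕ → ℕ) → ℝ := fun τ' => cvrCo ls.length tU kap bf b (q + 1) (q + 2) (q + 3) τ' * G τ' with hF
  set Φ0 : (ℕ → ℕ → ℕ) → ℝ := fun τ' => (if tU ≤ τ' a q then gam (τ' a q) else 0) * F τ' with hΦ0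
  have hL : ∀ τ1 : ℕ → ℕ → ℕ, cvrL B ls tU kap bf (q + 1) τ1 b (fun σ =>
      cvrMon (cvrS B ls) τ (cvrEs a ths io rest) σ * (skOv (σ q) (σ b) - skOv (σ a) (σ b))) = trSumK (trMs B ls) ls.length 3 (q + 1) τ1 F :=
    fun τ1 => rfl
  have hstart : ∑ j ∈ Finset.Icc tU (ls.length + 1), cvrW (trMs B ls) ls.length j * gam j *
      cvrL B ls tU kap bf (q + 1) (trAtt ls.length q τ a j) b (fun σ =>
        cvrMon (cvrS B ls) τ (cvrEs a ths io rest) σ * (skOv (σ q) (σ b) - skOv (σ a) (σ b)))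
      = trSumK (trMs B ls) ls.length (3 + 1) q τ Φ0 := by
    rw [← cvrq_blk_first (trMs B ls) hτ ha hUN (fun y hy hya => hlow a y ha hy (Ne.symm hya)) gam 3 F]
    exact Finset.sum_congr rfl fun j _ => by rw [hL]
  rw [hstart]
  -- locality of the summand
  have hGloc : ∀ τ₁ τ₂ : ℕ → ℕ → ℕ, (∀ y z, y < q + 4 → z < q + 4 → τ₁ y z = τ₂ y z) → G τ₁ = G τ₂ := by
    intro τ₁ τ₂ h
    simp only [hG, cvrDl]
    rw [h (q + 2) (q + 3) (by omega) (by omega)]
    exact tr_nu_congr B ls h 0 _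
  have hu4 : ∀ i : Fin 4, (![b, q + 1, q + 2, q + 3] : Fin 4 → ℕ) i < q + 4 := by
    intro i; fin_cases i <;> simp <;> omega
  have hΦloc : ∀ τ₁ τ₂ : ℕ → ℕ → ℕ, (∀ y z, y < q + (3 + 1) → z < q + (3 + 1) → τ₁ y z = τ₂ y z) → Φ0 τ₁ = Φ0 τ₂ := by
    intro τ₁ τ₂ h
    simp only [hΦ0, hF]
    rw [h a q (by omega) (by omega), hGloc τ₁ τ₂ h,
      cvrq_co_comap hsc τ₁ τ₂ b (q + 1) (q + 2) (q + 3) b (q + 1) (q + 2) (q + 3) fun i j => h _ _ (hu4 i) (hu4 j)]
  -- the label `c` is allocated last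
  set e : Equiv.Perm ℕ := (tr5Cyc q (q + 3) (by omega)).symm with he
  have hee : ∀ y, e y = if y < q then y else if y = q then q + 3 else if y ≤ q + 3 then y - 1 else y :=
    fun y => tr5_cyc_symm_apply q (q + 3) (by omega) y
  have he_old : ∀ y, y < q → e y = y := fun y hy => by rw [hee, if_pos hy]
  have he0 : e q = q + 3 := by rw [hee]; simp
  have he1 : e (q + 1) = q := by rw [hee]; simp
  have he2 : e (q + 2) = q + 1 := by rw [hee]; simp
  have he3 : e (q + 3) = q + 2 := by rw [hee]; simp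
  have he_lt : ∀ y, y < q + 4 → e y < q + 3 + 1 := fun y hy => by
    rw [hee]; split_ifs <;> omega
  rw [tr_sumK_perm hτ (3 + 1) Φ0 hΦloc e (fun y hy => by rw [hee]; split_ifs <;> omega), tr_sumK_add 3 1]
  refine (tr_sumK_le 3 _).trans ?_
  -- the constant of one topology of `d, e, f`
  set K : ℝ := 1 / 2 * Ck * Cb * C1 * |Cg| * A ^ 2 * lg * p0 with hK
  have hK0 : 0 ≤ K := by
    have := hin.lg_nonneg
    positivity
  have key : ∀ τ3 : ℕ → ℕ → ℕ, IsTr ls.length (q + 3) τ3 → (∀ y z, y < q → z < q → τ3 y z = τ y z) →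
      |trSumK (trMs B ls) ls.length 1 (q + 3) τ3 fun τ' => Φ0 fun y z => τ' (e y) (e z)|
        ≤ if tU ≤ τ3 b q ∧ tU ≤ τ3 b (q + 1) ∧ tU ≤ τ3 b (q + 2) ∧ τ3 (q + 1) (q + 2) ≤ ls.length then
          (fun _ : ℕ => K) (τ3 b q) * dH (τ3 (q + 1) (q + 2)) else 0 := by
    intro τ3 hτ3 hag3
    set Co3 : ℝ := cvrCo ls.length tU kap bf b q (q + 1) (q + 2) τ3 with hCo3
    have hw3 : ∀ i : Fin 4, (![b, q, q + 1, q + 2] : Fin 4 → ℕ) i < q + 3 := by
      intro i; fin_cases i <;> simp <;> omega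
    have huw : ∀ i : Fin 4, e ((![b, q + 1, q + 2, q + 3] : Fin 4 → ℕ) i) = (![b, q, q + 1, q + 2] : Fin 4 → ℕ) i := by
      intro i; fin_cases i
      · exact he_old b hb
      · exact he1
      · exact he2
      · exact he3
    have hin1 : trSumK (trMs B ls) ls.length 1 (q + 3) τ3 (fun τ' => Φ0 fun y z => τ' (e y) (e z))
        = trSumK (trMs B ls) ls.length 1 (q + 3) τ3 (fun τ' => if tU ≤ τ' a (q + 3) then
            gam (τ' a (q + 3)) * (Co3 * G fun y z => τ' (e y) (e z)) else 0) := by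
      refine tr_sumK_congr hτ3 1 _ _ fun τ' hτ' hag' => ?_
      simp only [hΦ0, hF]
      rw [he_old a ha, he0, cvrq_co_comap hsc (fun y z => τ' (e y) (e z)) τ3 b (q + 1) (q + 2) (q + 3) b q (q + 1) (q + 2)
        (fun i j => by
          show τ' (e _) (e _) = _
          rw [huw i, huw j]
          exact hag' _ _ (hw3 i) (hw3 j))]
      split_ifs
      · rfl
      · rw [zero_mul]
    rw [hin1]
    by_cases hblk : tU ≤ τ3 b q ∧ tU ≤ τ3 b (q + 1) ∧ tU ≤ τ3 b (q + 2) ∧ τ3 (q + 1) (q + 2) ≤ ls.length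
    swap
    · rw [if_neg hblk]
      have hz : Co3 = 0 := by rw [hCo3]; unfold cvrCo; rw [if_neg hblk]
      simp only [hz, zero_mul, mul_zero, ite_self, trSumK, trSum, Finset.sum_const_zero, abs_zero, le_refl]
    rw [if_pos hblk]
    obtain ⟨b1, b2, b3, b4⟩ := hblk
    -- `a` is alone in its block of `τ3`
    have hab3 : τ3 a b = tS := by rw [hag3 a b ha hb, hadm.hab]
    have hal3 : ∀ y, y < q + 3 → y ≠ a → τ3 a y < tU := by
      intro y hy hya
      rcases Nat.lt_or_ge y q with hyq | hyq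
      · rw [hag3 a y ha hyq]; exact hlow a y ha hyq (Ne.symm hya)
      · have hy3 : y = q ∨ y = q + 1 ∨ y = q + 2 := by omega
        have hby : tU ≤ τ3 b y := by rcases hy3 with rfl | rfl | rfl <;> assumption
        have u2 := hτ3.ultra a y b (by omega) hy (by omega)
        rw [hτ3.symm y b hy (by omega), hab3] at u2
        omega
    have hsum : trSumK (trMs B ls) ls.length 1 (q + 3) τ3 (fun τ' => if tU ≤ τ' a (q + 3) then
            gam (τ' a (q + 3)) * (Co3 * G fun y z => τ' (e y) (e z)) else 0)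
        = ∑ j ∈ Finset.Icc tU (ls.length + 1), cvrW (trMs B ls) ls.length j *
            (gam (trAtt ls.length (q + 3) τ3 a j a (q + 3)) * (Co3 * G fun y z => trAtt ls.length (q + 3) τ3 a j (e y) (e z))) :=
      cvr_sum_blk (trMs B ls) hτ3 (by omega : a < q + 3) hUN hal3
        (fun τ' => gam (τ' a (q + 3)) * (Co3 * G fun y z => τ' (e y) (e z)))
    rw [hsum]
    set D : ℝ := dH (τ3 (q + 1) (q + 2)) with hD
    have hD0 : 0 ≤ D := hH.nonneg _
    set K' : ℝ := 1 / 2 * Ck * Cb * C1 * |Cg| * A ^ 2 * D * p0 with hK'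
    have hK'0 : 0 ≤ K' := by positivity
    have hterm : ∀ j ∈ Finset.Icc tU (ls.length + 1), |cvrW (trMs B ls) ls.length j *
            (gam (trAtt ls.length (q + 3) τ3 a j a (q + 3)) * (Co3 * G fun y z => trAtt ls.length (q + 3) τ3 a j (e y) (e z)))|
        ≤ if j = ls.length + 1 then 0 else cvrDm B ls j / cvrV B ls j * K' := by
      intro j hj
      rw [Finset.mem_Icc] at hj
      have hτ4 : IsTr ls.length (q + 3 + 1) (trAtt ls.length (q + 3) τ3 a j) := tr_att_isTr hτ3 (by omega) hj.2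
      have hlev := H1 n ι B ls tI tS tU W x A lg hin q τ a b ths io rest hadm hq hes eH dH hH j hj.1 hj.2
        (fun y z => trAtt ls.length (q + 3) τ3 a j (e y) (e z)) (tr_comap_isTr hτ4 e he_lt)
        (by
          intro y z hy hz
          show trAtt ls.length (q + 3) τ3 a j (e y) (e z) = _
          rcases Nat.lt_or_ge y q with hyq | hyq
          · rw [he_old y hyq]
            rcases Nat.lt_or_ge z q with hzq | hzq
            · rw [he_old z hzq, trw_att_old (by omega) (by omega), trw_att_old hyq hzq, hag3 y z hyq hzq]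
            · obtain rfl : z = q := by omega
              rw [he0, trw_att_nr (by omega), trw_att_nr hyq, hag3 y a hyq ha]
          · obtain rfl : y = q := by omega
            rw [he0]
            rcases Nat.lt_or_ge z y with hzq | hzq
            · rw [he_old z hzq, trw_att_nl (by omega), trw_att_nl hzq, hag3 a z ha hzq]
            · obtain rfl : z = y := by omega
              rw [he0, trw_att_nn, trw_att_nn])
        (by show tU ≤ trAtt ls.length (q + 3) τ3 a j (e b) (e (q + 1))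
            rw [he_old b hb, he1, trw_att_old (by omega) (by omega)]; exact b1)
        (by show tU ≤ trAtt ls.length (q + 3) τ3 a j (e b) (e (q + 2))
            rw [he_old b hb, he2, trw_att_old (by omega) (by omega)]; exact b2)
        (by show tU ≤ trAtt ls.length (q + 3) τ3 a j (e b) (e (q + 3))
            rw [he_old b hb, he3, trw_att_old (by omega) (by omega)]; exact b3)
        (by show trAtt ls.length (q + 3) τ3 a j (e (q + 2)) (e (q + 3)) ≤ ls.length
            rw [he2, he3, trw_att_old (by omega) (by omega)]; exact b4)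
      have hef : trAtt ls.length (q + 3) τ3 a j (e (q + 2)) (e (q + 3)) = τ3 (q + 1) (q + 2) := by
        rw [he2, he3, trw_att_old (by omega) (by omega)]
      have hlev' : |G fun y z => trAtt ls.length (q + 3) τ3 a j (e y) (e z)|
          ≤ if j = ls.length + 1 then 0 else C1 * (A / cvrV B ls j) ^ 2 * D * p0 := by
        have := hlev
        simp only [hef] at this
        exact this
      by_cases hjt : j = ls.length + 1
      · rw [if_pos hjt] at hlev' ⊢
        have : (G fun y z => trAtt ls.length (q + 3) τ3 a j (e y) (e z)) = 0 := abs_nonpos_iff.1 hlev'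
        rw [this, mul_zero, mul_zero, mul_zero, abs_zero]
      · rw [if_neg hjt] at hlev' ⊢
        have hjN : j ≤ ls.length := by omega
        have hv0 : 0 ≤ cvrV B ls j := cvr_V_nonneg hin.okB hin.adm j
        have hdm0 : 0 ≤ cvrDm B ls j := trw_step_nonneg hms hjN
        have e1 : trAtt ls.length (q + 3) τ3 a j a (q + 3) = j := by
          rw [trw_att_nr (by omega), hτ3.diag a (by omega)]; exact min_eq_left hj.2
        have e2 : |cvrW (trMs B ls) ls.length j| = cvrDm B ls j := by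
          rw [cvrW_of_le _ hjN, abs_sub_comm]; exact abs_of_nonneg hdm0
        have e3 : |gam j| ≤ |Cg| * cvrV B ls j :=
          (hsc.gam_le j hj.1 hjN).trans (mul_le_mul_of_nonneg_right (le_abs_self _) hv0)
        have e4 := cvrq_co_le hsc b q (q + 1) (q + 2) τ3
        rw [e1, abs_mul, abs_mul, abs_mul, e2]
        have e5 : |gam j| * (|Co3| * |G fun y z => trAtt ls.length (q + 3) τ3 a j (e y) (e z)|)
            ≤ (|Cg| * cvrV B ls j) * ((1 / 2 * Ck * Cb) * (C1 * (A / cvrV B ls j) ^ 2 * D * p0)) :=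
          mul_le_mul e3 (mul_le_mul e4 hlev' (abs_nonneg _) (by positivity)) (by positivity) (by positivity)
        refine (mul_le_mul_of_nonneg_left e5 hdm0).trans (le_of_eq ?_)
        rw [hK']
        exact cvrq_alg _ _ _ _ _ _ _ _ _
    refine (Finset.abs_sum_le_sum_abs _ _).trans ((Finset.sum_le_sum hterm).trans ?_)
    rw [Finset.sum_Icc_succ_top (by omega), if_pos rfl, add_zero,
      Finset.sum_congr rfl (fun j hj => if_neg (by have := (Finset.mem_Icc.1 hj).2; omega)), ← Finset.sum_mul]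
    refine (mul_le_mul_of_nonneg_right hin.mesh hK'0).trans (le_of_eq ?_)
    rw [hK, hK']
    ring
  refine (cvrq_absK_mono hτ 3 _ _ key).trans ?_
  have hmsN4 : trMs B ls ls.length ≤ 4 := by rw [hmsN]; exact hin.a_le
  refine (H2 ls.length q τ (trMs B ls) b tU hτ hms hmsN4 hq hb hlow hUN (fun _ => K) dH (fun _ => hK0) hH.nonneg).trans ?_
  -- arithmetic
  have hs1 : ∑ j ∈ Finset.Icc tU ls.length, (trMs B ls j - trPm (trMs B ls) j) ≤ 4 := by
    rw [cvrq_sum_dm _ hUN]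
    have : 0 ≤ trPm (trMs B ls) tU := cvr_V_nonneg hin.okB hin.adm tU
    linarith
  have hs2 : ∑ j ∈ Finset.Icc tU ls.length, (trMs B ls j - trPm (trMs B ls) j) * dH j ≤ eH := hH.tot
  have hs20 : 0 ≤ ∑ j ∈ Finset.Icc tU ls.length, (trMs B ls j - trPm (trMs B ls) j) * dH j :=
    Finset.sum_nonneg fun j hj => mul_nonneg (trw_step_nonneg hms (Finset.mem_Icc.1 hj).2) (hH.nonneg j)
  have e6 : ∑ j ∈ Finset.Icc tU ls.length, (trMs B ls j - trPm (trMs B ls) j) * K
      = (∑ j ∈ Finset.Icc tU ls.length, (trMs B ls j - trPm (trMs B ls) j)) * K := by rw [Finset.sum_mul]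
  have e7 : ∑ j ∈ Finset.Icc tU ls.length, (trMs B ls j - trPm (trMs B ls) j) * K * dH j
      = K * ∑ j ∈ Finset.Icc tU ls.length, (trMs B ls j - trPm (trMs B ls) j) * dH j := by
    rw [Finset.mul_sum]; exact Finset.sum_congr rfl fun j _ => by ring
  rw [e6, e7]
  have h8 : (∑ j ∈ Finset.Icc tU ls.length, (trMs B ls j - trPm (trMs B ls) j)) * K + K ≤ 5 * K := by nlinarith
  have h9 : ((∑ j ∈ Finset.Icc tU ls.length, (trMs B ls j - trPm (trMs B ls) j)) * K + K)
      * (∑ j ∈ Finset.Icc tU ls.length, (trMs B ls j - trPm (trMs B ls) j) * dH j) ≤ 5 * K * eH :=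
    mul_le_mul h8 hs2 hs20 (by positivity)
  have h10 : K * ∑ j ∈ Finset.Icc tU ls.length, (trMs B ls j - trPm (trMs B ls) j) * dH j ≤ K * eH :=
    mul_le_mul_of_nonneg_left hs2 hK0
  calc _ ≤ C2 * (5 * K * eH + K * eH) := mul_le_mul_of_nonneg_left (add_le_add h9 h10) hC2
    _ = _ := by rw [hK]; ring

end

/-- the two leaf law of `Defs/Tr` is the one of `Cav/Defs` (`tr_nu_of_ghTree`, `tr_nu_congr`).  LEAF I1 -/
theorem cvr_two_eq (n : ℕ) (P : SkStp) (j : ℕ) (hj : j ≤ P.length) (f : SkCfg n → SkCfg n → ℝ) :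
    trNu (skBase n 1) (skLvs n P) 2 (trTwo (skLvs n P).length j) 0 (fun σ => f (σ 0) (σ 1)) = cvNu n P (obT2 j) fun σ => f (σ 0) (σ 1) := by
  unfold cvNu ghSp
  rw [tr_nu_of_ghTree (skBase n 1) (skLvs n P) (obT2 j) 0 (fun σ => f (σ 0) (σ 1))]
  have hlen : (skLvs n P).length = P.length := by simp [skLvs]
  refine tr_nu_congr _ _ (fun x y hx hy => ?_) _ _
  unfold trTwo trOf obT2
  simp only [hx, hy, and_self, dite_true]
  split_ifs
  · rfl
  · rw [hlen]; omega


end Claimed.Agent.R286
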