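import Claimed.Agent.R286.Cav.Alg

/-!
# Row 286 (S0533), folder Cav, file Tst : CONCRETE TESTS ON THE STAR TREE, and the instance of the record `CavAlg` of 244      (owner helper218; prefix `cvt`, `Cvt`)

PE Def. 4.2, Lemma 4.6, and the bookkeeping of Lemma 4.9 ("centering can send marked factors into earlier separate expectations").      SORRY FREE.
Design (R1 of helper266, checked by 218): the switch term of (25) is `χ 𝓛(P° Δ_ab, b)` up to an admissible error, so ALL tests live on the STAR TREE: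
labels `ℕ`; the label `0` is the initial tooth `o` (it leaves the trunk at the cut `i`); all the other labels leave the trunk at `*`; every `U`-block is a singleton.
* `CvtMon` = monomial = list of edges `(c,d)` (factor `Δ_cd`);  `CvtPol` = list of (coefficient, monomial)
* `cvtMsz w x m`, `cvtSz w x P` : size with the weight `w` for a star edge, `x` for an edge at `0`.      `p₀ = cvtSz W x`,  Hoelder size `p₁ = cvtSz (st W) x` (EVERY star edge has the saving `st` of (17): no marks)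
* `cvtLin f P` : linear extension of a functional on monomials;  `cvtMul`, `cvtScl`, `cvtCen`
* `CvtOk N Q I a m` : admissible monomial with target `a` (degree `≤ N`, labels `< Q`, at most `I` initial edges, target structure of Def. 4.2);  closure = `cvt_ok_*` (Lemma 4.6)
* `CvtMod` : THE MODEL RECORD: two functionals on MONOMIALS `nuM m = ν[m]`, `LM m a = ν[m M_a]` and the contracts PER MONOMIAL ((25) is linear in `P`)
* `CvtMod.alg : CavAlg` : rooted tests carry a FORMAL scale `s` with the invariants `p₀ ≤ s`, `p₁ ≤ st^j s` at the generation `j`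
* `cvt_long`, `cvt_27` : Lemma 4.9 and (27) for a monomial
-/

set_option autoImplicit false

namespace Claimed.Agent.R286

/-! ### 1. polynomials in the edges -/

/-- monomial = list of edges of the star tree -/
abbrev CvtMon : Type := List (ℕ × ℕ)

/-- polynomial = list of (coefficient, monomial) -/
abbrev CvtPol : Type := List (ℝ × CvtMon)

/-- size of an edge: `x` at the initial tooth, `w` otherwise -/
noncomputable def cvtEsz (w x : ℝ) (e : ℕ × ℕ) : ℝ := if e.1 = 0 ∨ e.2 = 0 then x else w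

/-- size of a monomial -/
noncomputable def cvtMsz (w x : ℝ) (m : CvtMon) : ℝ := (m.map (cvtEsz w x)).prod

/-- size of a polynomial -/
noncomputable def cvtSz (w x : ℝ) (P : CvtPol) : ℝ := (P.map fun t => |t.1| * cvtMsz w x t.2).sum

/-- linear extension of a functional on monomials -/
def cvtLin (f : CvtMon → ℝ) (P : CvtPol) : ℝ := (P.map fun t => t.1 * f t.2).sum

/-- multiplication by an edge -/
def cvtMul (e : ℕ × ℕ) (P : CvtPol) : CvtPol := P.map fun t => (t.1, e :: t.2)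

/-- multiplication by a number -/
def cvtScl (c : ℝ) (P : CvtPol) : CvtPol := P.map fun t => (c * t.1, t.2)

/-- centring `P° = P - f[P]` -/
def cvtCen (f : CvtMon → ℝ) (P : CvtPol) : CvtPol := (-(cvtLin f P), []) :: P

/-- a label above all the labels of the monomial (at least `1`) -/
def cvtTopM : CvtMon → ℕ
  | [] => 1
  | e :: m => max (max (e.1 + 1) (e.2 + 1)) (cvtTopM m)

/-- a label above all the labels of the polynomial (at least `1`) -/
def cvtTop : CvtPol → ℕ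
  | [] => 1
  | t :: P => max (cvtTopM t.2) (cvtTop P)

theorem cvt_eqns_cite : True := by
  have := @cvtEsz.eq_1
  have := @cvtMsz.eq_1
  have := @cvtSz.eq_1
  have := @cvtLin.eq_1
  have := @cvtMul.eq_1
  have := @cvtScl.eq_1
  have := @cvtCen.eq_1
  have := @cvtTopM.eq_1
  have := @cvtTopM.eq_2
  have := @cvtTopM.eq_def
  have := @cvtTopM.induct
  have := @cvtTop.eq_1
  have := @cvtTop.eq_2
  have := @cvtTop.eq_def
  have := @cvtTop.induct
  trivial

@[simp] theorem cvtLin_nil (f : CvtMon → ℝ) : cvtLin f [] = 0 := rfl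

@[simp] theorem cvtLin_cons (f : CvtMon → ℝ) (t : ℝ × CvtMon) (P : CvtPol) : cvtLin f (t :: P) = t.1 * f t.2 + cvtLin f P := by
  simp [cvtLin]

theorem cvtLin_mul (f : CvtMon → ℝ) (e : ℕ × ℕ) (P : CvtPol) : cvtLin f (cvtMul e P) = cvtLin (fun m => f (e :: m)) P := by
  induction P with
  | nil => rfl
  | cons t P ih =>
    have : cvtMul e (t :: P) = (t.1, e :: t.2) :: cvtMul e P := rfl
    rw [this, cvtLin_cons, cvtLin_cons, ih]

theorem cvtLin_scl (f : CvtMon → ℝ) (c : ℝ) (P : CvtPol) : cvtLin f (cvtScl c P) = c * cvtLin f P := by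
  induction P with
  | nil => simp [cvtScl]
  | cons t P ih =>
    have : cvtScl c (t :: P) = (c * t.1, t.2) :: cvtScl c P := rfl
    rw [this, cvtLin_cons, cvtLin_cons, ih]
    ring

theorem cvtLin_cen (f g : CvtMon → ℝ) (P : CvtPol) : cvtLin f (cvtCen g P) = cvtLin f P - cvtLin g P * f [] := by
  rw [cvtCen, cvtLin_cons]
  ring

theorem cvtLin_add (f g : CvtMon → ℝ) (P : CvtPol) : cvtLin (fun m => f m + g m) P = cvtLin f P + cvtLin g P := by
  induction P with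
  | nil => simp
  | cons t P ih => rw [cvtLin_cons, cvtLin_cons, cvtLin_cons, ih]; ring

theorem cvtLin_sub (f g : CvtMon → ℝ) (P : CvtPol) : cvtLin (fun m => f m - g m) P = cvtLin f P - cvtLin g P := by
  induction P with
  | nil => simp
  | cons t P ih => rw [cvtLin_cons, cvtLin_cons, cvtLin_cons, ih]; ring

theorem cvtLin_cmul (c : ℝ) (f : CvtMon → ℝ) (P : CvtPol) : cvtLin (fun m => c * f m) P = c * cvtLin f P := by
  induction P with
  | nil => simp
  | cons t P ih => rw [cvtLin_cons, cvtLin_cons, ih]; ring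

theorem cvtLin_mulc (c : ℝ) (f : CvtMon → ℝ) (P : CvtPol) : cvtLin (fun m => f m * c) P = cvtLin f P * c := by
  induction P with
  | nil => simp
  | cons t P ih => rw [cvtLin_cons, cvtLin_cons, ih]; ring

theorem cvtLin_congr {f g : CvtMon → ℝ} {P : CvtPol} (h : ∀ t ∈ P, f t.2 = g t.2) : cvtLin f P = cvtLin g P := by
  induction P with
  | nil => rfl
  | cons t P ih =>
    rw [cvtLin_cons, cvtLin_cons, h t (List.mem_cons_self), ih fun s hs => h s (List.mem_cons_of_mem _ hs)]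

@[simp] theorem cvtMsz_nil (w x : ℝ) : cvtMsz w x [] = 1 := rfl

@[simp] theorem cvtMsz_cons (w x : ℝ) (e : ℕ × ℕ) (m : CvtMon) : cvtMsz w x (e :: m) = cvtEsz w x e * cvtMsz w x m := by
  simp [cvtMsz]

@[simp] theorem cvtSz_nil (w x : ℝ) : cvtSz w x [] = 0 := rfl

@[simp] theorem cvtSz_cons (w x : ℝ) (t : ℝ × CvtMon) (P : CvtPol) : cvtSz w x (t :: P) = |t.1| * cvtMsz w x t.2 + cvtSz w x P := by
  simp [cvtSz]

theorem cvtEsz_star (w x : ℝ) {c d : ℕ} (hc : c ≠ 0) (hd : d ≠ 0) : cvtEsz w x (c, d) = w := by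
  simp [cvtEsz, hc, hd]

theorem cvtEsz_nonneg {w x : ℝ} (hw : 0 ≤ w) (hx : 0 ≤ x) (e : ℕ × ℕ) : 0 ≤ cvtEsz w x e := by
  unfold cvtEsz; split_ifs <;> assumption

theorem cvtEsz_mono {w w' x : ℝ} (h : w ≤ w') (e : ℕ × ℕ) : cvtEsz w x e ≤ cvtEsz w' x e := by
  unfold cvtEsz; split_ifs
  · exact le_rfl
  · exact h

theorem cvtMsz_nonneg {w x : ℝ} (hw : 0 ≤ w) (hx : 0 ≤ x) (m : CvtMon) : 0 ≤ cvtMsz w x m := by
  induction m with
  | nil => simp
  | cons e m ih => rw [cvtMsz_cons]; exact mul_nonneg (cvtEsz_nonneg hw hx e) ih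

theorem cvtMsz_mono {w w' x : ℝ} (hw : 0 ≤ w) (h : w ≤ w') (hx : 0 ≤ x) (m : CvtMon) : cvtMsz w x m ≤ cvtMsz w' x m := by
  induction m with
  | nil => simp
  | cons e m ih =>
    rw [cvtMsz_cons, cvtMsz_cons]
    exact mul_le_mul (cvtEsz_mono h e) ih (cvtMsz_nonneg hw hx m) (cvtEsz_nonneg (hw.trans h) hx e)

theorem cvtSz_nonneg {w x : ℝ} (hw : 0 ≤ w) (hx : 0 ≤ x) (P : CvtPol) : 0 ≤ cvtSz w x P := by
  induction P with
  | nil => simp
  | cons t P ih => rw [cvtSz_cons]; exact add_nonneg (mul_nonneg (abs_nonneg _) (cvtMsz_nonneg hw hx _)) ih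

theorem cvtSz_mono {w w' x : ℝ} (hw : 0 ≤ w) (h : w ≤ w') (hx : 0 ≤ x) (P : CvtPol) : cvtSz w x P ≤ cvtSz w' x P := by
  induction P with
  | nil => simp
  | cons t P ih =>
    rw [cvtSz_cons, cvtSz_cons]
    exact add_le_add (mul_le_mul_of_nonneg_left (cvtMsz_mono hw h hx _) (abs_nonneg _)) ih

theorem cvtSz_mul (w x : ℝ) (e : ℕ × ℕ) (P : CvtPol) : cvtSz w x (cvtMul e P) = cvtEsz w x e * cvtSz w x P := by
  induction P with
  | nil => simp [cvtMul]
  | cons t P ih =>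
    have : cvtMul e (t :: P) = (t.1, e :: t.2) :: cvtMul e P := rfl
    rw [this, cvtSz_cons, cvtSz_cons, ih, cvtMsz_cons]
    ring

theorem cvtSz_scl (w x c : ℝ) (P : CvtPol) : cvtSz w x (cvtScl c P) = |c| * cvtSz w x P := by
  induction P with
  | nil => simp [cvtScl]
  | cons t P ih =>
    have : cvtScl c (t :: P) = (c * t.1, t.2) :: cvtScl c P := rfl
    rw [this, cvtSz_cons, cvtSz_cons, ih, abs_mul]
    ring

theorem cvtSz_cen (w x : ℝ) (f : CvtMon → ℝ) (P : CvtPol) : cvtSz w x (cvtCen f P) = |cvtLin f P| + cvtSz w x P := by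
  rw [cvtCen, cvtSz_cons]
  simp

/-- a functional bounded on the monomials is bounded on the polynomial -/
theorem cvtLin_abs_le {f : CvtMon → ℝ} {C w x : ℝ} {P : CvtPol} (h : ∀ t ∈ P, |f t.2| ≤ C * cvtMsz w x t.2) : |cvtLin f P| ≤ C * cvtSz w x P := by
  induction P with
  | nil => simp
  | cons t P ih =>
    rw [cvtLin_cons, cvtSz_cons]
    have h1 : |t.1 * f t.2| ≤ C * (|t.1| * cvtMsz w x t.2) := by
      rw [abs_mul]
      calc |t.1| * |f t.2| ≤ |t.1| * (C * cvtMsz w x t.2) := mul_le_mul_of_nonneg_left (h t List.mem_cons_self) (abs_nonneg _)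
        _ = _ := by ring
    have h2 := ih fun s hs => h s (List.mem_cons_of_mem _ hs)
    calc |t.1 * f t.2 + cvtLin f P| ≤ |t.1 * f t.2| + |cvtLin f P| := abs_add_le _ _
      _ ≤ C * (|t.1| * cvtMsz w x t.2) + C * cvtSz w x P := add_le_add h1 h2
      _ = _ := by ring

theorem cvtTopM_pos (m : CvtMon) : 1 ≤ cvtTopM m := by
  cases m with
  | nil => exact le_rfl
  | cons e m =>
    have : e.1 + 1 ≤ cvtTopM (e :: m) := le_trans (le_max_left _ _) (le_max_left _ _)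
    omega

theorem cvtTop_pos (P : CvtPol) : 1 ≤ cvtTop P := by
  cases P with
  | nil => exact le_rfl
  | cons t P => exact (cvtTopM_pos t.2).trans (le_max_left _ _)

theorem cvt_lt_topM {m : CvtMon} {e : ℕ × ℕ} (h : e ∈ m) : e.1 < cvtTopM m ∧ e.2 < cvtTopM m := by
  induction m with
  | nil => cases h
  | cons e' m ih =>
    have h1 : max (e'.1 + 1) (e'.2 + 1) ≤ cvtTopM (e' :: m) := le_max_left _ _
    have h2 : cvtTopM m ≤ cvtTopM (e' :: m) := le_max_right _ _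
    rcases List.mem_cons.1 h with rfl | h
    · have a1 : e.1 + 1 ≤ max (e.1 + 1) (e.2 + 1) := le_max_left _ _
      have a2 : e.2 + 1 ≤ max (e.1 + 1) (e.2 + 1) := le_max_right _ _
      omega
    · have := ih h
      omega

theorem cvtTopM_le_top {P : CvtPol} {t : ℝ × CvtMon} (h : t ∈ P) : cvtTopM t.2 ≤ cvtTop P := by
  induction P with
  | nil => cases h
  | cons t' P ih =>
    rcases List.mem_cons.1 h with rfl | h
    · exact le_max_left _ _
    · exact (ih h).trans (le_max_right _ _)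

theorem cvtTop_le {P : CvtPol} {Q : ℕ} (hQ : 1 ≤ Q) (h : ∀ t ∈ P, cvtTopM t.2 ≤ Q) : cvtTop P ≤ Q := by
  induction P with
  | nil => exact hQ
  | cons t P ih => exact max_le (h t List.mem_cons_self) (ih fun s hs => h s (List.mem_cons_of_mem _ hs))

theorem cvtTop_cen (f : CvtMon → ℝ) (P : CvtPol) : cvtTop (cvtCen f P) = cvtTop P := by
  show max 1 (cvtTop P) = cvtTop P
  exact max_eq_right (cvtTop_pos P)

theorem cvtTopM_cons_le {e : ℕ × ℕ} {m : CvtMon} {Q : ℕ} (h1 : e.1 < Q) (h2 : e.2 < Q) (h : cvtTopM m ≤ Q) : cvtTopM (e :: m) ≤ Q :=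
  max_le (max_le h1 h2) h

/-! ### 2. admissible monomials (PE Def. 4.2 on the star tree) and their closure (PE Lemma 4.6) -/

/-- the target structure: `m = (teeth at a) ++ (at most one other edge at a) ++ (edges which do not touch a)`; a tooth is a nonzero label which occurs only once -/
def CvtRoot (a : ℕ) (m : CvtMon) : Prop :=
  ∃ (ts : List ℕ) (inc H : CvtMon), m = ts.map (fun t => (a, t)) ++ inc ++ H ∧ inc.length ≤ 1 ∧
    (∀ e ∈ inc, e.1 = a ∨ e.2 = a) ∧ (∀ e ∈ H, e.1 ≠ a ∧ e.2 ≠ a) ∧ ts.Nodup ∧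
    ∀ t ∈ ts, t ≠ 0 ∧ t ≠ a ∧ ∀ e ∈ inc ++ H, e.1 ≠ t ∧ e.2 ≠ t

/-- admissible monomial with the target `a`: degree `≤ N`, labels `< Q`, target `≤ Q + 1`, at most `I` edges at the initial tooth `0` -/
structure CvtOk (N Q I a : ℕ) (m : CvtMon) : Prop where
  len : m.length ≤ N
  top : cvtTopM m ≤ Q
  rt : a ≤ Q + 1
  a_ne : a ≠ 0
  loop : ∀ e ∈ m, e.1 ≠ e.2
  ini : m.countP (fun e => decide (e.1 = 0 ∨ e.2 = 0)) ≤ I
  root : CvtRoot a m

theorem cvt_eqns_cite2 : True := by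
  have := @CvtRoot.eq_1
  trivial

theorem cvt_root_nil (a : ℕ) : CvtRoot a [] := ⟨[], [], [], by simp⟩

theorem cvt_root_fresh {u : ℕ} {m : CvtMon} (hu : cvtTopM m ≤ u) : CvtRoot u m := by
  refine ⟨[], [], m, by simp, by simp, by simp, ?_, by simp, by simp⟩
  intro e he
  have := cvt_lt_topM he
  omega

theorem cvt_root_sw {a f : ℕ} {m : CvtMon} (hf : cvtTopM m ≤ f) : CvtRoot f ((a, f) :: m) := by
  refine ⟨[], [(a, f)], m, by simp, by simp, by simp, ?_, by simp, by simp⟩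
  intro e he
  have := cvt_lt_topM he
  omega

theorem cvt_root_tooth {a f : ℕ} {m : CvtMon} (h : CvtRoot a m) (hf : cvtTopM m ≤ f) (hfa : f ≠ a) : CvtRoot a ((a, f) :: m) := by
  obtain ⟨ts, inc, H, hm, h1, h2, h3, h4, h5⟩ := h
  have hf0 : f ≠ 0 := by have := cvtTopM_pos m; omega
  have hmem : ∀ e ∈ m, e.1 ≠ f ∧ e.2 ≠ f := by
    intro e he
    have := cvt_lt_topM he
    omega
  refine ⟨f :: ts, inc, H, by simp [hm], h1, h2, h3, ?_, ?_⟩
  · refine List.nodup_cons.2 ⟨?_, h4⟩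
    intro hft
    have : (a, f) ∈ m := by
      rw [hm]
      exact List.mem_append_left _ (List.mem_append_left _ (List.mem_map.2 ⟨f, hft, rfl⟩))
    exact (hmem _ this).2 rfl
  · intro t ht
    rcases List.mem_cons.1 ht with rfl | ht
    · refine ⟨hf0, hfa, ?_⟩
      intro e he
      have : e ∈ m := by
        rw [hm, List.append_assoc]
        exact List.mem_append_right _ he
      exact hmem e this
    · exact h5 t ht

theorem cvt_ok_mono {N Q I a N' Q' : ℕ} {m : CvtMon} (h : CvtOk N Q I a m) (hN : N ≤ N') (hQ : Q ≤ Q') : CvtOk N' Q' I a m :=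
  ⟨h.len.trans hN, h.top.trans hQ, by have := h.rt; omega, h.a_ne, h.loop, h.ini, h.root⟩

theorem cvt_ok_nil {N Q I a : ℕ} {m : CvtMon} (h : CvtOk N Q I a m) : CvtOk N Q I a [] :=
  ⟨by simp, (cvtTopM_pos m).trans h.top, h.rt, h.a_ne, by simp, by simp, cvt_root_nil a⟩

/-- a fresh target -/
theorem cvt_ok_fresh {N Q I a u : ℕ} {m : CvtMon} (h : CvtOk N Q I a m) (hu : cvtTopM m ≤ u) (huQ : u ≤ Q + 1) : CvtOk N Q I u m :=
  ⟨h.len, h.top, huQ, by have := cvtTopM_pos m; omega, h.loop, h.ini, cvt_root_fresh hu⟩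

theorem cvt_countP_cons {a f : ℕ} (m : CvtMon) (ha : a ≠ 0) (hf : f ≠ 0) :
    ((a, f) :: m).countP (fun e => decide (e.1 = 0 ∨ e.2 = 0)) = m.countP (fun e => decide (e.1 = 0 ∨ e.2 = 0)) := by
  rw [List.countP_cons_of_neg]
  simp [ha, hf]

/-- multiplication by a projected star factor at the target (a new tooth) -/
theorem cvt_ok_tooth {N Q I a f : ℕ} {m : CvtMon} (h : CvtOk N Q I a m) (hf : cvtTopM m ≤ f) (hfa : f ≠ a) (hfQ : f ≤ Q + 1) :
    CvtOk (N + 1) (Q + 2) I a ((a, f) :: m) := by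
  have hf0 : f ≠ 0 := by have := cvtTopM_pos m; omega
  refine ⟨by simpa using h.len, cvtTopM_cons_le (by have := h.rt; simp only; omega) (by simp only; omega) (h.top.trans (by omega)),
    by have := h.rt; omega, h.a_ne, ?_, by rw [cvt_countP_cons m h.a_ne hf0]; exact h.ini, cvt_root_tooth h.root hf hfa⟩
  intro e he
  rcases List.mem_cons.1 he with rfl | he
  · exact fun h' => hfa h'.symm
  · exact h.loop e he

/-- passage to a fresh target joined by a star edge to the former target -/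
theorem cvt_ok_sw {N Q I a f : ℕ} {m : CvtMon} (h : CvtOk N Q I a m) (hf : cvtTopM m ≤ f) (hfa : f ≠ a) (hfQ : f ≤ Q + 1) :
    CvtOk (N + 1) (Q + 2) I f ((a, f) :: m) := by
  have hf0 : f ≠ 0 := by have := cvtTopM_pos m; omega
  refine ⟨by simpa using h.len, cvtTopM_cons_le (by have := h.rt; simp only; omega) (by simp only; omega) (h.top.trans (by omega)),
    by omega, hf0, ?_, by rw [cvt_countP_cons m h.a_ne hf0]; exact h.ini, cvt_root_sw hf⟩
  intro e he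
  rcases List.mem_cons.1 he with rfl | he
  · exact fun h' => hfa h'.symm
  · exact h.loop e he

/-! ### 3. the model record (contracts PER MONOMIAL) -/

/-- the defect of (25) for the monomial `m`, target `a`; `f` = a fresh label, used as tooth (`Y_a = Δ_af` averaged), as partner `b` and as new target.
`(1 - b_* χ²) ν[Y_a m°] - χ K_* (𝓛(m,a) + 𝓛(m,f)) - b_* χ (𝓛(m° Δ_af, a) + 𝓛(m° Δ_af, f))` -/
def cvtF25 (nuM : CvtMon → ℝ) (LM : CvtMon → ℕ → ℝ) (bs χ Ks : ℝ) (a f : ℕ) (m : CvtMon) : ℝ :=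
  (1 - bs * χ ^ 2) * (nuM ((a, f) :: m) - nuM m * nuM [(a, f)]) - χ * Ks * (LM m a + LM m f)
    - bs * χ * ((LM ((a, f) :: m) a - nuM m * LM [(a, f)] a) + (LM ((a, f) :: m) f - nuM m * LM [(a, f)] f))

/-- **the model record**: what Led ((24)), Rep (Lemma 4.8 + the replacement (iv) of 266), Hoelder + (12), (17) have to deliver, for ONE instance, PER MONOMIAL.
`nuM m = ν[∏ Δ_e]` on the star tree, `LM m a = ν[∏ Δ_e · M_a]`.      `N0, Q0` = degree / labels of the seeds, `k` = depth, `I` = number of initial edges allowed (`0`: star only). -/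
structure CvtMod where
  nuM : CvtMon → ℝ
  LM : CvtMon → ℕ → ℝ
  (k N0 Q0 I : ℕ)
  (W x bs Ks χ T ρ sv st : ℝ)
  (c C0 C1 Cb Cν Cy τ : ℝ)
  hx : 0 < x
  hxW : x ≤ W
  hc : 0 < c
  hρ : 0 ≤ ρ
  hsv : 0 ≤ sv
  hst : 0 ≤ st
  hst1 : st ≤ 1
  hCν : 0 ≤ Cν
  hCy : 0 ≤ Cy
  hτ : 0 ≤ τ
  hχ0 : 0 ≤ χ
  hχ : χ ≤ C0
  hb0 : 0 ≤ bs
  hb : bs ≤ Cb
  hbT : |bs - T| ≤ C1 * W ^ 2
  hK : c * W ≤ χ * Ks
  /-- pruning + relabelling: the insertion at a fresh target does not depend on its name -/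
  hperm : ∀ m u v, cvtTopM m ≤ u → cvtTopM m ≤ v → LM m u = LM m v
  /-- equation (25) (with the switch term `χ 𝓛(P° Δ_ab, b)`) and its remainder -/
  h25 : ∀ a f m, CvtOk (N0 + k) (Q0 + 2 * k) I a m → cvtTopM m ≤ f → f ≠ a → f ≤ Q0 + 2 * k + 1 →
    |cvtF25 nuM LM bs χ Ks a f m| ≤ ρ * (W * x ^ 2 * cvtMsz W x m)
  /-- good split + raw moments -/
  hnuY : ∀ a f m, CvtOk (N0 + k) (Q0 + 2 * k) I a m → cvtTopM m ≤ f → f ≠ a → f ≤ Q0 + 2 * k + 1 →
    |nuM ((a, f) :: m) - nuM m * nuM [(a, f)]| ≤ Cy * sv * (x ^ 2 / W) * cvtMsz W x m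
  /-- Hoelder + (17) + (12) -/
  hnu : ∀ a m, CvtOk (N0 + k) (Q0 + 2 * k) I a m → |nuM m| ≤ Cν * cvtMsz (st * W) x m
  /-- Hoelder + (17) + (12) + bounded variation of the insertion -/
  hL : ∀ a m, CvtOk (N0 + k) (Q0 + 2 * k) I a m → |LM m a| ≤ τ * cvtMsz (st * W) x m

/-- rooted test with a formal natural scale -/
structure CvtT where
  P : CvtPol
  a : ℕ
  s : ℝ
  hs : 0 ≤ s

/-- a label which is neither the target nor a label of the polynomial -/
def CvtT.fresh (X : CvtT) : ℕ := if X.a = cvtTop X.P then cvtTop X.P + 1 else cvtTop X.P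

/-- the same polynomial with a fresh target -/
def CvtT.fr (X : CvtT) : CvtT := ⟨X.P, X.fresh, X.s, X.hs⟩

namespace CvtMod

variable (M : CvtMod)

theorem W_pos : 0 < M.W := lt_of_lt_of_le M.hx M.hxW

/-- centring -/
def cen (X : CvtT) : CvtT := ⟨cvtCen M.nuM X.P, X.a, (1 + M.Cν) * X.s, mul_nonneg (by have := M.hCν; linarith) X.hs⟩

/-- multiplication by `Y_a` (a new tooth) -/
def mulY (X : CvtT) : CvtT := ⟨cvtMul (X.a, X.fresh) X.P, X.a, M.W * X.s, mul_nonneg M.W_pos.le X.hs⟩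

/-- the switch `χ P Δ_ab`, new target `b` -/
def sw (X : CvtT) : CvtT := ⟨cvtScl M.χ (cvtMul (X.a, X.fresh) X.P), X.fresh, M.χ * (M.W * X.s), mul_nonneg M.hχ0 (mul_nonneg M.W_pos.le X.hs)⟩

/-- `𝓛(P, a)` -/
def L (X : CvtT) : ℝ := cvtLin (fun m => M.LM m X.a) X.P

/-- `ν[Y_a P]` -/
def nuY (X : CvtT) : ℝ := cvtLin (fun m => M.nuM ((X.a, X.fresh) :: m)) X.P

/-- admissible rooted tests of the generation `j` -/
def adm (j : ℕ) (X : CvtT) : Prop :=
  j ≤ M.k ∧ CvtOk (M.N0 + j) (M.Q0 + 2 * j) M.I X.a [] ∧ (∀ t ∈ X.P, CvtOk (M.N0 + j) (M.Q0 + 2 * j) M.I X.a t.2) ∧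
    cvtSz M.W M.x X.P ≤ X.s ∧ cvtSz (M.st * M.W) M.x X.P ≤ M.st ^ j * X.s

end CvtMod

theorem cvt_eqns_cite3 : True := by
  have := @cvtF25.eq_1
  have := @CvtT.fresh.eq_1
  have := @CvtT.fr.eq_1
  have := @CvtMod.cen.eq_1
  have := @CvtMod.mulY.eq_1
  have := @CvtMod.sw.eq_1
  have := @CvtMod.L.eq_1
  have := @CvtMod.nuY.eq_1
  have := @CvtMod.adm.eq_1
  trivial

theorem cvt_fresh_ne (X : CvtT) : X.fresh ≠ X.a := by
  unfold CvtT.fresh
  split_ifs with h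
  · omega
  · exact fun h' => h h'.symm

theorem cvt_fresh_ge (X : CvtT) : cvtTop X.P ≤ X.fresh := by
  unfold CvtT.fresh
  split_ifs <;> omega

theorem cvt_fresh_le (X : CvtT) : X.fresh ≤ cvtTop X.P + 1 := by
  unfold CvtT.fresh
  split_ifs <;> omega

theorem cvt_fresh_cen (M : CvtMod) (X : CvtT) : (M.cen X).fresh = X.fresh := by
  unfold CvtT.fresh CvtMod.cen
  simp only [cvtTop_cen]

variable (M : CvtMod)

/-- the facts about the fresh label of an admissible test -/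
theorem cvt_adm_fresh {j : ℕ} {X : CvtT} (h : M.adm j X) :
    X.fresh ≤ M.Q0 + 2 * j + 1 ∧ X.fresh ≠ 0 ∧ ∀ t ∈ X.P, cvtTopM t.2 ≤ X.fresh := by
  obtain ⟨_, h0, h1, _, _⟩ := h
  have hQ : 1 ≤ M.Q0 + 2 * j := h0.top
  have htop : cvtTop X.P ≤ M.Q0 + 2 * j := cvtTop_le hQ fun t ht => (h1 t ht).top
  have h2 := cvt_fresh_le X
  have h3 := cvt_fresh_ge X
  have h4 := cvtTop_pos X.P
  exact ⟨by omega, by omega, fun t ht => (cvtTopM_le_top ht).trans h3⟩

theorem cvt_ok_up {j a : ℕ} {m : CvtMon} (hj : j ≤ M.k) (h : CvtOk (M.N0 + j) (M.Q0 + 2 * j) M.I a m) :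
    CvtOk (M.N0 + M.k) (M.Q0 + 2 * M.k) M.I a m := cvt_ok_mono h (by omega) (by omega)

/-- `|ν[P]| ≤ C_ν p₁(P)` -/
theorem cvt_nu_le {j : ℕ} {X : CvtT} (h : M.adm j X) : |cvtLin M.nuM X.P| ≤ M.Cν * cvtSz (M.st * M.W) M.x X.P :=
  cvtLin_abs_le fun t ht => M.hnu X.a t.2 (cvt_ok_up M h.1 (h.2.2.1 t ht))

theorem cvt_adm_fr {j : ℕ} {X : CvtT} (h : M.adm j X) : M.adm j X.fr := by
  obtain ⟨hf1, hf2, hf3⟩ := cvt_adm_fresh M h
  obtain ⟨hj, h0, h1, h2, h3⟩ := h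
  refine ⟨hj, cvt_ok_fresh h0 ?_ hf1, fun t ht => cvt_ok_fresh (h1 t ht) (hf3 t ht) hf1, h2, h3⟩
  show 1 ≤ X.fresh
  omega

/-- sizes of `e · P°` -/
theorem cvt_sz_child {j : ℕ} {X : CvtT} (h : M.adm j X) (w : ℝ) (hw : M.st * M.W ≤ w) (e : ℕ × ℕ) (he : cvtEsz w M.x e = w) :
    cvtSz w M.x (cvtMul e (cvtCen M.nuM X.P)) ≤ w * ((1 + M.Cν) * cvtSz w M.x X.P) := by
  have hsw : 0 ≤ M.st * M.W := mul_nonneg M.hst M.W_pos.le
  have hw0 : 0 ≤ w := hsw.trans hw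
  rw [cvtSz_mul, cvtSz_cen, he]
  refine mul_le_mul_of_nonneg_left ?_ hw0
  have h1 := cvt_nu_le M h
  have h2 : cvtSz (M.st * M.W) M.x X.P ≤ cvtSz w M.x X.P := cvtSz_mono hsw hw M.hx.le _
  have h3 : M.Cν * cvtSz (M.st * M.W) M.x X.P ≤ M.Cν * cvtSz w M.x X.P := mul_le_mul_of_nonneg_left h2 M.hCν
  linarith

/-- the two sizes of `e · P°` in terms of the formal scale -/
theorem cvt_sz_child2 {j : ℕ} {X : CvtT} (h : M.adm j X) (e : ℕ × ℕ) (h1 : e.1 ≠ 0) (h2 : e.2 ≠ 0) :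
    cvtSz M.W M.x (cvtMul e (cvtCen M.nuM X.P)) ≤ M.W * ((1 + M.Cν) * X.s) ∧
    cvtSz (M.st * M.W) M.x (cvtMul e (cvtCen M.nuM X.P)) ≤ M.st ^ (j + 1) * (M.W * ((1 + M.Cν) * X.s)) := by
  have hW := M.W_pos
  have hC : 0 ≤ 1 + M.Cν := by have := M.hCν; linarith
  have hsw : 0 ≤ M.st * M.W := mul_nonneg M.hst hW.le
  have hle : M.st * M.W ≤ M.W := by have := M.hst1; nlinarith
  have e1 : ∀ w : ℝ, cvtEsz w M.x e = w := fun w => by
    obtain ⟨c, d⟩ := e
    exact cvtEsz_star w M.x h1 h2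
  constructor
  · refine (cvt_sz_child M h M.W hle e (e1 _)).trans ?_
    exact mul_le_mul_of_nonneg_left (mul_le_mul_of_nonneg_left h.2.2.2.1 hC) hW.le
  · refine (cvt_sz_child M h (M.st * M.W) le_rfl e (e1 _)).trans ?_
    calc M.st * M.W * ((1 + M.Cν) * cvtSz (M.st * M.W) M.x X.P) ≤ M.st * M.W * ((1 + M.Cν) * (M.st ^ j * X.s)) :=
          mul_le_mul_of_nonneg_left (mul_le_mul_of_nonneg_left h.2.2.2.2 hC) hsw
      _ = _ := by ring

theorem cvt_mem_child {e : ℕ × ℕ} {f : CvtMon → ℝ} {P : CvtPol} {t : ℝ × CvtMon} (ht : t ∈ cvtMul e (cvtCen f P)) :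
    t.2 = [e] ∨ ∃ s ∈ P, t.2 = e :: s.2 := by
  unfold cvtMul cvtCen at ht
  obtain ⟨s, hs, rfl⟩ := List.mem_map.1 ht
  rcases List.mem_cons.1 hs with rfl | hs
  · exact Or.inl rfl
  · exact Or.inr ⟨s, hs, rfl⟩

theorem cvt_adm_mulY {j : ℕ} {X : CvtT} (hj : j < M.k) (h : M.adm j X) : M.adm (j + 1) (M.mulY (M.cen X)) := by
  obtain ⟨hf1, hf2, hf3⟩ := cvt_adm_fresh M h
  have hsz := cvt_sz_child2 M h (X.a, X.fresh) h.2.1.a_ne hf2
  obtain ⟨_, h0, h1, _, _⟩ := h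
  have hfa := cvt_fresh_ne X
  have k0 : CvtOk (M.N0 + (j + 1)) (M.Q0 + 2 * (j + 1)) M.I X.a [(X.a, X.fresh)] :=
    cvt_ok_tooth h0 (by show 1 ≤ X.fresh; omega) hfa hf1
  refine ⟨hj, cvt_ok_nil k0, ?_, ?_, ?_⟩
  · intro t ht
    have ht' : t ∈ cvtMul (X.a, X.fresh) (cvtCen M.nuM X.P) := by
      have := ht
      simp only [CvtMod.mulY, cvt_fresh_cen] at this
      exact this
    rcases cvt_mem_child ht' with e | ⟨s, hs, e⟩
    · rw [e]; exact k0
    · rw [e]; exact cvt_ok_tooth (h1 s hs) (hf3 s hs) hfa hf1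
  · simp only [CvtMod.mulY, cvt_fresh_cen]; exact hsz.1
  · simp only [CvtMod.mulY, cvt_fresh_cen]; exact hsz.2

theorem cvt_adm_sw {j : ℕ} {X : CvtT} (hj : j < M.k) (h : M.adm j X) : M.adm (j + 1) (M.sw (M.cen X)) := by
  obtain ⟨hf1, hf2, hf3⟩ := cvt_adm_fresh M h
  have hsz := cvt_sz_child2 M h (X.a, X.fresh) h.2.1.a_ne hf2
  obtain ⟨_, h0, h1, _, _⟩ := h
  have hfa := cvt_fresh_ne X
  have k0 : CvtOk (M.N0 + (j + 1)) (M.Q0 + 2 * (j + 1)) M.I X.fresh [(X.a, X.fresh)] :=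
    cvt_ok_sw h0 (by show 1 ≤ X.fresh; omega) hfa hf1
  have hχ := M.hχ0
  refine ⟨hj, ?_, ?_, ?_, ?_⟩
  · simp only [CvtMod.sw, cvt_fresh_cen]; exact cvt_ok_nil k0
  · intro t ht
    have ht' : t ∈ cvtScl M.χ (cvtMul (X.a, X.fresh) (cvtCen M.nuM X.P)) := by
      have := ht
      simp only [CvtMod.sw, cvt_fresh_cen] at this
      exact this
    obtain ⟨t', ht'', rfl⟩ := List.mem_map.1 ht'
    simp only [CvtMod.sw, cvt_fresh_cen]
    rcases cvt_mem_child ht'' with e | ⟨s, hs, e⟩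
    · rw [e]; exact k0
    · rw [e]; exact cvt_ok_sw (h1 s hs) (hf3 s hs) hfa hf1
  · simp only [CvtMod.sw, cvt_fresh_cen]
    rw [cvtSz_scl, abs_of_nonneg hχ]
    exact mul_le_mul_of_nonneg_left hsz.1 hχ
  · simp only [CvtMod.sw, cvt_fresh_cen]
    rw [cvtSz_scl, abs_of_nonneg hχ]
    calc M.χ * cvtSz (M.st * M.W) M.x (cvtMul (X.a, X.fresh) (cvtCen M.nuM X.P))
        ≤ M.χ * (M.st ^ (j + 1) * (M.W * ((1 + M.Cν) * X.s))) := mul_le_mul_of_nonneg_left hsz.2 hχ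
      _ = _ := by simp only [CvtMod.cen]; ring

/-! ### 4. the instance of `CavAlg` -/

/-- the defect of (25) for a rooted test is the linear extension of the defects of its monomials -/
theorem cvt_f25_lin (X : CvtT) :
    (1 - M.bs * M.χ ^ 2) * M.nuY (M.cen X) - M.χ * M.Ks * (M.L X + M.L X.fr) - M.bs * (M.χ * M.L (M.mulY (M.cen X)) + M.L (M.sw (M.cen X)))
      = cvtLin (cvtF25 M.nuM M.LM M.bs M.χ M.Ks X.a X.fresh) X.P := by
  have e1 : M.nuY (M.cen X) = cvtLin (fun m => M.nuM ((X.a, X.fresh) :: m)) X.P - cvtLin M.nuM X.P * M.nuM [(X.a, X.fresh)] := by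
    unfold CvtMod.nuY
    rw [cvt_fresh_cen]
    exact cvtLin_cen _ _ _
  have e2 : M.L (M.mulY (M.cen X)) = cvtLin (fun m => M.LM ((X.a, X.fresh) :: m) X.a) X.P - cvtLin M.nuM X.P * M.LM [(X.a, X.fresh)] X.a := by
    unfold CvtMod.L CvtMod.mulY
    rw [cvt_fresh_cen]
    simp only [CvtMod.cen]
    rw [cvtLin_mul, cvtLin_cen]
  have e3 : M.L (M.sw (M.cen X)) = M.χ * (cvtLin (fun m => M.LM ((X.a, X.fresh) :: m) X.fresh) X.P - cvtLin M.nuM X.P * M.LM [(X.a, X.fresh)] X.fresh) := by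
    unfold CvtMod.L CvtMod.sw
    rw [cvt_fresh_cen]
    simp only [CvtMod.cen]
    rw [cvtLin_scl, cvtLin_mul, cvtLin_cen]
  have e4 : M.L X.fr = cvtLin (fun m => M.LM m X.fresh) X.P := rfl
  have e5 : M.L X = cvtLin (fun m => M.LM m X.a) X.P := rfl
  rw [e1, e2, e3, e4, e5]
  generalize X.P = P
  induction P with
  | nil => simp
  | cons t P ih =>
    simp only [cvtLin_cons] at ih ⊢
    rw [← ih]
    unfold cvtF25
    ring

theorem cvt_h25 {j : ℕ} {X : CvtT} (hj : j < M.k) (h : M.adm j X) :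
    |(1 - M.bs * M.χ ^ 2) * M.nuY (M.cen X) - M.χ * M.Ks * (M.L X + M.L X.fr) - M.bs * (M.χ * M.L (M.mulY (M.cen X)) + M.L (M.sw (M.cen X)))|
      ≤ M.ρ * (M.W * M.x ^ 2 * X.s) := by
  obtain ⟨hf1, hf2, hf3⟩ := cvt_adm_fresh M h
  rw [cvt_f25_lin]
  have h1 : |cvtLin (cvtF25 M.nuM M.LM M.bs M.χ M.Ks X.a X.fresh) X.P| ≤ M.ρ * (M.W * M.x ^ 2) * cvtSz M.W M.x X.P := by
    refine cvtLin_abs_le fun t ht => ?_
    have := M.h25 X.a X.fresh t.2 (cvt_ok_up M h.1 (h.2.2.1 t ht)) (hf3 t ht) (cvt_fresh_ne X) (by omega)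
    calc _ ≤ M.ρ * (M.W * M.x ^ 2 * cvtMsz M.W M.x t.2) := this
      _ = _ := by ring
  have hW := M.W_pos
  have hρ := M.hρ
  calc _ ≤ M.ρ * (M.W * M.x ^ 2) * cvtSz M.W M.x X.P := h1
    _ ≤ M.ρ * (M.W * M.x ^ 2) * X.s := mul_le_mul_of_nonneg_left h.2.2.2.1 (by positivity)
    _ = _ := by ring

theorem cvt_hnuY {j : ℕ} {X : CvtT} (hj : j < M.k) (h : M.adm j X) : |M.nuY (M.cen X)| ≤ M.Cy * M.sv * (M.x ^ 2 / M.W) * X.s := by
  obtain ⟨hf1, hf2, hf3⟩ := cvt_adm_fresh M h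
  have e1 : M.nuY (M.cen X) = cvtLin (fun m => M.nuM ((X.a, X.fresh) :: m) - M.nuM m * M.nuM [(X.a, X.fresh)]) X.P := by
    unfold CvtMod.nuY
    rw [cvt_fresh_cen, cvtLin_sub, cvtLin_mulc]
    exact cvtLin_cen _ _ _
  rw [e1]
  have h1 : |cvtLin (fun m => M.nuM ((X.a, X.fresh) :: m) - M.nuM m * M.nuM [(X.a, X.fresh)]) X.P| ≤ M.Cy * M.sv * (M.x ^ 2 / M.W) * cvtSz M.W M.x X.P :=
    cvtLin_abs_le fun t ht => M.hnuY X.a X.fresh t.2 (cvt_ok_up M h.1 (h.2.2.1 t ht)) (hf3 t ht) (cvt_fresh_ne X) (by omega)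
  have hW := M.W_pos
  have := M.hCy
  have := M.hsv
  exact h1.trans (mul_le_mul_of_nonneg_left h.2.2.2.1 (by positivity))

theorem cvt_hterm {X : CvtT} (h : M.adm M.k X) : |M.L X| ≤ M.τ * M.st ^ M.k * X.s := by
  have h1 : |M.L X| ≤ M.τ * cvtSz (M.st * M.W) M.x X.P := cvtLin_abs_le fun t ht => M.hL X.a t.2 (h.2.2.1 t ht)
  calc _ ≤ M.τ * cvtSz (M.st * M.W) M.x X.P := h1
    _ ≤ M.τ * (M.st ^ M.k * X.s) := mul_le_mul_of_nonneg_left h.2.2.2.2 M.hτ
    _ = _ := by ring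

theorem cvt_L_fr (X : CvtT) : M.L X.fr.fr = M.L X.fr := by
  unfold CvtMod.L
  refine cvtLin_congr fun t ht => ?_
  have ht' : t ∈ X.P := ht
  refine M.hperm t.2 _ _ ?_ ?_
  · exact (cvtTopM_le_top ht').trans (cvt_fresh_ge X.fr)
  · exact (cvtTopM_le_top ht').trans (cvt_fresh_ge X)

/-- **the instance** of the interface record of 244 -/
noncomputable def CvtMod.alg : CavAlg where
  Tst := CvtT
  L := M.L
  nuY := M.nuY
  p0 := fun X => X.s
  cen := M.cen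
  mulY := M.mulY
  sw := M.sw
  fr := CvtT.fr
  adm := M.adm
  k := M.k
  W := M.W
  x := M.x
  bs := M.bs
  Ks := M.Ks
  χ := M.χ
  T := M.T
  ρ := M.ρ
  sv := M.sv
  st := M.st
  c := M.c
  C0 := M.C0
  C1 := M.C1
  Cb := M.Cb
  Cs := (1 + M.Cν) * (1 + M.C0)
  Cy := M.Cy
  Ca := M.τ
  hx := M.hx
  hxW := M.hxW
  hc := M.hc
  hρ := M.hρ
  hsv := M.hsv
  hst := M.hst
  hCs := by have := M.hCν; have := M.hχ0.trans M.hχ; positivity
  hCy := M.hCy
  hCa := M.hτ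
  hχ0 := M.hχ0
  hχ := M.hχ
  hb0 := M.hb0
  hb := M.hb
  hbT := M.hbT
  hK := M.hK
  hp0 := fun X => X.hs
  adm_fr := fun _ _ h => cvt_adm_fr M h
  adm_mulY := fun _ _ hj h => cvt_adm_mulY M hj h
  adm_sw := fun _ _ hj h => cvt_adm_sw M hj h
  p0_fr := fun _ => le_rfl
  p0_mulY := fun _ X _ _ => by
    have hW := M.W_pos
    have h1 := M.hCν
    have h2 := M.hχ0.trans M.hχ
    have h3 := X.hs
    show M.W * ((1 + M.Cν) * X.s) ≤ (1 + M.Cν) * (1 + M.C0) * M.W * X.s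
    have : 0 ≤ (1 + M.Cν) * M.C0 * M.W * X.s := by positivity
    nlinarith
  p0_sw := fun _ X _ _ => by
    have hW := M.W_pos
    have h1 := M.hCν
    have h2 := M.hχ0.trans M.hχ
    have h3 := X.hs
    show M.χ * (M.W * ((1 + M.Cν) * X.s)) ≤ (1 + M.Cν) * (1 + M.C0) * M.W * X.s
    have h4 : 0 ≤ M.W * ((1 + M.Cν) * X.s) := by positivity
    have h5 : M.χ * (M.W * ((1 + M.Cν) * X.s)) ≤ M.C0 * (M.W * ((1 + M.Cν) * X.s)) := mul_le_mul_of_nonneg_right M.hχ h4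
    nlinarith
  L_fr := cvt_L_fr M
  h25 := fun _ _ hj h => cvt_h25 M hj h
  hnuY := fun _ _ hj h => cvt_hnuY M hj h
  hterm := fun _ h => cvt_hterm M h

theorem cvt_eqns_cite4 : True := by
  have := @CvtMod.alg.eq_1
  trivial

/-- the rooted test of one monomial -/
noncomputable def CvtMod.seed (m : CvtMon) (a : ℕ) : CvtT := ⟨[(1, m)], a, cvtMsz M.W M.x m, cvtMsz_nonneg M.W_pos.le M.hx.le m⟩

theorem cvt_eqns_cite5 : True := by
  have := @CvtMod.seed.eq_1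
  trivial

theorem cvt_seed_adm {m : CvtMon} {a : ℕ} (h : CvtOk M.N0 M.Q0 M.I a m) : M.adm 0 (M.seed m a) := by
  have hW := M.W_pos
  have hsw : 0 ≤ M.st * M.W := mul_nonneg M.hst hW.le
  have hle : M.st * M.W ≤ M.W := by have := M.hst1; nlinarith
  refine ⟨Nat.zero_le _, cvt_ok_nil h, ?_, ?_, ?_⟩
  · intro t ht
    have : t = (1, m) := by simpa [CvtMod.seed] using ht
    rw [this]; exact h
  · simp [CvtMod.seed]
  · simpa [CvtMod.seed] using cvtMsz_mono hsw hle M.hx.le m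

theorem cvt_seed_L (m : CvtMon) (a : ℕ) : M.L (M.seed m a) = M.LM m a := by
  simp [CvtMod.L, CvtMod.seed]

/-- **PE Lemma 4.9** for a monomial -/
theorem cvt_long {m : CvtMon} {a : ℕ} (h : CvtOk M.N0 M.Q0 M.I a m) :
    |M.LM m a| ≤ M.alg.G0 ^ M.k * ((M.k : ℝ) * M.alg.E0 + M.τ * M.st ^ M.k) * cvtMsz M.W M.x m := by
  have := sk_cavalg_long M.alg (M.seed m a) (cvt_seed_adm M h)
  rw [← cvt_seed_L]
  exact this

/-- **PE (27)** for a monomial -/
theorem cvt_27 (CJ : ℝ) (hJ : |M.T * M.χ ^ 2 - 1| ≤ CJ * M.W ^ 2) {m : CvtMon} {a : ℕ} (h : CvtOk M.N0 M.Q0 M.I a m) :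
    |M.LM m a| ≤ M.alg.G0 ^ M.k * ((M.k : ℝ) * (3 / 2 * ((M.Cy * M.sv / M.c) * (M.C1 * M.C0 ^ 2 + CJ) + M.ρ / M.c)) * M.x ^ 2
      + M.τ * M.st ^ M.k) * cvtMsz M.W M.x m := by
  have := sk_cavalg_27 M.alg CJ hJ (M.seed m a) (cvt_seed_adm M h)
  rw [← cvt_seed_L]
  exact this

end Claimed.Agent.R286
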