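import Claimed.Agent.R286.Cav.Tst

/-!
# Row 286 (S0533), folder Cav, file TstCal : the instance of `CavCal` (PE Lemma 4.10) from PER-MONOMIAL fields, and the exit of the algebra      (owner helper218; prefix `cvt`, `Cvt`)      SORRY FREE

* `CvtCal` = `CvtMod` (in practice the STAR-ONLY record, `I = 0`) + (24) at `P = 1` after the replacements: `S_* = Γ(K_*) + b_* χ (𝓛(Δ_12, 1) + 𝓛(Δ_12, 2)) + O(ρ W x²)`, the scalar low expansion, `K_* = T S_* + O(W³)`, `S_* ≥ c W`, depth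
* `CvtCal.cal : CavCal`,  `cvt_J0` : `|T χ² - 1| ≤ C W²`
* `cvt_exit` : (27) for a monomial of a SECOND record (the one with the initial edge, or the enlarged class of the omitted lower cuts) which has the same `T, χ, W`
-/

set_option autoImplicit false

namespace Claimed.Agent.R286

/-- the calibration record, per monomial -/
structure CvtCal extends CvtMod where
  (S Γ C2 τd : ℝ)
  hN0 : 1 ≤ N0
  hQ0 : 3 ≤ Q0
  hC2 : 0 ≤ C2
  hτd : 0 ≤ τd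
  /-- (24) at `P = 1` after the replacements (Lemma 4.8 (ii), (iii), (iv)) -/
  hcal : |S - Γ - bs * χ * (LM [(1, 2)] 1 + LM [(1, 2)] 2)| ≤ ρ * (W * x ^ 2)
  /-- scalar low expansion `Γ(K_*) = χ² K_* + O(W³)` -/
  hΓ : |Γ - χ ^ 2 * Ks| ≤ C2 * W ^ 3
  hKS : |Ks - T * S| ≤ C2 * W ^ 3
  hS : c * W ≤ S
  /-- the depth is large enough -/
  hdepth : st ^ k ≤ τd * x ^ 2

theorem cvt_ok_12a (N Q I : ℕ) (hN : 1 ≤ N) (hQ : 3 ≤ Q) : CvtOk N Q I 1 [(1, 2)] := by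
  have h0 : CvtOk 0 1 I 1 [] := ⟨by simp, le_rfl, by omega, by omega, by simp, by simp, cvt_root_nil 1⟩
  exact cvt_ok_mono (cvt_ok_tooth h0 (by show 1 ≤ 2; omega) (by omega) (by omega)) hN hQ

theorem cvt_ok_12b (N Q I : ℕ) (hN : 1 ≤ N) (hQ : 3 ≤ Q) : CvtOk N Q I 2 [(1, 2)] := by
  have h0 : CvtOk 0 1 I 1 [] := ⟨by simp, le_rfl, by omega, by omega, by simp, by simp, cvt_root_nil 1⟩
  exact cvt_ok_mono (cvt_ok_sw h0 (by show 1 ≤ 2; omega) (by omega) (by omega)) hN hQ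

namespace CvtCal

variable (D : CvtCal)

/-- the test `χ Δ_12` with the target `2` -/
noncomputable def tS : CvtT := ⟨[(D.χ, [(1, 2)])], 2, D.χ * D.W, mul_nonneg D.hχ0 D.toCvtMod.W_pos.le⟩

end CvtCal

theorem cvt_eqns_cite6 : True := by
  have := @CvtCal.tS.eq_1
  trivial

theorem cvt_msz_12 (w x : ℝ) : cvtMsz w x [(1, 2)] = w := by
  simp [cvtEsz]

theorem cvt_tS_adm (D : CvtCal) : D.toCvtMod.adm 0 D.tS := by
  have hW := D.toCvtMod.W_pos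
  have hχ := D.hχ0
  have hk := cvt_ok_12b D.N0 D.Q0 D.I D.hN0 D.hQ0
  refine ⟨Nat.zero_le _, cvt_ok_nil hk, ?_, ?_, ?_⟩
  · intro t ht
    have : t = (D.χ, [(1, 2)]) := by simpa [CvtCal.tS] using ht
    rw [this]; exact hk
  · simp only [CvtCal.tS, cvtSz_cons, cvtSz_nil, cvt_msz_12, abs_of_nonneg hχ, add_zero]; exact le_rfl
  · simp only [CvtCal.tS, cvtSz_cons, cvtSz_nil, cvt_msz_12, abs_of_nonneg hχ, add_zero, pow_zero, one_mul]
    have : D.st * D.W ≤ D.W := by have := D.hst1; nlinarith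
    exact mul_le_mul_of_nonneg_left this hχ

/-- **the instance** of the calibration record of 244 -/
noncomputable def CvtCal.cal (D : CvtCal) : CavCal :=
  { D.toCvtMod.alg with
    tY := D.toCvtMod.seed [(1, 2)] 1
    tS := D.tS
    S := D.S
    Γ := D.Γ
    C2 := D.C2
    τ := D.τd
    adm_tY := cvt_seed_adm D.toCvtMod (cvt_ok_12a D.N0 D.Q0 D.I D.hN0 D.hQ0)
    adm_tS := cvt_tS_adm D
    p0_tY := by
      have hW := D.toCvtMod.W_pos
      have h1 := D.hCν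
      have h2 := D.hχ0.trans D.hχ
      show cvtMsz D.W D.x [(1, 2)] ≤ (1 + D.Cν) * (1 + D.C0) * D.W
      rw [cvt_msz_12]
      have : 0 ≤ (D.Cν + D.C0 + D.Cν * D.C0) * D.W := by positivity
      nlinarith
    p0_tS := by
      have hW := D.toCvtMod.W_pos
      have h1 := D.hCν
      have h2 := D.hχ0.trans D.hχ
      show D.χ * D.W ≤ (1 + D.Cν) * (1 + D.C0) * D.W
      have h3 : D.χ * D.W ≤ D.C0 * D.W := mul_le_mul_of_nonneg_right D.hχ hW.le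
      have : 0 ≤ (1 + D.Cν + D.Cν * D.C0) * D.W := by positivity
      nlinarith
    hC2 := D.hC2
    hτ := D.hτd
    hcal := by
      have e1 : D.toCvtMod.L (D.toCvtMod.seed [(1, 2)] 1) = D.LM [(1, 2)] 1 := cvt_seed_L _ _ _
      have e2 : D.toCvtMod.L D.tS = D.χ * D.LM [(1, 2)] 2 := by simp [CvtMod.L, CvtCal.tS]
      show |D.S - D.Γ - D.bs * (D.χ * D.toCvtMod.L (D.toCvtMod.seed [(1, 2)] 1) + D.toCvtMod.L D.tS)| ≤ D.ρ * (D.W * D.x ^ 2)
      rw [e1, e2]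
      have := D.hcal
      have e3 : D.S - D.Γ - D.bs * (D.χ * D.LM [(1, 2)] 1 + D.χ * D.LM [(1, 2)] 2) = D.S - D.Γ - D.bs * D.χ * (D.LM [(1, 2)] 1 + D.LM [(1, 2)] 2) := by ring
      rw [e3]; exact this
    hΓ := D.hΓ
    hKS := D.hKS
    hS := D.hS
    hdepth := D.hdepth }

theorem cvt_eqns_cite7 : True := by
  have := @CvtCal.cal.eq_1
  trivial

/-- **PE Lemma 4.10**: `J₀ = O(W²)` -/
theorem cvt_J0 (D : CvtCal) (η : ℝ) (h1 : D.cal.η1 / D.c ≤ η) (h2 : D.cal.η2 / D.c ≤ η) (hη : η ≤ 1 / 2) :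
    |D.T * D.χ ^ 2 - 1| ≤ (2 * (D.C2 * (1 + D.C0 ^ 2) / D.c) + 1) * D.W ^ 2 :=
  sk_cavalg_J0 D.cal η h1 h2 hη

/-- **exit of the algebra**: (27) for the monomials of a second record with the same `T, χ, W` -/
theorem cvt_exit (D : CvtCal) (M : CvtMod) (hT : M.T = D.T) (hχ : M.χ = D.χ) (hW : M.W = D.W)
    (η : ℝ) (h1 : D.cal.η1 / D.c ≤ η) (h2 : D.cal.η2 / D.c ≤ η) (hη : η ≤ 1 / 2) {m : CvtMon} {a : ℕ} (h : CvtOk M.N0 M.Q0 M.I a m) :
    |M.LM m a| ≤ M.alg.G0 ^ M.k * ((M.k : ℝ) * (3 / 2 * ((M.Cy * M.sv / M.c) * (M.C1 * M.C0 ^ 2 + (2 * (D.C2 * (1 + D.C0 ^ 2) / D.c) + 1)) + M.ρ / M.c)) * M.x ^ 2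
      + M.τ * M.st ^ M.k) * cvtMsz M.W M.x m := by
  refine cvt_27 M _ ?_ h
  rw [hT, hχ, hW]
  exact cvt_J0 D η h1 h2 hη

end Claimed.Agent.R286
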