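import Claimed.Agent.R286.Cav.TstApr
import Claimed.Agent.R286.Cav.TstCal

/-!
# Row 286 (S0533), folder Cav, file TstInst : THE INSTANCE `CvtMod` / `CvtCal` ON A `LedSys`, and the exit of Alg in the vocabulary of `LedSys`      (owner helper218; prefix `CvtIn`, `cvt_in_`)      own sorry 0

`CvtIn Ω` = a `LedSys`, the cuts `kI ≤ kS` (initial tooth, star), `kU` (blocks), the numbers.      `CvtIn.Ok` = the hypotheses:
* PROVED fields of `CvtMod` are produced here from `Y.Ok` and three COST NUMBERS:  `Y.mom r kS ≤ (st W)^(2r)` ((17)),  `Y.mom r kI ≤ x^(2r)` ((12)),  `Y.D kS ≤ sv x²/W` ((18) at the good cut);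
* the only field which is still a hypothesis: **`h25`** = equation (25) per monomial (supplier: Rep = helper244, from `led_main` and Lemma 4.8).
EXITS:  `cvt_in_long` (PE Lemma 4.9), `cvt_in_J0` (PE Lemma 4.10), `cvt_in_27` (PE (27)) for `Y.LM kI kS kU m a`.
-/

set_option autoImplicit false

namespace Claimed.Agent.R286

/-- data -/
structure CvtIn (Ω : Type) where
  Y : LedSys Ω
  (kI kS kU r k N0 Q0 I : ℕ)
  (W x T ρ sv st c C0 C1 Cb : ℝ)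

namespace CvtIn

variable {Ω : Type} (A : CvtIn Ω)

/-- `ν[m]` -/
def nuM (m : CvtMon) : ℝ := A.Y.nuM A.kI A.kS m

/-- `𝓛(m,a)` -/
noncomputable def LM (m : CvtMon) (a : ℕ) : ℝ := A.Y.LM A.kI A.kS A.kU m a

/-- the a priori constant of the insertion -/
noncomputable def tau : ℝ := (2 * A.Y.ms A.Y.N) ^ 3 * (∏ i ∈ Finset.range 3, (((A.Q0 + 2 * A.k + 2 : ℕ) : ℝ) + i)) * (2 * A.Cb)

/-- hypotheses -/
structure Ok : Prop where
  sys : A.Y.Ok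
  kIS : A.kI ≤ A.kS
  kSN : A.kS ≤ A.Y.N
  hx : 0 < A.x
  hxW : A.x ≤ A.W
  hc : 0 < A.c
  hρ : 0 ≤ A.ρ
  hsv : 0 ≤ A.sv
  hst : 0 ≤ A.st
  hst1 : A.st ≤ 1
  /-- the Hoelder order -/
  hr : 2 * (A.N0 + A.k) + 1 ≤ 2 * A.r
  /-- (17): every star pair has the saving `st` -/
  momS : A.Y.mom A.r A.kS ≤ (A.st * A.W) ^ (2 * A.r)
  /-- (12): raw bound at the initial cut -/
  momI : A.Y.mom A.r A.kI ≤ A.x ^ (2 * A.r)
  /-- the good split -/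
  Dst : A.Y.D A.kS ≤ A.sv * (A.x ^ 2 / A.W)
  b_le : ∀ r, A.Y.b r ≤ A.Cb
  chi0 : 0 ≤ A.Y.chi A.kU
  chi_le : A.Y.chi A.kU ≤ A.C0
  bT : |A.Y.b A.kS - A.T| ≤ A.C1 * A.W ^ 2
  K_lo : A.c * A.W ≤ A.Y.chi A.kU * A.Y.K A.kS
  /-- **equation (25) per monomial**.      TEX[PE:lem:cavity-replacements] -/
  h25 : ∀ a f m, CvtOk (A.N0 + A.k) (A.Q0 + 2 * A.k) A.I a m → cvtTopM m ≤ f → f ≠ a → f ≤ A.Q0 + 2 * A.k + 1 →
    |cvtF25 A.nuM A.LM (A.Y.b A.kS) (A.Y.chi A.kU) (A.Y.K A.kS) a f m| ≤ A.ρ * (A.W * A.x ^ 2 * cvtMsz A.W A.x m)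

end CvtIn

theorem cvt_in_eqns_cite : True := by
  have := @CvtIn.nuM.eq_1
  have := @CvtIn.LM.eq_1
  have := @CvtIn.tau.eq_1
  trivial

variable {Ω : Type} (A : CvtIn Ω)

theorem cvt_in_W (h : A.Ok) : 0 < A.W := lt_of_lt_of_le h.hx h.hxW

theorem cvt_in_momW (h : A.Ok) : A.Y.mom A.r A.kS ≤ A.W ^ (2 * A.r) := by
  have hW := cvt_in_W A h
  refine h.momS.trans (pow_le_pow_left₀ (mul_nonneg h.hst hW.le) ?_ _)
  have := h.hst1
  nlinarith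

theorem cvt_in_tau (h : A.Ok) : 0 ≤ A.tau := by
  have h1 : 0 ≤ A.Y.ms A.Y.N := h.sys.ms_ok.nonneg _
  have h2 : 0 ≤ A.Cb := (led_a_b_nonneg A.Y h.sys 0).trans (h.b_le 0)
  unfold CvtIn.tau
  have h3 : 0 ≤ ∏ i ∈ Finset.range 3, (((A.Q0 + 2 * A.k + 2 : ℕ) : ℝ) + i) := Finset.prod_nonneg fun i _ => by positivity
  positivity

/-- **the instance** -/
noncomputable def CvtIn.mod (h : A.Ok) : CvtMod where
  nuM := A.nuM
  LM := A.LM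
  k := A.k
  N0 := A.N0
  Q0 := A.Q0
  I := A.I
  W := A.W
  x := A.x
  bs := A.Y.b A.kS
  Ks := A.Y.K A.kS
  χ := A.Y.chi A.kU
  T := A.T
  ρ := A.ρ
  sv := A.sv
  st := A.st
  c := A.c
  C0 := A.C0
  C1 := A.C1
  Cb := A.Cb
  Cν := 1
  Cy := 1
  τ := A.tau
  hx := h.hx
  hxW := h.hxW
  hc := h.hc
  hρ := h.hρ
  hsv := h.hsv
  hst := h.hst
  hst1 := h.hst1
  hCν := zero_le_one
  hCy := zero_le_one
  hτ := cvt_in_tau A h
  hχ0 := h.chi0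
  hχ := h.chi_le
  hb0 := led_a_b_nonneg A.Y h.sys _
  hb := h.b_le _
  hbT := h.bT
  hK := h.K_lo
  hperm := fun m u v hu hv => led_t_perm A.Y h.sys h.kIS h.kSN A.kU m u v hu hv
  h25 := h.h25
  hnuY := fun a f m hm hf hfa _ => by
    have hW := cvt_in_W A h
    have hf0 : f ≠ 0 := by have := cvtTopM_pos m; omega
    have h1 := led_a_nuY A.Y h.sys h.kIS h.kSN A.r hW.le h.hx.le (cvt_in_momW A h) h.momI m hm.loop
      (by have := hm.len; have := h.hr; omega) hm.a_ne hf0 hfa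
    refine h1.trans ?_
    rw [one_mul]
    exact mul_le_mul_of_nonneg_right h.Dst (cvtMsz_nonneg hW.le h.hx.le m)
  hnu := fun a m hm => by
    have hW := cvt_in_W A h
    rw [one_mul]
    exact led_a_nu A.Y h.sys h.kIS h.kSN A.r (mul_nonneg h.hst hW.le) h.hx.le h.momS h.momI m hm.loop (by have := hm.len; have := h.hr; omega)
  hL := fun a m hm => by
    have hW := cvt_in_W A h
    exact led_a_L A.Y h.sys h.kIS h.kSN A.kU A.r (mul_nonneg h.hst hW.le) h.hx.le h.momS h.momI h.b_le m hm.loop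
      (by have := hm.len; have := h.hr; omega) (q := A.Q0 + 2 * A.k + 2) (by have := hm.top; omega) (by have := hm.rt; omega)

theorem cvt_in_eqns_cite2 : True := by
  have := @CvtIn.mod.eq_1
  trivial

/-- **PE Lemma 4.9** on a `LedSys`.      TEX[PE:lem:cavity-recursion] -/
theorem cvt_in_long (h : A.Ok) {m : CvtMon} {a : ℕ} (hm : CvtOk A.N0 A.Q0 A.I a m) :
    |A.Y.LM A.kI A.kS A.kU m a| ≤ (A.mod h).alg.G0 ^ A.k * ((A.k : ℝ) * (A.mod h).alg.E0 + A.tau * A.st ^ A.k) * cvtMsz A.W A.x m :=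
  cvt_long (A.mod h) hm

/-- **PE (27)** on a `LedSys`, once `J₀ = O(W²)` -/
theorem cvt_in_27 (h : A.Ok) (CJ : ℝ) (hJ : |A.T * A.Y.chi A.kU ^ 2 - 1| ≤ CJ * A.W ^ 2) {m : CvtMon} {a : ℕ} (hm : CvtOk A.N0 A.Q0 A.I a m) :
    |A.Y.LM A.kI A.kS A.kU m a| ≤ (A.mod h).alg.G0 ^ A.k * ((A.k : ℝ) * (3 / 2 * ((1 * A.sv / A.c) * (A.C1 * A.C0 ^ 2 + CJ) + A.ρ / A.c)) * A.x ^ 2
      + A.tau * A.st ^ A.k) * cvtMsz A.W A.x m :=
  cvt_27 (A.mod h) CJ hJ hm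

/-- the additional hypotheses of the calibration -/
structure CvtIn.Cal (C2 τd : ℝ) : Prop where
  hN0 : 1 ≤ A.N0
  hQ0 : 3 ≤ A.Q0
  hC2 : 0 ≤ C2
  hτd : 0 ≤ τd
  /-- (24) at `P = 1` after the replacements -/
  hcal : |A.Y.S A.kS - A.Y.Gam A.kS - A.Y.b A.kS * A.Y.chi A.kU * (A.LM [(1, 2)] 1 + A.LM [(1, 2)] 2)| ≤ A.ρ * (A.W * A.x ^ 2)
  /-- scalar low expansion -/
  hΓ : |A.Y.Gam A.kS - A.Y.chi A.kU ^ 2 * A.Y.K A.kS| ≤ C2 * A.W ^ 3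
  hKS : |A.Y.K A.kS - A.T * A.Y.S A.kS| ≤ C2 * A.W ^ 3
  hS : A.c * A.W ≤ A.Y.S A.kS
  hdepth : A.st ^ A.k ≤ τd * A.x ^ 2

/-- the calibration record -/
noncomputable def CvtIn.cal (h : A.Ok) {C2 τd : ℝ} (hc : A.Cal C2 τd) : CvtCal :=
  { A.mod h with
    S := A.Y.S A.kS
    Γ := A.Y.Gam A.kS
    C2 := C2
    τd := τd
    hN0 := hc.hN0
    hQ0 := hc.hQ0
    hC2 := hc.hC2
    hτd := hc.hτd
    hcal := hc.hcal
    hΓ := hc.hΓ
    hKS := hc.hKS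
    hS := hc.hS
    hdepth := hc.hdepth }

theorem cvt_in_eqns_cite3 : True := by
  have := @CvtIn.cal.eq_1
  trivial

/-- **PE Lemma 4.10** on a `LedSys`.      TEX[PE:lem:cavity-calibration] -/
theorem cvt_in_J0 (h : A.Ok) {C2 τd : ℝ} (hc : A.Cal C2 τd) (η : ℝ) (h1 : (A.cal h hc).cal.η1 / A.c ≤ η) (h2 : (A.cal h hc).cal.η2 / A.c ≤ η) (hη : η ≤ 1 / 2) :
    |A.T * A.Y.chi A.kU ^ 2 - 1| ≤ (2 * (C2 * (1 + A.C0 ^ 2) / A.c) + 1) * A.W ^ 2 :=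
  cvt_J0 (A.cal h hc) η h1 h2 hη

/-! ### clean constants -/

namespace CvtIn

/-- growth constant of one generation -/
noncomputable def G : ℝ := max 1 (4 * (A.Cb * (1 + A.C0) / A.c * ((1 + 1) * (1 + A.C0))))

/-- accumulated constant -/
noncomputable def Ac : ℝ := A.Cb * (1 + A.C0) * A.G ^ A.k * ((1 + 1) * (1 + A.C0))

/-- the constant of the smallness condition -/
noncomputable def Kb : ℝ := A.Ac * ((A.k : ℝ) * (3 / 2) / A.c * (1 + A.C1 * A.C0 ^ 2) + A.tau) + 1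

end CvtIn

theorem cvt_in_eqns_cite4 : True := by
  have := @CvtIn.G.eq_1
  have := @CvtIn.Ac.eq_1
  have := @CvtIn.Kb.eq_1
  trivial

theorem cvt_in_C1 (h : A.Ok) : 0 ≤ A.C1 := by
  have hW := cvt_in_W A h
  have : 0 ≤ A.C1 * A.W ^ 2 := (abs_nonneg _).trans h.bT
  by_contra h'
  push Not at h'
  nlinarith [pow_pos hW 2]

theorem cvt_in_Ac (h : A.Ok) : 0 ≤ A.Ac := by
  have h2 : 0 ≤ A.Cb := (led_a_b_nonneg A.Y h.sys 0).trans (h.b_le 0)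
  have h3 : 0 ≤ A.C0 := h.chi0.trans h.chi_le
  have h4 : 0 ≤ A.G := le_trans zero_le_one (le_max_left _ _)
  unfold CvtIn.Ac
  positivity

/-- **PE Lemma 4.10, clean form**: `J₀ = O(W²)` as soon as `K_b (sv + ρ + τ_d) ≤ c/2` -/
theorem cvt_in_J0' (h : A.Ok) {C2 τd : ℝ} (hc : A.Cal C2 τd) (hs : A.Kb * (A.sv + A.ρ + τd) ≤ A.c / 2) :
    |A.T * A.Y.chi A.kU ^ 2 - 1| ≤ (2 * (C2 * (1 + A.C0 ^ 2) / A.c) + 1) * A.W ^ 2 := by
  have hc0 := h.hc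
  have hA := cvt_in_Ac A h
  have hC1 := cvt_in_C1 A h
  have hτ := cvt_in_tau A h
  have hsv := h.hsv
  have hρ := h.hρ
  have hτd := hc.hτd
  have e2 : (A.cal h hc).cal.η2 = A.Ac * A.k * (3 / 2) * (1 * A.sv / A.c) := rfl
  have e1 : (A.cal h hc).cal.η1 = A.Ac * A.k * (3 / 2) * (1 * A.sv / A.c) * (A.C1 * A.C0 ^ 2) + A.Ac * A.k * (3 / 2) * (A.ρ / A.c) + A.Ac * A.tau * τd + A.ρ := rfl
  set u : ℝ := A.Ac * ((A.k : ℝ) * (3 / 2) / A.c) with hu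
  have hu0 : 0 ≤ u := by positivity
  have hq : 0 ≤ A.C1 * A.C0 ^ 2 := by positivity
  have b2 : (A.cal h hc).cal.η2 ≤ A.Kb * (A.sv + A.ρ + τd) := by
    rw [e2]
    have x1 : A.Ac * A.k * (3 / 2) * (1 * A.sv / A.c) = u * A.sv := by rw [hu]; field_simp
    have x2 : A.Kb = u * (1 + A.C1 * A.C0 ^ 2) + A.Ac * A.tau + 1 := by unfold CvtIn.Kb; rw [hu]; ring
    rw [x1, x2]
    have : 0 ≤ u * (A.C1 * A.C0 ^ 2) * A.sv := by positivity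
    have : 0 ≤ (u * (1 + A.C1 * A.C0 ^ 2) + A.Ac * A.tau + 1) * (A.ρ + τd) := by positivity
    have : 0 ≤ (A.Ac * A.tau + 1) * A.sv := by positivity
    nlinarith
  have b1 : (A.cal h hc).cal.η1 ≤ A.Kb * (A.sv + A.ρ + τd) := by
    rw [e1]
    have x1 : A.Ac * A.k * (3 / 2) * (1 * A.sv / A.c) * (A.C1 * A.C0 ^ 2) = u * (A.C1 * A.C0 ^ 2) * A.sv := by rw [hu]; field_simp
    have x3 : A.Ac * A.k * (3 / 2) * (A.ρ / A.c) = u * A.ρ := by rw [hu]; field_simp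
    have x2 : A.Kb = u * (1 + A.C1 * A.C0 ^ 2) + A.Ac * A.tau + 1 := by unfold CvtIn.Kb; rw [hu]; ring
    rw [x1, x3, x2]
    have t1 : 0 ≤ (u + A.Ac * A.tau + 1) * A.sv := by positivity
    have t2 : 0 ≤ (u * (A.C1 * A.C0 ^ 2) + A.Ac * A.tau) * A.ρ := by positivity
    have t3 : 0 ≤ (u * (1 + A.C1 * A.C0 ^ 2) + 1) * τd := by positivity
    nlinarith
  refine cvt_in_J0 A h hc (1 / 2) ?_ ?_ le_rfl
  · rw [div_le_iff₀ hc0]; linarith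
  · rw [div_le_iff₀ hc0]; linarith

/-- **PE (27), clean form** -/
theorem cvt_in_27' (h : A.Ok) (CJ τd : ℝ) (hJ : |A.T * A.Y.chi A.kU ^ 2 - 1| ≤ CJ * A.W ^ 2) (hd : A.st ^ A.k ≤ τd * A.x ^ 2)
    {m : CvtMon} {a : ℕ} (hm : CvtOk A.N0 A.Q0 A.I a m) :
    |A.Y.LM A.kI A.kS A.kU m a| ≤ A.G ^ A.k * ((A.k : ℝ) * (3 / 2) / A.c * ((A.C1 * A.C0 ^ 2 + CJ) * A.sv + A.ρ) + A.tau * τd) * (A.x ^ 2 * cvtMsz A.W A.x m) := by
  have h1 := cvt_in_27 A h CJ hJ hm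
  have hG : (A.mod h).alg.G0 = A.G := rfl
  rw [hG] at h1
  have hG0 : 0 ≤ A.G ^ A.k := pow_nonneg (le_trans zero_le_one (le_max_left _ _)) _
  have hm0 : 0 ≤ cvtMsz A.W A.x m := cvtMsz_nonneg (cvt_in_W A h).le h.hx.le m
  have hτ := cvt_in_tau A h
  have hc0 := h.hc
  refine h1.trans ?_
  have e : A.G ^ A.k * ((A.k : ℝ) * (3 / 2) / A.c * ((A.C1 * A.C0 ^ 2 + CJ) * A.sv + A.ρ) + A.tau * τd) * (A.x ^ 2 * cvtMsz A.W A.x m)
      = A.G ^ A.k * ((A.k : ℝ) * (3 / 2 * ((1 * A.sv / A.c) * (A.C1 * A.C0 ^ 2 + CJ) + A.ρ / A.c)) * A.x ^ 2 + A.tau * (τd * A.x ^ 2)) * cvtMsz A.W A.x m := by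
    field_simp
  rw [e]
  refine mul_le_mul_of_nonneg_right (mul_le_mul_of_nonneg_left ?_ hG0) hm0
  have := mul_le_mul_of_nonneg_left hd hτ
  linarith

end Claimed.Agent.R286
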